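import Crest.Agent.R245.Defs2

-- ▼ part R245/AlgMain
section

/-! Pure algebra for row 245: the curvature inequality in the wild region. -/

set_option autoImplicit false

namespace Crest.Agent.R245

open Complex
open scoped ContDiff ComplexConjugate

/-- the opposite-sign core: `P, Q ≥ 0`, `y ≤ μ₂`, `μ₁ ≤ (1+2y) - (1+y) x`, `μ₂ Q ≤ μ₁ P`. -/
theorem alg_core (y x μ1 μ2 P Q : ℝ) (hy : 0 ≤ y) (hx : 0 ≤ x) (hx1 : x ≤ 1)
    (hμ1 : μ1 ≤ (1 + 2 * y) - (1 + y) * x) (hμ2 : y ≤ μ2) (hP : 0 ≤ P) (hQ : 0 ≤ Q)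
    (h : μ2 * Q ≤ μ1 * P) :
    y ^ 2 * x / 8 * (P + Q) ^ 2 ≤
      4 * y * (1 + y) * (P ^ 2 - P * Q + Q ^ 2) - (μ1 * P - μ2 * Q) ^ 2 + 2 * (P + Q) ^ 2 := by
  have h1 : μ1 * P - μ2 * Q ≤ ((1 + 2 * y) - (1 + y) * x) * P - y * Q := by
    have := mul_le_mul_of_nonneg_right hμ1 hP
    have := mul_le_mul_of_nonneg_right hμ2 hQ
    linarith
  have h2 : (μ1 * P - μ2 * Q) ^ 2 ≤ (((1 + 2 * y) - (1 + y) * x) * P - y * Q) ^ 2 := by
    apply pow_le_pow_left₀ (by linarith) h1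
  have hPQ : 0 ≤ P * Q := mul_nonneg hP hQ
  have e1 : 0 ≤ y * (1 + y) * x * (2 * P - Q) ^ 2 := by positivity
  have e2 : 0 ≤ (P - 2 * y * Q) ^ 2 := by positivity
  have e3 : 0 ≤ y ^ 2 * x * (P - Q) ^ 2 := by positivity
  have e4 : 0 ≤ (1 - x) * x * (1 + y) ^ 2 * P ^ 2 := by
    have : 0 ≤ 1 - x := by linarith
    positivity
  have e5 : 0 ≤ (1 - x) * (y + y ^ 2) * Q ^ 2 := by
    have : 0 ≤ 1 - x := by linarith
    positivity
  have e6 : 0 ≤ x * y * P ^ 2 := by positivity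
  have e7 : 0 ≤ y * Q ^ 2 := by positivity
  have e8 : 0 ≤ x * P ^ 2 := by positivity
  have e9 : 0 ≤ x * y ^ 2 * P ^ 2 := by positivity
  have e10 : 0 ≤ (1 - x) * y ^ 2 * Q ^ 2 := by
    have : 0 ≤ 1 - x := by linarith
    positivity
  have e11 : 0 ≤ y ^ 2 * Q ^ 2 := by positivity
  have e12 : 0 ≤ P ^ 2 := by positivity
  have e13 : 0 ≤ Q ^ 2 := by positivity
  nlinarith [e1, e2, e3, e4, e5, e6, e7, e8, e9, e10, e11, e12, e13, h2, hPQ]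

/-- same sign core -/
theorem alg_core_same (y x μ1 μ2 P Q : ℝ) (hy : 0 ≤ y) (hx : 0 ≤ x) (hx1 : x ≤ 1)
    (hμ1 : μ1 ≤ (1 + 2 * y) - (1 + y) * x) (hμ2 : μ2 ≤ (1 + 2 * y) - (1 + y) * x)
    (hμ1' : y ≤ μ1) (hμ2' : y ≤ μ2) (hPQ : 0 ≤ P * Q) :
    y ^ 2 * x / 8 * (P + Q) ^ 2 ≤
      4 * y * (1 + y) * (P + Q) ^ 2 - (μ1 * P + μ2 * Q) ^ 2 + 2 * (P + Q) ^ 2 := by
  set μ := (1 + 2 * y) - (1 + y) * x with hμ
  have hμ0 : 0 ≤ μ := by nlinarith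
  have h1 : (μ1 * P + μ2 * Q) ^ 2 ≤ μ ^ 2 * (P + Q) ^ 2 := by
    have a1 : μ1 ^ 2 ≤ μ ^ 2 := pow_le_pow_left₀ (by linarith) hμ1 2
    have a2 : μ2 ^ 2 ≤ μ ^ 2 := pow_le_pow_left₀ (by linarith) hμ2 2
    have a3 : μ1 * μ2 ≤ μ ^ 2 := by nlinarith
    nlinarith [mul_nonneg (sub_nonneg.2 a1) (sq_nonneg P), mul_nonneg (sub_nonneg.2 a2) (sq_nonneg Q),
      mul_nonneg (sub_nonneg.2 a3) hPQ]
  have h2 : y ^ 2 * x / 8 ≤ 4 * y * (1 + y) - μ ^ 2 + 2 := by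
    have e1 : 0 ≤ (1 - x) * x * (1 + y) ^ 2 := by
      have : 0 ≤ 1 - x := by linarith
      positivity
    have e2 : 0 ≤ x * y := by positivity
    have e3 : 0 ≤ x * y ^ 2 := by positivity
    rw [hμ]
    nlinarith [e1, e2, e3]
  nlinarith [mul_le_mul_of_nonneg_right h2 (sq_nonneg (P + Q)), h1]

set_option maxHeartbeats 1000000 in
/-- real version of `alg_main` -/
theorem alg_real (Λ y t1 t2 tm w1 w2 E : ℝ) (hΛ : 0 < Λ) (hy : 0 ≤ y) (htm : 0 < tm)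
    (h1 : tm ≤ t1) (h2 : tm ≤ t2) (h1' : 4 * t1 ^ 2 ≤ Λ) (h2' : 4 * t2 ^ 2 ≤ Λ)
    (hE1 : 2 * (w1 * w2) ≤ E) (hE2 : -(2 * (w1 * w2)) ≤ E) :
    (Λ / 2 + (y * tm) ^ 3 / (8 * (Λ + y * tm))) * (w1 ^ 2 + w2 ^ 2 + E)
      ≤ Λ * (w1 ^ 2 + w2 ^ 2 + E + 3 * (w1 + w2) ^ 2)
        + y * (1 + y) * (t1 ^ 2 * w1 ^ 2 + t2 ^ 2 * w2 ^ 2 + t1 * t2 * E
          + 3 * (t1 * w1 + t2 * w2) ^ 2)
        - (((1 + 2 * y) * t1 - y * (1 + y) * t1 ^ 2 / (Λ + y * t1)) * w1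
          + ((1 + 2 * y) * t2 - y * (1 + y) * t2 ^ 2 / (Λ + y * t2)) * w2) ^ 2 := by
  have ht1 : 0 < t1 := by linarith
  have ht2 : 0 < t2 := by linarith
  have hd : 0 < Λ + y * tm := by positivity
  have hd1 : 0 < Λ + y * t1 := by positivity
  have hd2 : 0 < Λ + y * t2 := by positivity
  set x := y * tm / (Λ + y * tm) with hx
  have hx0 : 0 ≤ x := by positivity
  have hx1 : x ≤ 1 := by rw [hx, div_le_one hd]; linarith
  have key : ∀ t : ℝ, tm ≤ t → x ≤ y * t / (Λ + y * t) ∧ y * t / (Λ + y * t) ≤ 1 := by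
    intro t ht
    have ht0 : 0 < t := by linarith
    have hdt : 0 < Λ + y * t := by positivity
    constructor
    · rw [hx, div_le_div_iff₀ hd hdt]
      nlinarith [mul_nonneg hy (sub_nonneg.2 ht)]
    · rw [div_le_one hdt]; linarith
  have hg : (y * tm) ^ 3 / (8 * (Λ + y * tm)) = y ^ 2 * x / 8 * tm ^ 2 := by
    rw [hx]; field_simp
  set μ1 := (1 + 2 * y) - (1 + y) * (y * t1 / (Λ + y * t1)) with hμ1
  set μ2 := (1 + 2 * y) - (1 + y) * (y * t2 / (Λ + y * t2)) with hμ2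
  have m1 : (1 + 2 * y) * t1 - y * (1 + y) * t1 ^ 2 / (Λ + y * t1) = μ1 * t1 := by
    rw [hμ1]; field_simp
  have m2 : (1 + 2 * y) * t2 - y * (1 + y) * t2 ^ 2 / (Λ + y * t2) = μ2 * t2 := by
    rw [hμ2]; field_simp
  have u1 : μ1 ≤ (1 + 2 * y) - (1 + y) * x := by
    have := mul_le_mul_of_nonneg_left (key t1 h1).1 (show (0:ℝ) ≤ 1 + y by linarith)
    linarith
  have u2 : μ2 ≤ (1 + 2 * y) - (1 + y) * x := by
    have := mul_le_mul_of_nonneg_left (key t2 h2).1 (show (0:ℝ) ≤ 1 + y by linarith)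
    linarith
  have l1 : y ≤ μ1 := by
    have := mul_le_mul_of_nonneg_left (key t1 h1).2 (show (0:ℝ) ≤ 1 + y by linarith)
    linarith
  have l2 : y ≤ μ2 := by
    have := mul_le_mul_of_nonneg_left (key t2 h2).2 (show (0:ℝ) ≤ 1 + y by linarith)
    linarith
  rw [hg, m1, m2]
  set g := y ^ 2 * x / 8 * tm ^ 2 with hgdef
  have hg0 : 0 ≤ g := by positivity
  have hgle : g ≤ y * (1 + y) * (t1 * t2) := by
    have e1 : tm ^ 2 ≤ t1 * t2 := by nlinarith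
    have e2 : y ^ 2 * x / 8 ≤ y * (1 + y) := by nlinarith [mul_nonneg hy hy, mul_nonneg (mul_nonneg hy hy) hx0, mul_nonneg (mul_nonneg hy hy) (sub_nonneg.2 hx1)]
    have e3 : 0 ≤ y * (1 + y) := by positivity
    calc g ≤ y * (1 + y) * tm ^ 2 := mul_le_mul_of_nonneg_right e2 (sq_nonneg _)
      _ ≤ y * (1 + y) * (t1 * t2) := mul_le_mul_of_nonneg_left e1 e3
  -- relation between (P+Q)^2 and (w1+w2)^2 for nonneg weights
  have bnd : ∀ p q : ℝ, 0 ≤ p * q → 4 * (t1 * p + t2 * q) ^ 2 ≤ Λ * (p + q) ^ 2 ∧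
      tm ^ 2 * (p + q) ^ 2 ≤ (t1 * p + t2 * q) ^ 2 := by
    intro p q hpq
    constructor
    · have e1 : 4 * (t1 * t2) ≤ Λ := by linarith [sq_nonneg (t1 - t2)]
      linarith [mul_nonneg (sub_nonneg.2 h1') (sq_nonneg p), mul_nonneg (sub_nonneg.2 h2') (sq_nonneg q),
        mul_nonneg (sub_nonneg.2 e1) hpq]
    · have e1 : tm ^ 2 ≤ t1 ^ 2 := pow_le_pow_left₀ htm.le h1 2
      have e2 : tm ^ 2 ≤ t2 ^ 2 := pow_le_pow_left₀ htm.le h2 2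
      have e3 : tm ^ 2 ≤ t1 * t2 := by nlinarith
      linarith [mul_nonneg (sub_nonneg.2 e1) (sq_nonneg p), mul_nonneg (sub_nonneg.2 e2) (sq_nonneg q),
        mul_nonneg (sub_nonneg.2 e3) hpq]
  rcases le_total 0 (w1 * w2) with hs | hs
  · -- same sign
    have hE : 0 ≤ (Λ / 2 - g + y * (1 + y) * (t1 * t2)) * (E - 2 * (w1 * w2)) :=
      mul_nonneg (by linarith) (by linarith)
    obtain ⟨b1, b2⟩ := bnd w1 w2 hs
    have hPQ : 0 ≤ (t1 * w1) * (t2 * w2) := by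
      have : (t1 * w1) * (t2 * w2) = (t1 * t2) * (w1 * w2) := by ring
      rw [this]; positivity
    have hc := alg_core_same y x μ1 μ2 (t1 * w1) (t2 * w2) hy hx0 hx1 u1 u2 l1 l2 hPQ
    have hgs : g * (w1 + w2) ^ 2 ≤ y ^ 2 * x / 8 * (t1 * w1 + t2 * w2) ^ 2 := by
      rw [hgdef, mul_assoc]
      exact mul_le_mul_of_nonneg_left b2 (by positivity)
    have hΛs : 0 ≤ Λ * (w1 + w2) ^ 2 := by positivity
    linarith [hE, hc, hgs, b1, hΛs]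
  · -- opposite sign
    have hE : 0 ≤ (Λ / 2 - g + y * (1 + y) * (t1 * t2)) * (E + 2 * (w1 * w2)) :=
      mul_nonneg (by linarith) (by linarith)
    -- reduce to P, Q ≥ 0
    have main : ∀ p q : ℝ, 0 ≤ p → 0 ≤ q →
        y ^ 2 * x / 8 * (t1 * p + t2 * q) ^ 2 ≤
          4 * y * (1 + y) * ((t1 * p) ^ 2 - (t1 * p) * (t2 * q) + (t2 * q) ^ 2)
            - (μ1 * t1 * p - μ2 * t2 * q) ^ 2 + 2 * (t1 * p + t2 * q) ^ 2 := by
      intro p q hp hq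
      rcases le_total (μ2 * (t2 * q)) (μ1 * (t1 * p)) with h | h
      · have := alg_core y x μ1 μ2 (t1 * p) (t2 * q) hy hx0 hx1 u1 l2 (by positivity)
          (by positivity) h
        linarith [this]
      · have := alg_core y x μ2 μ1 (t2 * q) (t1 * p) hy hx0 hx1 u2 l1 (by positivity)
          (by positivity) h
        linarith [this]
    have fin : ∀ p q : ℝ, 0 ≤ p → 0 ≤ q →
        (Λ / 2 + g) * (p + q) ^ 2 ≤ Λ * (p + q) ^ 2 +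
          4 * y * (1 + y) * ((t1 * p) ^ 2 - (t1 * p) * (t2 * q) + (t2 * q) ^ 2)
            - (μ1 * t1 * p - μ2 * t2 * q) ^ 2 := by
      intro p q hp hq
      obtain ⟨b1, b2⟩ := bnd p q (mul_nonneg hp hq)
      have hc := main p q hp hq
      have hgs : g * (p + q) ^ 2 ≤ y ^ 2 * x / 8 * (t1 * p + t2 * q) ^ 2 := by
        rw [hgdef, mul_assoc]
        exact mul_le_mul_of_nonneg_left b2 (by positivity)
      linarith [hc, hgs, b1]
    have hΛs : 0 ≤ Λ * (w1 + w2) ^ 2 := by positivity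
    rcases le_total 0 w1 with hw1 | hw1
    · rcases le_total 0 w2 with hw2 | hw2
      · -- w1 w2 = 0
        have hz : w1 * w2 = 0 := le_antisymm hs (mul_nonneg hw1 hw2)
        rcases mul_eq_zero.1 hz with h0 | h0
        · have := fin 0 w2 le_rfl hw2
          subst h0
          linarith [hE, this, hΛs]
        · have := fin w1 0 hw1 le_rfl
          subst h0
          linarith [hE, this, hΛs]
      · have := fin w1 (-w2) hw1 (by linarith)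
        linarith [hE, this, hΛs]
    · rcases le_total 0 w2 with hw2 | hw2
      · have := fin (-w1) w2 (by linarith) hw2
        linarith [hE, this, hΛs]
      · have hz : w1 * w2 = 0 := le_antisymm hs (mul_nonneg_of_nonpos_of_nonpos hw1 hw2)
        rcases mul_eq_zero.1 hz with h0 | h0
        · have := fin 0 (-w2) le_rfl (by linarith)
          subst h0
          linarith [hE, this, hΛs]
        · have := fin (-w1) 0 (by linarith) le_rfl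
          subst h0
          linarith [hE, this, hΛs]

theorem normSq_cross (ξ1 ξ2 η1 η2 : ℂ) :
    2 * ((ξ1 * conj η1).im * (ξ2 * conj η2).im) ≤
      ‖ξ1‖ ^ 2 * ‖η2‖ ^ 2 + ‖ξ2‖ ^ 2 * ‖η1‖ ^ 2 - 2 * ((ξ1 * conj η1).re * (ξ2 * conj η2).re) ∧
    -(2 * ((ξ1 * conj η1).im * (ξ2 * conj η2).im)) ≤
      ‖ξ1‖ ^ 2 * ‖η2‖ ^ 2 + ‖ξ2‖ ^ 2 * ‖η1‖ ^ 2 - 2 * ((ξ1 * conj η1).re * (ξ2 * conj η2).re) ∧
    ‖ξ1‖ ^ 2 * ‖η1‖ ^ 2 = (ξ1 * conj η1).re ^ 2 + (ξ1 * conj η1).im ^ 2 := by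
  obtain ⟨a, b⟩ := ξ1
  obtain ⟨c, d⟩ := ξ2
  obtain ⟨e, f⟩ := η1
  obtain ⟨g, h⟩ := η2
  simp only [← Complex.normSq_eq_norm_sq, Complex.normSq_mk, Complex.mul_re, Complex.mul_im,
    Complex.conj_re, Complex.conj_im]
  refine ⟨?_, ?_, ?_⟩
  · nlinarith [sq_nonneg (a * g - b * h - (c * e - d * f)), sq_nonneg (a * h + b * g - (c * f + d * e))]
  · nlinarith [sq_nonneg (a * g + b * h - (c * e + d * f)), sq_nonneg (b * g - a * h + (d * e - c * f))]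
  · ring

set_option maxHeartbeats 1000000 in
/-- Pure algebra. `m_i = (1+2y) t_i - y(1+y) t_i²/(Λ + y t_i)`. -/
theorem alg_main (Λ y t1 t2 tm : ℝ) (hΛ : 0 < Λ) (hy : 0 ≤ y) (htm : 0 < tm)
    (h1 : tm ≤ t1) (h2 : tm ≤ t2) (h1' : 4 * t1 ^ 2 ≤ Λ) (h2' : 4 * t2 ^ 2 ≤ Λ)
    (ξ1 ξ2 η1 η2 : ℂ) :
    (Λ / 2 + (y * tm) ^ 3 / (8 * (Λ + y * tm))) *
        ((‖ξ1‖ ^ 2 + ‖ξ2‖ ^ 2) * (‖η1‖ ^ 2 + ‖η2‖ ^ 2)
          - ((ξ1 * conj η1).re + (ξ2 * conj η2).re) ^ 2)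
      ≤ Λ * ((‖ξ1‖ ^ 2 + ‖ξ2‖ ^ 2) * (‖η1‖ ^ 2 + ‖η2‖ ^ 2)
          - ((ξ1 * conj η1).re + (ξ2 * conj η2).re) ^ 2
          + 3 * ((ξ1 * conj η1).im + (ξ2 * conj η2).im) ^ 2)
        + y * (1 + y) * ((t1 * ‖ξ1‖ ^ 2 + t2 * ‖ξ2‖ ^ 2) * (t1 * ‖η1‖ ^ 2 + t2 * ‖η2‖ ^ 2)
          - (t1 * (ξ1 * conj η1).re + t2 * (ξ2 * conj η2).re) ^ 2
          + 3 * (t1 * (ξ1 * conj η1).im + t2 * (ξ2 * conj η2).im) ^ 2)
        - (((1 + 2 * y) * t1 - y * (1 + y) * t1 ^ 2 / (Λ + y * t1)) * (ξ1 * conj η1).im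
          + ((1 + 2 * y) * t2 - y * (1 + y) * t2 ^ 2 / (Λ + y * t2)) * (ξ2 * conj η2).im) ^ 2 := by
  obtain ⟨c1, c2, c3⟩ := normSq_cross ξ1 ξ2 η1 η2
  obtain ⟨-, -, c4⟩ := normSq_cross ξ2 ξ1 η2 η1
  have := alg_real Λ y t1 t2 tm (ξ1 * conj η1).im (ξ2 * conj η2).im
    (‖ξ1‖ ^ 2 * ‖η2‖ ^ 2 + ‖ξ2‖ ^ 2 * ‖η1‖ ^ 2 - 2 * ((ξ1 * conj η1).re * (ξ2 * conj η2).re))
    hΛ hy htm h1 h2 h1' h2' c1 c2
  have a1 : (‖ξ1‖ ^ 2 + ‖ξ2‖ ^ 2) * (‖η1‖ ^ 2 + ‖η2‖ ^ 2)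
          - ((ξ1 * conj η1).re + (ξ2 * conj η2).re) ^ 2 =
      (ξ1 * conj η1).im ^ 2 + (ξ2 * conj η2).im ^ 2 +
        (‖ξ1‖ ^ 2 * ‖η2‖ ^ 2 + ‖ξ2‖ ^ 2 * ‖η1‖ ^ 2
          - 2 * ((ξ1 * conj η1).re * (ξ2 * conj η2).re)) := by
    linear_combination c3 + c4
  have a2 : (t1 * ‖ξ1‖ ^ 2 + t2 * ‖ξ2‖ ^ 2) * (t1 * ‖η1‖ ^ 2 + t2 * ‖η2‖ ^ 2)
          - (t1 * (ξ1 * conj η1).re + t2 * (ξ2 * conj η2).re) ^ 2 =
      t1 ^ 2 * (ξ1 * conj η1).im ^ 2 + t2 ^ 2 * (ξ2 * conj η2).im ^ 2 +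
        t1 * t2 * (‖ξ1‖ ^ 2 * ‖η2‖ ^ 2 + ‖ξ2‖ ^ 2 * ‖η1‖ ^ 2
          - 2 * ((ξ1 * conj η1).re * (ξ2 * conj η2).re)) := by
    linear_combination t1 ^ 2 * c3 + t2 ^ 2 * c4
  rw [a1, a2]
  exact this

end Crest.Agent.R245
end

-- ▼ part R245/AlgDiag

/-! Simultaneous diagonalisation of the complex hyperbolic form at `q0` and a Hermitian form. -/

set_option autoImplicit false

namespace Crest.Agent.R245

open Complex
open scoped ComplexConjugate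

/-- the form of the complex hyperbolic plane at the base point -/
noncomputable def om0 (v w : ℂ × ℂ) : ℂ := v.1 * conj w.1 + (1/4) * (v.2 * conj w.2)

theorem exists_diag (S : ℂ × ℂ → ℂ × ℂ → ℂ)
    (hadd : ∀ x x' y, S (x + x') y = S x y + S x' y)
    (hsmul : ∀ (c : ℂ) x y, S (c • x) y = c * S x y)
    (hconj : ∀ x y, conj (S x y) = S y x) :
    ∃ (f1 f2 : ℂ × ℂ) (t1 t2 : ℝ),
      om0 f1 f1 = 1 ∧ om0 f2 f2 = 1 ∧ om0 f1 f2 = 0 ∧ om0 f2 f1 = 0 ∧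
      S f1 f1 = t1 ∧ S f2 f2 = t2 ∧ S f1 f2 = 0 ∧ S f2 f1 = 0 ∧
      ∀ ξ : ℂ × ℂ, ∃ c1 c2 : ℂ, ξ = c1 • f1 + c2 • f2 := by
  classical
  have hadd' : ∀ x y y', S x (y + y') = S x y + S x y' := by
    intro x y y'
    rw [← hconj (y + y') x, hadd, map_add, hconj, hconj]
  have hsmul' : ∀ (c : ℂ) x y, S x (c • y) = conj c * S x y := by
    intro c x y
    rw [← hconj (c • y) x, hsmul, map_mul, hconj]
  let e : Fin 2 → ℂ × ℂ := ![(1, 0), (0, 2)]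
  let A : Matrix (Fin 2) (Fin 2) ℂ := Matrix.of fun l k => S (e k) (e l)
  have hA : A.IsHermitian := by
    ext l k
    simp only [A, Matrix.conjTranspose_apply, Matrix.of_apply]
    exact hconj _ _
  let b := hA.eigenvectorBasis
  let t := hA.eigenvalues
  -- the vectors
  let f : Fin 2 → ℂ × ℂ := fun i => ((b i).ofLp 0) • e 0 + ((b i).ofLp 1) • e 1
  have hf1 : ∀ i, (f i).1 = (b i).ofLp 0 := by intro i; simp [f, e]
  have hf2 : ∀ i, (f i).2 = 2 * (b i).ofLp 1 := by intro i; simp [f, e]; ring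
  have horth : ∀ i j, (b i).ofLp 0 * conj ((b j).ofLp 0) + (b i).ofLp 1 * conj ((b j).ofLp 1)
      = if i = j then 1 else 0 := by
    intro i j
    have h := orthonormal_iff_ite.1 b.orthonormal j i
    rw [PiLp.inner_apply] at h
    simp only [Fin.sum_univ_two, RCLike.inner_apply] at h
    rw [show (if i = j then (1:ℂ) else 0) = if j = i then 1 else 0 by simp [eq_comm]]
    rw [← h]
  have hom : ∀ i j, om0 (f i) (f j) = if i = j then 1 else 0 := by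
    intro i j
    rw [← horth i j, om0, hf1, hf1, hf2, hf2]
    simp only [map_mul, Complex.conj_ofNat]
    ring
  have heig : ∀ i l, S (f i) (e l) = (t i : ℂ) * (b i).ofLp l := by
    intro i l
    have h := congrFun (hA.mulVec_eigenvectorBasis i) l
    simp only [Matrix.mulVec, dotProduct, Fin.sum_univ_two, A, Matrix.of_apply, Pi.smul_apply] at h
    have h2 : S (f i) (e l) = (b i).ofLp 0 * S (e 0) (e l) + (b i).ofLp 1 * S (e 1) (e l) := by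
      show S (((b i).ofLp 0) • e 0 + ((b i).ofLp 1) • e 1) (e l) = _
      rw [hadd, hsmul, hsmul]
    rw [h2, mul_comm ((b i).ofLp 0), mul_comm ((b i).ofLp 1)]
    rw [show ((t i : ℝ) : ℂ) * (b i).ofLp l = (t i) • (b i).ofLp l by
      rw [Complex.real_smul]]
    exact h
  have hS : ∀ i j, S (f i) (f j) = if i = j then ((t i : ℝ) : ℂ) else 0 := by
    intro i j
    have h2 : S (f i) (f j) = conj ((b j).ofLp 0) * S (f i) (e 0)
        + conj ((b j).ofLp 1) * S (f i) (e 1) := by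
      show S (f i) (((b j).ofLp 0) • e 0 + ((b j).ofLp 1) • e 1) = _
      rw [hadd', hsmul', hsmul']
    rw [h2, heig, heig]
    have := horth i j
    split_ifs at this ⊢ with hij
    · linear_combination (t i : ℂ) * this
    · linear_combination (t i : ℂ) * this
  refine ⟨f 0, f 1, t 0, t 1, ?_, ?_, ?_, ?_, ?_, ?_, ?_, ?_, ?_⟩
  · simpa using hom 0 0
  · simpa using hom 1 1
  · simpa using hom 0 1
  · simpa using hom 1 0
  · simpa using hS 0 0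
  · simpa using hS 1 1
  · simpa using hS 0 1
  · simpa using hS 1 0
  · intro ξ
    let x : EuclideanSpace ℂ (Fin 2) := WithLp.toLp 2 ![ξ.1, ξ.2 / 2]
    have hx := b.sum_repr x
    rw [Fin.sum_univ_two] at hx
    refine ⟨b.repr x 0, b.repr x 1, ?_⟩
    have h0 := congrArg (fun v : EuclideanSpace ℂ (Fin 2) => v.ofLp 0) hx
    have h1 := congrArg (fun v : EuclideanSpace ℂ (Fin 2) => v.ofLp 1) hx
    simp only [x, PiLp.add_apply, PiLp.smul_apply, smul_eq_mul, Matrix.cons_val_zero,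
      Matrix.cons_val_one] at h0 h1
    refine Prod.ext ?_ ?_
    · rw [Prod.fst_add, Prod.smul_fst, Prod.smul_fst, hf1, hf1, smul_eq_mul, smul_eq_mul, h0]
    · rw [Prod.snd_add, Prod.smul_snd, Prod.smul_snd, hf2, hf2, smul_eq_mul, smul_eq_mul]
      linear_combination -2 * h1

end Crest.Agent.R245
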