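import Crest.Agent.R245.BasePertA

-- ▼ part R245/Shear2
section

/-! Invariance of the curvature numerator under real shears `(X, Y) ↦ (X, Y + t X)`. -/

set_option autoImplicit false

namespace Crest.Agent.R245.BP

open Complex Filter Topology
open Crest.Agent.R245
open scoped ContDiff ComplexConjugate

section Shear

variable {V : Type*} [NormedAddCommGroup V] [NormedSpace ℝ V] [NormedSpace ℂ V] [IsScalarTower ℝ ℂ V]
variable {P : V → ℝ} {p : V}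

theorem D21_add_2 (hP : ContDiffAt ℝ ∞ P p) (X Y Y' Z : V) :
    D21 P X (Y + Y') Z p = D21 P X Y Z p + D21 P X Y' Z p := by
  rw [D21_symm hP, D21_add_1 hP, D21_symm hP X Y, D21_symm hP X Y']

theorem D21_smul_2 (hP : ContDiffAt ℝ ∞ P p) (c : ℂ) (X Y Z : V) :
    D21 P X (c • Y) Z p = c * D21 P X Y Z p := by
  rw [D21_symm hP, D21_smul_1 hP, D21_symm hP X Y]

theorem D22_add_2 (hP : ContDiffAt ℝ ∞ P p) (X Y Y' Z W : V) :
    D22 P X (Y + Y') Z W p = D22 P X Y Z W p + D22 P X Y' Z W p := by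
  rw [D22_symm12 hP, D22_add_1 hP, D22_symm12 hP X Y, D22_symm12 hP X Y']

theorem D22_smul_2 (hP : ContDiffAt ℝ ∞ P p) (c : ℂ) (X Y Z W : V) :
    D22 P X (c • Y) Z W p = c * D22 P X Y Z W p := by
  rw [D22_symm12 hP, D22_smul_1 hP, D22_symm12 hP X Y]

theorem D22_add_3 (hP : ContDiffAt ℝ ∞ P p) (X Y Z Z' W : V) :
    D22 P X Y (Z + Z') W p = D22 P X Y Z W p + D22 P X Y Z' W p := by
  rw [← D22_conj hP, D22_add_1 hP, map_add, D22_conj hP, D22_conj hP]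

theorem D22_smul_3 (hP : ContDiffAt ℝ ∞ P p) (c : ℂ) (X Y Z W : V) :
    D22 P X Y (c • Z) W p = conj c * D22 P X Y Z W p := by
  rw [← D22_conj hP, D22_smul_1 hP, map_mul, D22_conj hP]

theorem D22_add_4 (hP : ContDiffAt ℝ ∞ P p) (X Y Z W W' : V) :
    D22 P X Y Z (W + W') p = D22 P X Y Z W p + D22 P X Y Z W' p := by
  rw [D22_symm34 hP, D22_add_3 hP, D22_symm34 hP X Y W, D22_symm34 hP X Y W']

theorem D22_smul_4 (hP : ContDiffAt ℝ ∞ P p) (c : ℂ) (X Y Z W : V) :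
    D22 P X Y Z (c • W) p = conj c * D22 P X Y Z W p := by
  rw [D22_symm34 hP, D22_smul_3 hP, D22_symm34 hP X Y W]

theorem D11_re_symm (hP : ContDiffAt ℝ ∞ P p) (X Y : V) :
    (D11 P X Y p).re = (D11 P Y X p).re := by
  rw [← D11_conj hP X Y, Complex.conj_re]

theorem D11_im_symm (hP : ContDiffAt ℝ ∞ P p) (X Y : V) :
    (D11 P X Y p).im = - (D11 P Y X p).im := by
  rw [← D11_conj hP X Y, Complex.conj_im, neg_neg]

theorem D11_self_im (hP : ContDiffAt ℝ ∞ P p) (X : V) : (D11 P X X p).im = 0 := by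
  have := D11_im_symm hP X X
  linarith

theorem negK_shear (hP : ContDiffAt ℝ ∞ P p) (t : ℝ) (X Y A B C : V) :
    negK P p X (Y + (t : ℂ) • X) A (B + (t : ℂ) • A)
      (C + ((2 * t : ℝ) : ℂ) • B + ((t ^ 2 : ℝ) : ℂ) • A) = negK P p X Y A B C := by
  have h1 : (D22 P X Y X X p).re = (D22 P X X X Y p).re := by
    rw [← D22_conj hP X X X Y, Complex.conj_re]
  have h2 : (D11 P B A p).re = (D11 P A B p).re := D11_re_symm hP B A
  have e1 : D22 P X (Y + (t : ℂ) • X) X (Y + (t : ℂ) • X) p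
      = D22 P X Y X Y p + t * D22 P X Y X X p + t * D22 P X X X Y p
        + t * t * D22 P X X X X p := by
    rw [D22_add_2 hP, D22_add_4 hP, D22_add_4 hP, D22_smul_2 hP, D22_smul_2 hP, D22_smul_4 hP,
      D22_smul_4 hP, Complex.conj_ofReal]
    ring
  have e2 : D22 P X X (Y + (t : ℂ) • X) (Y + (t : ℂ) • X) p
      = D22 P X X Y Y p + 2 * t * D22 P X X X Y p + t * t * D22 P X X X X p := by
    rw [D22_add_3 hP, D22_add_4 hP, D22_add_4 hP, D22_smul_3 hP, D22_smul_3 hP, D22_smul_4 hP,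
      D22_smul_4 hP, Complex.conj_ofReal, D22_symm34 hP X X Y X]
    ring
  have e3 : D11 P (B + (t : ℂ) • A) (B + (t : ℂ) • A) p
      = D11 P B B p + t * D11 P B A p + t * D11 P A B p + t * t * D11 P A A p := by
    rw [D11_add_left hP, D11_add_right hP, D11_add_right hP, D11_smul_left hP, D11_smul_left hP,
      D11_smul_right hP, D11_smul_right hP, Complex.conj_ofReal]
    ring
  have e4 : D11 P A (C + ((2 * t : ℝ) : ℂ) • B + ((t ^ 2 : ℝ) : ℂ) • A) p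
      = D11 P A C p + 2 * t * D11 P A B p + t * t * D11 P A A p := by
    rw [D11_add_right hP, D11_add_right hP, D11_smul_right hP, D11_smul_right hP,
      Complex.conj_ofReal, Complex.conj_ofReal]
    push_cast
    ring
  unfold negK
  rw [e1, e2, e3, e4]
  have r : ∀ z : ℂ, ((t : ℂ) * z).re = t * z.re := fun z => by simp
  have r2 : ∀ z : ℂ, (2 * (t : ℂ) * z).re = 2 * t * z.re := fun z => by
    rw [show (2 * (t : ℂ) * z) = ((2 * t : ℝ) : ℂ) * z by push_cast; ring, Complex.re_ofReal_mul]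
  have r3 : ∀ z : ℂ, ((t : ℂ) * (t : ℂ) * z).re = t * t * z.re := fun z => by
    rw [show ((t : ℂ) * (t : ℂ) * z) = ((t * t : ℝ) : ℂ) * z by push_cast; ring,
      Complex.re_ofReal_mul]
  simp only [Complex.add_re, Complex.sub_re, r, r2, r3]
  rw [h1, h2]
  ring

theorem D11_shear_re (hP : ContDiffAt ℝ ∞ P p) (t : ℝ) (X Y : V) :
    (D11 P X (Y + (t : ℂ) • X) p).re = (D11 P X Y p).re + t * (D11 P X X p).re := by
  rw [D11_add_right hP, D11_smul_right hP, Complex.conj_ofReal, Complex.add_re,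
    Complex.re_ofReal_mul]

theorem D11_shear_im (hP : ContDiffAt ℝ ∞ P p) (t : ℝ) (X Y : V) :
    (D11 P X (Y + (t : ℂ) • X) p).im = (D11 P X Y p).im := by
  rw [D11_add_right hP, D11_smul_right hP, Complex.conj_ofReal, Complex.add_im,
    Complex.im_ofReal_mul, D11_self_im hP]
  ring

theorem D11_shear_self (hP : ContDiffAt ℝ ∞ P p) (t : ℝ) (X Y : V) :
    (D11 P (Y + (t : ℂ) • X) (Y + (t : ℂ) • X) p).re
      = (D11 P Y Y p).re + 2 * t * (D11 P X Y p).re + t ^ 2 * (D11 P X X p).re := by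
  rw [D11_add_left hP, D11_add_right hP, D11_add_right hP, D11_smul_left hP, D11_smul_left hP,
      D11_smul_right hP, D11_smul_right hP, Complex.conj_ofReal]
  simp only [Complex.add_re, Complex.re_ofReal_mul]
  rw [D11_re_symm hP Y X]
  ring

theorem area_shear (hP : ContDiffAt ℝ ∞ P p) (t : ℝ) (X Y : V) :
    area P p X (Y + (t : ℂ) • X) = area P p X Y := by
  unfold area
  rw [D11_shear_re hP, D11_shear_self hP]
  ring

theorem IsGam_shear12 (hP : ContDiffAt ℝ ∞ P p) (t : ℝ) {X Y A B : V}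
    (hA : IsGam P p X X A) (hB : IsGam P p X Y B) :
    IsGam P p X (Y + (t : ℂ) • X) (B + (t : ℂ) • A) := by
  intro Z
  rw [D11_add_left hP, D11_smul_left hP, D21_add_2 hP, D21_smul_2 hP, hA Z, hB Z]

theorem IsGam_shear22 (hP : ContDiffAt ℝ ∞ P p) (t : ℝ) {X Y A B C : V}
    (hA : IsGam P p X X A) (hB : IsGam P p X Y B) (hC : IsGam P p Y Y C) :
    IsGam P p (Y + (t : ℂ) • X) (Y + (t : ℂ) • X)
      (C + ((2 * t : ℝ) : ℂ) • B + ((t ^ 2 : ℝ) : ℂ) • A) := by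
  intro Z
  rw [D11_add_left hP, D11_add_left hP, D11_smul_left hP, D11_smul_left hP, D21_add_2 hP,
    D21_smul_2 hP, D21_add_1 hP, D21_add_1 hP, D21_smul_1 hP, D21_smul_1 hP, hA Z, hB Z, hC Z,
    D21_symm hP Y X Z]
  push_cast
  ring

end Shear

theorem calK_shear {S : B2 → ℝ} {p : B2} (hP : ContDiffAt ℝ ∞ S p) (t : ℝ) (X Y : B2) :
    calK S p X (Y + (t : ℂ) • X) = calK S p X Y := by
  unfold calK
  rw [D11_shear_re hP, D11_shear_self hP, D11_shear_im hP]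
  ring

end Crest.Agent.R245.BP
end

-- ▼ part R245/BasePertB
section

/-! TASK BasePertB: curvature of a perturbation of `lam * aS` at `q0`. -/

set_option autoImplicit false

namespace Crest.Agent.R245

namespace BP

open Complex Filter Topology
open scoped ContDiff ComplexConjugate

theorem aS_D11_self_re (ξ : B2) :
    (D11 aS ξ ξ q0).re = ‖ξ.1‖ ^ 2 + (1/4) * ‖ξ.2‖ ^ 2 := by
  rw [aS_D11_q0, Complex.mul_conj, Complex.mul_conj, Complex.normSq_eq_norm_sq,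
    Complex.normSq_eq_norm_sq]
  rw [show ((1 / 4 : ℂ) * ((‖ξ.2‖ ^ 2 : ℝ) : ℂ)) = (((1/4) * ‖ξ.2‖ ^ 2 : ℝ) : ℂ) by push_cast; ring]
  rw [← Complex.ofReal_add, Complex.ofReal_re]

theorem norm_sq_le_aS (ξ : B2) : ‖ξ‖ ^ 2 ≤ 4 * (D11 aS ξ ξ q0).re := by
  rw [aS_D11_self_re]
  rcases le_total ‖ξ.1‖ ‖ξ.2‖ with h | h
  · rw [Prod.norm_def, max_eq_right h]
    nlinarith [sq_nonneg ‖ξ.1‖, sq_nonneg ‖ξ.2‖]
  · rw [Prod.norm_def, max_eq_left h]
    nlinarith [sq_nonneg ‖ξ.1‖, sq_nonneg ‖ξ.2‖]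

theorem norm_gam0_le (ξ η : B2) : ‖gam0 ξ η‖ ≤ ‖ξ‖ * ‖η‖ := by
  have h1 : ‖ξ.1‖ ≤ ‖ξ‖ := norm_fst_le ξ
  have h2 : ‖ξ.2‖ ≤ ‖ξ‖ := norm_snd_le ξ
  have h3 : ‖η.1‖ ≤ ‖η‖ := norm_fst_le η
  have h4 : ‖η.2‖ ≤ ‖η‖ := norm_snd_le η
  have p1 : ‖ξ.1‖ * ‖η.2‖ ≤ ‖ξ‖ * ‖η‖ := mul_le_mul h1 h4 (norm_nonneg _) (norm_nonneg _)
  have p2 : ‖η.1‖ * ‖ξ.2‖ ≤ ‖ξ‖ * ‖η‖ := by
    rw [mul_comm ‖ξ‖]; exact mul_le_mul h3 h2 (norm_nonneg _) (norm_nonneg _)
  have p3 : ‖ξ.2‖ * ‖η.2‖ ≤ ‖ξ‖ * ‖η‖ := mul_le_mul h2 h4 (norm_nonneg _) (norm_nonneg _)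
  unfold gam0
  rw [Prod.norm_def]
  refine max_le ?_ ?_
  · show ‖(I / 2) * (ξ.1 * η.2 + η.1 * ξ.2)‖ ≤ _
    rw [norm_mul]
    have hI : ‖(I / 2 : ℂ)‖ = 1 / 2 := by simp
    rw [hI]
    have := norm_add_le (ξ.1 * η.2) (η.1 * ξ.2)
    rw [norm_mul, norm_mul] at this
    linarith
  · show ‖I * (ξ.2 * η.2)‖ ≤ _
    rw [norm_mul, norm_mul, Complex.norm_I, one_mul]
    exact p3

section
variable {lam mu e : ℝ} {E : B2 → ℝ}

theorem contDiffAt_Hp (hE : ContDiffAt ℝ ∞ E q0) :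
    ContDiffAt ℝ ∞ (fun b => lam * aS b + E b) q0 :=
  (contDiffAt_const.mul (aS_contDiffAt q0_mem)).add hE

theorem D11_Hp (hE : ContDiffAt ℝ ∞ E q0) (X Y : B2) :
    D11 (fun b => lam * aS b + E b) X Y q0 = lam * D11 aS X Y q0 + D11 E X Y q0 := by
  rw [D11_add (P := fun b => lam * aS b) (contDiffAt_const.mul (aS_contDiffAt q0_mem)) hE,
    D11_const_mul (aS_contDiffAt q0_mem)]

theorem D21_Hp (hE : ContDiffAt ℝ ∞ E q0) (X Y Z : B2) :
    D21 (fun b => lam * aS b + E b) X Y Z q0 = lam * D21 aS X Y Z q0 + D21 E X Y Z q0 := by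
  rw [D21_add (P := fun b => lam * aS b) (contDiffAt_const.mul (aS_contDiffAt q0_mem)) hE,
    D21_const_mul (aS_contDiffAt q0_mem)]

theorem D22_Hp (hE : ContDiffAt ℝ ∞ E q0) (X Y Z W : B2) :
    D22 (fun b => lam * aS b + E b) X Y Z W q0 = lam * D22 aS X Y Z W q0 + D22 E X Y Z W q0 := by
  rw [D22_add (P := fun b => lam * aS b) (contDiffAt_const.mul (aS_contDiffAt q0_mem)) hE,
    D22_const_mul (aS_contDiffAt q0_mem)]

theorem D11_sub_left {P : B2 → ℝ} (hP : ContDiffAt ℝ ∞ P q0) (X X' Y : B2) :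
    D11 P (X - X') Y q0 = D11 P X Y q0 - D11 P X' Y q0 := by
  have := D11_add_left hP (X - X') X' Y
  rw [sub_add_cancel] at this
  rw [this]; ring

theorem D11_sub_right {P : B2 → ℝ} (hP : ContDiffAt ℝ ∞ P q0) (X Y Y' : B2) :
    D11 P X (Y - Y') q0 = D11 P X Y q0 - D11 P X Y' q0 := by
  have := D11_add_right hP X (Y - Y') Y'
  rw [sub_add_cancel] at this
  rw [this]; ring

/-- the error of the Christoffel vector -/
theorem gam_err (hE : ContDiffAt ℝ ∞ E q0) {X Y γ : B2}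
    (h : IsGam (fun b => lam * aS b + E b) q0 X Y γ) (Z : B2) :
    D11 (fun b => lam * aS b + E b) (γ - gam0 X Y) Z q0
      = D21 E X Y Z q0 - D11 E (gam0 X Y) Z q0 := by
  rw [D11_sub_left (contDiffAt_Hp hE), h Z, D21_Hp hE, D11_Hp hE, isGam_gam0 X Y Z]
  ring

theorem gam_err_le (he : 0 ≤ e) (hE : ContDiffAt ℝ ∞ E q0) (hJ : JetB E e) {X Y γ : B2}
    (h : IsGam (fun b => lam * aS b + E b) q0 X Y γ) (Z : B2) :
    ‖D11 (fun b => lam * aS b + E b) (γ - gam0 X Y) Z q0‖ ≤ 2 * e * ‖X‖ * ‖Y‖ * ‖Z‖ := by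
  rw [gam_err hE h]
  have h1 : ‖D21 E X Y Z q0‖ ≤ e * ‖X‖ * ‖Y‖ * ‖Z‖ := by
    refine (D21_le hE X Y Z).trans ?_
    have := hJ 3 (by norm_num) (by norm_num)
    gcongr
  have h2 : ‖D11 E (gam0 X Y) Z q0‖ ≤ e * (‖X‖ * ‖Y‖) * ‖Z‖ := by
    refine (D11_le hE _ Z).trans ?_
    have := hJ 2 (by norm_num) (by norm_num)
    have hg := norm_gam0_le X Y
    gcongr
  calc _ ≤ ‖D21 E X Y Z q0‖ + ‖D11 E (gam0 X Y) Z q0‖ := norm_sub_le _ _
    _ ≤ e * ‖X‖ * ‖Y‖ * ‖Z‖ + e * (‖X‖ * ‖Y‖) * ‖Z‖ := add_le_add h1 h2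
    _ = _ := by ring

theorem gam_err_norm_le (he : 0 ≤ e) (hmu : 0 < mu) (hE : ContDiffAt ℝ ∞ E q0) (hJ : JetB E e)
    (hpos : ∀ ξ, mu * (D11 aS ξ ξ q0).re ≤ (D11 (fun b => lam * aS b + E b) ξ ξ q0).re)
    {X Y γ : B2} (h : IsGam (fun b => lam * aS b + E b) q0 X Y γ) :
    ‖γ - gam0 X Y‖ ≤ 8 * e / mu * ‖X‖ * ‖Y‖ := by
  have h1 := hpos (γ - gam0 X Y)
  have h2 := gam_err_le he hE hJ h (γ - gam0 X Y)
  have h3 : (D11 (fun b => lam * aS b + E b) (γ - gam0 X Y) (γ - gam0 X Y) q0).re ≤ _ :=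
    (Complex.re_le_norm _).trans h2
  have h4 := norm_sq_le_aS (γ - gam0 X Y)
  have h5 : mu * ‖γ - gam0 X Y‖ ^ 2 ≤ 8 * e * ‖X‖ * ‖Y‖ * ‖γ - gam0 X Y‖ := by
    have : mu * ‖γ - gam0 X Y‖ ^ 2 ≤ mu * (4 * (D11 aS (γ - gam0 X Y) (γ - gam0 X Y) q0).re) :=
      mul_le_mul_of_nonneg_left h4 hmu.le
    nlinarith
  rcases (norm_nonneg (γ - gam0 X Y)).eq_or_lt with h0 | h0
  · rw [← h0]; positivity
  · have h6 : mu * ‖γ - gam0 X Y‖ ≤ 8 * e * ‖X‖ * ‖Y‖ := by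
      have : (mu * ‖γ - gam0 X Y‖) * ‖γ - gam0 X Y‖ ≤ (8 * e * ‖X‖ * ‖Y‖) * ‖γ - gam0 X Y‖ := by
        nlinarith
      exact le_of_mul_le_mul_right this h0
    rw [show 8 * e / mu * ‖X‖ * ‖Y‖ = (8 * e * ‖X‖ * ‖Y‖) / mu by ring, le_div_iff₀ hmu]
    linarith

theorem base_pert_crude (he : 0 ≤ e) (hmu : 0 < mu) (hE : ContDiffAt ℝ ∞ E q0) (hJ : JetB E e)
    (hpos : ∀ ξ, mu * (D11 aS ξ ξ q0).re ≤ (D11 (fun b => lam * aS b + E b) ξ ξ q0).re)
    {ξ η γ11 γ12 γ22 : B2} (h11 : IsGam (fun b => lam * aS b + E b) q0 ξ ξ γ11)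
    (h12 : IsGam (fun b => lam * aS b + E b) q0 ξ η γ12)
    (h22 : IsGam (fun b => lam * aS b + E b) q0 η η γ22) :
    |negK (fun b => lam * aS b + E b) q0 ξ η γ11 γ12 γ22 - lam * calK aS q0 ξ η|
      ≤ 32 * (e + e ^ 2 / mu) * (‖ξ‖ ^ 2 * ‖η‖ ^ 2) := by
  have hH := contDiffAt_Hp (lam := lam) hE
  set N : ℝ := ‖ξ‖ ^ 2 * ‖η‖ ^ 2 with hN
  have hNn : 0 ≤ N := by positivity
  -- the decomposition
  have key : negK (fun b => lam * aS b + E b) q0 ξ η γ11 γ12 γ22 - lam * calK aS q0 ξ η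
      = (D22 E ξ η ξ η q0).re - (D11 E (gam0 ξ η) (gam0 ξ η) q0).re
        - 2 * (D11 (fun b => lam * aS b + E b) (γ12 - gam0 ξ η) (gam0 ξ η) q0).re
        - (D11 (fun b => lam * aS b + E b) (γ12 - gam0 ξ η) (γ12 - gam0 ξ η) q0).re
        - (D22 E ξ ξ η η q0).re + (D11 E (gam0 ξ ξ) (gam0 η η) q0).re
        + (D11 (fun b => lam * aS b + E b) (γ11 - gam0 ξ ξ) (gam0 η η) q0).re
        + (D11 (fun b => lam * aS b + E b) (γ22 - gam0 η η) (gam0 ξ ξ) q0).re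
        + (D11 (fun b => lam * aS b + E b) (γ11 - gam0 ξ ξ) (γ22 - gam0 η η) q0).re := by
    rw [← aS_negK_q0]
    unfold negK
    rw [D22_Hp hE, D22_Hp hE]
    simp only [D11_sub_left hH, D11_sub_right hH]
    have a1 := D11_re_symm hH γ12 (gam0 ξ η)
    have a2 := D11_re_symm hH γ22 (gam0 ξ ξ)
    have a3 := D11_re_symm hH (gam0 η η) (gam0 ξ ξ)
    have b1 := congrArg Complex.re (D11_Hp (lam := lam) hE (gam0 ξ η) (gam0 ξ η))
    have b2 := congrArg Complex.re (D11_Hp (lam := lam) hE (gam0 ξ ξ) (gam0 η η))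
    rw [Complex.add_re, Complex.re_ofReal_mul] at b1 b2
    simp only [Complex.add_re, Complex.sub_re, Complex.re_ofReal_mul] at *
    linarith
  -- bounds
  have t1 : |(D22 E ξ η ξ η q0).re| ≤ e * N := by
    refine (Complex.abs_re_le_norm _).trans ((D22_le hE ξ η ξ η).trans ?_)
    have := hJ 4 (by norm_num) (by norm_num)
    calc _ ≤ e * ‖ξ‖ * ‖η‖ * ‖ξ‖ * ‖η‖ := by gcongr
      _ = _ := by rw [hN]; ring
  have t2 : |(D22 E ξ ξ η η q0).re| ≤ e * N := by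
    refine (Complex.abs_re_le_norm _).trans ((D22_le hE ξ ξ η η).trans ?_)
    have := hJ 4 (by norm_num) (by norm_num)
    calc _ ≤ e * ‖ξ‖ * ‖ξ‖ * ‖η‖ * ‖η‖ := by gcongr
      _ = _ := by rw [hN]; ring
  have gxy := norm_gam0_le ξ η
  have gxx := norm_gam0_le ξ ξ
  have gyy := norm_gam0_le η η
  have j2 := hJ 2 (by norm_num) (by norm_num)
  have t3 : |(D11 E (gam0 ξ η) (gam0 ξ η) q0).re| ≤ e * N := by
    refine (Complex.abs_re_le_norm _).trans ((D11_le hE _ _).trans ?_)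
    calc _ ≤ e * (‖ξ‖ * ‖η‖) * (‖ξ‖ * ‖η‖) := by gcongr
      _ = _ := by rw [hN]; ring
  have t4 : |(D11 E (gam0 ξ ξ) (gam0 η η) q0).re| ≤ e * N := by
    refine (Complex.abs_re_le_norm _).trans ((D11_le hE _ _).trans ?_)
    calc _ ≤ e * (‖ξ‖ * ‖ξ‖) * (‖η‖ * ‖η‖) := by gcongr
      _ = _ := by rw [hN]; ring
  have t5 : |(D11 (fun b => lam * aS b + E b) (γ12 - gam0 ξ η) (gam0 ξ η) q0).re| ≤ 2 * e * N := by
    refine (Complex.abs_re_le_norm _).trans ((gam_err_le he hE hJ h12 _).trans ?_)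
    calc _ ≤ 2 * e * ‖ξ‖ * ‖η‖ * (‖ξ‖ * ‖η‖) := by gcongr
      _ = _ := by rw [hN]; ring
  have t6 : |(D11 (fun b => lam * aS b + E b) (γ11 - gam0 ξ ξ) (gam0 η η) q0).re| ≤ 2 * e * N := by
    refine (Complex.abs_re_le_norm _).trans ((gam_err_le he hE hJ h11 _).trans ?_)
    calc _ ≤ 2 * e * ‖ξ‖ * ‖ξ‖ * (‖η‖ * ‖η‖) := by gcongr
      _ = _ := by rw [hN]; ring
  have t7 : |(D11 (fun b => lam * aS b + E b) (γ22 - gam0 η η) (gam0 ξ ξ) q0).re| ≤ 2 * e * N := by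
    refine (Complex.abs_re_le_norm _).trans ((gam_err_le he hE hJ h22 _).trans ?_)
    calc _ ≤ 2 * e * ‖η‖ * ‖η‖ * (‖ξ‖ * ‖ξ‖) := by gcongr
      _ = _ := by rw [hN]; ring
  have n12 := gam_err_norm_le he hmu hE hJ hpos h12
  have n22 := gam_err_norm_le he hmu hE hJ hpos h22
  have t8 : |(D11 (fun b => lam * aS b + E b) (γ12 - gam0 ξ η) (γ12 - gam0 ξ η) q0).re|
      ≤ 16 * (e ^ 2 / mu) * N := by
    refine (Complex.abs_re_le_norm _).trans ((gam_err_le he hE hJ h12 _).trans ?_)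
    calc _ ≤ 2 * e * ‖ξ‖ * ‖η‖ * (8 * e / mu * ‖ξ‖ * ‖η‖) := by gcongr
      _ = _ := by rw [hN]; ring
  have t9 : |(D11 (fun b => lam * aS b + E b) (γ11 - gam0 ξ ξ) (γ22 - gam0 η η) q0).re|
      ≤ 16 * (e ^ 2 / mu) * N := by
    refine (Complex.abs_re_le_norm _).trans ((gam_err_le he hE hJ h11 _).trans ?_)
    calc _ ≤ 2 * e * ‖ξ‖ * ‖ξ‖ * (8 * e / mu * ‖η‖ * ‖η‖) := by gcongr
      _ = _ := by rw [hN]; ring
  rw [key]
  rw [abs_le] at *
  have hem : 0 ≤ e * N := by positivity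
  constructor <;> nlinarith

end

theorem shear_exists (ξ η : B2) : ∃ t : ℝ,
    ‖ξ‖ ^ 2 * ‖η + (t : ℂ) • ξ‖ ^ 2 ≤ 16 * area aS q0 ξ η := by
  have ha : ContDiffAt ℝ ∞ aS q0 := aS_contDiffAt q0_mem
  rcases eq_or_ne ((D11 aS ξ ξ q0).re) 0 with h0 | h0
  · refine ⟨0, ?_⟩
    have h1 := norm_sq_le_aS ξ
    rw [h0] at h1
    have h2 : ‖ξ‖ ^ 2 = 0 := le_antisymm (by linarith) (by positivity)
    have h3 : ξ = 0 := by
      rw [← norm_eq_zero]; exact pow_eq_zero_iff (by norm_num) |>.1 h2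
    have h4 : area aS q0 ξ η = 0 := by
      have h5 : D11 aS (0 : B2) η q0 = 0 := by rw [aS_D11_q0]; simp
      unfold area
      rw [h0, h3, h5]
      simp
    rw [h2, h4]; simp
  · refine ⟨-((D11 aS ξ η q0).re / (D11 aS ξ ξ q0).re), ?_⟩
    set t : ℝ := -((D11 aS ξ η q0).re / (D11 aS ξ ξ q0).re) with ht
    rw [← area_shear ha t ξ η]
    have h1 : (D11 aS ξ (η + (t : ℂ) • ξ) q0).re = 0 := by
      rw [D11_shear_re ha, ht]
      field_simp
      ring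
    have h2 : area aS q0 ξ (η + (t : ℂ) • ξ)
        = (D11 aS ξ ξ q0).re * (D11 aS (η + (t : ℂ) • ξ) (η + (t : ℂ) • ξ) q0).re := by
      unfold area
      rw [h1]; ring
    rw [h2]
    have h3 := norm_sq_le_aS ξ
    have h4 := norm_sq_le_aS (η + (t : ℂ) • ξ)
    calc ‖ξ‖ ^ 2 * ‖η + (t : ℂ) • ξ‖ ^ 2
        ≤ (4 * (D11 aS ξ ξ q0).re) * (4 * (D11 aS (η + (t : ℂ) • ξ) (η + (t : ℂ) • ξ) q0).re) := by
          have : 0 ≤ (D11 aS ξ ξ q0).re := by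
            rw [aS_D11_self_re]; positivity
          gcongr
      _ = _ := by ring

end BP

open BP
open scoped ContDiff ComplexConjugate

/-- the squared area controls: `|S| ≤ e` for a Hermitian-symmetric Kähler-type tensor. -/
theorem base_pert : ∃ C₀ : ℝ, 0 < C₀ ∧ ∀ (lam mu e : ℝ) (E : B2 → ℝ), 0 ≤ lam → 0 < mu → 0 ≤ e →
    ContDiffAt ℝ ∞ E q0 → JetB E e →
    (∀ ξ, mu * (D11 aS ξ ξ q0).re ≤ (D11 (fun b => lam * aS b + E b) ξ ξ q0).re) →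
    ∀ ξ η γ11 γ12 γ22, IsGam (fun b => lam * aS b + E b) q0 ξ ξ γ11 →
      IsGam (fun b => lam * aS b + E b) q0 ξ η γ12 →
      IsGam (fun b => lam * aS b + E b) q0 η η γ22 →
      |negK (fun b => lam * aS b + E b) q0 ξ η γ11 γ12 γ22 - lam * calK aS q0 ξ η|
        ≤ C₀ * (e + e ^ 2 / mu) * area aS q0 ξ η := by
  refine ⟨512, by norm_num, ?_⟩
  intro lam mu e E _ hmu he hE hJ hpos ξ η γ11 γ12 γ22 h11 h12 h22
  have ha : ContDiffAt ℝ ∞ aS q0 := aS_contDiffAt q0_mem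
  have hH := contDiffAt_Hp (lam := lam) hE
  obtain ⟨t, ht⟩ := shear_exists ξ η
  have h := base_pert_crude he hmu hE hJ hpos h11 (IsGam_shear12 hH t h11 h12)
    (IsGam_shear22 hH t h11 h12 h22)
  rw [negK_shear hH, calK_shear ha] at h
  refine h.trans ?_
  have : 0 ≤ e + e ^ 2 / mu := by positivity
  calc 32 * (e + e ^ 2 / mu) * (‖ξ‖ ^ 2 * ‖η + (t : ℂ) • ξ‖ ^ 2)
      ≤ 32 * (e + e ^ 2 / mu) * (16 * area aS q0 ξ η) := by gcongr
    _ = _ := by ring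

end Crest.Agent.R245
end

-- ▼ part R245/BasePertC
section

/-! TASK BasePertC: bound of the cross terms. -/

set_option autoImplicit false

namespace Crest.Agent.R245

open Complex Filter Topology
open scoped ContDiff ComplexConjugate

namespace CrossC

/-- the norm of the metric `aS` at `q0` -/
noncomputable def nrm (ξ : B2) : ℝ := Real.sqrt (D11 aS ξ ξ q0).re

theorem aS_re (ξ : B2) : (D11 aS ξ ξ q0).re = ‖ξ.1‖ ^ 2 + (1/4) * ‖ξ.2‖ ^ 2 := by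
  rw [aS_D11_q0, Complex.mul_conj, Complex.mul_conj, Complex.normSq_eq_norm_sq,
    Complex.normSq_eq_norm_sq]
  have : (((‖ξ.1‖ ^ 2 : ℝ) : ℂ) + 1 / 4 * ((‖ξ.2‖ ^ 2 : ℝ) : ℂ))
      = ((‖ξ.1‖ ^ 2 + (1/4) * ‖ξ.2‖ ^ 2 : ℝ) : ℂ) := by push_cast; ring
  rw [this, Complex.ofReal_re]

theorem nrm_nonneg (ξ : B2) : 0 ≤ nrm ξ := Real.sqrt_nonneg _

theorem nrm_sq (ξ : B2) : nrm ξ ^ 2 = ‖ξ.1‖ ^ 2 + (1/4) * ‖ξ.2‖ ^ 2 := by
  unfold nrm
  rw [Real.sq_sqrt, aS_re]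
  rw [aS_re]; positivity

theorem nrm_sq' (ξ : B2) : (D11 aS ξ ξ q0).re = nrm ξ ^ 2 := by rw [nrm_sq, aS_re]

theorem norm_le_nrm (ξ : B2) : ‖ξ‖ ≤ 2 * nrm ξ := by
  have h := nrm_sq ξ
  have h0 := nrm_nonneg ξ
  rw [Prod.norm_def]
  refine max_le ?_ ?_
  · have : ‖ξ.1‖ ≤ nrm ξ := by
      apply abs_le_of_sq_le_sq' _ h0 |>.2
      nlinarith [norm_nonneg ξ.2]
    linarith
  · apply abs_le_of_sq_le_sq' _ (by positivity) |>.2
    nlinarith [norm_nonneg ξ.1]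

/-- Cauchy-Schwarz for `aS` at `q0` -/
theorem aS_cs (ξ η : B2) : ‖D11 aS ξ η q0‖ ≤ nrm ξ * nrm η := by
  rw [aS_D11_q0]
  have h1 : ‖ξ.1 * conj η.1 + (1/4) * (ξ.2 * conj η.2)‖ ≤ ‖ξ.1‖ * ‖η.1‖ + (1/4) * (‖ξ.2‖ * ‖η.2‖) := by
    refine (norm_add_le _ _).trans ?_
    rw [norm_mul, norm_mul, norm_mul, RCLike.norm_conj, RCLike.norm_conj]
    have : ‖(1/4 : ℂ)‖ = 1/4 := by norm_num
    rw [this]
  refine h1.trans ?_
  apply abs_le_of_sq_le_sq' _ (mul_nonneg (nrm_nonneg _) (nrm_nonneg _)) |>.2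
  rw [mul_pow, nrm_sq, nrm_sq]
  nlinarith [sq_nonneg (‖ξ.1‖ * ‖η.2‖ - ‖ξ.2‖ * ‖η.1‖)]

theorem gam0_norm (ξ η : B2) : ‖gam0 ξ η‖ ≤ ‖ξ‖ * ‖η‖ := by
  have h1 : ‖ξ.1‖ ≤ ‖ξ‖ := norm_fst_le ξ
  have h2 : ‖ξ.2‖ ≤ ‖ξ‖ := norm_snd_le ξ
  have h3 : ‖η.1‖ ≤ ‖η‖ := norm_fst_le η
  have h4 : ‖η.2‖ ≤ ‖η‖ := norm_snd_le η
  rw [gam0, Prod.norm_def]
  refine max_le ?_ ?_
  · simp only [norm_mul, norm_div, Complex.norm_I, RCLike.norm_ofNat]
    have h5 : ‖ξ.1 * η.2 + η.1 * ξ.2‖ ≤ ‖ξ‖ * ‖η‖ + ‖η‖ * ‖ξ‖ := by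
      refine (norm_add_le _ _).trans ?_
      rw [norm_mul, norm_mul]
      gcongr
    nlinarith
  · simp only [norm_mul, Complex.norm_I, one_mul]
    gcongr

theorem aS_q0_smooth : ContDiffAt ℝ ∞ aS q0 := aS_contDiffAt q0_mem

section Main

variable {g s y e : ℝ} {A φ E EA Eφ : B2 → ℝ}

theorem JetB_D11 (hE : ContDiffAt ℝ ∞ E q0) (h : JetB E e) (X Y : B2) :
    ‖D11 E X Y q0‖ ≤ e * ‖X‖ * ‖Y‖ := by
  refine (D11_le hE X Y).trans ?_
  gcongr
  exact h 2 (by norm_num) (by norm_num)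

theorem JetB_D21 (hE : ContDiffAt ℝ ∞ E q0) (h : JetB E e) (X Y Z : B2) :
    ‖D21 E X Y Z q0‖ ≤ e * ‖X‖ * ‖Y‖ * ‖Z‖ := by
  refine (D21_le hE X Y Z).trans ?_
  gcongr
  exact h 3 (by norm_num) (by norm_num)

/-- the error functional `E'(ξ,v;w)` -/
noncomputable def Ep (E : B2 → ℝ) (ξ v w : B2) : ℂ := D21 E ξ v w q0 - D11 E (gam0 ξ v) w q0

theorem Ep_norm (he : 0 ≤ e) (hE : ContDiffAt ℝ ∞ E q0) (h : JetB E e) (ξ v w : B2) :
    ‖Ep E ξ v w‖ ≤ 16 * e * nrm ξ * nrm v * nrm w := by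
  have h1 := JetB_D21 hE h ξ v w
  have h2 := JetB_D11 hE h (gam0 ξ v) w
  have h3 := gam0_norm ξ v
  have h4 := norm_le_nrm ξ
  have h5 := norm_le_nrm v
  have h6 := norm_le_nrm w
  have n1 := norm_nonneg ξ
  have n2 := norm_nonneg v
  have n3 := norm_nonneg w
  have h7 : ‖D11 E (gam0 ξ v) w q0‖ ≤ e * (‖ξ‖ * ‖v‖) * ‖w‖ := h2.trans (by gcongr)
  have h8 : ‖Ep E ξ v w‖ ≤ 2 * e * (‖ξ‖ * ‖v‖ * ‖w‖) := by
    refine (norm_sub_le _ _).trans ?_
    calc _ ≤ e * ‖ξ‖ * ‖v‖ * ‖w‖ + e * (‖ξ‖ * ‖v‖) * ‖w‖ := add_le_add h1 h7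
      _ = _ := by ring
  have m1 := nrm_nonneg ξ
  have m2 := nrm_nonneg v
  have m3 := nrm_nonneg w
  have h9 : ‖ξ‖ * ‖v‖ * ‖w‖ ≤ (2 * nrm ξ) * (2 * nrm v) * (2 * nrm w) := by gcongr
  calc _ ≤ 2 * e * (‖ξ‖ * ‖v‖ * ‖w‖) := h8
    _ ≤ 2 * e * ((2 * nrm ξ) * (2 * nrm v) * (2 * nrm w)) := by gcongr
    _ = _ := by ring

theorem smooth_lin (r : ℝ) (hE : ContDiffAt ℝ ∞ E q0) :
    ContDiffAt ℝ ∞ (fun b => r * aS b + E b) q0 :=
  (contDiffAt_const.mul aS_q0_smooth).add hE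

theorem D11_lin (r : ℝ) (hE : ContDiffAt ℝ ∞ E q0) (X Y : B2) :
    D11 (fun b => r * aS b + E b) X Y q0 = r * D11 aS X Y q0 + D11 E X Y q0 := by
  rw [D11_add (contDiffAt_const.mul aS_q0_smooth) hE, D11_const_mul aS_q0_smooth]

theorem D21_lin (r : ℝ) (hE : ContDiffAt ℝ ∞ E q0) (X Y Z : B2) :
    D21 (fun b => r * aS b + E b) X Y Z q0 = r * D21 aS X Y Z q0 + D21 E X Y Z q0 := by
  rw [D21_add (contDiffAt_const.mul aS_q0_smooth) hE, D21_const_mul aS_q0_smooth]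

theorem D11_Hpot (hA : ContDiffAt ℝ ∞ A q0) (hφ : ContDiffAt ℝ ∞ φ q0) (X Y : B2) :
    D11 (Hpot A φ y) X Y q0 = D11 A X Y q0 + y * D11 φ X Y q0 := by
  have : Hpot A φ y = fun b => A b + y * φ b := rfl
  rw [this, D11_add hA (contDiffAt_const.mul hφ), D11_const_mul hφ]

theorem D21_Hpot (hA : ContDiffAt ℝ ∞ A q0) (hφ : ContDiffAt ℝ ∞ φ q0) (X Y Z : B2) :
    D21 (Hpot A φ y) X Y Z q0 = D21 A X Y Z q0 + y * D21 φ X Y Z q0 := by
  have : Hpot A φ y = fun b => A b + y * φ b := rfl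
  rw [this, D21_add hA (contDiffAt_const.mul hφ), D21_const_mul hφ]

/-- subtraction on the left -/
theorem D11_sub_left (hA : ContDiffAt ℝ ∞ A q0) (X X' Y : B2) :
    D11 A (X - X') Y q0 = D11 A X Y q0 - D11 A X' Y q0 := by
  have h : X = (X - X') + X' := by abel
  have := D11_add_left hA (X - X') X' Y
  rw [← h] at this
  rw [this]; ring

/-- the covariant derivative of the error -/
theorem nabla_eq {r : ℝ} (hE : ContDiffAt ℝ ∞ E q0) (ξ v w Γ : B2) :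
    D21 (fun b => r * aS b + E b) ξ v w q0 - D11 (fun b => r * aS b + E b) Γ w q0
      = Ep E ξ v w - D11 (fun b => r * aS b + E b) (Γ - gam0 ξ v) w q0 := by
  rw [D11_sub_left (smooth_lin r hE), D21_lin r hE, D11_lin r hE, D11_lin r hE]
  have := isGam_gam0 ξ v w
  rw [Ep, this]; ring

/-- equation of `γ' = Γ - gam0` -/
theorem gam_eq (hEA : ContDiffAt ℝ ∞ EA q0) (hEφ : ContDiffAt ℝ ∞ Eφ q0) {ξ v Γ : B2}
    (hΓ : IsGam (Hpot (fun b => g * aS b + EA b) (fun b => s * aS b + Eφ b) y) q0 ξ v Γ) (w : B2) :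
    D11 (Hpot (fun b => g * aS b + EA b) (fun b => s * aS b + Eφ b) y) (Γ - gam0 ξ v) w q0
      = Ep EA ξ v w + y * Ep Eφ ξ v w := by
  have hA := smooth_lin g hEA
  have hφ := smooth_lin s hEφ
  have hH : ContDiffAt ℝ ∞ (Hpot (fun b => g * aS b + EA b) (fun b => s * aS b + Eφ b) y) q0 :=
    hA.add (contDiffAt_const.mul hφ)
  rw [D11_sub_left hH, hΓ w, D21_Hpot hA hφ, D11_Hpot hA hφ, D21_lin g hEA, D21_lin s hEφ,
    D11_lin g hEA, D11_lin s hEφ]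
  have := isGam_gam0 ξ v w
  rw [Ep, Ep, this]; ring

/-- main reduction: a bound of the covariant derivative gives the antisymmetrised bound -/
theorem antisymm {H φ : B2 → ℝ} (hH : ContDiffAt ℝ ∞ H q0) (hφ : ContDiffAt ℝ ∞ φ q0) {K : ℝ}
    (hK : 0 ≤ K)
    (hb : ∀ ξ v w Γ, IsGam H q0 ξ v Γ →
      ‖D21 φ ξ v w q0 - D11 φ Γ w q0‖ ≤ K * nrm ξ * nrm v * nrm w)
    (ξ η u' g1 g2 : B2) (h1 : IsGam H q0 ξ u' g1) (h2 : IsGam H q0 η u' g2) :
    |((D21 φ ξ u' η q0 - D11 φ g1 η q0) - (D21 φ η u' ξ q0 - D11 φ g2 ξ q0)).re|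
      ≤ 2 * K * Real.sqrt (area aS q0 ξ η) * nrm u' := by
  by_cases hξ : nrm ξ = 0
  · have e1 := hb ξ u' η g1 h1
    have e2 := hb η u' ξ g2 h2
    rw [hξ] at e1 e2
    have e3 : D21 φ ξ u' η q0 - D11 φ g1 η q0 = 0 := by
      apply norm_le_zero_iff.1; simpa using e1
    have e4 : D21 φ η u' ξ q0 - D11 φ g2 ξ q0 = 0 := by
      apply norm_le_zero_iff.1; simpa using e2
    rw [e3, e4]
    simp only [sub_zero, Complex.zero_re, abs_zero]
    have := nrm_nonneg u'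
    positivity
  · have hpos : 0 < nrm ξ := lt_of_le_of_ne (nrm_nonneg ξ) (Ne.symm hξ)
    set c : ℝ := - (D11 aS ξ η q0).re / nrm ξ ^ 2 with hc
    set η' : B2 := η + (c : ℂ) • ξ with hη'
    set g2' : B2 := g2 + (c : ℂ) • g1 with hg2'
    have hG : IsGam H q0 η' u' g2' := by
      intro Z
      rw [hg2', hη', D11_add_left hH, D11_smul_left hH, D21_add_1 hH, D21_smul_1 hH, h1 Z, h2 Z]
    -- orthogonality
    have ho : (D11 aS ξ η' q0).re = 0 := by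
      rw [hη', D11_add_right aS_q0_smooth, D11_smul_right aS_q0_smooth, Complex.conj_ofReal,
        Complex.add_re, Complex.re_ofReal_mul, nrm_sq', hc]
      field_simp; ring
    have hn : nrm η' ^ 2 = nrm η ^ 2 + 2 * c * (D11 aS ξ η q0).re + c ^ 2 * nrm ξ ^ 2 := by
      rw [← nrm_sq' η', hη', D11_add_right aS_q0_smooth, D11_smul_right aS_q0_smooth,
        D11_add_left aS_q0_smooth, D11_add_left aS_q0_smooth, D11_smul_left aS_q0_smooth,
        D11_smul_left aS_q0_smooth, Complex.conj_ofReal, ← D11_conj aS_q0_smooth ξ η,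
        ← nrm_sq' η, ← nrm_sq' ξ]
      simp only [Complex.add_re, Complex.re_ofReal_mul, Complex.conj_re]
      ring
    have harea : area aS q0 ξ η = (nrm ξ * nrm η') ^ 2 := by
      rw [area, nrm_sq', nrm_sq', mul_pow, hn, hc]
      field_simp; ring
    have hsq : Real.sqrt (area aS q0 ξ η) = nrm ξ * nrm η' := by
      rw [harea, Real.sqrt_sq (mul_nonneg (nrm_nonneg _) (nrm_nonneg _))]
    have hid : (D21 φ ξ u' η q0 - D11 φ g1 η q0) - (D21 φ η u' ξ q0 - D11 φ g2 ξ q0)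
        = (D21 φ ξ u' η' q0 - D11 φ g1 η' q0) - (D21 φ η' u' ξ q0 - D11 φ g2' ξ q0) := by
      rw [hη', hg2', D21_add_3 hφ, D21_smul_3 hφ, D11_add_right hφ, D11_smul_right hφ,
        D21_add_1 hφ, D21_smul_1 hφ, D11_add_left hφ, D11_smul_left hφ, Complex.conj_ofReal]
      ring
    rw [hid]
    have e1 := hb ξ u' η' g1 h1
    have e2 := hb η' u' ξ g2' hG
    refine (Complex.abs_re_le_norm _).trans ((norm_sub_le _ _).trans ?_)
    rw [hsq]
    calc _ ≤ K * nrm ξ * nrm u' * nrm η' + K * nrm η' * nrm u' * nrm ξ := add_le_add e1 e2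
      _ = _ := by ring

end Main

end CrossC

open CrossC in
/-- cross term: general bound. `H = g aS + EA + y (s aS + Eφ)`, `φ = s aS + Eφ`;
the cross term of `hart_negK` is bounded by
`C₀ (eφ + (eA + y eφ) * smax / mu) * √area * |u'|`. -/
theorem cross_bound : ∃ C₀ : ℝ, 0 < C₀ ∧ ∀ (g s y mu smax eA eφ : ℝ) (EA Eφ : B2 → ℝ),
    0 ≤ g → 0 ≤ s → 0 ≤ y → 0 < mu → 0 ≤ eA → 0 ≤ eφ →
    ContDiffAt ℝ ∞ EA q0 → ContDiffAt ℝ ∞ Eφ q0 → JetB EA eA → JetB Eφ eφ →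
    (∀ ξ, mu * (D11 aS ξ ξ q0).re ≤
      (D11 (Hpot (fun b => g * aS b + EA b) (fun b => s * aS b + Eφ b) y) ξ ξ q0).re) →
    (∀ ξ η, ‖D11 (fun b => s * aS b + Eφ b) ξ η q0‖ ≤
      smax * Real.sqrt (D11 aS ξ ξ q0).re * Real.sqrt (D11 aS η η q0).re) →
    ∀ ξ η u' g1 g2,
      IsGam (Hpot (fun b => g * aS b + EA b) (fun b => s * aS b + Eφ b) y) q0 ξ u' g1 →
      IsGam (Hpot (fun b => g * aS b + EA b) (fun b => s * aS b + Eφ b) y) q0 η u' g2 →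
      |((D21 (fun b => s * aS b + Eφ b) ξ u' η q0 - D11 (fun b => s * aS b + Eφ b) g1 η q0)
          - (D21 (fun b => s * aS b + Eφ b) η u' ξ q0
              - D11 (fun b => s * aS b + Eφ b) g2 ξ q0)).re|
        ≤ C₀ * (eφ + (eA + y * eφ) * smax / mu) * Real.sqrt (area aS q0 ξ η)
            * Real.sqrt (D11 aS u' u' q0).re := by
  refine ⟨32, by norm_num, ?_⟩
  intro g s y mu smax eA eφ EA Eφ _ _ hy hmu heA heφ hEA hEφ hJA hJφ hpos hmax ξ η u' g1 g2 h1 h2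
  have hA := smooth_lin g hEA
  have hφ := smooth_lin s hEφ
  have hH : ContDiffAt ℝ ∞ (Hpot (fun b => g * aS b + EA b) (fun b => s * aS b + Eφ b) y) q0 :=
    hA.add (contDiffAt_const.mul hφ)
  have hsm : 0 ≤ smax := by
    have h := hmax (1, 0) (1, 0)
    have e1 : (D11 aS ((1 : ℂ), (0 : ℂ)) (1, 0) q0).re = 1 := by rw [aS_re]; simp
    rw [e1] at h
    have := norm_nonneg (D11 (fun b => s * aS b + Eφ b) ((1 : ℂ), (0 : ℂ)) (1, 0) q0)
    simp at h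
    linarith
  have hK : 0 ≤ 16 * (eφ + (eA + y * eφ) * smax / mu) := by positivity
  have hb : ∀ ξ v w Γ,
      IsGam (Hpot (fun b => g * aS b + EA b) (fun b => s * aS b + Eφ b) y) q0 ξ v Γ →
      ‖D21 (fun b => s * aS b + Eφ b) ξ v w q0 - D11 (fun b => s * aS b + Eφ b) Γ w q0‖
        ≤ 16 * (eφ + (eA + y * eφ) * smax / mu) * nrm ξ * nrm v * nrm w := by
    intro ξ v w Γ hΓ
    rw [nabla_eq hEφ]
    set γ := Γ - gam0 ξ v with hγ
    have b1 := Ep_norm heφ hEφ hJφ ξ v w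
    have b2 := hmax γ w
    have b3 := gam_eq hEA hEφ hΓ γ
    rw [← hγ] at b3
    have b4 := hpos γ
    rw [b3] at b4
    have b5 := Ep_norm heφ hEφ hJφ ξ v γ
    have b6 := Ep_norm heA hEA hJA ξ v γ
    have b7 : (Ep EA ξ v γ + y * Ep Eφ ξ v γ).re
        ≤ 16 * (eA + y * eφ) * nrm ξ * nrm v * nrm γ := by
      refine (Complex.re_le_norm _).trans ((norm_add_le _ _).trans ?_)
      rw [norm_mul, Complex.norm_real, Real.norm_of_nonneg hy]
      calc _ ≤ 16 * eA * nrm ξ * nrm v * nrm γ + y * (16 * eφ * nrm ξ * nrm v * nrm γ) := by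
            gcongr
        _ = _ := by ring
    have n1 := nrm_nonneg ξ
    have n2 := nrm_nonneg v
    have n3 := nrm_nonneg γ
    have n4 := nrm_nonneg w
    have b8 : nrm γ ≤ 16 * (eA + y * eφ) * nrm ξ * nrm v / mu := by
      rw [nrm_sq'] at b4
      by_cases h0 : nrm γ = 0
      · rw [h0]; positivity
      · have hp : 0 < nrm γ := lt_of_le_of_ne n3 (Ne.symm h0)
        rw [le_div_iff₀ hmu]
        have : mu * nrm γ ^ 2 ≤ 16 * (eA + y * eφ) * nrm ξ * nrm v * nrm γ := b4.trans b7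
        have h9 : (nrm γ * mu) * nrm γ ≤ (16 * (eA + y * eφ) * nrm ξ * nrm v) * nrm γ := by
          linarith
        exact le_of_mul_le_mul_right h9 hp
    have b9 : ‖D11 (fun b => s * aS b + Eφ b) γ w q0‖
        ≤ smax * (16 * (eA + y * eφ) * nrm ξ * nrm v / mu) * nrm w := by
      refine b2.trans ?_
      change smax * nrm γ * nrm w ≤ _
      gcongr
    refine (norm_sub_le _ _).trans ((add_le_add b1 b9).trans (le_of_eq ?_))
    ring
  have := antisymm hH hφ hK hb ξ η u' g1 g2 h1 h2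
  refine this.trans (le_of_eq ?_)
  change _ = 32 * (eφ + (eA + y * eφ) * smax / mu) * Real.sqrt (area aS q0 ξ η) * nrm u'
  ring

open CrossC in
/-- sharper version for `EA = 0` : the factor `y * smax / mu` disappears. -/
theorem cross_bound' : ∃ C₀ : ℝ, 0 < C₀ ∧ ∀ (g s y mu eφ α : ℝ) (Eφ : B2 → ℝ),
    0 < g → 0 ≤ s → 0 ≤ y → 0 ≤ eφ →
    ContDiffAt ℝ ∞ Eφ q0 → JetB Eφ eφ →
    (∀ ξ, 0 ≤ (D11 (fun b => s * aS b + Eφ b) ξ ξ q0).re) →
    ∀ ξ η u' g1 g2,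
      IsGam (Hpot (fun b => g * aS b + α) (fun b => s * aS b + Eφ b) y) q0 ξ u' g1 →
      IsGam (Hpot (fun b => g * aS b + α) (fun b => s * aS b + Eφ b) y) q0 η u' g2 →
      |((D21 (fun b => s * aS b + Eφ b) ξ u' η q0 - D11 (fun b => s * aS b + Eφ b) g1 η q0)
          - (D21 (fun b => s * aS b + Eφ b) η u' ξ q0
              - D11 (fun b => s * aS b + Eφ b) g2 ξ q0)).re|
        ≤ C₀ * eφ * Real.sqrt (area aS q0 ξ η) * Real.sqrt (D11 aS u' u' q0).re := by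
  refine ⟨32, by norm_num, ?_⟩
  intro g s y mu eφ α Eφ hg _ hy heφ hEφ hJφ hpos ξ η u' g1 g2 h1 h2
  have hEA : ContDiffAt ℝ ∞ (fun _ : B2 => α) q0 := contDiffAt_const
  have hA := smooth_lin g hEA
  have hφ := smooth_lin s hEφ
  have hH : ContDiffAt ℝ ∞ (Hpot (fun b => g * aS b + α) (fun b => s * aS b + Eφ b) y) q0 :=
    hA.add (contDiffAt_const.mul hφ)
  have hK : 0 ≤ 16 * eφ := by positivity
  have hb : ∀ ξ v w Γ,
      IsGam (Hpot (fun b => g * aS b + α) (fun b => s * aS b + Eφ b) y) q0 ξ v Γ →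
      ‖D21 (fun b => s * aS b + Eφ b) ξ v w q0 - D11 (fun b => s * aS b + Eφ b) Γ w q0‖
        ≤ 16 * eφ * nrm ξ * nrm v * nrm w := by
    intro ξ v w Γ hΓ
    rw [nabla_eq hEφ]
    set γ := Γ - gam0 ξ v with hγ
    have n1 := nrm_nonneg ξ
    have n2 := nrm_nonneg v
    have n3 := nrm_nonneg γ
    have n4 := nrm_nonneg w
    have hc : ∀ w, Ep (fun _ : B2 => α) ξ v w = 0 := by
      intro w; rw [Ep, D21_const, D11_const, sub_zero]
    have hD : ∀ w, D11 (Hpot (fun b => g * aS b + α) (fun b => s * aS b + Eφ b) y) γ w q0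
        = g * D11 aS γ w q0 + y * D11 (fun b => s * aS b + Eφ b) γ w q0 := by
      intro w
      rw [D11_Hpot hA hφ, D11_lin g hEA, D11_const, add_zero]
    have key : ∀ w, (g : ℂ) * D11 aS γ w q0 + y * D11 (fun b => s * aS b + Eφ b) γ w q0
        = y * Ep Eφ ξ v w := by
      intro w
      have b3 := gam_eq (EA := fun _ : B2 => α) hEA hEφ hΓ w
      rw [← hγ, hc, zero_add] at b3
      rw [← b3, hD]
    -- bound of `γ`
    have b5 := Ep_norm heφ hEφ hJφ ξ v γ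
    have hγb : g * nrm γ ≤ y * (16 * eφ * nrm ξ * nrm v) := by
      have h3 := congrArg Complex.re (key γ)
      rw [Complex.add_re, Complex.re_ofReal_mul, Complex.re_ofReal_mul, Complex.re_ofReal_mul,
        nrm_sq'] at h3
      have h4 := mul_nonneg hy (hpos γ)
      have h5 : (Ep Eφ ξ v γ).re ≤ 16 * eφ * nrm ξ * nrm v * nrm γ :=
        (Complex.re_le_norm _).trans b5
      have h6 := mul_le_mul_of_nonneg_left h5 hy
      have h7 : (g * nrm γ) * nrm γ ≤ (y * (16 * eφ * nrm ξ * nrm v)) * nrm γ := by nlinarith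
      by_cases h0 : nrm γ = 0
      · rw [h0]; simp; positivity
      · exact le_of_mul_le_mul_right h7 (lt_of_le_of_ne n3 (Ne.symm h0))
    rcases hy.eq_or_lt with hy0 | hy0
    · -- y = 0
      have hγ0 : nrm γ = 0 := by
        rw [← hy0] at hγb
        have : g * nrm γ ≤ 0 := by simpa using hγb
        nlinarith
      have hγ1 : γ = 0 := by
        have := norm_le_nrm γ
        rw [hγ0, mul_zero] at this
        exact norm_le_zero_iff.1 this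
      have : D11 (fun b => s * aS b + Eφ b) γ w q0 = 0 := by
        have h := D11_smul_left hφ 0 γ w
        rw [zero_smul, zero_mul] at h
        rw [hγ1]; exact h
      rw [this, sub_zero]
      exact Ep_norm heφ hEφ hJφ ξ v w
    · have hyC : (y : ℂ) ≠ 0 := by exact_mod_cast hy0.ne'
      have h8 : Ep Eφ ξ v w - D11 (fun b => s * aS b + Eφ b) γ w q0
          = (g / y : ℝ) * D11 aS γ w q0 := by
        have := key w
        push_cast
        field_simp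
        linear_combination -this
      rw [h8, norm_mul, Complex.norm_real, Real.norm_of_nonneg (by positivity)]
      have h9 := aS_cs γ w
      calc _ ≤ g / y * (nrm γ * nrm w) := by gcongr
        _ = (g * nrm γ) / y * nrm w := by ring
        _ ≤ (y * (16 * eφ * nrm ξ * nrm v)) / y * nrm w := by gcongr
        _ = _ := by field_simp
  have := antisymm hH hφ hK hb ξ η u' g1 g2 h1 h2
  refine this.trans (le_of_eq ?_)
  change _ = 32 * eφ * Real.sqrt (area aS q0 ξ η) * nrm u'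
  ring

end Crest.Agent.R245
end

-- ▼ part R245/BasePert
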