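import Mathlib

/-! Real inequalities for the wild region (CurvR2). -/

set_option autoImplicit false

namespace Crest.Agent.R245

/-- choice of `Λ₀`: the linear error is absorbed. -/
theorem wild_absorb {η C Λ Y : ℝ} (hη : 0 < η) (hC : 0 < C) (hΛ : 0 < Λ) (hY : 0 ≤ Y)
    (h : 256 * C ^ 2 * (1 + 8 * C / η) / η ^ 2 ≤ Λ) :
    C * Y ≤ Λ / 4 + (Y * η / 2) ^ 3 / (8 * (Λ + Y * η / 2)) / 2 := by
  have hg : 0 ≤ (Y * η / 2) ^ 3 / (8 * (Λ + Y * η / 2)) / 2 := by positivity
  rcases le_or_gt (C * Y) (Λ / 4) with h1 | h1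
  · linarith
  · have hY0 : 0 < Y := by
      rcases hY.eq_or_lt with h2 | h2
      · rw [← h2] at h1; simp at h1; linarith
      · exact h2
    set r := Y * η / 2 with hr
    have hr0 : 0 < r := by positivity
    have hΛr : Λ ≤ r * (8 * C / η) := by
      rw [hr]; field_simp; nlinarith
    have h3 : r ^ 3 / (8 * (r * (1 + 8 * C / η))) ≤ r ^ 3 / (8 * (Λ + r)) := by
      apply div_le_div_of_nonneg_left (by positivity) (by positivity)
      nlinarith
    have h4 : r ^ 3 / (8 * (r * (1 + 8 * C / η))) = r ^ 2 / (8 * (1 + 8 * C / η)) := by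
      have : 0 < 1 + 8 * C / η := by positivity
      field_simp
    -- r ≥ 32 C (1+8C/η)/η
    have h5 : 32 * C * (1 + 8 * C / η) / η ≤ r := by
      have a1 : Λ * η / (8 * C) ≤ r := by
        rw [div_le_iff₀ (by positivity)]
        calc Λ * η ≤ r * (8 * C / η) * η := by nlinarith
          _ = r * (8 * C) := by field_simp
      have a2 : 32 * C * (1 + 8 * C / η) / η =
          (256 * C ^ 2 * (1 + 8 * C / η) / η ^ 2) * η / (8 * C) := by
        field_simp; ring
      rw [a2]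
      refine le_trans ?_ a1
      gcongr
    have h6 : C * Y = 2 * C * r / η := by rw [hr]; field_simp
    have h7 : 2 * C * r / η ≤ r ^ 2 / (8 * (1 + 8 * C / η)) / 2 := by
      have hden : 0 < 1 + 8 * C / η := by positivity
      have b1 : r * (32 * C * (1 + 8 * C / η) / η) ≤ r * r := mul_le_mul_of_nonneg_left h5 hr0.le
      have b2 : 2 * C * r / η = r * (32 * C * (1 + 8 * C / η) / η) / (8 * (1 + 8 * C / η)) / 2 := by
        field_simp; ring
      rw [b2]
      have b3 : r * (32 * C * (1 + 8 * C / η) / η) / (8 * (1 + 8 * C / η)) ≤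
          r ^ 2 / (8 * (1 + 8 * C / η)) := by
        apply div_le_div_of_nonneg_right _ (by positivity)
        nlinarith
      linarith
    rw [h4] at h3
    rw [h6]
    linarith

/-- lower bound of the radial gain by a multiple of `(1+y)²`. -/
theorem gain_lower {Λ tm y : ℝ} (htm : 0 < tm) (hΛ : 0 < Λ) (h4 : 4 * tm ^ 2 ≤ Λ) (hy : 0 ≤ y) :
    tm ^ 3 / (64 * (Λ + tm)) * (1 + y) ^ 2 ≤
      Λ / 4 + (y * tm) ^ 3 / (8 * (Λ + y * tm)) / 2 := by
  have hd : 0 < Λ + y * tm := by positivity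
  have hg : 0 ≤ (y * tm) ^ 3 / (8 * (Λ + y * tm)) / 2 := by positivity
  rcases le_total y 1 with h | h
  · have a1 : tm ^ 3 / (64 * (Λ + tm)) ≤ Λ / 16 := by
      rw [div_le_iff₀ (by positivity)]
      nlinarith [mul_pos htm hΛ, mul_pos (mul_pos htm htm) htm, mul_nonneg htm.le (sub_nonneg.2 h4),
        mul_pos hΛ hΛ]
    have a2 : (1 + y) ^ 2 ≤ 4 := by nlinarith
    calc tm ^ 3 / (64 * (Λ + tm)) * (1 + y) ^ 2 ≤ Λ / 16 * 4 := by
          apply mul_le_mul a1 a2 (by positivity) (by positivity)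
      _ ≤ _ := by linarith
  · have a1 : tm ^ 3 / (64 * (Λ + tm)) * (1 + y) ^ 2 ≤ tm ^ 3 / (64 * (Λ + tm)) * (4 * y ^ 2) := by
      apply mul_le_mul_of_nonneg_left _ (by positivity)
      nlinarith
    have a2 : tm ^ 3 / (64 * (Λ + tm)) * (4 * y ^ 2) = (y * tm) ^ 3 / (8 * (y * (Λ + tm))) / 2 := by
      field_simp; ring
    have a3 : (y * tm) ^ 3 / (8 * (y * (Λ + tm))) ≤ (y * tm) ^ 3 / (8 * (Λ + y * tm)) := by
      apply div_le_div_of_nonneg_left (by positivity) (by positivity)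
      nlinarith
    rw [a2] at a1
    linarith

/-- the cross term is absorbed -/
theorem cross_absorb {y tm τ η K a b X : ℝ} (hy : 0 ≤ y) (hτ : 0 < τ) (hη : 0 < η)
    (htm : tm = τ * η / 2) (hK : 0 ≤ K) (ha : 0 ≤ a) (hb : 0 ≤ b)
    (hX : |X| ≤ K * τ * Real.sqrt a * Real.sqrt b) :
    |2 * Real.sqrt (y * (1 + y)) * X| ≤
      (1 / 2) * ((1 + y) * tm * b) + 4 * K ^ 2 / η * (τ * y) * a := by
  have hs : 0 ≤ y * (1 + y) := by positivity
  set s := Real.sqrt (y * (1 + y)) with hsdef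
  have hs2 : s ^ 2 = y * (1 + y) := Real.sq_sqrt hs
  have hs0 : 0 ≤ s := Real.sqrt_nonneg _
  set p := Real.sqrt a with hp
  set r := Real.sqrt b with hr
  have hp2 : p ^ 2 = a := Real.sq_sqrt ha
  have hr2 : r ^ 2 = b := Real.sq_sqrt hb
  have hp0 : 0 ≤ p := Real.sqrt_nonneg _
  have hr0 : 0 ≤ r := Real.sqrt_nonneg _
  have h1 : |2 * s * X| ≤ 2 * s * (K * τ * p * r) := by
    rw [abs_mul, abs_of_nonneg (by positivity : (0:ℝ) ≤ 2 * s)]
    exact mul_le_mul_of_nonneg_left hX (by positivity)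
  refine h1.trans ?_
  rw [← hp2, ← hr2, htm]
  -- 2 s K τ p r ≤ (1+y) τ η r²/4 + 4K²/η τ y p²
  have h1y : 0 < 1 + y := by positivity
  have key : 0 ≤ (τ / (4 * η * (1 + y))) * ((1 + y) * η * r - 4 * s * K * p) ^ 2 := by positivity
  have e : (τ / (4 * η * (1 + y))) * ((1 + y) * η * r - 4 * s * K * p) ^ 2 =
      1 / 2 * ((1 + y) * (τ * η / 2) * r ^ 2) + 4 * K ^ 2 / η * (τ * y) * p ^ 2
        - 2 * s * (K * τ * p * r) := by
    have : (τ / (4 * η * (1 + y))) * ((1 + y) * η * r - 4 * s * K * p) ^ 2 =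
      1 / 2 * ((1 + y) * (τ * η / 2) * r ^ 2) + 4 * K ^ 2 * τ / (η * (1 + y)) * s ^ 2 * p ^ 2
        - 2 * s * (K * τ * p * r) := by
      field_simp; ring
    rw [this, hs2]
    field_simp
  linarith



end Crest.Agent.R245
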