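import Crest.Agent.R245.OpsKB

-- ▼ part R245/HDefs
section

/-! Definitions for the Hartogs metric formulas. -/

set_option autoImplicit false

namespace Crest.Agent.R245

open Complex Filter Topology
open scoped ContDiff ComplexConjugate

/-- `u = e^φ |ζ|²` -/
noncomputable def uu (φ : B2 → ℝ) (x : B2 × ℂ) : ℝ := Real.exp (φ x.1) * ‖x.2‖ ^ 2
/-- the moment `y = u/(1-u)` -/
noncomputable def yy (φ : B2 → ℝ) (x : B2 × ℂ) : ℝ := uu φ x / (1 - uu φ x)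
/-- `ν(X) = ζ ∂φ(X) + X_ζ` -/
noncomputable def nuu (φ : B2 → ℝ) (x : B2 × ℂ) (X : B2 × ℂ) : ℂ :=
  x.2 * dz X.1 (fun b => (φ b : ℂ)) x.1 + X.2
/-- unit vertical component `a(X) = √(y(1+y)) ν(X)/ζ` (for `ζ ≠ 0`). -/
noncomputable def aa (φ : B2 → ℝ) (x : B2 × ℂ) (X : B2 × ℂ) : ℂ :=
  (Real.sqrt (yy φ x * (1 + yy φ x)) : ℂ) * (nuu φ x X / x.2)

/-- the horizontal potential `H = A + y φ` (with `y` frozen). -/
noncomputable def Hpot (A φ : B2 → ℝ) (y : ℝ) (b : B2) : ℝ := A b + y * φ b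

/-- `𝒦_S(ξ,η) = S(ξ,ξ) S(η,η) - (Re S(ξ,η))² + 3 (Im S(ξ,η))²`, `S = i∂∂̄ S`-form. -/
noncomputable def calK (S : B2 → ℝ) (b ξ η : B2) : ℝ :=
  (D11 S ξ ξ b).re * (D11 S η η b).re - (D11 S ξ η b).re ^ 2 + 3 * (D11 S ξ η b).im ^ 2

/-- `m(v,w) = (1+2y) φ(v;w̄) - y(1+y) H(κ_v; κ_w)` where `H(κ_v;·) = φ(v;·)`. -/
noncomputable def mf (A φ : B2 → ℝ) (y : ℝ) (b : B2) (κ : B2 → B2) (v w : B2) : ℂ :=
  (1 + 2 * y) * D11 φ v w b - y * (1 + y) * D11 (Hpot A φ y) (κ v) (κ w) b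

/-- `N(X) = ∂s(X)`, `s = φ + log |ζ|²` -/
noncomputable def Nf (φ : B2 → ℝ) (x X : B2 × ℂ) : ℂ := dz X.1 (fun b => (φ b : ℂ)) x.1 + X.2 / x.2

end Crest.Agent.R245
end

-- ▼ part R245/HComp
section

/-! Row 245 (LemmaH): forms of a composition `f ∘ s`. -/

set_option autoImplicit false
set_option linter.unusedSectionVars false

namespace Crest.Agent.R245.HP

open Complex Filter Topology
open scoped ContDiff ComplexConjugate

section Comp

variable {V : Type*} [NormedAddCommGroup V] [NormedSpace ℝ V] [NormedSpace ℂ V] [IsScalarTower ℝ ℂ V]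



theorem dzb_comp_ev {s : V → ℝ} {f f1 : ℝ → ℝ} {p : V} (W : V) (hs : ContDiffAt ℝ 5 s p)
    (h1 : ∀ᶠ t in 𝓝 (s p), HasDerivAt f (f1 t) t) :
    dzb W (fun q => (f (s q) : ℂ)) =ᶠ[𝓝 p] fun q => (f1 (s q) : ℂ) * dzb W (fun q => (s q : ℂ)) q := by
  filter_upwards [hs.continuousAt.eventually h1, hs.eventually (by decide)] with q hq1 hq2
  rw [dzb_comp_real f s hq1.differentiableAt (hq2.differentiableAt (by norm_num)), hq1.deriv]

theorem dz_comp_ev {s : V → ℝ} {f f1 : ℝ → ℝ} {p : V} (W : V) (hs : ContDiffAt ℝ 5 s p)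
    (h1 : ∀ᶠ t in 𝓝 (s p), HasDerivAt f (f1 t) t) :
    dz W (fun q => (f (s q) : ℂ)) =ᶠ[𝓝 p] fun q => (f1 (s q) : ℂ) * dz W (fun q => (s q : ℂ)) q := by
  filter_upwards [hs.continuousAt.eventually h1, hs.eventually (by decide)] with q hq1 hq2
  rw [dz_comp_real f s hq1.differentiableAt (hq2.differentiableAt (by norm_num)), hq1.deriv]

theorem diff_comp_ev {s : V → ℝ} {f f1 : ℝ → ℝ} {p : V} (hs : ContDiffAt ℝ 5 s p)
    (h1 : ∀ᶠ t in 𝓝 (s p), HasDerivAt f (f1 t) t) :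
    ∀ᶠ q in 𝓝 p, DifferentiableAt ℝ (fun q => (f (s q) : ℂ)) q := by
  filter_upwards [hs.continuousAt.eventually h1, hs.eventually (by decide)] with q hq1 hq2
  exact differentiableAt_ofReal (hq1.differentiableAt.comp q (hq2.differentiableAt (by norm_num)))

/-- `D11 (f ∘ s)` in a neighbourhood -/
theorem dz_dzb_comp_ev {s : V → ℝ} {f f1 f2 : ℝ → ℝ} {p : V} (Y Z : V) (hs : ContDiffAt ℝ 5 s p)
    (h1 : ∀ᶠ t in 𝓝 (s p), HasDerivAt f (f1 t) t)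
    (h2 : ∀ᶠ t in 𝓝 (s p), HasDerivAt f1 (f2 t) t) :
    dz Y (dzb Z (fun q => (f (s q) : ℂ))) =ᶠ[𝓝 p] fun q =>
      (f2 (s q) : ℂ) * dz Y (fun q => (s q : ℂ)) q * dzb Z (fun q => (s q : ℂ)) q
      + (f1 (s q) : ℂ) * dz Y (dzb Z (fun q => (s q : ℂ))) q := by
  have e := dz_eventuallyEq (X := Y) (dzb_comp_ev Z hs h1)
  refine e.trans ?_
  filter_upwards [diff_comp_ev hs h2, hs.eventually (by decide), dz_comp_ev Y hs h2]
    with q hq1 hq2 hq3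
  have hS := contDiffAt_ofReal hq2
  have hZ : DifferentiableAt ℝ (dzb Z (fun q => (s q : ℂ))) q :=
    (contDiffAt_dzb_le (n := 4) Z hS (by norm_num)).differentiableAt (by norm_num)
  rw [dz_mul hq1 hZ, hq3]


theorem D11_comp {s : V → ℝ} {f f1 f2 : ℝ → ℝ} {p : V} (X Z : V) (hs : ContDiffAt ℝ 5 s p)
    (h1 : ∀ᶠ t in 𝓝 (s p), HasDerivAt f (f1 t) t)
    (h2 : ∀ᶠ t in 𝓝 (s p), HasDerivAt f1 (f2 t) t) :
    D11 (fun q => f (s q)) X Z p = (f1 (s p) : ℂ) * D11 s X Z p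
      + (f2 (s p) : ℂ) * (dz X (fun q => (s q : ℂ)) p * dzb Z (fun q => (s q : ℂ)) p) := by
  unfold D11
  rw [(dz_dzb_comp_ev X Z hs h1 h2).eq_of_nhds]
  ring




end Comp

end Crest.Agent.R245.HP
end

-- ▼ part R245/HPot
section

/-! Row 245 (LemmaH): the functions `|ζ|²`, `log |ζ|²`, `φ ∘ fst` on `B2 × ℂ`. -/

set_option autoImplicit false
set_option linter.unusedSectionVars false

namespace Crest.Agent.R245.HP

open Complex Filter Topology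
open scoped ContDiff ComplexConjugate

theorem dz_comp_fst {g : B2 → ℂ} {q : B2 × ℂ} (X : B2 × ℂ) (hg : DifferentiableAt ℝ g q.1) :
    dz X (fun q : B2 × ℂ => g q.1) q = dz X.1 g q.1 := by
  have h := dz_comp_affine (X := X) (p := q) (ContinuousLinearMap.fst ℂ B2 ℂ) (0 : B2) (f := g)
    (by simpa using hg)
  simpa using h

theorem dzb_comp_fst {g : B2 → ℂ} {q : B2 × ℂ} (X : B2 × ℂ) (hg : DifferentiableAt ℝ g q.1) :
    dzb X (fun q : B2 × ℂ => g q.1) q = dzb X.1 g q.1 := by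
  have h := dzb_comp_affine (X := X) (p := q) (ContinuousLinearMap.fst ℂ B2 ℂ) (0 : B2) (f := g)
    (by simpa using hg)
  simpa using h

theorem diffC_snd (q : B2 × ℂ) : DifferentiableAt ℂ (fun q : B2 × ℂ => q.2) q := differentiableAt_snd

theorem diffR_snd (q : B2 × ℂ) : DifferentiableAt ℝ (fun q : B2 × ℂ => q.2) q := differentiableAt_snd

theorem diffR_conj {V : Type*} [NormedAddCommGroup V] [NormedSpace ℝ V] {f : V → ℂ} {q : V}
    (hf : DifferentiableAt ℝ f q) : DifferentiableAt ℝ (fun q => conj (f q)) q := by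
  have : (fun q => conj (f q)) = conjCLE ∘ f := by ext q; simp
  rw [this]
  exact (conjCLE.differentiableAt (x := f q)).comp q hf

theorem dz_snd (X q : B2 × ℂ) : dz X (fun q : B2 × ℂ => q.2) q = X.2 := by
  rw [dz_hol (diffC_snd q)]
  have : HasFDerivAt (𝕜 := ℂ) (fun q : B2 × ℂ => q.2) (ContinuousLinearMap.snd ℂ B2 ℂ) q :=
    hasFDerivAt_snd
  rw [this.fderiv]; rfl

theorem dzb_snd (X q : B2 × ℂ) : dzb X (fun q : B2 × ℂ => q.2) q = 0 := dzb_hol (diffC_snd q)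

theorem dz_conj_snd (X q : B2 × ℂ) : dz X (fun q : B2 × ℂ => conj q.2) q = 0 := by
  rw [dz_conj X (fun q : B2 × ℂ => q.2) q, dzb_snd, map_zero]


theorem normSq_eq (z : ℂ) : (((‖z‖ ^ 2 : ℝ)) : ℂ) = z * conj z := by
  rw [mul_conj, normSq_eq_norm_sq]


theorem contDiff_normSq_snd : ContDiff ℝ ∞ (fun q : B2 × ℂ => ‖q.2‖ ^ 2) :=
  contDiff_snd.norm_sq ℝ














end Crest.Agent.R245.HP
end

-- ▼ part R245/LemmaH1
section

/-! TASK LemmaH1: derivatives of `hart A φ`. -/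

set_option autoImplicit false
set_option linter.unusedSectionVars false

namespace Crest.Agent.R245.HP

open Complex Filter Topology
open scoped ContDiff ComplexConjugate









section

variable {A φ : B2 → ℝ} {x : B2 × ℂ}

theorem contDiffAt_base {g : B2 → ℝ} (hg : ContDiffAt ℝ ∞ g x.1) :
    ContDiffAt ℝ ∞ (fun q : B2 × ℂ => g q.1) x := hg.comp x contDiffAt_fst

theorem five_le : (5 : WithTop ℕ∞) ≤ ∞ := WithTop.coe_le_coe.2 le_top













theorem D11_fst {g : B2 → ℝ} (hg : ContDiffAt ℝ ∞ g x.1) (X Y : B2 × ℂ) :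
    D11 (fun q : B2 × ℂ => g q.1) X Y x = D11 g X.1 Y.1 x.1 := by
  have h := D11_comp_affine (p := x) (ContinuousLinearMap.fst ℂ B2 ℂ) (0 : B2) (f := g)
    (by simpa using hg) X Y
  simpa using h






end

section uufacts

variable {A φ : B2 → ℝ} {x : B2 × ℂ}

theorem contDiffAt_uu (hφ : ContDiffAt ℝ ∞ φ x.1) : ContDiffAt ℝ ∞ (uu φ) x := by
  unfold uu
  exact (Real.contDiff_exp.contDiffAt.comp x (contDiffAt_base hφ)).mul
    contDiff_normSq_snd.contDiffAt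

theorem nuu_eq (q : B2 × ℂ) (X : B2 × ℂ) :
    nuu φ q X = q.2 * dz X.1 (fun b => (φ b : ℂ)) q.1 + X.2 := rfl


theorem uu_cast : (fun q => (uu φ q : ℂ)) =
    fun q : B2 × ℂ => ((Real.exp (φ q.1) : ℝ) : ℂ) * (q.2 * conj q.2) := by
  ext q
  unfold uu
  rw [ofReal_mul, normSq_eq]

theorem diff_expφ (hφ : ContDiffAt ℝ 5 φ x.1) :
    DifferentiableAt ℝ (fun q : B2 × ℂ => ((Real.exp (φ q.1) : ℝ) : ℂ)) x := by
  have h1 : DifferentiableAt ℝ (fun q : B2 × ℂ => φ q.1) x :=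
    DifferentiableAt.comp x (f := fun q : B2 × ℂ => q.1) (g := φ)
      (hφ.differentiableAt (by norm_num)) differentiableAt_fst
  exact differentiableAt_ofReal h1.exp

theorem dz_expφ (hφ : ContDiffAt ℝ 5 φ x.1) (X : B2 × ℂ) :
    dz X (fun q : B2 × ℂ => ((Real.exp (φ q.1) : ℝ) : ℂ)) x =
      ((Real.exp (φ x.1) : ℝ) : ℂ) * dz X.1 (fun b => (φ b : ℂ)) x.1 := by
  have d0 : DifferentiableAt ℝ φ x.1 := hφ.differentiableAt (by norm_num)
  have h1 : DifferentiableAt ℝ (fun q : B2 × ℂ => φ q.1) x :=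
    DifferentiableAt.comp x (f := fun q : B2 × ℂ => q.1) (g := φ) d0 differentiableAt_fst
  rw [dz_comp_real Real.exp (fun q : B2 × ℂ => φ q.1) Real.differentiableAt_exp h1, Real.deriv_exp,
    dz_comp_fst X (differentiableAt_ofReal d0)]

theorem dz_uu (hφ : ContDiffAt ℝ 5 φ x.1) (X : B2 × ℂ) :
    dz X (fun q => (uu φ q : ℂ)) x =
      ((Real.exp (φ x.1) : ℝ) : ℂ) * (conj x.2 * nuu φ x X) := by
  rw [uu_cast, dz_mul (u := fun q : B2 × ℂ => ((Real.exp (φ q.1) : ℝ) : ℂ))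
    (v := fun q : B2 × ℂ => q.2 * conj q.2) (diff_expφ hφ)
    ((diffR_snd x).mul (diffR_conj (diffR_snd x))),
    dz_mul (diffR_snd x) (diffR_conj (diffR_snd x)), dz_expφ hφ, dz_snd, dz_conj_snd, nuu_eq]
  ring

theorem dzb_uu_ev (hφ : ContDiffAt ℝ 5 φ x.1) (X : B2 × ℂ) :
    dzb X (fun q => (uu φ q : ℂ)) =ᶠ[𝓝 x] fun q =>
      ((Real.exp (φ q.1) : ℝ) : ℂ) * (q.2 * conj (nuu φ q X)) := by
  have h2 : ∀ᶠ q : B2 × ℂ in 𝓝 x, ContDiffAt ℝ 5 φ q.1 :=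
    continuousAt_fst.eventually (hφ.eventually (by decide))
  filter_upwards [h2] with q hq
  rw [dzb_ofReal, dz_uu hq]
  simp only [map_mul, conj_conj, conj_ofReal]

theorem dz_conj_nuu (hφ : ContDiffAt ℝ 5 φ x.1) (X Z : B2 × ℂ) :
    DifferentiableAt ℝ (fun q : B2 × ℂ => conj (nuu φ q Z)) x ∧
    dz X (fun q : B2 × ℂ => conj (nuu φ q Z)) x = conj x.2 * D11 φ X.1 Z.1 x.1 := by
  have hφC := contDiffAt_ofReal hφ
  have d1 : DifferentiableAt ℝ (dz Z.1 (fun b => (φ b : ℂ))) x.1 :=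
    (contDiffAt_dz_le (n := 4) Z.1 hφC (by norm_num)).differentiableAt (by norm_num)
  have d2 : DifferentiableAt ℝ (fun q : B2 × ℂ => dz Z.1 (fun b => (φ b : ℂ)) q.1) x :=
    DifferentiableAt.comp x (f := fun q : B2 × ℂ => q.1) d1 differentiableAt_fst
  have d3 : DifferentiableAt ℝ (fun q : B2 × ℂ => nuu φ q Z) x := by
    unfold nuu
    exact ((diffR_snd x).mul d2).add_const _
  refine ⟨diffR_conj d3, ?_⟩
  rw [dz_conj X (fun q : B2 × ℂ => nuu φ q Z) x]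
  have e1 : dzb X (fun q : B2 × ℂ => nuu φ q Z) x =
      x.2 * dzb X.1 (dz Z.1 (fun b => (φ b : ℂ))) x.1 := by
    have e2 : (fun q : B2 × ℂ => nuu φ q Z) =
        fun q => (q.2 * dz Z.1 (fun b => (φ b : ℂ)) q.1) + Z.2 := rfl
    rw [e2, dzb_add (u := fun q : B2 × ℂ => q.2 * dz Z.1 (fun b => (φ b : ℂ)) q.1)
      ((diffR_snd x).mul d2) (differentiableAt_const _), dzb_const,
      dzb_mul (diffR_snd x) d2, dzb_snd, dzb_comp_fst X d1]
    ring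
  rw [e1, map_mul]
  congr 1
  unfold D11
  rw [← dz_dzb_comm (hφC.of_le (by norm_num))]
  have e3 : dzb Z.1 (fun q => (φ q : ℂ)) = fun q => conj (dz Z.1 (fun q => (φ q : ℂ)) q) := by
    ext q; exact dzb_ofReal Z.1 φ q
  rw [e3, dz_conj X.1 (dz Z.1 (fun q => (φ q : ℂ))) x.1,
    ← dz_dzb_comm (hφC.of_le (by norm_num))]

theorem D11_uu (hφ : ContDiffAt ℝ 5 φ x.1) (X Z : B2 × ℂ) :
    D11 (uu φ) X Z x = ((Real.exp (φ x.1) : ℝ) : ℂ) * (nuu φ x X * conj (nuu φ x Z))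
      + (uu φ x : ℂ) * D11 φ X.1 Z.1 x.1 := by
  unfold D11
  rw [dz_congr (dzb_uu_ev hφ Z)]
  obtain ⟨d1, e1⟩ := dz_conj_nuu hφ X Z
  have k1 := dz_mul (X := X) (u := fun q : B2 × ℂ => ((Real.exp (φ q.1) : ℝ) : ℂ))
    (v := fun q : B2 × ℂ => q.2 * conj (nuu φ q Z)) (diff_expφ hφ) ((diffR_snd x).mul d1)
  have k2 := dz_mul (X := X) (diffR_snd x) d1
  rw [k1, k2, dz_expφ hφ, dz_snd, e1]
  have e2 : (uu φ x : ℂ) = ((Real.exp (φ x.1) : ℝ) : ℂ) * (x.2 * conj x.2) := by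
    unfold uu; rw [ofReal_mul, normSq_eq]
  rw [e2, nuu_eq x X]
  unfold D11
  ring

theorem contDiffAt_log_uu (hφ : ContDiffAt ℝ ∞ φ x.1) (hx : uu φ x < 1) :
    ContDiffAt ℝ ∞ (fun q => - Real.log (1 - uu φ q)) x :=
  ((contDiffAt_const.sub (contDiffAt_uu hφ)).log (by linarith [hx] : (1 : ℝ) - uu φ x ≠ 0)).neg

end uufacts

end Crest.Agent.R245.HP

namespace Crest.Agent.R245

open HP Complex Filter Topology
open scoped ContDiff ComplexConjugate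

/-- the metric of `hart A φ` -/
theorem hart_D11 (A φ : B2 → ℝ) (x : B2 × ℂ) (hA : ContDiffAt ℝ ∞ A x.1)
    (hφ : ContDiffAt ℝ ∞ φ x.1) (hx : uu φ x < 1) (X Y : B2 × ℂ) :
    D11 (hart A φ) X Y x = D11 A X.1 Y.1 x.1 + (yy φ x : ℂ) * D11 φ X.1 Y.1 x.1
      + ((Real.exp (φ x.1) / (1 - uu φ x) ^ 2 : ℝ) : ℂ) * nuu φ x X * conj (nuu φ x Y) := by
  have hφ5 : ContDiffAt ℝ 5 φ x.1 := hφ.of_le five_le
  have e : hart A φ = fun q => A q.1 + (fun q => - Real.log (1 - uu φ q)) q := by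
    ext q; unfold hart uu; ring
  have h1' : ∀ t : ℝ, t < 1 → HasDerivAt (fun t => - Real.log (1 - t)) ((1 - t)⁻¹) t := by
    intro t ht
    have h2 : HasDerivAt (fun t : ℝ => 1 - t) (-1) t := by simpa using (hasDerivAt_id t).const_sub 1
    refine (h2.log (by linarith : (1 : ℝ) - t ≠ 0)).neg.congr_deriv ?_
    ring
  have h2' : ∀ t : ℝ, t < 1 → HasDerivAt (fun t : ℝ => (1 - t)⁻¹) (((1 - t) ^ 2)⁻¹) t := by
    intro t ht
    have h2 : HasDerivAt (fun t : ℝ => 1 - t) (-1) t := by simpa using (hasDerivAt_id t).const_sub 1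
    refine (h2.inv (by linarith : (1 : ℝ) - t ≠ 0)).congr_deriv ?_
    ring
  have hev : ∀ᶠ t in 𝓝 (uu φ x), t < 1 := eventually_lt_nhds hx
  have h11 := D11_comp (f := fun t => - Real.log (1 - t)) (f1 := fun t => (1 - t)⁻¹)
    (f2 := fun t => ((1 - t) ^ 2)⁻¹) X Y ((contDiffAt_uu hφ).of_le five_le)
    (hev.mono h1') (hev.mono h2')
  rw [e, D11_add (contDiffAt_base hA) (contDiffAt_log_uu hφ hx), D11_fst hA]
  have h12 : D11 (fun q => - Real.log (1 - uu φ q)) X Y x =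
      D11 (fun q => (fun t => - Real.log (1 - t)) (uu φ q)) X Y x := rfl
  rw [h12, h11, D11_uu hφ5, dz_uu hφ5, dzb_ofReal, dz_uu hφ5]
  have hne : (1 : ℂ) - (uu φ x : ℂ) ≠ 0 := by
    have : (1 : ℝ) - uu φ x ≠ 0 := by linarith
    exact_mod_cast this
  have e2 : (uu φ x : ℂ) = ((Real.exp (φ x.1) : ℝ) : ℂ) * (x.2 * conj x.2) := by
    unfold uu; rw [ofReal_mul, normSq_eq]
  have e3 : (yy φ x : ℂ) = (uu φ x : ℂ) / (1 - (uu φ x : ℂ)) := by
    unfold yy; push_cast; rfl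
  rw [e3]
  simp only [map_mul, conj_conj, conj_ofReal]
  push_cast
  field_simp
  have e4 : (cexp (φ x.1 : ℂ)) * (x.2 * conj x.2) = (uu φ x : ℂ) := by
    rw [e2]; push_cast; rfl
  linear_combination (cexp (φ x.1 : ℂ) * nuu φ x X * conj (nuu φ x Y)) * e4

/-- same in terms of `aa` for `ζ ≠ 0` -/
theorem hart_D11' (A φ : B2 → ℝ) (x : B2 × ℂ) (hA : ContDiffAt ℝ ∞ A x.1)
    (hφ : ContDiffAt ℝ ∞ φ x.1) (hx : uu φ x < 1) (hζ : x.2 ≠ 0) (X Y : B2 × ℂ) :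
    D11 (hart A φ) X Y x = D11 (Hpot A φ (yy φ x)) X.1 Y.1 x.1 + aa φ x X * conj (aa φ x Y) := by
  rw [hart_D11 A φ x hA hφ hx]
  have hu0 : 0 ≤ uu φ x := by unfold uu; positivity
  have hy0 : 0 ≤ yy φ x := div_nonneg hu0 (by linarith)
  have e1 : D11 (Hpot A φ (yy φ x)) X.1 Y.1 x.1 =
      D11 A X.1 Y.1 x.1 + (yy φ x : ℂ) * D11 φ X.1 Y.1 x.1 := by
    have hc : ContDiffAt ℝ ∞ (fun b => yy φ x * φ b) x.1 := contDiffAt_const.mul hφ
    have h := D11_add hA hc X.1 Y.1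
    rw [D11_const_mul hφ] at h
    exact h
  rw [e1]
  unfold aa
  rw [map_mul, conj_ofReal, map_div₀]
  have hsq : ((Real.sqrt (yy φ x * (1 + yy φ x)) : ℝ) : ℂ) *
      ((Real.sqrt (yy φ x * (1 + yy φ x)) : ℝ) : ℂ) = ((yy φ x * (1 + yy φ x) : ℝ) : ℂ) := by
    rw [← ofReal_mul, Real.mul_self_sqrt (by positivity)]
  have hyy : ((yy φ x * (1 + yy φ x) : ℝ) : ℂ) =
      ((Real.exp (φ x.1) / (1 - uu φ x) ^ 2 : ℝ) : ℂ) * (x.2 * conj x.2) := by
    rw [← normSq_eq, ← ofReal_mul]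
    congr 1
    unfold yy
    have : (1 : ℝ) - uu φ x ≠ 0 := by linarith
    field_simp
    unfold uu; ring
  have hc : conj x.2 ≠ 0 := by simpa using hζ
  calc D11 A X.1 Y.1 x.1 + (yy φ x : ℂ) * D11 φ X.1 Y.1 x.1
      + ((Real.exp (φ x.1) / (1 - uu φ x) ^ 2 : ℝ) : ℂ) * nuu φ x X * conj (nuu φ x Y)
      = D11 A X.1 Y.1 x.1 + (yy φ x : ℂ) * D11 φ X.1 Y.1 x.1 +
        (((Real.exp (φ x.1) / (1 - uu φ x) ^ 2 : ℝ) : ℂ) * (x.2 * conj x.2)) *
          (nuu φ x X / x.2 * (conj (nuu φ x Y) / conj x.2)) := by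
        field_simp
    _ = _ := by
        rw [← hyy, ← hsq]; ring



end Crest.Agent.R245
end

-- ▼ part R245/HartCalc
section
set_option autoImplicit false
set_option linter.unusedSectionVars false

namespace Crest.Agent.R245

open Complex Filter Topology
open scoped ContDiff ComplexConjugate

namespace HH

section Gen

variable {V : Type*} [NormedAddCommGroup V] [NormedSpace ℝ V] [NormedSpace ℂ V] [IsScalarTower ℝ ℂ V]

theorem two_le_inf : (2 : WithTop ℕ∞) ≤ ∞ :=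
  show ((2:ℕ∞) : WithTop ℕ∞) ≤ ((⊤:ℕ∞) : WithTop ℕ∞) from WithTop.coe_le_coe.2 le_top

theorem ev_diff {u : V → ℂ} {p : V} (h : ContDiffAt ℝ ∞ u p) :
    ∀ᶠ q in 𝓝 p, DifferentiableAt ℝ u q := by
  have h1 : ContDiffAt ℝ 1 u p := h.of_le (by exact_mod_cast le_top)
  filter_upwards [h1.eventually (by simp)] with q hq using hq.differentiableAt (by simp)

theorem ev_cd2 {u : V → ℂ} {p : V} (h : ContDiffAt ℝ ∞ u p) :
    ∀ᶠ q in 𝓝 p, ContDiffAt ℝ 2 u q := by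
  have h1 : ContDiffAt ℝ 2 u p := h.of_le two_le_inf
  exact h1.eventually (by simp)

theorem D12_eq {T : V → ℝ} {p : V} (hT : ContDiffAt ℝ ∞ T p) (Y Z W : V) :
    dz Y (dzb Z (dzb W (fun q => (T q : ℂ)))) p = conj (D21 T Z W Y p) := by
  have hTc : ContDiffAt ℝ ∞ (fun q => (T q : ℂ)) p := contDiffAt_ofReal hT
  have e1 : dzb W (fun q => (T q : ℂ)) = fun q => conj (dz W (fun q => (T q : ℂ)) q) := by
    funext q; exact dzb_ofReal W T q
  have e2 : dzb Z (dzb W (fun q => (T q : ℂ))) =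
      fun q => conj (dz Z (dz W (fun q => (T q : ℂ))) q) := by
    rw [e1]; funext q; exact dzb_conj Z _ q
  rw [e2, dz_conj]
  congr 1
  unfold D21
  have hW : ContDiffAt ℝ ∞ (dz W (fun q => (T q : ℂ))) p := contDiffAt_dz_inf W hTc
  rw [← dz_dzb_comm (hW.of_le two_le_inf)]
  apply dz_congr
  filter_upwards [ev_cd2 hTc] with q hq
  exact (dz_dzb_comm hq).symm


theorem D02_eq {T : V → ℝ} (p : V) (Z W : V) :
    dzb Z (dzb W (fun q => (T q : ℂ))) p = conj (dz Z (dz W (fun q => (T q : ℂ))) p) := by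
  have e1 : dzb W (fun q => (T q : ℂ)) = fun q => conj (dz W (fun q => (T q : ℂ)) q) := by
    funext q; exact dzb_ofReal W T q
  rw [e1]; exact dzb_conj Z _ p

variable {a t y P : V → ℝ} {p : V}

/-- `P = a + f(t)` with `y = f'(t)`, `y' = y (1 + y)`. -/
structure HG (a t y P : V → ℝ) (p : V) : Prop where
  ha : ContDiffAt ℝ ∞ a p
  ht : ContDiffAt ℝ ∞ t p
  hy : ContDiffAt ℝ ∞ y p
  hP : ContDiffAt ℝ ∞ P p
  e1 : ∀ᶠ q in 𝓝 p, ∀ W, dzb W (fun q => (P q : ℂ)) q =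
    dzb W (fun q => (a q : ℂ)) q + (y q : ℂ) * dzb W (fun q => (t q : ℂ)) q
  e2 : ∀ᶠ q in 𝓝 p, ∀ W, dz W (fun q => (y q : ℂ)) q =
    (y q : ℂ) * (1 + y q) * dz W (fun q => (t q : ℂ)) q
  e3 : ∀ᶠ q in 𝓝 p, ∀ W, dzb W (fun q => (y q : ℂ)) q =
    (y q : ℂ) * (1 + y q) * dzb W (fun q => (t q : ℂ)) q

theorem HG.s11 (h : HG a t y P p) (Y W : V) : ∀ᶠ q in 𝓝 p,
    dz Y (dzb W (fun q => (P q : ℂ))) q = dz Y (dzb W (fun q => (a q : ℂ))) q
      + ((y q : ℂ) * (1 + y q) * dz Y (fun q => (t q : ℂ)) q * dzb W (fun q => (t q : ℂ)) q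
      + (y q : ℂ) * dz Y (dzb W (fun q => (t q : ℂ))) q) := by
  have hac := contDiffAt_ofReal h.ha
  have htc := contDiffAt_ofReal h.ht
  have hyc := contDiffAt_ofReal h.hy
  have A1 := ev_diff (contDiffAt_dzb_inf W hac)
  have A2 := ev_diff (contDiffAt_dzb_inf W htc)
  have A3 := ev_diff hyc
  have E := dz_eventuallyEq (X := Y) (h.e1.mono (fun q hq => hq W))
  filter_upwards [E, A1, A2, A3, h.e2] with q hE h1 h2 h3 he2
  rw [hE, dz_add h1 (h3.fun_mul h2), dz_mul h3 h2, he2]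

theorem HG.s02 (h : HG a t y P p) (Y W : V) : ∀ᶠ q in 𝓝 p,
    dzb Y (dzb W (fun q => (P q : ℂ))) q = dzb Y (dzb W (fun q => (a q : ℂ))) q
      + ((y q : ℂ) * (1 + y q) * dzb Y (fun q => (t q : ℂ)) q * dzb W (fun q => (t q : ℂ)) q
      + (y q : ℂ) * dzb Y (dzb W (fun q => (t q : ℂ))) q) := by
  have hac := contDiffAt_ofReal h.ha
  have htc := contDiffAt_ofReal h.ht
  have hyc := contDiffAt_ofReal h.hy
  have A1 := ev_diff (contDiffAt_dzb_inf W hac)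
  have A2 := ev_diff (contDiffAt_dzb_inf W htc)
  have A3 := ev_diff hyc
  have E := dzb_eventuallyEq (X := Y) (h.e1.mono (fun q hq => hq W))
  filter_upwards [E, A1, A2, A3, h.e3] with q hE h1 h2 h3 he3
  rw [hE, dzb_add h1 (h3.fun_mul h2), dzb_mul h3 h2, he3]

theorem HG.s21 (h : HG a t y P p) (X Y W : V) : ∀ᶠ q in 𝓝 p,
    dz X (dz Y (dzb W (fun q => (P q : ℂ)))) q = dz X (dz Y (dzb W (fun q => (a q : ℂ)))) q
      + ((y q : ℂ) * (1 + y q) * (1 + 2 * y q) * dz X (fun q => (t q : ℂ)) q *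
          dz Y (fun q => (t q : ℂ)) q * dzb W (fun q => (t q : ℂ)) q
      + (y q : ℂ) * (1 + y q) * (dz X (dz Y (fun q => (t q : ℂ))) q * dzb W (fun q => (t q : ℂ)) q
          + dz Y (fun q => (t q : ℂ)) q * dz X (dzb W (fun q => (t q : ℂ))) q
          + dz X (fun q => (t q : ℂ)) q * dz Y (dzb W (fun q => (t q : ℂ))) q)
      + (y q : ℂ) * dz X (dz Y (dzb W (fun q => (t q : ℂ)))) q) := by
  have hac := contDiffAt_ofReal h.ha
  have htc := contDiffAt_ofReal h.ht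
  have hyc := contDiffAt_ofReal h.hy
  have A1 := ev_diff (contDiffAt_dz_inf Y (contDiffAt_dzb_inf W hac))
  have A2 := ev_diff (contDiffAt_dz_inf Y (contDiffAt_dzb_inf W htc))
  have A3 := ev_diff hyc
  have A4 := ev_diff (contDiffAt_dz_inf Y htc)
  have A5 := ev_diff (contDiffAt_dzb_inf W htc)
  have E := dz_eventuallyEq (X := X) (h.s11 Y W)
  filter_upwards [E, A1, A2, A3, A4, A5, h.e2] with q hE h1 h2 h3 h4 h5 he2
  have h6 : DifferentiableAt ℝ (fun q => (1 + (y q : ℂ))) q := h3.const_add 1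
  rw [hE, dz_add h1 ((((h3.fun_mul h6).fun_mul h4).fun_mul h5).fun_add (h3.fun_mul h2)),
    dz_add (((h3.fun_mul h6).fun_mul h4).fun_mul h5) (h3.fun_mul h2), dz_mul h3 h2,
    dz_mul ((h3.fun_mul h6).fun_mul h4) h5, dz_mul (h3.fun_mul h6) h4, dz_mul h3 h6,
    dz_add (differentiableAt_const 1) h3, dz_const, he2]
  ring

theorem HG.s12 (h : HG a t y P p) (X Y W : V) : ∀ᶠ q in 𝓝 p,
    dz X (dzb Y (dzb W (fun q => (P q : ℂ)))) q = dz X (dzb Y (dzb W (fun q => (a q : ℂ)))) q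
      + ((y q : ℂ) * (1 + y q) * (1 + 2 * y q) * dz X (fun q => (t q : ℂ)) q *
          dzb Y (fun q => (t q : ℂ)) q * dzb W (fun q => (t q : ℂ)) q
      + (y q : ℂ) * (1 + y q) * (dz X (dzb Y (fun q => (t q : ℂ))) q * dzb W (fun q => (t q : ℂ)) q
          + dzb Y (fun q => (t q : ℂ)) q * dz X (dzb W (fun q => (t q : ℂ))) q
          + dz X (fun q => (t q : ℂ)) q * dzb Y (dzb W (fun q => (t q : ℂ))) q)
      + (y q : ℂ) * dz X (dzb Y (dzb W (fun q => (t q : ℂ)))) q) := by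
  have hac := contDiffAt_ofReal h.ha
  have htc := contDiffAt_ofReal h.ht
  have hyc := contDiffAt_ofReal h.hy
  have A1 := ev_diff (contDiffAt_dzb_inf Y (contDiffAt_dzb_inf W hac))
  have A2 := ev_diff (contDiffAt_dzb_inf Y (contDiffAt_dzb_inf W htc))
  have A3 := ev_diff hyc
  have A4 := ev_diff (contDiffAt_dzb_inf Y htc)
  have A5 := ev_diff (contDiffAt_dzb_inf W htc)
  have E := dz_eventuallyEq (X := X) (h.s02 Y W)
  filter_upwards [E, A1, A2, A3, A4, A5, h.e2] with q hE h1 h2 h3 h4 h5 he2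
  have h6 : DifferentiableAt ℝ (fun q => (1 + (y q : ℂ))) q := h3.const_add 1
  rw [hE, dz_add h1 ((((h3.fun_mul h6).fun_mul h4).fun_mul h5).fun_add (h3.fun_mul h2)),
    dz_add (((h3.fun_mul h6).fun_mul h4).fun_mul h5) (h3.fun_mul h2), dz_mul h3 h2,
    dz_mul ((h3.fun_mul h6).fun_mul h4) h5, dz_mul (h3.fun_mul h6) h4, dz_mul h3 h6,
    dz_add (differentiableAt_const 1) h3, dz_const, he2]
  ring

theorem HG.s22 (h : HG a t y P p) (X Y Z W : V) :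
    dz X (dz Y (dzb Z (dzb W (fun q => (P q : ℂ))))) p =
      dz X (dz Y (dzb Z (dzb W (fun q => (a q : ℂ))))) p
      + ((y p : ℂ) * (1 + y p) * (1 + 6 * y p + 6 * (y p) ^ 2) * dz X (fun q => (t q : ℂ)) p *
          dz Y (fun q => (t q : ℂ)) p * dzb Z (fun q => (t q : ℂ)) p * dzb W (fun q => (t q : ℂ)) p
      + (y p : ℂ) * (1 + y p) * (1 + 2 * y p) *
        (dz X (dz Y (fun q => (t q : ℂ))) p * dzb Z (fun q => (t q : ℂ)) p * dzb W (fun q => (t q : ℂ)) p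
        + dz Y (fun q => (t q : ℂ)) p * dz X (dzb Z (fun q => (t q : ℂ))) p * dzb W (fun q => (t q : ℂ)) p
        + dz Y (fun q => (t q : ℂ)) p * dzb Z (fun q => (t q : ℂ)) p * dz X (dzb W (fun q => (t q : ℂ))) p
        + dz X (fun q => (t q : ℂ)) p * dz Y (dzb Z (fun q => (t q : ℂ))) p * dzb W (fun q => (t q : ℂ)) p
        + dz X (fun q => (t q : ℂ)) p * dzb Z (fun q => (t q : ℂ)) p * dz Y (dzb W (fun q => (t q : ℂ))) p
        + dz X (fun q => (t q : ℂ)) p * dz Y (fun q => (t q : ℂ)) p * dzb Z (dzb W (fun q => (t q : ℂ))) p)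
      + (y p : ℂ) * (1 + y p) *
        (dz X (dz Y (dzb Z (fun q => (t q : ℂ)))) p * dzb W (fun q => (t q : ℂ)) p
        + dz Y (dzb Z (fun q => (t q : ℂ))) p * dz X (dzb W (fun q => (t q : ℂ))) p
        + dz X (dzb Z (fun q => (t q : ℂ))) p * dz Y (dzb W (fun q => (t q : ℂ))) p
        + dzb Z (fun q => (t q : ℂ)) p * dz X (dz Y (dzb W (fun q => (t q : ℂ)))) p
        + dz X (dz Y (fun q => (t q : ℂ))) p * dzb Z (dzb W (fun q => (t q : ℂ))) p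
        + dz Y (fun q => (t q : ℂ)) p * dz X (dzb Z (dzb W (fun q => (t q : ℂ)))) p
        + dz X (fun q => (t q : ℂ)) p * dz Y (dzb Z (dzb W (fun q => (t q : ℂ)))) p)
      + (y p : ℂ) * dz X (dz Y (dzb Z (dzb W (fun q => (t q : ℂ))))) p) := by
  have hac := contDiffAt_ofReal h.ha
  have htc := contDiffAt_ofReal h.ht
  have hyc := contDiffAt_ofReal h.hy
  have A1 := (ev_diff (contDiffAt_dz_inf Y (contDiffAt_dzb_inf Z (contDiffAt_dzb_inf W hac)))).self_of_nhds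
  have A2 := (ev_diff (contDiffAt_dz_inf Y (contDiffAt_dzb_inf Z (contDiffAt_dzb_inf W htc)))).self_of_nhds
  have A3 := (ev_diff hyc).self_of_nhds
  have A4 := (ev_diff (contDiffAt_dz_inf Y htc)).self_of_nhds
  have A5 := (ev_diff (contDiffAt_dzb_inf Z htc)).self_of_nhds
  have A6 := (ev_diff (contDiffAt_dzb_inf W htc)).self_of_nhds
  have A7 := (ev_diff (contDiffAt_dz_inf Y (contDiffAt_dzb_inf Z htc))).self_of_nhds
  have A8 := (ev_diff (contDiffAt_dz_inf Y (contDiffAt_dzb_inf W htc))).self_of_nhds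
  have A9 := (ev_diff (contDiffAt_dzb_inf Z (contDiffAt_dzb_inf W htc))).self_of_nhds
  have E := dz_congr (X := X) (h.s12 Y Z W)
  have he2 := h.e2.self_of_nhds X
  have B1 : DifferentiableAt ℝ (fun q => (1 + (y q : ℂ))) p := A3.const_add 1
  have B2 : DifferentiableAt ℝ (fun q => (2 * (y q : ℂ))) p := A3.const_mul 2
  have B3 : DifferentiableAt ℝ (fun q => (1 + 2 * (y q : ℂ))) p := B2.const_add 1
  have C1 : DifferentiableAt ℝ (fun q => (y q : ℂ) * (1 + y q)) p := A3.fun_mul B1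
  have C2 : DifferentiableAt ℝ (fun q => (y q : ℂ) * (1 + y q) * (1 + 2 * y q)) p := C1.fun_mul B3
  have C3 : DifferentiableAt ℝ (fun q => (y q : ℂ) * (1 + y q) * (1 + 2 * y q) *
      dz Y (fun q => (t q : ℂ)) q) p := C2.fun_mul A4
  have C4 : DifferentiableAt ℝ (fun q => (y q : ℂ) * (1 + y q) * (1 + 2 * y q) *
      dz Y (fun q => (t q : ℂ)) q * dzb Z (fun q => (t q : ℂ)) q) p := C3.fun_mul A5
  have C5 : DifferentiableAt ℝ (fun q => (y q : ℂ) * (1 + y q) * (1 + 2 * y q) *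
      dz Y (fun q => (t q : ℂ)) q * dzb Z (fun q => (t q : ℂ)) q
      * dzb W (fun q => (t q : ℂ)) q) p := C4.fun_mul A6
  have D1 : DifferentiableAt ℝ (fun q => dz Y (dzb Z (fun q => (t q : ℂ))) q *
      dzb W (fun q => (t q : ℂ)) q) p := A7.fun_mul A6
  have D2 : DifferentiableAt ℝ (fun q => dzb Z (fun q => (t q : ℂ)) q *
      dz Y (dzb W (fun q => (t q : ℂ))) q) p := A5.fun_mul A8
  have D3 : DifferentiableAt ℝ (fun q => dz Y (fun q => (t q : ℂ)) q *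
      dzb Z (dzb W (fun q => (t q : ℂ))) q) p := A4.fun_mul A9
  have D4 : DifferentiableAt ℝ (fun q => dz Y (dzb Z (fun q => (t q : ℂ))) q *
      dzb W (fun q => (t q : ℂ)) q + dzb Z (fun q => (t q : ℂ)) q *
      dz Y (dzb W (fun q => (t q : ℂ))) q) p := D1.fun_add D2
  have D5 : DifferentiableAt ℝ (fun q => dz Y (dzb Z (fun q => (t q : ℂ))) q *
      dzb W (fun q => (t q : ℂ)) q + dzb Z (fun q => (t q : ℂ)) q *
      dz Y (dzb W (fun q => (t q : ℂ))) q + dz Y (fun q => (t q : ℂ)) q *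
      dzb Z (dzb W (fun q => (t q : ℂ))) q) p := D4.fun_add D3
  have D6 : DifferentiableAt ℝ (fun q => (y q : ℂ) * (1 + y q) *
      (dz Y (dzb Z (fun q => (t q : ℂ))) q *
      dzb W (fun q => (t q : ℂ)) q + dzb Z (fun q => (t q : ℂ)) q *
      dz Y (dzb W (fun q => (t q : ℂ))) q + dz Y (fun q => (t q : ℂ)) q *
      dzb Z (dzb W (fun q => (t q : ℂ))) q)) p := C1.fun_mul D5
  have D7 := A3.fun_mul A2
  rw [E, dz_add A1 ((C5.fun_add D6).fun_add D7), dz_add (C5.fun_add D6) D7, dz_add C5 D6, dz_mul A3 A2,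
    dz_mul C1 D5, dz_add D4 D3, dz_add D1 D2, dz_mul A7 A6, dz_mul A5 A8, dz_mul A4 A9,
    dz_mul C4 A6, dz_mul C3 A5, dz_mul C2 A4, dz_mul C1 B3, dz_mul A3 B1,
    dz_add (differentiableAt_const 1) B2, dz_const_mul 2 A3,
    dz_add (differentiableAt_const 1) A3, dz_const, he2]
  ring

end Gen

end HH

end Crest.Agent.R245
end

-- ▼ part R245/LemmaH2
section

/-! TASK LemmaH2: the exact curvature formula. -/

set_option autoImplicit false
set_option linter.unusedSectionVars false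

namespace Crest.Agent.R245

open Complex Filter Topology
open scoped ContDiff ComplexConjugate

namespace HH

/-- log of the squared norm of the fibre coordinate -/
noncomputable def Lz (q : B2 × ℂ) : ℝ := Real.log (‖q.2‖ ^ 2)
/-- `t = φ + log |ζ|²` -/
noncomputable def tt (φ : B2 → ℝ) (q : B2 × ℂ) : ℝ := φ q.1 + Lz q

theorem contDiffAt_fst' {f : B2 → ℝ} {x : B2 × ℂ} {n : WithTop ℕ∞} (hf : ContDiffAt ℝ n f x.1) :
    ContDiffAt ℝ n (fun q : B2 × ℂ => f q.1) x :=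
  hf.comp x contDiffAt_fst

theorem contDiff_nsq {n : WithTop ℕ∞} : ContDiff ℝ n (fun q : B2 × ℂ => ‖q.2‖ ^ 2) :=
  (contDiff_norm_sq ℝ).comp contDiff_snd

theorem contDiffAt_Lz {x : B2 × ℂ} {n : WithTop ℕ∞} (hx : x.2 ≠ 0) : ContDiffAt ℝ n Lz x := by
  unfold Lz
  exact (contDiff_nsq.contDiffAt).log (by positivity)

theorem contDiffAt_tt {φ : B2 → ℝ} {x : B2 × ℂ} {n : WithTop ℕ∞} (hφ : ContDiffAt ℝ n φ x.1)
    (hx : x.2 ≠ 0) : ContDiffAt ℝ n (tt φ) x :=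
  (contDiffAt_fst' hφ).add (contDiffAt_Lz hx)

theorem contDiffAt_uu {φ : B2 → ℝ} {x : B2 × ℂ} {n : WithTop ℕ∞} (hφ : ContDiffAt ℝ n φ x.1) :
    ContDiffAt ℝ n (uu φ) x :=
  (contDiffAt_fst' hφ).exp.mul contDiff_nsq.contDiffAt

theorem contDiffAt_yy {φ : B2 → ℝ} {x : B2 × ℂ} {n : WithTop ℕ∞} (hφ : ContDiffAt ℝ n φ x.1)
    (h : uu φ x < 1) : ContDiffAt ℝ n (yy φ) x :=
  (contDiffAt_uu hφ).div (contDiffAt_const.sub (contDiffAt_uu hφ)) (by linarith)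

theorem contDiffAt_hart {A φ : B2 → ℝ} {x : B2 × ℂ} {n : WithTop ℕ∞} (hA : ContDiffAt ℝ n A x.1)
    (hφ : ContDiffAt ℝ n φ x.1) (h : uu φ x < 1) : ContDiffAt ℝ n (hart A φ) x :=
  (contDiffAt_fst' hA).sub ((contDiffAt_const.sub (contDiffAt_uu hφ)).log (by
    show (1 - uu φ x) ≠ 0
    linarith))

theorem exp_tt {φ : B2 → ℝ} {q : B2 × ℂ} (hq : q.2 ≠ 0) : Real.exp (tt φ q) = uu φ q := by
  unfold tt uu Lz
  rw [Real.exp_add, Real.exp_log (by positivity)]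

theorem dz_fst {f : B2 → ℂ} {x : B2 × ℂ} (hf : DifferentiableAt ℝ f x.1) (X : B2 × ℂ) :
    dz X (fun q : B2 × ℂ => f q.1) x = dz X.1 f x.1 := by
  have := dz_comp_affine (X := X) (p := x) (ContinuousLinearMap.fst ℂ B2 ℂ) 0 (f := f)
    (by simpa using hf)
  simpa using this

theorem dzb_fst {f : B2 → ℂ} {x : B2 × ℂ} (hf : DifferentiableAt ℝ f x.1) (X : B2 × ℂ) :
    dzb X (fun q : B2 × ℂ => f q.1) x = dzb X.1 f x.1 := by
  have := dzb_comp_affine (X := X) (p := x) (ContinuousLinearMap.fst ℂ B2 ℂ) 0 (f := f)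
    (by simpa using hf)
  simpa using this

theorem dz_snd (x : B2 × ℂ) (X : B2 × ℂ) : dz X (fun q : B2 × ℂ => q.2) x = X.2 := by
  have h : HasFDerivAt (fun q : B2 × ℂ => q.2) (ContinuousLinearMap.snd ℂ B2 ℂ) x :=
    (ContinuousLinearMap.snd ℂ B2 ℂ).hasFDerivAt
  rw [dz_hol h.differentiableAt, h.fderiv]; rfl

theorem dzb_snd (x : B2 × ℂ) (X : B2 × ℂ) : dzb X (fun q : B2 × ℂ => q.2) x = 0 := by
  have h : HasFDerivAt (fun q : B2 × ℂ => q.2) (ContinuousLinearMap.snd ℂ B2 ℂ) x :=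
    (ContinuousLinearMap.snd ℂ B2 ℂ).hasFDerivAt
  rw [dzb_hol h.differentiableAt]

theorem diff_snd (x : B2 × ℂ) : DifferentiableAt ℝ (fun q : B2 × ℂ => q.2) x := by
  fun_prop

theorem nsq_eq : (fun q : B2 × ℂ => ((‖q.2‖ ^ 2 : ℝ) : ℂ)) = fun q => q.2 * conj q.2 := by
  funext q; rw [Complex.mul_conj, Complex.normSq_eq_norm_sq]

theorem diff_conj_snd (x : B2 × ℂ) : DifferentiableAt ℝ (fun q : B2 × ℂ => conj q.2) x :=
  (conjCLE.differentiable).differentiableAt.comp x (diff_snd x)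

theorem dz_nsq (x X : B2 × ℂ) : dz X (fun q : B2 × ℂ => ((‖q.2‖ ^ 2 : ℝ) : ℂ)) x = X.2 * conj x.2 := by
  rw [nsq_eq, dz_mul (diff_snd x) (diff_conj_snd x), dz_snd, dz_conj, dzb_snd]; simp

theorem dzb_nsq (x X : B2 × ℂ) : dzb X (fun q : B2 × ℂ => ((‖q.2‖ ^ 2 : ℝ) : ℂ)) x = x.2 * conj X.2 := by
  rw [nsq_eq, dzb_mul (diff_snd x) (diff_conj_snd x), dzb_snd, dzb_conj, dz_snd]; simp

theorem dz_Lz {x : B2 × ℂ} (hx : x.2 ≠ 0) (X : B2 × ℂ) :
    dz X (fun q => (Lz q : ℂ)) x = X.2 / x.2 := by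
  have h1 : ‖x.2‖ ^ 2 ≠ 0 := by positivity
  have := dz_comp_real (X := X) (p := x) Real.log (fun q : B2 × ℂ => ‖q.2‖ ^ 2)
    (Real.differentiableAt_log h1) ((contDiff_nsq (n := 1)).differentiable (by simp) x)
  unfold Lz
  rw [this, dz_nsq, Real.deriv_log]
  have h2 : ((‖x.2‖ ^ 2 : ℝ) : ℂ) = x.2 * conj x.2 := congrFun nsq_eq x
  rw [Complex.ofReal_inv, h2]
  have h3 : conj x.2 ≠ 0 := by simpa using hx
  field_simp

theorem dzb_Lz {x : B2 × ℂ} (hx : x.2 ≠ 0) (X : B2 × ℂ) :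
    dzb X (fun q => (Lz q : ℂ)) x = conj (X.2 / x.2) := by
  rw [dzb_ofReal, dz_Lz hx]

theorem ev_ne {x : B2 × ℂ} (hx : x.2 ≠ 0) : ∀ᶠ q : B2 × ℂ in 𝓝 x, q.2 ≠ 0 :=
  continuous_snd.continuousAt.eventually_ne hx

theorem D11_Lz_ev {x : B2 × ℂ} (hx : x.2 ≠ 0) (Y W : B2 × ℂ) :
    ∀ᶠ q in 𝓝 x, dz Y (dzb W (fun q => (Lz q : ℂ))) q = 0 := by
  have h1 : dzb W (fun q => (Lz q : ℂ)) =ᶠ[𝓝 x] fun q => conj (W.2 / q.2) := by
    filter_upwards [ev_ne hx] with q hq using dzb_Lz hq W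
  filter_upwards [dz_eventuallyEq (X := Y) h1, ev_ne hx] with q hq hq2
  rw [hq, dz_conj, dzb_hol, map_zero]
  have h3 : DifferentiableAt ℂ (fun r : B2 × ℂ => r.2) q :=
    (ContinuousLinearMap.snd ℂ B2 ℂ).differentiableAt
  simp only [div_eq_mul_inv]
  exact (h3.fun_inv hq2).const_mul W.2

theorem D11_Lz {x : B2 × ℂ} (hx : x.2 ≠ 0) (Y W : B2 × ℂ) : D11 Lz Y W x = 0 :=
  (D11_Lz_ev hx Y W).self_of_nhds

theorem D21_Lz {x : B2 × ℂ} (hx : x.2 ≠ 0) (X Y W : B2 × ℂ) : D21 Lz X Y W x = 0 := by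
  unfold D21
  rw [dz_congr (v := fun _ => 0) (D11_Lz_ev hx Y W), dz_const]

theorem D22_Lz {x : B2 × ℂ} (hx : x.2 ≠ 0) (X Y Z W : B2 × ℂ) : D22 Lz X Y Z W x = 0 := by
  unfold D22
  have hL : ContDiffAt ℝ ∞ (fun q => (Lz q : ℂ)) x := contDiffAt_ofReal (contDiffAt_Lz hx)
  have hW := contDiffAt_dzb_inf W hL
  have h1 : dz Y (dzb Z (dzb W (fun q => (Lz q : ℂ)))) =ᶠ[𝓝 x] fun _ => 0 := by
    have h2 : dz Y (dzb W (fun q => (Lz q : ℂ))) =ᶠ[𝓝 x] fun _ => 0 := D11_Lz_ev hx Y W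
    filter_upwards [ev_cd2 hW, dzb_eventuallyEq (X := Z) h2] with q h3 h4
    rw [dz_dzb_comm h3, h4, dzb_const]
  rw [dz_congr h1, dz_const]

theorem D11_fst {f : B2 → ℝ} {x : B2 × ℂ} (hf : ContDiffAt ℝ ∞ f x.1) (X Y : B2 × ℂ) :
    D11 (fun q : B2 × ℂ => f q.1) X Y x = D11 f X.1 Y.1 x.1 := by
  have := D11_comp_affine (p := x) (ContinuousLinearMap.fst ℂ B2 ℂ) 0 (f := f)
    (by simpa using hf) X Y
  simpa using this

theorem D21_fst {f : B2 → ℝ} {x : B2 × ℂ} (hf : ContDiffAt ℝ ∞ f x.1) (X Y Z : B2 × ℂ) :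
    D21 (fun q : B2 × ℂ => f q.1) X Y Z x = D21 f X.1 Y.1 Z.1 x.1 := by
  have := D21_comp_affine (p := x) (ContinuousLinearMap.fst ℂ B2 ℂ) 0 (f := f)
    (by simpa using hf) X Y Z
  simpa using this

theorem D22_fst {f : B2 → ℝ} {x : B2 × ℂ} (hf : ContDiffAt ℝ ∞ f x.1) (X Y Z W : B2 × ℂ) :
    D22 (fun q : B2 × ℂ => f q.1) X Y Z W x = D22 f X.1 Y.1 Z.1 W.1 x.1 := by
  have := D22_comp_affine (p := x) (ContinuousLinearMap.fst ℂ B2 ℂ) 0 (f := f)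
    (by simpa using hf) X Y Z W
  simpa using this

theorem D11_tt {φ : B2 → ℝ} {x : B2 × ℂ} (hφ : ContDiffAt ℝ ∞ φ x.1) (hx : x.2 ≠ 0)
    (X Y : B2 × ℂ) : D11 (tt φ) X Y x = D11 φ X.1 Y.1 x.1 := by
  have := D11_add (contDiffAt_fst' hφ) (contDiffAt_Lz hx) X Y
  rw [D11_Lz hx, D11_fst hφ, add_zero] at this
  exact this

theorem D21_tt {φ : B2 → ℝ} {x : B2 × ℂ} (hφ : ContDiffAt ℝ ∞ φ x.1) (hx : x.2 ≠ 0)
    (X Y Z : B2 × ℂ) : D21 (tt φ) X Y Z x = D21 φ X.1 Y.1 Z.1 x.1 := by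
  have := D21_add (contDiffAt_fst' hφ) (contDiffAt_Lz hx) X Y Z
  rw [D21_Lz hx, D21_fst hφ, add_zero] at this
  exact this

theorem D22_tt {φ : B2 → ℝ} {x : B2 × ℂ} (hφ : ContDiffAt ℝ ∞ φ x.1) (hx : x.2 ≠ 0)
    (X Y Z W : B2 × ℂ) : D22 (tt φ) X Y Z W x = D22 φ X.1 Y.1 Z.1 W.1 x.1 := by
  have := D22_add (contDiffAt_fst' hφ) (contDiffAt_Lz hx) X Y Z W
  rw [D22_Lz hx, D22_fst hφ, add_zero] at this
  exact this

theorem dz_tt {φ : B2 → ℝ} {x : B2 × ℂ} (hφ : DifferentiableAt ℝ φ x.1) (hx : x.2 ≠ 0)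
    (X : B2 × ℂ) : dz X (fun q => (tt φ q : ℂ)) x = nuu φ x X / x.2 := by
  have h1 : (fun q : B2 × ℂ => (tt φ q : ℂ)) = fun q => (φ q.1 : ℂ) + (Lz q : ℂ) := by
    funext q; unfold tt; push_cast; rfl
  have h2 : DifferentiableAt ℝ (fun b => (φ b : ℂ)) x.1 := differentiableAt_ofReal hφ
  have h3 : DifferentiableAt ℝ (fun q : B2 × ℂ => (φ q.1 : ℂ)) x := h2.comp x differentiableAt_fst
  have h4 : DifferentiableAt ℝ (fun q : B2 × ℂ => (Lz q : ℂ)) x :=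
    differentiableAt_ofReal ((contDiffAt_Lz (n := 1) hx).differentiableAt (by simp))
  rw [h1, dz_add h3 h4, dz_fst h2, dz_Lz hx]
  unfold nuu
  field_simp

/-- The differential relations for the Hartogs potential. -/
theorem hart_HG {A φ : B2 → ℝ} {x : B2 × ℂ} (hA : ContDiffAt ℝ ∞ A x.1)
    (hφ : ContDiffAt ℝ ∞ φ x.1) (hx : uu φ x < 1) (hζ : x.2 ≠ 0) :
    HG (fun q => A q.1) (tt φ) (yy φ) (hart A φ) x := by
  have E1 : ∀ᶠ q in 𝓝 x, uu φ q < 1 :=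
    (contDiffAt_uu (n := 0) (hφ.of_le (by simp))).continuousAt.eventually_lt_const hx
  have E2 : ∀ᶠ q : B2 × ℂ in 𝓝 x, ContDiffAt ℝ 2 A q.1 :=
    continuous_fst.continuousAt.eventually ((hA.of_le two_le_inf).eventually (by simp))
  have E3 : ∀ᶠ q : B2 × ℂ in 𝓝 x, ContDiffAt ℝ 2 φ q.1 :=
    continuous_fst.continuousAt.eventually ((hφ.of_le two_le_inf).eventually (by simp))
  have EY : ∀ᶠ q in 𝓝 x, (fun r : B2 × ℂ => (yy φ r : ℂ)) =ᶠ[𝓝 q]
      fun r => ((Real.exp (tt φ r) / (1 - Real.exp (tt φ r)) : ℝ) : ℂ) := by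
    apply Filter.Eventually.eventually_nhds
    filter_upwards [ev_ne hζ] with q hq
    show (yy φ q : ℂ) = _
    rw [exp_tt hq]; rfl
  have dY : ∀ s : ℝ, Real.exp s < 1 → HasDerivAt (fun s => Real.exp s / (1 - Real.exp s))
      (Real.exp s / (1 - Real.exp s) * (1 + Real.exp s / (1 - Real.exp s))) s := by
    intro s hs
    have h1 : HasDerivAt (fun s => 1 - Real.exp s) (-Real.exp s) s :=
      (Real.hasDerivAt_exp s).const_sub 1
    have h2 : (1 - Real.exp s) ≠ 0 := by linarith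
    refine ((Real.hasDerivAt_exp s).div h1 h2).congr_deriv ?_
    field_simp
    ring
  have dG : ∀ s : ℝ, Real.exp s < 1 → HasDerivAt (fun s => - Real.log (1 - Real.exp s))
      (Real.exp s / (1 - Real.exp s)) s := by
    intro s hs
    have h1 : HasDerivAt (fun s => 1 - Real.exp s) (-Real.exp s) s :=
      (Real.hasDerivAt_exp s).const_sub 1
    have h2 : (1 - Real.exp s) ≠ 0 := by linarith
    refine (h1.log h2).neg.congr_deriv ?_
    ring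
  refine ⟨contDiffAt_fst' hA, contDiffAt_tt hφ hζ, contDiffAt_yy hφ hx,
    contDiffAt_hart hA hφ hx, ?_, ?_, ?_⟩
  · have EP : ∀ᶠ q in 𝓝 x, (fun r : B2 × ℂ => (hart A φ r : ℂ)) =ᶠ[𝓝 q]
        fun r => (A r.1 : ℂ) + ((- Real.log (1 - Real.exp (tt φ r)) : ℝ) : ℂ) := by
      apply Filter.Eventually.eventually_nhds
      filter_upwards [ev_ne hζ] with q hq
      show (hart A φ q : ℂ) = _
      rw [exp_tt hq]
      unfold hart uu
      push_cast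
      ring
    filter_upwards [EP, E1, E2, E3, ev_ne hζ] with q h1 h2 h3 h4 h5 W
    have h6 : Real.exp (tt φ q) < 1 := by rw [exp_tt h5]; exact h2
    have h7 := dG _ h6
    have h8 : DifferentiableAt ℝ (tt φ) q := (contDiffAt_tt h4 h5).differentiableAt (by simp)
    have h9 : DifferentiableAt ℝ (fun q : B2 × ℂ => (A q.1 : ℂ)) q :=
      differentiableAt_ofReal ((contDiffAt_fst' h3).differentiableAt (by simp))
    have h10 : DifferentiableAt ℝ (fun q => - Real.log (1 - Real.exp (tt φ q))) q :=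
      h7.differentiableAt.comp q h8
    rw [dzb_congr h1, dzb_add h9 (differentiableAt_ofReal h10)]
    congr 1
    rw [dzb_comp_real (fun s => - Real.log (1 - Real.exp s)) (tt φ) h7.differentiableAt h8, h7.deriv,
      exp_tt h5]
    rfl
  · filter_upwards [EY, E1, E3, ev_ne hζ] with q h1 h2 h4 h5 W
    have h6 : Real.exp (tt φ q) < 1 := by rw [exp_tt h5]; exact h2
    have h7 := dY _ h6
    have h8 : DifferentiableAt ℝ (tt φ) q := (contDiffAt_tt h4 h5).differentiableAt (by simp)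
    rw [dz_congr h1, dz_comp_real (fun s => Real.exp s / (1 - Real.exp s)) (tt φ)
      h7.differentiableAt h8, h7.deriv, exp_tt h5]
    unfold yy
    push_cast
    rfl
  · filter_upwards [EY, E1, E3, ev_ne hζ] with q h1 h2 h4 h5 W
    have h6 : Real.exp (tt φ q) < 1 := by rw [exp_tt h5]; exact h2
    have h7 := dY _ h6
    have h8 : DifferentiableAt ℝ (tt φ) q := (contDiffAt_tt h4 h5).differentiableAt (by simp)
    rw [dzb_congr h1, dzb_comp_real (fun s => Real.exp s / (1 - Real.exp s)) (tt φ)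
      h7.differentiableAt h8, h7.deriv, exp_tt h5]
    unfold yy
    push_cast
    rfl

set_option maxHeartbeats 1000000 in
theorem negK_alg (s y : ℝ) (a b p11 p12 p22 S12 T121 T122 T112 T221 G121 G122 G112 G221 K12
    H1212 H1122 g1212 g1122 : ℂ) (S11 S22 K11 K22 : ℝ) :
    ((H1212 + (s:ℂ)^2 * (a * conj T122 + b * conj T121 + conj a * T122 + conj b * T121
        + S11 * S22 + S12 * conj S12 + p12 * conj p12)
      + (1 + 2 * (y:ℂ)) * (s:ℂ)^2 * (a * b * conj p12 + conj a * conj b * p12 + a * conj a * S22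
        + a * conj b * conj S12 + b * conj a * S12 + b * conj b * S11)
      + ((1 + 2 * (y:ℂ))^2 * (s:ℂ)^2 + 2 * (s:ℂ)^4) * (a * b * conj a * conj b))
    - (g1212 + (s:ℂ)^2 * (conj a * G122 + conj b * G121 + a * conj G122 + b * conj G121)
      + (s:ℂ)^4 * (a * conj a * K22 + a * conj b * conj K12 + b * conj a * K12 + b * conj b * K11)
      + (s:ℂ)^2 * ((p12 + (1 + 2 * (y:ℂ)) * a * b) * conj (p12 + (1 + 2 * (y:ℂ)) * a * b)))
    - (H1122 + (s:ℂ)^2 * (2 * a * conj T221 + 2 * conj b * T112 + 2 * S12 * S12 + p11 * conj p22)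
      + (1 + 2 * (y:ℂ)) * (s:ℂ)^2 * (a * a * conj p22 + conj b * conj b * p11 + 4 * a * conj b * S12)
      + ((1 + 2 * (y:ℂ))^2 * (s:ℂ)^2 + 2 * (s:ℂ)^4) * (a * a * conj b * conj b))
    + (g1122 + 2 * (s:ℂ)^2 * (conj b * G112 + a * conj G221) + 4 * (s:ℂ)^4 * (a * conj b * K12)
      + (s:ℂ)^2 * ((p11 + (1 + 2 * (y:ℂ)) * a * a) * conj (p22 + (1 + 2 * (y:ℂ)) * b * b)))).re
    = ((1 + 2 * (y:ℂ)) * ((s:ℂ)^2 * (conj a * a * S22 - conj a * b * conj S12 - conj b * a * S12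
          + conj b * b * S11))
        - (s:ℂ)^2 * ((s:ℂ)^2 * (conj a * a * K22 - conj a * b * conj K12 - conj b * a * K12
          + conj b * b * K11))).re
      + 4 * ((s:ℂ) * a * conj ((s:ℂ) * b)).im ^ 2
      + 4 * ((s:ℂ) * a * conj ((s:ℂ) * b)).im * ((1 + 2 * (y:ℂ)) * S12 - (s:ℂ)^2 * K12).im
      + s^2 * (S11 * S22 - S12.re ^ 2 + 3 * S12.im ^ 2)
      + (H1212 - g1212 - H1122 + g1122).re
      + 2 * s * ((s:ℂ) * (conj a * T122 - conj b * T112) - (s:ℂ) * (conj a * G122 - conj b * G112)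
          - ((s:ℂ) * (conj a * T221 - conj b * T121) - (s:ℂ) * (conj a * G221 - conj b * G121))).re := by
  obtain ⟨a1, a2⟩ := a
  obtain ⟨b1, b2⟩ := b
  simp only [Complex.add_re, Complex.add_im, Complex.sub_re, Complex.sub_im, Complex.mul_re, Complex.mul_im,
    Complex.conj_re, Complex.conj_im, Complex.ofReal_re, Complex.ofReal_im, Complex.one_re, Complex.one_im,
    pow_succ, pow_zero, Complex.re_ofNat, Complex.im_ofNat, map_add, map_mul, Complex.conj_ofReal, map_one, map_ofNat]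
  ring

/-! ### Linearity helpers -/

section Lin
variable {A φ : B2 → ℝ} {y : ℝ} {b : B2}

theorem Hpot_contDiffAt (hA : ContDiffAt ℝ ∞ A b) (hφ : ContDiffAt ℝ ∞ φ b) :
    ContDiffAt ℝ ∞ (Hpot A φ y) b := hA.add (contDiffAt_const.mul hφ)

theorem Hpot_D11 (hA : ContDiffAt ℝ ∞ A b) (hφ : ContDiffAt ℝ ∞ φ b) (X Y : B2) :
    D11 (Hpot A φ y) X Y b = D11 A X Y b + y * D11 φ X Y b := by
  have := D11_add hA ((contDiffAt_const (c := y)).mul hφ) X Y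
  rw [D11_const_mul hφ] at this
  exact this

theorem Hpot_D21 (hA : ContDiffAt ℝ ∞ A b) (hφ : ContDiffAt ℝ ∞ φ b) (X Y Z : B2) :
    D21 (Hpot A φ y) X Y Z b = D21 A X Y Z b + y * D21 φ X Y Z b := by
  have := D21_add hA ((contDiffAt_const (c := y)).mul hφ) X Y Z
  rw [D21_const_mul hφ] at this
  exact this

theorem Hpot_D22 (hA : ContDiffAt ℝ ∞ A b) (hφ : ContDiffAt ℝ ∞ φ b) (X Y Z W : B2) :
    D22 (Hpot A φ y) X Y Z W b = D22 A X Y Z W b + y * D22 φ X Y Z W b := by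
  have := D22_add hA ((contDiffAt_const (c := y)).mul hφ) X Y Z W
  rw [D22_const_mul hφ] at this
  exact this

end Lin

section LinV
variable {V : Type*} [NormedAddCommGroup V] [NormedSpace ℝ V] [NormedSpace ℂ V] [IsScalarTower ℝ ℂ V]
variable {P : V → ℝ} {p : V}

theorem D11_sub_left (hP : ContDiffAt ℝ ∞ P p) (X X' Y : V) :
    D11 P (X - X') Y p = D11 P X Y p - D11 P X' Y p := by
  have : X - X' = X + (-1 : ℂ) • X' := by rw [neg_one_smul, sub_eq_add_neg]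
  rw [this, D11_add_left hP, D11_smul_left hP]; ring

theorem D11_sub_right (hP : ContDiffAt ℝ ∞ P p) (X Y Y' : V) :
    D11 P X (Y - Y') p = D11 P X Y p - D11 P X Y' p := by
  have : Y - Y' = Y + (-1 : ℂ) • Y' := by rw [neg_one_smul, sub_eq_add_neg]
  rw [this, D11_add_right hP, D11_smul_right hP]; simp; ring

theorem D21_sub_1 (hP : ContDiffAt ℝ ∞ P p) (X X' Y Z : V) :
    D21 P (X - X') Y Z p = D21 P X Y Z p - D21 P X' Y Z p := by
  have : X - X' = X + (-1 : ℂ) • X' := by rw [neg_one_smul, sub_eq_add_neg]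
  rw [this, D21_add_1 hP, D21_smul_1 hP]; ring

theorem D21_sub_2 (hP : ContDiffAt ℝ ∞ P p) (X Y Y' Z : V) :
    D21 P X (Y - Y') Z p = D21 P X Y Z p - D21 P X Y' Z p := by
  rw [D21_symm hP, D21_sub_1 hP, D21_symm hP Y, D21_symm hP Y']

theorem D21_smul_2 (hP : ContDiffAt ℝ ∞ P p) (c : ℂ) (X Y Z : V) :
    D21 P X (c • Y) Z p = c * D21 P X Y Z p := by
  rw [D21_symm hP, D21_smul_1 hP, D21_symm hP Y]

theorem D11_repl (hP : ContDiffAt ℝ ∞ P p) {G G' d d' : V} (h : ∀ Z, D11 P G Z p = D11 P d Z p)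
    (h' : ∀ Z, D11 P G' Z p = D11 P d' Z p) : D11 P G G' p = D11 P d d' p := by
  rw [h, ← D11_conj hP, h', D11_conj hP]

theorem D11_self_re (hP : ContDiffAt ℝ ∞ P p) (X : V) :
    D11 P X X p = ((D11 P X X p).re : ℂ) := by
  have := D11_conj hP X X
  exact (Complex.conj_eq_iff_re.1 this).symm

end LinV

/-- the metric of `hart A φ` -/
theorem hart_D11 (A φ : B2 → ℝ) (x : B2 × ℂ) (hA : ContDiffAt ℝ ∞ A x.1)
    (hφ : ContDiffAt ℝ ∞ φ x.1) (hx : uu φ x < 1) (X Y : B2 × ℂ) :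
    D11 (hart A φ) X Y x = D11 A X.1 Y.1 x.1 + (yy φ x : ℂ) * D11 φ X.1 Y.1 x.1
      + ((Real.exp (φ x.1) / (1 - uu φ x) ^ 2 : ℝ) : ℂ) * nuu φ x X * conj (nuu φ x Y) := by
  have E1 : ∀ᶠ q in 𝓝 x, uu φ q < 1 :=
    (contDiffAt_uu (n := 0) (hφ.of_le (by simp))).continuousAt.eventually_lt_const hx
  have E2 : ∀ᶠ q : B2 × ℂ in 𝓝 x, ContDiffAt ℝ 2 A q.1 :=
    continuous_fst.continuousAt.eventually ((hA.of_le two_le_inf).eventually (by simp))
  have E3 : ∀ᶠ q : B2 × ℂ in 𝓝 x, ContDiffAt ℝ 2 φ q.1 :=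
    continuous_fst.continuousAt.eventually ((hφ.of_le two_le_inf).eventually (by simp))
  -- derivative of `u`
  have dE : ∀ q : B2 × ℂ, ContDiffAt ℝ 2 φ q.1 →
      DifferentiableAt ℝ (fun r : B2 × ℂ => Real.exp (φ r.1)) q := fun q hq =>
    ((contDiffAt_fst' hq).exp).differentiableAt (by simp)
  have dN : ∀ q : B2 × ℂ, DifferentiableAt ℝ (fun r : B2 × ℂ => ((‖r.2‖ ^ 2 : ℝ) : ℂ)) q := fun q =>
    differentiableAt_ofReal ((contDiff_nsq (n := 1)).differentiable (by simp) q)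
  have dφ : ∀ q : B2 × ℂ, ContDiffAt ℝ 2 φ q.1 →
      DifferentiableAt ℝ (fun r : B2 × ℂ => φ r.1) q := fun q hq =>
    (contDiffAt_fst' hq).differentiableAt (by simp)
  have zE : ∀ q : B2 × ℂ, ContDiffAt ℝ 2 φ q.1 → ∀ Z : B2 × ℂ,
      dz Z (fun r : B2 × ℂ => ((Real.exp (φ r.1) : ℝ) : ℂ)) q =
        (Real.exp (φ q.1) : ℂ) * dz Z.1 (fun b => (φ b : ℂ)) q.1 := by
    intro q hq Z
    rw [dz_comp_real Real.exp (fun r : B2 × ℂ => φ r.1) Real.differentiableAt_exp (dφ q hq),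
      Real.deriv_exp, dz_fst (f := fun b => (φ b : ℂ))
        (differentiableAt_ofReal (hq.differentiableAt (by simp)))]
  have zbE : ∀ q : B2 × ℂ, ContDiffAt ℝ 2 φ q.1 → ∀ Z : B2 × ℂ,
      dzb Z (fun r : B2 × ℂ => ((Real.exp (φ r.1) : ℝ) : ℂ)) q =
        (Real.exp (φ q.1) : ℂ) * dzb Z.1 (fun b => (φ b : ℂ)) q.1 := by
    intro q hq Z
    rw [dzb_comp_real Real.exp (fun r : B2 × ℂ => φ r.1) Real.differentiableAt_exp (dφ q hq),
      Real.deriv_exp, dzb_fst (f := fun b => (φ b : ℂ))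
        (differentiableAt_ofReal (hq.differentiableAt (by simp)))]
  have cu : (fun r : B2 × ℂ => (uu φ r : ℂ)) =
      fun r => ((Real.exp (φ r.1) : ℝ) : ℂ) * ((‖r.2‖ ^ 2 : ℝ) : ℂ) := by
    funext r; unfold uu; push_cast; rfl
  have zu : ∀ q : B2 × ℂ, ContDiffAt ℝ 2 φ q.1 → ∀ Z : B2 × ℂ,
      dz Z (fun r : B2 × ℂ => (uu φ r : ℂ)) q =
        (Real.exp (φ q.1) : ℂ) * conj q.2 * nuu φ q Z := by
    intro q hq Z
    rw [cu, dz_mul (differentiableAt_ofReal (dE q hq)) (dN q), zE q hq, dz_nsq, congrFun nsq_eq q]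
    unfold nuu
    ring
  have zbu : ∀ q : B2 × ℂ, ContDiffAt ℝ 2 φ q.1 → ∀ Z : B2 × ℂ,
      dzb Z (fun r : B2 × ℂ => (uu φ r : ℂ)) q =
        (Real.exp (φ q.1) : ℂ) * q.2 * (conj q.2 * dzb Z.1 (fun b => (φ b : ℂ)) q.1 + conj Z.2) := by
    intro q hq Z
    rw [cu, dzb_mul (differentiableAt_ofReal (dE q hq)) (dN q), zbE q hq, dzb_nsq,
      congrFun nsq_eq q]
    ring
  have hwd : ∀ s : ℝ, s < 1 → HasDerivAt (fun s : ℝ => (1 - s)⁻¹) (((1 - s)⁻¹) ^ 2) s := by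
    intro s hs
    have h1 : HasDerivAt (fun s : ℝ => 1 - s) (-1) s := by
      simpa using (hasDerivAt_id s).const_sub 1
    refine (h1.inv (by linarith)).congr_deriv ?_
    field_simp
  have hld : ∀ s : ℝ, s < 1 → HasDerivAt (fun s : ℝ => - Real.log (1 - s)) ((1 - s)⁻¹) s := by
    intro s hs
    have h1 : HasDerivAt (fun s : ℝ => 1 - s) (-1) s := by
      simpa using (hasDerivAt_id s).const_sub 1
    refine (h1.log (by linarith)).neg.congr_deriv ?_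
    field_simp
  -- first derivative near x
  have F1 : dzb Y (fun r => (hart A φ r : ℂ)) =ᶠ[𝓝 x] fun q =>
      dzb Y (fun r : B2 × ℂ => (A r.1 : ℂ)) q +
        (((1 - uu φ q)⁻¹ : ℝ) : ℂ) * (((Real.exp (φ q.1) : ℝ) : ℂ) * (q.2 *
          (conj q.2 * dzb Y.1 (fun b => (φ b : ℂ)) q.1 + conj Y.2))) := by
    filter_upwards [E1, E2, E3] with q h1 h2 h3
    have e : (fun r => (hart A φ r : ℂ)) =
        fun r : B2 × ℂ => (A r.1 : ℂ) + ((- Real.log (1 - uu φ r) : ℝ) : ℂ) := by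
      funext r; unfold hart uu; push_cast; ring
    have h4 : DifferentiableAt ℝ (uu φ) q := (contDiffAt_uu h3).differentiableAt (by simp)
    have h5 : DifferentiableAt ℝ (fun r => - Real.log (1 - uu φ r)) q :=
      (hld _ h1).differentiableAt.comp q h4
    rw [e, dzb_add (differentiableAt_ofReal ((contDiffAt_fst' h2).differentiableAt (by simp)))
      (differentiableAt_ofReal h5), dzb_comp_real (fun s => - Real.log (1 - s)) (uu φ)
      (hld _ h1).differentiableAt h4, (hld _ h1).deriv, zbu q h3]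
    ring
  have hA' : DifferentiableAt ℝ (dzb Y (fun r : B2 × ℂ => (A r.1 : ℂ))) x :=
    (ev_diff (contDiffAt_dzb_inf Y (contDiffAt_ofReal (contDiffAt_fst' hA)))).self_of_nhds
  have hφ2 : ContDiffAt ℝ 2 φ x.1 := hφ.of_le two_le_inf
  have hu : DifferentiableAt ℝ (uu φ) x := (contDiffAt_uu hφ2).differentiableAt (by simp)
  have hw : DifferentiableAt ℝ (fun q => (((1 - uu φ q)⁻¹ : ℝ) : ℂ)) x :=
    differentiableAt_ofReal ((hwd _ hx).differentiableAt.comp x hu)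
  have hE : DifferentiableAt ℝ (fun q : B2 × ℂ => ((Real.exp (φ q.1) : ℝ) : ℂ)) x :=
    differentiableAt_ofReal (dE x hφ2)
  have hd0 : DifferentiableAt ℝ (dzb Y.1 (fun b => (φ b : ℂ))) x.1 :=
    (ev_diff (contDiffAt_dzb_inf Y.1 (contDiffAt_ofReal hφ))).self_of_nhds
  have hd : DifferentiableAt ℝ (fun q : B2 × ℂ => dzb Y.1 (fun b => (φ b : ℂ)) q.1) x :=
    hd0.comp x differentiableAt_fst
  have hc := diff_conj_snd x
  have hs := diff_snd x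
  have h1 : DifferentiableAt ℝ (fun q : B2 × ℂ =>
      conj q.2 * dzb Y.1 (fun b => (φ b : ℂ)) q.1) x := hc.fun_mul hd
  have h2 : DifferentiableAt ℝ (fun q : B2 × ℂ =>
      (conj q.2 * dzb Y.1 (fun b => (φ b : ℂ)) q.1 + conj Y.2)) x := h1.add_const _
  have h3 := hs.fun_mul h2
  have h4 := hE.fun_mul h3
  have h5 := hw.fun_mul h4
  have key : D11 (hart A φ) X Y x = dz X (dzb Y (fun r => (hart A φ r : ℂ))) x := rfl
  have keyA : dz X (dzb Y (fun r : B2 × ℂ => (A r.1 : ℂ))) x = D11 A X.1 Y.1 x.1 := D11_fst hA X Y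
  have keyφ : dz X.1 (dzb Y.1 (fun b => (φ b : ℂ))) x.1 = D11 φ X.1 Y.1 x.1 := rfl
  have hne : (1 : ℂ) - (uu φ x : ℂ) ≠ 0 := by
    have : (1 : ℝ) - uu φ x ≠ 0 := by linarith
    exact_mod_cast this
  have hnν : conj (nuu φ x Y) = conj x.2 * dzb Y.1 (fun b => (φ b : ℂ)) x.1 + conj Y.2 := by
    unfold nuu
    rw [map_add, map_mul, dzb_ofReal]
  rw [key, dz_congr F1, dz_add hA' h5, keyA, dz_mul hw h4, dz_mul hE h3, dz_mul hs h2,
    dz_add h1 (differentiableAt_const _), dz_const, dz_mul hc hd, dz_snd,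
    dz_comp_real (fun s => (1 - s)⁻¹) (uu φ) (hwd _ hx).differentiableAt hu, (hwd _ hx).deriv,
    zu x hφ2, zE x hφ2, dz_conj X (fun q : B2 × ℂ => q.2), dzb_snd,
    dz_fst (f := dzb Y.1 (fun b => (φ b : ℂ))) hd0, keyφ, ← hnν]
  have huu : (uu φ x : ℂ) = ((Real.exp (φ x.1) : ℝ) : ℂ) * (x.2 * conj x.2) := by
    have h6 : (uu φ x : ℂ) = ((Real.exp (φ x.1) : ℝ) : ℂ) * ((‖x.2‖ ^ 2 : ℝ) : ℂ) := congrFun cu x
    rw [h6, congrFun nsq_eq x]
  have hν : nuu φ x X = x.2 * dz X.1 (fun b => (φ b : ℂ)) x.1 + X.2 := rfl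
  unfold yy
  push_cast
  push_cast at huu
  rw [huu] at hne ⊢
  rw [hν, map_zero]
  have hne2 : 1 - cexp (φ x.1) * x.2 * conj x.2 ≠ 0 := by
    rw [mul_assoc]; exact hne
  generalize conj (nuu φ x Y) = N
  generalize dz X.1 (fun b => (φ b : ℂ)) x.1 = D at *
  generalize D11 φ X.1 Y.1 x.1 = S
  generalize D11 A X.1 Y.1 x.1 = T
  generalize conj x.2 = zc at *
  generalize cexp (φ x.1) = E at *
  field_simp
  ring


/-- structure of the Christoffel vectors of the Hartogs metric -/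
theorem gam_split {A φ : B2 → ℝ} {x : B2 × ℂ} (hA : ContDiffAt ℝ ∞ A x.1)
    (hφ : ContDiffAt ℝ ∞ φ x.1) (hx : uu φ x < 1) (hζ : x.2 ≠ 0) {X Y Γ : B2 × ℂ}
    (h : IsGam (hart A φ) x X Y Γ) :
    nuu φ x Γ / x.2 = dz X (dz Y (fun q => (tt φ q : ℂ))) x
      + (1 + 2 * (yy φ x : ℂ)) * (nuu φ x X / x.2) * (nuu φ x Y / x.2) ∧
    ∀ Z : B2, D11 (Hpot A φ (yy φ x)) Γ.1 Z x.1 = D21 (Hpot A φ (yy φ x)) X.1 Y.1 Z x.1
      + (yy φ x : ℂ) * (1 + yy φ x) * ((nuu φ x X / x.2) * D11 φ Y.1 Z x.1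
        + (nuu φ x Y / x.2) * D11 φ X.1 Z x.1) := by
  have hg := hart_HG hA hφ hx hζ
  have hφd : DifferentiableAt ℝ φ x.1 := (hφ.of_le two_le_inf).differentiableAt (by simp)
  have hu0 : 0 < uu φ x := by unfold uu; positivity
  have hy0 : 0 < yy φ x := div_pos hu0 (by linarith)
  have hF : (yy φ x : ℂ) * (1 + yy φ x) ≠ 0 := by
    have : yy φ x * (1 + yy φ x) ≠ 0 := by positivity
    exact_mod_cast this
  -- general equation
  have G : ∀ Z : B2 × ℂ, D11 A Γ.1 Z.1 x.1 + ((yy φ x : ℂ) * (1 + yy φ x) *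
      (nuu φ x Γ / x.2) * conj (nuu φ x Z / x.2) + (yy φ x : ℂ) * D11 φ Γ.1 Z.1 x.1)
      = D21 A X.1 Y.1 Z.1 x.1 + ((yy φ x : ℂ) * (1 + yy φ x) * (1 + 2 * yy φ x) *
          (nuu φ x X / x.2) * (nuu φ x Y / x.2) * conj (nuu φ x Z / x.2)
        + (yy φ x : ℂ) * (1 + yy φ x) * (dz X (dz Y (fun q => (tt φ q : ℂ))) x
            * conj (nuu φ x Z / x.2)
          + (nuu φ x Y / x.2) * D11 φ X.1 Z.1 x.1 + (nuu φ x X / x.2) * D11 φ Y.1 Z.1 x.1)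
        + (yy φ x : ℂ) * D21 φ X.1 Y.1 Z.1 x.1) := by
    intro Z
    have h1 := h Z
    have h2 := (hg.s11 Γ Z).self_of_nhds
    have h3 := (hg.s21 X Y Z).self_of_nhds
    have eb : dzb Z (fun q => (tt φ q : ℂ)) x = conj (nuu φ x Z / x.2) := by
      rw [dzb_ofReal, dz_tt hφd hζ]
    have e4 : dz Γ (dzb Z (fun q => (tt φ q : ℂ))) x = D11 φ Γ.1 Z.1 x.1 := D11_tt hφ hζ Γ Z
    have e5 : dz X (dzb Z (fun q => (tt φ q : ℂ))) x = D11 φ X.1 Z.1 x.1 := D11_tt hφ hζ X Z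
    have e6 : dz Y (dzb Z (fun q => (tt φ q : ℂ))) x = D11 φ Y.1 Z.1 x.1 := D11_tt hφ hζ Y Z
    have e7 : dz X (dz Y (dzb Z (fun q => (tt φ q : ℂ)))) x = D21 φ X.1 Y.1 Z.1 x.1 :=
      D21_tt hφ hζ X Y Z
    have e8 : dz Γ (dzb Z (fun q : B2 × ℂ => (A q.1 : ℂ))) x = D11 A Γ.1 Z.1 x.1 := D11_fst hA Γ Z
    have e9 : dz X (dz Y (dzb Z (fun q : B2 × ℂ => (A q.1 : ℂ)))) x = D21 A X.1 Y.1 Z.1 x.1 :=
      D21_fst hA X Y Z
    rw [dz_tt hφd hζ, eb, e4, e8] at h2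
    rw [dz_tt hφd hζ, dz_tt hφd hζ, eb, e5, e6, e7, e9] at h3
    unfold D11 D21 at h1
    rw [h2, h3] at h1
    exact h1
  -- linearity of `nuu`
  have hnv : nuu φ x ((0, x.2) : B2 × ℂ) = x.2 := by
    unfold nuu; simp
  have hD0 : ∀ (P : B2 → ℝ), ContDiffAt ℝ ∞ P x.1 → ∀ W, D11 P W 0 x.1 = 0 := by
    intro P hP W
    have := D11_smul_right hP 0 W (0 : B2)
    simpa using this
  have hD20 : ∀ (P : B2 → ℝ), ContDiffAt ℝ ∞ P x.1 → ∀ W W', D21 P W W' 0 x.1 = 0 := by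
    intro P hP W W'
    have := D21_smul_3 hP 0 W W' (0 : B2)
    simpa using this
  have h1 := G ((0, x.2) : B2 × ℂ)
  simp only [hD0 A hA, hD0 φ hφ, hD20 A hA, hD20 φ hφ, hnv, div_self hζ, map_one, mul_one, mul_zero,
    add_zero, zero_add] at h1
  have i1 : nuu φ x Γ / x.2 = dz X (dz Y (fun q => (tt φ q : ℂ))) x
      + (1 + 2 * (yy φ x : ℂ)) * (nuu φ x X / x.2) * (nuu φ x Y / x.2) := by
    apply mul_left_cancel₀ hF
    rw [h1]; ring
  refine ⟨i1, fun Z => ?_⟩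
  have h2 := G (Z, 0)
  rw [i1] at h2
  rw [Hpot_D11 hA hφ, Hpot_D21 hA hφ]
  simp only at h2
  linear_combination h2

end HH

open HH in
/-- the exact formula for `- K` numerator. -/
theorem hart_negK (A φ : B2 → ℝ) (x : B2 × ℂ) (hA : ContDiffAt ℝ ∞ A x.1)
    (hφ : ContDiffAt ℝ ∞ φ x.1) (hx : uu φ x < 1) (hζ : x.2 ≠ 0)
    (hH : PD (Hpot A φ (yy φ x)) x.1)
    (κ : B2 → B2) (hκ : ∀ v w, D11 (Hpot A φ (yy φ x)) (κ v) w x.1 = D11 φ v w x.1)
    (X Y Γxx Γxy Γyy : B2 × ℂ) (h1 : IsGam (hart A φ) x X X Γxx)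
    (h2 : IsGam (hart A φ) x X Y Γxy) (h3 : IsGam (hart A φ) x Y Y Γyy)
    (γ11 γ12 γ22 g1 g2 : B2)
    (k11 : IsGam (Hpot A φ (yy φ x)) x.1 X.1 X.1 γ11)
    (k12 : IsGam (Hpot A φ (yy φ x)) x.1 X.1 Y.1 γ12)
    (k22 : IsGam (Hpot A φ (yy φ x)) x.1 Y.1 Y.1 γ22)
    (u' : B2) (hu' : u' = conj (aa φ x X) • Y.1 - conj (aa φ x Y) • X.1)
    (kg1 : IsGam (Hpot A φ (yy φ x)) x.1 X.1 u' g1)
    (kg2 : IsGam (Hpot A φ (yy φ x)) x.1 Y.1 u' g2) :
    negK (hart A φ) x X Y Γxx Γxy Γyy =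
      (mf A φ (yy φ x) x.1 κ u' u').re + 4 * (aa φ x X * conj (aa φ x Y)).im ^ 2
      + 4 * (aa φ x X * conj (aa φ x Y)).im * (mf A φ (yy φ x) x.1 κ X.1 Y.1).im
      + yy φ x * (1 + yy φ x) * calK φ x.1 X.1 Y.1
      + negK (Hpot A φ (yy φ x)) x.1 X.1 Y.1 γ11 γ12 γ22
      + 2 * Real.sqrt (yy φ x * (1 + yy φ x)) *
        ((D21 φ X.1 u' Y.1 x.1 - D11 φ g1 Y.1 x.1)
          - (D21 φ Y.1 u' X.1 x.1 - D11 φ g2 X.1 x.1)).re := by
  have hHc : ContDiffAt ℝ ∞ (Hpot A φ (yy φ x)) x.1 := Hpot_contDiffAt hA hφ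
  have hg := hart_HG hA hφ hx hζ
  have hφd : DifferentiableAt ℝ φ x.1 := (hφ.of_le two_le_inf).differentiableAt (by simp)
  have hu0 : 0 < uu φ x := by unfold uu; positivity
  have hy0 : 0 < yy φ x := div_pos hu0 (by linarith)
  have htt : ContDiffAt ℝ ∞ (tt φ) x := contDiffAt_tt hφ hζ
  set s : ℝ := Real.sqrt (yy φ x * (1 + yy φ x)) with hs
  have hs2 : s ^ 2 = yy φ x * (1 + yy φ x) := Real.sq_sqrt (by positivity)
  have hsc : (s : ℂ) ^ 2 = (yy φ x : ℂ) * (1 + yy φ x) := by exact_mod_cast hs2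
  -- Hermitian form and κ
  have hκr : ∀ v w, D11 (Hpot A φ (yy φ x)) w (κ v) x.1 = D11 φ w v x.1 := by
    intro v w
    rw [← D11_conj hHc, hκ, D11_conj hφ]
  have hκκ : ∀ v w, D11 (Hpot A φ (yy φ x)) (κ v) (κ w) x.1 = D11 φ v (κ w) x.1 :=
    fun v w => hκ _ _
  obtain ⟨t1, r1⟩ := gam_split hA hφ hx hζ h1
  obtain ⟨t2, r2⟩ := gam_split hA hφ hx hζ h2
  obtain ⟨t3, r3⟩ := gam_split hA hφ hx hζ h3
  have haX : aa φ x X = (s : ℂ) * (nuu φ x X / x.2) := rfl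
  have haY : aa φ x Y = (s : ℂ) * (nuu φ x Y / x.2) := rfl
  -- fourth derivatives
  have eb : ∀ Z, dzb Z (fun q => (tt φ q : ℂ)) x = conj (nuu φ x Z / x.2) := by
    intro Z; rw [dzb_ofReal, dz_tt hφd hζ]
  have et : ∀ Z, dz Z (fun q => (tt φ q : ℂ)) x = nuu φ x Z / x.2 := fun Z => dz_tt hφd hζ Z
  have e11 : ∀ Z W, dz Z (dzb W (fun q => (tt φ q : ℂ))) x = D11 φ Z.1 W.1 x.1 :=
    fun Z W => D11_tt hφ hζ Z W
  have e21 : ∀ Z W U, dz Z (dz W (dzb U (fun q => (tt φ q : ℂ)))) x = D21 φ Z.1 W.1 U.1 x.1 :=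
    fun Z W U => D21_tt hφ hζ Z W U
  have e12 : ∀ Z W U, dz Z (dzb W (dzb U (fun q => (tt φ q : ℂ)))) x = conj (D21 φ W.1 U.1 Z.1 x.1) := by
    intro Z W U
    rw [D12_eq htt, D21_tt hφ hζ]
  have e02 : ∀ Z W, dzb Z (dzb W (fun q => (tt φ q : ℂ))) x =
      conj (dz Z (dz W (fun q => (tt φ q : ℂ))) x) := fun Z W => D02_eq x Z W
  have e22 : ∀ Z W U T, dz Z (dz W (dzb U (dzb T (fun q => (tt φ q : ℂ))))) x =
      D22 φ Z.1 W.1 U.1 T.1 x.1 := fun Z W U T => D22_tt hφ hζ Z W U T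
  have a22 : ∀ Z W U T : B2 × ℂ, dz Z (dz W (dzb U (dzb T (fun q : B2 × ℂ => (A q.1 : ℂ))))) x =
      D22 A Z.1 W.1 U.1 T.1 x.1 := fun Z W U T => D22_fst hA Z W U T
  have Q1 := hg.s22 X Y X Y
  have Q2 := hg.s22 X X Y Y
  simp only [et, eb, e11, e21, e12, e02, e22, a22] at Q1 Q2
  have Q1' : D22 (hart A φ) X Y X Y x = _ := Q1
  have Q2' : D22 (hart A φ) X X Y Y x = _ := Q2
  clear Q1 Q2
  -- the Hartogs metric at `x`
  have M11 : ∀ Z W, D11 (hart A φ) Z W x = D11 (Hpot A φ (yy φ x)) Z.1 W.1 x.1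
      + (s:ℂ)^2 * (nuu φ x Z / x.2) * conj (nuu φ x W / x.2) := by
    intro Z W
    have h4 := (hg.s11 Z W).self_of_nhds
    rw [et, eb, e11] at h4
    have e8 : dz Z (dzb W (fun q : B2 × ℂ => (A q.1 : ℂ))) x = D11 A Z.1 W.1 x.1 := D11_fst hA Z W
    rw [e8] at h4
    unfold D11
    rw [h4]
    have := Hpot_D11 (y := yy φ x) hA hφ Z.1 W.1
    unfold D11 at this ⊢
    rw [this, hsc]; ring
  -- replacement vectors
  set a := nuu φ x X / x.2 with ha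
  set b := nuu φ x Y / x.2 with hb
  set H := Hpot A φ (yy φ x) with hHdef
  have d2 : ∀ Z, D11 H Γxy.1 Z x.1 =
      D11 H (γ12 + (((s:ℂ)^2 * a) • κ Y.1 + ((s:ℂ)^2 * b) • κ X.1)) Z x.1 := by
    intro Z
    rw [r2 Z, D11_add_left hHc, D11_add_left hHc, D11_smul_left hHc, D11_smul_left hHc, hκ, hκ,
      k12 Z, hsc]
    ring
  have d1 : ∀ Z, D11 H Γxx.1 Z x.1 = D11 H (γ11 + (2 * (s:ℂ)^2 * a) • κ X.1) Z x.1 := by
    intro Z
    rw [r1 Z, D11_add_left hHc, D11_smul_left hHc, hκ, k11 Z, hsc]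
    ring
  have d3 : ∀ Z, D11 H Γyy.1 Z x.1 = D11 H (γ22 + (2 * (s:ℂ)^2 * b) • κ Y.1) Z x.1 := by
    intro Z
    rw [r3 Z, D11_add_left hHc, D11_smul_left hHc, hκ, k22 Z, hsc]
    ring
  have N1 := D11_repl hHc d2 d2
  have N2 := D11_repl hHc d1 d3
  have cs : conj ((s:ℂ)) = s := Complex.conj_ofReal s
  -- names of the scalars
  have K21 : D11 H (κ Y.1) (κ X.1) x.1 = conj (D11 H (κ X.1) (κ Y.1) x.1) := (D11_conj hHc _ _).symm
  have S21 : D11 φ Y.1 X.1 x.1 = conj (D11 φ X.1 Y.1 x.1) := (D11_conj hφ _ _).symm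
  have K21' : D11 φ (κ Y.1) X.1 x.1 = conj (D11 φ (κ X.1) Y.1 x.1) := by
    rw [← hκr X.1 (κ Y.1), ← hκr Y.1 (κ X.1), K21]
  have kl : ∀ v w, D11 H (κ v) w x.1 = conj (D11 φ w v x.1) := by
    intro v w; rw [hκ, D11_conj hφ]
  have N1' : D11 H Γxy.1 Γxy.1 x.1 = D11 H γ12 γ12 x.1
      + (s:ℂ)^2 * (conj a * D11 φ γ12 Y.1 x.1 + conj b * D11 φ γ12 X.1 x.1
        + a * conj (D11 φ γ12 Y.1 x.1) + b * conj (D11 φ γ12 X.1 x.1))
      + (s:ℂ)^4 * (a * conj a * D11 H (κ Y.1) (κ Y.1) x.1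
        + a * conj b * conj (D11 H (κ X.1) (κ Y.1) x.1)
        + b * conj a * D11 H (κ X.1) (κ Y.1) x.1 + b * conj b * D11 H (κ X.1) (κ X.1) x.1) := by
    rw [N1]
    simp only [D11_add_left hHc, D11_add_right hHc, D11_smul_left hHc, D11_smul_right hHc, hκr,
      map_mul, map_pow, cs]
    rw [kl Y.1 γ12, kl X.1 γ12, K21']
    ring
  have N2' : D11 H Γxx.1 Γyy.1 x.1 = D11 H γ11 γ22 x.1
      + 2 * (s:ℂ)^2 * (conj b * D11 φ γ11 Y.1 x.1 + a * conj (D11 φ γ22 X.1 x.1))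
      + 4 * (s:ℂ)^4 * (a * conj b * D11 H (κ X.1) (κ Y.1) x.1) := by
    rw [N2]
    simp only [D11_add_left hHc, D11_add_right hHc, D11_smul_left hHc, D11_smul_right hHc, hκr,
      map_mul, map_pow, cs, map_ofNat]
    rw [kl X.1 γ22]
    ring
  -- third order terms
  have P1 : D21 φ X.1 u' Y.1 x.1 = (s:ℂ) * (conj a * D21 φ X.1 Y.1 Y.1 x.1
      - conj b * D21 φ X.1 X.1 Y.1 x.1) := by
    rw [hu', D21_sub_2 hφ, D21_smul_2 hφ, D21_smul_2 hφ, haX, haY, map_mul, map_mul, cs]; ring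
  have P2 : D21 φ Y.1 u' X.1 x.1 = (s:ℂ) * (conj a * D21 φ Y.1 Y.1 X.1 x.1
      - conj b * D21 φ X.1 Y.1 X.1 x.1) := by
    rw [hu', D21_sub_2 hφ, D21_smul_2 hφ, D21_smul_2 hφ, haX, haY, map_mul, map_mul, cs,
      D21_symm hφ Y.1 X.1]; ring
  have P3 : D11 φ g1 Y.1 x.1 = (s:ℂ) * (conj a * D11 φ γ12 Y.1 x.1 - conj b * D11 φ γ11 Y.1 x.1) := by
    rw [← hκr Y.1 g1, kg1, hu', D21_sub_2 hHc, D21_smul_2 hHc, D21_smul_2 hHc, ← k12, ← k11, hκr,
      hκr, haX, haY, map_mul, map_mul, cs]; ring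
  have P4 : D11 φ g2 X.1 x.1 = (s:ℂ) * (conj a * D11 φ γ22 X.1 x.1 - conj b * D11 φ γ12 X.1 x.1) := by
    rw [← hκr X.1 g2, kg2, hu', D21_sub_2 hHc, D21_smul_2 hHc, D21_smul_2 hHc,
      D21_symm hHc Y.1 X.1, ← k12, ← k22, hκr,
      hκr, haX, haY, map_mul, map_mul, cs]; ring
  -- mf at u', u'
  have hκu : ∀ w, D11 H (κ u') w x.1 = D11 H ((conj ((s:ℂ) * a)) • κ Y.1 - (conj ((s:ℂ) * b)) • κ X.1) w x.1 := by
    intro w
    rw [hκ, hu', D11_sub_left hφ, D11_sub_left hHc, D11_smul_left hφ, D11_smul_left hφ,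
      D11_smul_left hHc, D11_smul_left hHc, hκ, hκ, haX, haY]
  have U1 : D11 H (κ u') (κ u') x.1 = (s:ℂ)^2 * (conj a * a * D11 H (κ Y.1) (κ Y.1) x.1
      - conj a * b * conj (D11 H (κ X.1) (κ Y.1) x.1) - conj b * a * D11 H (κ X.1) (κ Y.1) x.1
      + conj b * b * D11 H (κ X.1) (κ X.1) x.1) := by
    rw [D11_repl hHc hκu hκu]
    simp only [D11_sub_left hHc, D11_sub_right hHc, D11_smul_left hHc, D11_smul_right hHc,
      map_mul, Complex.conj_conj, cs]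
    rw [K21]
    ring
  have U2 : D11 φ u' u' x.1 = (s:ℂ)^2 * (conj a * a * D11 φ Y.1 Y.1 x.1
      - conj a * b * conj (D11 φ X.1 Y.1 x.1) - conj b * a * D11 φ X.1 Y.1 x.1
      + conj b * b * D11 φ X.1 X.1 x.1) := by
    rw [hu', haX, haY]
    simp only [D11_sub_left hφ, D11_sub_right hφ, D11_smul_left hφ, D11_smul_right hφ,
      map_mul, Complex.conj_conj, cs]
    rw [S21]
    ring
  have SX := D11_self_re hφ X.1
  have SY := D11_self_re hφ Y.1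
  have KX := D11_self_re hHc (κ X.1)
  have KY := D11_self_re hHc (κ Y.1)
  have key := negK_alg s (yy φ x) a b (dz X (dz X (fun q => (tt φ q : ℂ))) x)
    (dz X (dz Y (fun q => (tt φ q : ℂ))) x) (dz Y (dz Y (fun q => (tt φ q : ℂ))) x)
    (D11 φ X.1 Y.1 x.1) (D21 φ X.1 Y.1 X.1 x.1) (D21 φ X.1 Y.1 Y.1 x.1) (D21 φ X.1 X.1 Y.1 x.1)
    (D21 φ Y.1 Y.1 X.1 x.1) (D11 φ γ12 X.1 x.1) (D11 φ γ12 Y.1 x.1) (D11 φ γ11 Y.1 x.1)
    (D11 φ γ22 X.1 x.1) (D11 H (κ X.1) (κ Y.1) x.1)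
    (D22 H X.1 Y.1 X.1 Y.1 x.1) (D22 H X.1 X.1 Y.1 Y.1 x.1) (D11 H γ12 γ12 x.1)
    (D11 H γ11 γ22 x.1)
    (D11 φ X.1 X.1 x.1).re (D11 φ Y.1 Y.1 x.1).re (D11 H (κ X.1) (κ X.1) x.1).re
    (D11 H (κ Y.1) (κ Y.1) x.1).re
  rw [← SX, ← SY, ← KX, ← KY] at key
  have R1 : mf A φ (yy φ x) x.1 κ u' u' = (1 + 2 * (yy φ x : ℂ)) * ((s:ℂ)^2 *
      (conj a * a * D11 φ Y.1 Y.1 x.1
      - conj a * b * conj (D11 φ X.1 Y.1 x.1) - conj b * a * D11 φ X.1 Y.1 x.1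
      + conj b * b * D11 φ X.1 X.1 x.1)) - (s:ℂ)^2 * ((s:ℂ)^2 *
      (conj a * a * D11 H (κ Y.1) (κ Y.1) x.1
      - conj a * b * conj (D11 H (κ X.1) (κ Y.1) x.1) - conj b * a * D11 H (κ X.1) (κ Y.1) x.1
      + conj b * b * D11 H (κ X.1) (κ X.1) x.1)) := by
    unfold mf
    rw [← hHdef, U1, U2]
    rw [show (yy φ x : ℂ) * (1 + yy φ x) = (s:ℂ)^2 from hsc.symm]
  have R2 : mf A φ (yy φ x) x.1 κ X.1 Y.1 = (1 + 2 * (yy φ x : ℂ)) * D11 φ X.1 Y.1 x.1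
      - (s:ℂ)^2 * D11 H (κ X.1) (κ Y.1) x.1 := by
    unfold mf
    rw [← hHdef, hsc]
  have R3 : negK H x.1 X.1 Y.1 γ11 γ12 γ22 = (D22 H X.1 Y.1 X.1 Y.1 x.1 - D11 H γ12 γ12 x.1
      - D22 H X.1 X.1 Y.1 Y.1 x.1 + D11 H γ11 γ22 x.1).re := rfl
  have hs4 : (s:ℂ)^4 = ((yy φ x : ℂ) * (1 + yy φ x)) ^ 2 := by
    rw [← hsc]; ring
  refine Eq.trans ?_ (key.trans ?_)
  · unfold negK
    rw [Q1', Q2', M11, M11, N1', N2', t1, t2, t3]
    congr 1
    rw [hs4, hsc, Hpot_D22 hA hφ, Hpot_D22 hA hφ, S21]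
    simp only [map_add, map_mul, map_one, map_ofNat, Complex.conj_ofReal]
    ring
  · rw [R1, R2, R3, P1, P2, P3, P4, haX, haY]
    unfold calK
    rw [← hs2]

end Crest.Agent.R245
end

-- ▼ part R245/LemmaH3
section

/-! TASK LemmaH3: the area formula. -/

set_option autoImplicit false

namespace Crest.Agent.R245

open Complex Filter Topology
open scoped ContDiff ComplexConjugate

/-- the algebra behind the area formula -/
theorem area_alg (hxx hyy hxy hyx a c uu' : ℂ) (h1 : conj hxx = hxx) (h2 : conj hyy = hyy)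
    (h3 : conj hxy = hyx)
    (hu : uu' = conj a * (a * hyy) - conj a * (c * hyx) - conj c * (a * hxy)
      + conj c * (c * hxx)) :
    (hxx + a * conj a).re * (hyy + c * conj c).re - (hxy + a * conj c).re ^ 2 =
      (hxx.re * hyy.re - hxy.re ^ 2) + uu'.re
      - 2 * (a * conj c).im * hxy.im + (a * conj c).im ^ 2 := by
  have e1 : hxx.im = 0 := by
    have := congrArg Complex.im h1
    simp at this
    linarith
  have e2 : hyy.im = 0 := by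
    have := congrArg Complex.im h2
    simp at this
    linarith
  subst h3
  subst hu
  simp only [Complex.add_re, Complex.sub_re, Complex.mul_re, Complex.conj_re, Complex.conj_im,
    Complex.mul_im, e1, e2]
  ring

/-- area in terms of the decomposition -/
theorem hart_area (A φ : B2 → ℝ) (x : B2 × ℂ) (hA : ContDiffAt ℝ ∞ A x.1)
    (hφ : ContDiffAt ℝ ∞ φ x.1) (hx : uu φ x < 1) (hζ : x.2 ≠ 0) (X Y : B2 × ℂ)
    (u' : B2) (hu' : u' = conj (aa φ x X) • Y.1 - conj (aa φ x Y) • X.1) :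
    area (hart A φ) x X Y = area (Hpot A φ (yy φ x)) x.1 X.1 Y.1
      + (D11 (Hpot A φ (yy φ x)) u' u' x.1).re
      - 2 * (aa φ x X * conj (aa φ x Y)).im * (D11 (Hpot A φ (yy φ x)) X.1 Y.1 x.1).im
      + (aa φ x X * conj (aa φ x Y)).im ^ 2 := by
  have hH : ContDiffAt ℝ ∞ (Hpot A φ (yy φ x)) x.1 := by
    unfold Hpot
    exact hA.add (contDiffAt_const.mul hφ)
  unfold area
  rw [hart_D11' A φ x hA hφ hx hζ, hart_D11' A φ x hA hφ hx hζ, hart_D11' A φ x hA hφ hx hζ]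
  apply area_alg _ _ _ (D11 (Hpot A φ (yy φ x)) Y.1 X.1 x.1)
  · exact D11_conj hH _ _
  · exact D11_conj hH _ _
  · exact D11_conj hH _ _
  · subst hu'
    rw [sub_eq_add_neg, ← neg_smul, D11_add_left hH, D11_add_right hH, D11_add_right hH,
      D11_smul_left hH, D11_smul_left hH, D11_smul_left hH, D11_smul_left hH,
      D11_smul_right hH, D11_smul_right hH, D11_smul_right hH, D11_smul_right hH]
    simp only [map_neg, Complex.conj_conj]
    ring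

end Crest.Agent.R245
end

-- ▼ part R245/LemmaH
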