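import Crest.Agent.R245.CurvT_Mg
import Crest.Agent.R245.BasePertA
import Crest.Agent.R245.LemmaH
import Crest.Agent.R245.AlgR
import Crest.Agent.R245.CurvR2Num

-- ▼ part R245/CurvS
section

/-! Auxiliary statements for the transition region (row 245). -/

set_option autoImplicit false

namespace Crest.Agent.R245

open Complex Filter Topology
open scoped ContDiff ComplexConjugate

theorem r1_yy_nonneg {φ : B2 → ℝ} {x : B2 × ℂ} (hx : uu φ x < 1) : 0 ≤ yy φ x := by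
  unfold yy
  apply div_nonneg
  · unfold uu; positivity
  · linarith

theorem r1_jetH {EA Eφ : B2 → ℝ} {δ y : ℝ} (hEA : ContDiffAt ℝ ∞ EA q0)
    (hEφ : ContDiffAt ℝ ∞ Eφ q0) (hJA : JetB EA δ) (hJφ : JetB Eφ δ) (hy : 0 ≤ y) :
    JetB (fun b => EA b + y * Eφ b) (δ * (1 + y)) := by
  have h := jetB_add_smul hEA hEφ hJA hJφ hy
  have e : δ * (1 + y) = δ + y * δ := by ring
  rw [e]; exact h

/-- lower and upper bound of `D aS + E` -/
theorem r1_Hb {E : B2 → ℝ} {D W s δ : ℝ} (hD : s * W ≤ D)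
    (hW : 1 ≤ W) (hδs : 8 * δ ≤ s) (hE : ContDiffAt ℝ ∞ E q0)
    (hJ : JetB E (δ * W)) (v : B2) :
    D / 2 * (D11 aS v v q0).re ≤ (D11 (fun b => D * aS b + E b) v v q0).re ∧
    (D11 (fun b => D * aS b + E b) v v q0).re ≤ (D + D / 2) * (D11 aS v v q0).re := by
  have hf : 4 * (δ * W) ≤ D / 2 := by
    have h1 : (8 * δ) * W ≤ s * W := mul_le_mul_of_nonneg_right hδs (by linarith)
    linarith
  exact Herm.H_bounds (om := fun X Y => D11 aS X Y q0)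
    (H := fun X Y => D11 (fun b => D * aS b + E b) X Y q0)
    (F := fun X Y => D11 E X Y q0) om_nonneg hf (by linarith)
    (fun v w => D11_split hE D v w) (fun v w => jet_D11_le hE hJ v w) v

theorem r1_KH : ∃ C₀ : ℝ, 0 < C₀ ∧ ∀ (D W s δ : ℝ) (E : B2 → ℝ), 0 < s → 1 ≤ W →
    0 ≤ δ → 8 * δ ≤ s → s * W ≤ D → ContDiffAt ℝ ∞ E q0 → JetB E (δ * W) →
    ∀ ξ η γ11 γ12 γ22, IsGam (fun b => D * aS b + E b) q0 ξ ξ γ11 →
      IsGam (fun b => D * aS b + E b) q0 ξ η γ12 →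
      IsGam (fun b => D * aS b + E b) q0 η η γ22 →
      |negK (fun b => D * aS b + E b) q0 ξ η γ11 γ12 γ22 - D * calK aS q0 ξ η|
        ≤ C₀ * δ * W * area aS q0 ξ η := by
  obtain ⟨C0, hC0, hbp⟩ := base_pert
  refine ⟨2 * C0, by positivity, ?_⟩
  intro D W s δ E hs hW hδ0 hδs hD hE hJ ξ η γ11 γ12 γ22 k1 k2 k3
  have hW0 : 0 < W := by linarith
  have hsW : 0 < s * W := by positivity
  have h0 : ∀ ξ, s * W / 2 * (D11 aS ξ ξ q0).re ≤ (D11 (fun b => D * aS b + E b) ξ ξ q0).re := by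
    intro ξ
    have h1 := (r1_Hb hD hW hδs hE hJ ξ).1
    have h2 : s * W / 2 * (D11 aS ξ ξ q0).re ≤ D / 2 * (D11 aS ξ ξ q0).re := by
      apply mul_le_mul_of_nonneg_right _ (om_nonneg ξ)
      linarith
    linarith
  have h1 := hbp D (s * W / 2) (δ * W) E (by linarith) (by positivity) (by positivity) hE hJ h0
    ξ η γ11 γ12 γ22 k1 k2 k3
  refine h1.trans ?_
  have ha : 0 ≤ area aS q0 ξ η := herm_aS.ar_nonneg om_nonneg ξ η
  apply mul_le_mul_of_nonneg_right _ ha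
  have h3 : (δ * W) ^ 2 / (s * W / 2) ≤ δ * W := by
    rw [div_le_iff₀ (by positivity)]
    have : δ * (δ * W ^ 2) ≤ (s / 2) * (δ * W ^ 2) := by
      apply mul_le_mul_of_nonneg_right _ (by positivity)
      linarith
    linarith
  calc C0 * (δ * W + (δ * W) ^ 2 / (s * W / 2)) ≤ C0 * (δ * W + δ * W) := by gcongr
    _ = 2 * C0 * δ * W := by ring

theorem r1_X : ∃ C₀ : ℝ, 0 < C₀ ∧ ∀ (g σ y s δ : ℝ) (EA Eφ : B2 → ℝ), 0 < s → s ≤ σ → σ ≤ 1 →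
    1 ≤ g → 0 ≤ y → 0 ≤ δ → 8 * δ ≤ s → ContDiffAt ℝ ∞ EA q0 → ContDiffAt ℝ ∞ Eφ q0 →
    JetB EA δ → JetB Eφ δ →
    ∀ ξ η u' g1 g2,
      IsGam (Hpot (fun b => g * aS b + EA b) (fun b => σ * aS b + Eφ b) y) q0 ξ u' g1 →
      IsGam (Hpot (fun b => g * aS b + EA b) (fun b => σ * aS b + Eφ b) y) q0 η u' g2 →
      |2 * Real.sqrt (y * (1 + y)) *
        ((D21 (fun b => σ * aS b + Eφ b) ξ u' η q0 - D11 (fun b => σ * aS b + Eφ b) g1 η q0)
          - (D21 (fun b => σ * aS b + Eφ b) η u' ξ q0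
              - D11 (fun b => σ * aS b + Eφ b) g2 ξ q0)).re|
        ≤ (C₀ / s) * δ * (1 + y) * Real.sqrt (area aS q0 ξ η)
            * Real.sqrt (D11 aS u' u' q0).re := by
  obtain ⟨C1, hC1, hcb⟩ := cross_bound
  refine ⟨10 * C1, by positivity, ?_⟩
  intro g σ y s δ EA Eφ hs hsσ hσ1 hg hy hδ0 hδs hEA hEφ hJA hJφ ξ η u' g1 g2 kg1 kg2
  have hs1 : s ≤ 1 := hsσ.trans hσ1
  have hσ0 : 0 < σ := lt_of_lt_of_le hs hsσ
  have hW : 1 ≤ 1 + y := by linarith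
  have hW0 : 0 < 1 + y := by linarith
  have hD : s * (1 + y) ≤ g + y * σ := by
    have h2 : y * s ≤ y * σ := mul_le_mul_of_nonneg_left hsσ hy
    linarith
  have hEH : ContDiffAt ℝ ∞ (fun b => EA b + y * Eφ b) q0 := hEA.add (contDiffAt_const.mul hEφ)
  have hJH := r1_jetH hEA hEφ hJA hJφ hy
  have h0 : ∀ ξ, s * (1 + y) / 2 * (D11 aS ξ ξ q0).re ≤
      (D11 (Hpot (fun b => g * aS b + EA b) (fun b => σ * aS b + Eφ b) y) ξ ξ q0).re := by
    intro ξ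
    rw [Hpot_split]
    have h1 := (r1_Hb hD hW hδs hEH hJH ξ).1
    have h2 : s * (1 + y) / 2 * (D11 aS ξ ξ q0).re ≤ (g + y * σ) / 2 * (D11 aS ξ ξ q0).re := by
      apply mul_le_mul_of_nonneg_right _ (om_nonneg ξ)
      linarith
    linarith
  have hφn : ∀ ξ η, ‖D11 (fun b => σ * aS b + Eφ b) ξ η q0‖ ≤
      2 * Real.sqrt (D11 aS ξ ξ q0).re * Real.sqrt (D11 aS η η q0).re := by
    intro ξ η
    exact Herm.phi_norm (om := fun X Y => D11 aS X Y q0)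
      (φ := fun X Y => D11 (fun b => σ * aS b + Eφ b) X Y q0)
      (E := fun X Y => D11 Eφ X Y q0) (e := 4 * δ) herm_aS om_nonneg hσ0.le (by linarith)
      (fun v w => D11_split hEφ σ v w) (fun v w => jet_D11_le hEφ hJφ v w) ξ η
  have h1 := hcb g σ y (s * (1 + y) / 2) 2 δ δ EA Eφ (by linarith) hσ0.le hy (by positivity)
    hδ0 hδ0 hEA hEφ hJA hJφ h0 hφn ξ η u' g1 g2 kg1 kg2
  have h2 : δ + (δ + y * δ) * 2 / (s * (1 + y) / 2) ≤ 5 * δ / s := by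
    have e1 : (δ + y * δ) * 2 / (s * (1 + y) / 2) = 4 * δ / s := by
      field_simp; ring
    have e2 : δ ≤ δ / s := by
      rw [le_div_iff₀ hs]
      have : δ * s ≤ δ * 1 := mul_le_mul_of_nonneg_left hs1 hδ0
      linarith
    rw [e1]
    have e3 : 5 * δ / s = δ / s + 4 * δ / s := by ring
    linarith
  have h3 : Real.sqrt (y * (1 + y)) ≤ 1 + y := by
    apply Real.sqrt_le_iff.2
    refine ⟨hW0.le, ?_⟩
    nlinarith only [hy]
  rw [abs_mul, abs_of_nonneg (by positivity : 0 ≤ 2 * Real.sqrt (y * (1 + y)))]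
  have h4 : C1 * (δ + (δ + y * δ) * 2 / (s * (1 + y) / 2)) * Real.sqrt (area aS q0 ξ η)
      * Real.sqrt (D11 aS u' u' q0).re ≤ C1 * (5 * δ / s) * Real.sqrt (area aS q0 ξ η)
      * Real.sqrt (D11 aS u' u' q0).re := by
    gcongr
  have h5 := h1.trans h4
  have h6 : 0 ≤ C1 * (5 * δ / s) * Real.sqrt (area aS q0 ξ η)
      * Real.sqrt (D11 aS u' u' q0).re := by positivity
  calc 2 * Real.sqrt (y * (1 + y)) * _ ≤ 2 * Real.sqrt (y * (1 + y)) *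
        (C1 * (5 * δ / s) * Real.sqrt (area aS q0 ξ η)
          * Real.sqrt (D11 aS u' u' q0).re) := by
        apply mul_le_mul_of_nonneg_left h5 (by positivity)
    _ ≤ 2 * (1 + y) * (C1 * (5 * δ / s) * Real.sqrt (area aS q0 ξ η)
          * Real.sqrt (D11 aS u' u' q0).re) := by
        apply mul_le_mul_of_nonneg_right _ h6
        linarith
    _ = (10 * C1 / s) * δ * (1 + y) * Real.sqrt (area aS q0 ξ η)
            * Real.sqrt (D11 aS u' u' q0).re := by ring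

end Crest.Agent.R245
end

-- ▼ part R245/CurvR1
section

/-! TASK CurvR1: curvature in the transition region. -/

set_option autoImplicit false

namespace Crest.Agent.R245

open Complex Filter Topology
open scoped ContDiff ComplexConjugate

/-- the area estimate -/
theorem r1_area {Λ s δ g σ y : ℝ} {EA Eφ : B2 → ℝ} (hs : 0 < s) (hsσ : s ≤ σ) (hσ1 : σ ≤ 1)
    (hg1 : 1 ≤ g) (hgΛ : g ≤ Λ) (hy : 0 ≤ y) (hδs : 8 * δ ≤ s)
    (hEA : ContDiffAt ℝ ∞ EA q0) (hEφ : ContDiffAt ℝ ∞ Eφ q0)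
    (hJA : JetB EA δ) (hJφ : JetB Eφ δ) (X Y u : B2) (α β : ℂ)
    (hu : u = conj α • Y - conj β • X) :
    s ^ 2 / 8 * ((1 + y) * (D11 aS u u q0).re + (α * conj β).im ^ 2
        + (1 + y) ^ 2 * area aS q0 X Y) ≤
      area (fun b => (g + y * σ) * aS b + (EA b + y * Eφ b)) q0 X Y
      + (D11 (fun b => (g + y * σ) * aS b + (EA b + y * Eφ b)) u u q0).re
      - 2 * (α * conj β).im *
        (D11 (fun b => (g + y * σ) * aS b + (EA b + y * Eφ b)) X Y q0).im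
      + (α * conj β).im ^ 2 ∧
    area (fun b => (g + y * σ) * aS b + (EA b + y * Eφ b)) q0 X Y
      + (D11 (fun b => (g + y * σ) * aS b + (EA b + y * Eφ b)) u u q0).re
      - 2 * (α * conj β).im *
        (D11 (fun b => (g + y * σ) * aS b + (EA b + y * Eφ b)) X Y q0).im
      + (α * conj β).im ^ 2 ≤
    8 * Λ ^ 2 * ((1 + y) * (D11 aS u u q0).re + (α * conj β).im ^ 2
        + (1 + y) ^ 2 * area aS q0 X Y) := by
  have hs1 : s ≤ 1 := hsσ.trans hσ1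
  have hΛ : 1 ≤ Λ := hg1.trans hgΛ
  have hW : 1 ≤ 1 + y := by linarith
  have hD : s * (1 + y) ≤ g + y * σ := by
    have h2 : y * s ≤ y * σ := mul_le_mul_of_nonneg_left hsσ hy
    linarith
  have hDΛ : g + y * σ ≤ Λ * (1 + y) := by
    have h2 : y * σ ≤ y * Λ := mul_le_mul_of_nonneg_left (hσ1.trans hΛ) hy
    linarith
  have hEH : ContDiffAt ℝ ∞ (fun b => EA b + y * Eφ b) q0 := hEA.add (contDiffAt_const.mul hEφ)
  have hJH := r1_jetH hEA hEφ hJA hJφ hy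
  have hHs : ContDiffAt ℝ ∞ (fun b => (g + y * σ) * aS b + (EA b + y * Eφ b)) q0 :=
    (contDiffAt_const.mul aS_at).add hEH
  have hD0 : 0 < g + y * σ := lt_of_lt_of_le (by positivity) hD
  have hb := fun v => r1_Hb hD hW hδs hEH hJH v
  have H0 : ∀ v, 0 ≤ (D11 (fun b => (g + y * σ) * aS b + (EA b + y * Eφ b)) v v q0).re := by
    intro v
    exact le_trans (mul_nonneg (by linarith) (om_nonneg v)) (hb v).1
  have hup : ∀ v, (D11 (fun b => (g + y * σ) * aS b + (EA b + y * Eφ b)) v v q0).re ≤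
      2 * Λ * (1 + y) * (D11 aS v v q0).re := by
    intro v
    refine (hb v).2.trans ?_
    apply mul_le_mul_of_nonneg_right _ (om_nonneg v)
    have : 0 ≤ Λ * (1 + y) := by positivity
    linarith
  exact Herm.area_bounds (om := fun X Y => D11 aS X Y q0)
    (H := fun X Y => D11 (fun b => (g + y * σ) * aS b + (EA b + y * Eφ b)) X Y q0)
    (l := (g + y * σ) / 2) herm_aS om_pd (herm_D11 hHs) H0 hs hs1 hΛ hW (by linarith)
    (fun v => (hb v).1) hup X Y u α β hu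

/-- the curvature estimate -/
theorem r1_curv {Λ s δ C c g σ y : ℝ} {EA Eφ : B2 → ℝ} (hs : 0 < s) (hsσ : s ≤ σ) (hσ1 : σ ≤ 1)
    (hg1 : 1 ≤ g) (hgΛ : g ≤ Λ) (hy : 0 ≤ y) (hδ0 : 0 ≤ δ) (hδs : 8 * δ ≤ s)
    (hC44 : 44 / s ^ 2 ≤ C) (hC112 : 112 ≤ C)
    (hc : c = 3 / (4 * Λ * (1 + 3 * Λ / s) ^ 2)) (hc0 : 0 < c) (hc1 : c ≤ 1)
    (hδC : C * δ ≤ c * s ^ 2 / 32)
    (hEA : ContDiffAt ℝ ∞ EA q0) (hEφ : ContDiffAt ℝ ∞ Eφ q0)
    (hJA : JetB EA δ) (hJφ : JetB Eφ δ) {κ : B2 → B2}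
    (hκ : ∀ v w, D11 (fun b => (g + y * σ) * aS b + (EA b + y * Eφ b)) (κ v) w q0 =
      D11 (fun b => σ * aS b + Eφ b) v w q0)
    (X Y u : B2) (q KH XX : ℝ)
    (hKH : |KH - (g + y * σ) * calK aS q0 X Y| ≤ C * δ * (1 + y) * area aS q0 X Y)
    (hX : |XX| ≤ C * δ * (1 + y) * Real.sqrt (area aS q0 X Y) * Real.sqrt (D11 aS u u q0).re) :
    (c * s ^ 2 / 4) * ((1 + y) * (D11 aS u u q0).re + q ^ 2 + (1 + y) ^ 2 * area aS q0 X Y) ≤
      (mf (fun b => g * aS b + EA b) (fun b => σ * aS b + Eφ b) y q0 κ u u).re + 4 * q ^ 2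
      + 4 * q * (mf (fun b => g * aS b + EA b) (fun b => σ * aS b + Eφ b) y q0 κ X Y).im
      + y * (1 + y) * calK (fun b => σ * aS b + Eφ b) q0 X Y + KH + XX ∧
    (mf (fun b => g * aS b + EA b) (fun b => σ * aS b + Eφ b) y q0 κ u u).re + 4 * q ^ 2
      + 4 * q * (mf (fun b => g * aS b + EA b) (fun b => σ * aS b + Eφ b) y q0 κ X Y).im
      + y * (1 + y) * calK (fun b => σ * aS b + Eφ b) q0 X Y + KH + XX ≤
    (20 * Λ) * ((1 + y) * (D11 aS u u q0).re + q ^ 2 + (1 + y) ^ 2 * area aS q0 X Y) := by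
  have hEH : ContDiffAt ℝ ∞ (fun b => EA b + y * Eφ b) q0 := hEA.add (contDiffAt_const.mul hEφ)
  have hJH := r1_jetH hEA hEφ hJA hJφ hy
  have hHs : ContDiffAt ℝ ∞ (fun b => (g + y * σ) * aS b + (EA b + y * Eφ b)) q0 :=
    (contDiffAt_const.mul aS_at).add hEH
  have hφs : ContDiffAt ℝ ∞ (fun b => σ * aS b + Eφ b) q0 :=
    (contDiffAt_const.mul aS_at).add hEφ
  exact Herm.curv_bounds (om := fun X Y => D11 aS X Y q0)
    (φ := fun X Y => D11 (fun b => σ * aS b + Eφ b) X Y q0)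
    (H := fun X Y => D11 (fun b => (g + y * σ) * aS b + (EA b + y * Eφ b)) X Y q0)
    (E := fun X Y => D11 Eφ X Y q0) (F := fun X Y => D11 (fun b => EA b + y * Eφ b) X Y q0)
    herm_aS om_pd (herm_D11 hφs) (herm_D11 hHs) hgΛ hs hsσ hσ1 hg1 hy hδ0 hδs hC44 hC112 hc hc0
    hc1 hδC (fun v w => D11_split hEφ σ v w) (fun v w => D11_split hEH (g + y * σ) v w)
    (fun v w => jet_D11_le hEφ hJφ v w) (fun v w => jet_D11_le hEH hJH v w) hκ
    (fun v w => mf (fun b => g * aS b + EA b) (fun b => σ * aS b + Eφ b) y q0 κ v w)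
    (fun v w => by unfold mf; rw [Hpot_split]) X Y u q KH XX hKH hX

/-- combination of the two estimates -/
theorem r1_combine {K Ar S c Λ s : ℝ} (hs : 0 < s) (hΛ : 1 ≤ Λ) (hc0 : 0 < c)
    (h1 : s ^ 2 / 8 * S ≤ Ar) (h2 : Ar ≤ 8 * Λ ^ 2 * S) (h3 : (c * s ^ 2 / 4) * S ≤ K)
    (h4 : K ≤ (20 * Λ) * S) :
    c * s ^ 2 / (32 * Λ ^ 2) * Ar ≤ K ∧ K ≤ 160 * Λ / s ^ 2 * Ar := by
  constructor
  · refine le_trans ?_ h3
    have e : c * s ^ 2 / (32 * Λ ^ 2) * (8 * Λ ^ 2 * S) = c * s ^ 2 / 4 * S := by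
      field_simp; ring
    rw [← e]
    exact mul_le_mul_of_nonneg_left h2 (by positivity)
  · refine le_trans h4 ?_
    have e : 20 * Λ * S = 160 * Λ / s ^ 2 * (s ^ 2 / 8 * S) := by
      field_simp; ring
    rw [e]
    exact mul_le_mul_of_nonneg_left h1 (by positivity)

theorem r1_pd {s δ g σ y : ℝ} {EA Eφ : B2 → ℝ} (hs : 0 < s) (hsσ : s ≤ σ) (hσ1 : σ ≤ 1)
    (hg1 : 1 ≤ g) (hy : 0 ≤ y) (hδs : 8 * δ ≤ s)
    (hEA : ContDiffAt ℝ ∞ EA q0) (hEφ : ContDiffAt ℝ ∞ Eφ q0)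
    (hJA : JetB EA δ) (hJφ : JetB Eφ δ) :
    PD (fun b => (g + y * σ) * aS b + (EA b + y * Eφ b)) q0 := by
  intro v hv
  have hs1 : s ≤ 1 := hsσ.trans hσ1
  have hD : s * (1 + y) ≤ g + y * σ := by
    have h2 : y * s ≤ y * σ := mul_le_mul_of_nonneg_left hsσ hy
    linarith
  have hD0 : 0 < g + y * σ := lt_of_lt_of_le (by positivity) hD
  have hEH : ContDiffAt ℝ ∞ (fun b => EA b + y * Eφ b) q0 := hEA.add (contDiffAt_const.mul hEφ)
  have hJH := r1_jetH hEA hEφ hJA hJφ hy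
  have hb := (r1_Hb hD (by linarith) hδs hEH hJH v).1
  exact lt_of_lt_of_le (mul_pos (by linarith) (om_pd v hv)) hb

theorem r1_point {Λ s δ C c CK CX : ℝ} (hΛ : 1 ≤ Λ) (hs : 0 < s)
    (hδ0 : 0 ≤ δ) (hδs : 8 * δ ≤ s)
    (hC44 : 44 / s ^ 2 ≤ C) (hC112 : 112 ≤ C) (hCK : CK ≤ C) (hCX : CX / s ≤ C)
    (hc : c = 3 / (4 * Λ * (1 + 3 * Λ / s) ^ 2)) (hc0 : 0 < c) (hc1 : c ≤ 1)
    (hδC : C * δ ≤ c * s ^ 2 / 32)
    (hKH : ∀ (D W s δ : ℝ) (E : B2 → ℝ), 0 < s → 1 ≤ W →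
      0 ≤ δ → 8 * δ ≤ s → s * W ≤ D → ContDiffAt ℝ ∞ E q0 → JetB E (δ * W) →
      ∀ ξ η γ11 γ12 γ22, IsGam (fun b => D * aS b + E b) q0 ξ ξ γ11 →
        IsGam (fun b => D * aS b + E b) q0 ξ η γ12 →
        IsGam (fun b => D * aS b + E b) q0 η η γ22 →
        |negK (fun b => D * aS b + E b) q0 ξ η γ11 γ12 γ22 - D * calK aS q0 ξ η|
          ≤ CK * δ * W * area aS q0 ξ η)
    (hX : ∀ (g σ y s δ : ℝ) (EA Eφ : B2 → ℝ), 0 < s → s ≤ σ → σ ≤ 1 →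
      1 ≤ g → 0 ≤ y → 0 ≤ δ → 8 * δ ≤ s → ContDiffAt ℝ ∞ EA q0 → ContDiffAt ℝ ∞ Eφ q0 →
      JetB EA δ → JetB Eφ δ →
      ∀ ξ η u' g1 g2,
        IsGam (Hpot (fun b => g * aS b + EA b) (fun b => σ * aS b + Eφ b) y) q0 ξ u' g1 →
        IsGam (Hpot (fun b => g * aS b + EA b) (fun b => σ * aS b + Eφ b) y) q0 η u' g2 →
        |2 * Real.sqrt (y * (1 + y)) *
          ((D21 (fun b => σ * aS b + Eφ b) ξ u' η q0 - D11 (fun b => σ * aS b + Eφ b) g1 η q0)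
            - (D21 (fun b => σ * aS b + Eφ b) η u' ξ q0
                - D11 (fun b => σ * aS b + Eφ b) g2 ξ q0)).re|
          ≤ (CX / s) * δ * (1 + y) * Real.sqrt (area aS q0 ξ η)
              * Real.sqrt (D11 aS u' u' q0).re)
    (EA Eφ : B2 → ℝ) (g σ : ℝ) (hg1 : 1 ≤ g) (hgΛ : g ≤ Λ) (hsσ : s ≤ σ) (hσ1 : σ ≤ 1)
    (hEA : ContDiffAt ℝ ∞ EA q0) (hEφ : ContDiffAt ℝ ∞ Eφ q0)
    (hJA : JetB EA δ) (hJφ : JetB Eφ δ) (ζ : ℂ) (hζ : ζ ≠ 0)
    (hlt : uu (fun b => σ * aS b + Eφ b) (q0, ζ) < 1) :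
    KB (hart (fun b => g * aS b + EA b) (fun b => σ * aS b + Eφ b)) (q0, ζ)
      (c * s ^ 2 / (32 * Λ ^ 2)) (160 * Λ / s ^ 2) := by
  intro X Y Γxx Γxy Γyy k1 k2 k3
  have hy := r1_yy_nonneg hlt
  have hs1 : s ≤ 1 := hsσ.trans hσ1
  have hAs : ContDiffAt ℝ ∞ (fun b => g * aS b + EA b) q0 := (contDiffAt_const.mul aS_at).add hEA
  have hφs : ContDiffAt ℝ ∞ (fun b => σ * aS b + Eφ b) q0 :=
    (contDiffAt_const.mul aS_at).add hEφ
  have hHN := fun κ hH hκ => hart_negK (fun b => g * aS b + EA b) (fun b => σ * aS b + Eφ b)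
    (q0, ζ) hAs hφs hlt hζ hH κ hκ X Y Γxx Γxy Γyy k1 k2 k3
  have hHA := hart_area (fun b => g * aS b + EA b) (fun b => σ * aS b + Eφ b) (q0, ζ) hAs hφs hlt
    hζ X Y
  generalize yy (fun b => σ * aS b + Eφ b) (q0, ζ) = y at hy hHN hHA
  generalize aa (fun b => σ * aS b + Eφ b) (q0, ζ) X = α at hHN hHA
  generalize aa (fun b => σ * aS b + Eφ b) (q0, ζ) Y = β at hHN hHA
  have hEH : ContDiffAt ℝ ∞ (fun b => EA b + y * Eφ b) q0 := hEA.add (contDiffAt_const.mul hEφ)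
  have hJH := r1_jetH hEA hEφ hJA hJφ hy
  have hHs : ContDiffAt ℝ ∞ (fun b => (g + y * σ) * aS b + (EA b + y * Eφ b)) q0 :=
    (contDiffAt_const.mul aS_at).add hEH
  have hpd := r1_pd hs hsσ hσ1 hg1 hy hδs hEA hEφ hJA hJφ
  obtain ⟨κ, hκ⟩ := exists_kappa hHs hpd hφs
  obtain ⟨γ11, k11⟩ := exists_isGam hHs hpd X.1 X.1
  obtain ⟨γ12, k12⟩ := exists_isGam hHs hpd X.1 Y.1
  obtain ⟨γ22, k22⟩ := exists_isGam hHs hpd Y.1 Y.1
  obtain ⟨g1, kg1⟩ := exists_isGam hHs hpd X.1 (conj α • Y.1 - conj β • X.1)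
  obtain ⟨g2, kg2⟩ := exists_isGam hHs hpd Y.1 (conj α • Y.1 - conj β • X.1)
  have hD : s * (1 + y) ≤ g + y * σ := by
    have h2 : y * s ≤ y * σ := mul_le_mul_of_nonneg_left hsσ hy
    linarith
  have ha : 0 ≤ area aS q0 X.1 Y.1 := herm_aS.ar_nonneg om_nonneg X.1 Y.1
  have hK' := hKH (g + y * σ) (1 + y) s δ (fun b => EA b + y * Eφ b) hs (by linarith) hδ0 hδs hD
    hEH hJH X.1 Y.1 γ11 γ12 γ22 k11 k12 k22
  have hK'' := hK'.trans (show CK * δ * (1 + y) * area aS q0 X.1 Y.1 ≤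
    C * δ * (1 + y) * area aS q0 X.1 Y.1 by gcongr)
  have hX' := hX g σ y s δ EA Eφ hs hsσ hσ1 hg1 hy hδ0 hδs hEA hEφ hJA hJφ X.1 Y.1
    (conj α • Y.1 - conj β • X.1) g1 g2
  rw [Hpot_split] at hX' hHN hHA
  have hX'' := (hX' kg1 kg2).trans (show (CX / s) * δ * (1 + y) * Real.sqrt (area aS q0 X.1 Y.1)
      * Real.sqrt (D11 aS (conj α • Y.1 - conj β • X.1) (conj α • Y.1 - conj β • X.1) q0).re ≤
      C * δ * (1 + y) * Real.sqrt (area aS q0 X.1 Y.1)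
      * Real.sqrt (D11 aS (conj α • Y.1 - conj β • X.1) (conj α • Y.1 - conj β • X.1) q0).re by
    gcongr)
  have key := hHN κ hpd hκ γ11 γ12 γ22 g1 g2 k11 k12 k22 _ rfl kg1 kg2
  have keyA := hHA _ rfl
  obtain ⟨hA1, hA2⟩ := r1_area hs hsσ hσ1 hg1 hgΛ hy hδs hEA hEφ hJA hJφ X.1 Y.1
    (conj α • Y.1 - conj β • X.1) α β rfl
  obtain ⟨hC1, hC2⟩ := r1_curv hs hsσ hσ1 hg1 hgΛ hy hδ0 hδs hC44 hC112 hc hc0 hc1 hδC hEA hEφ
    hJA hJφ hκ X.1 Y.1 (conj α • Y.1 - conj β • X.1) (α * conj β).im _ _ hK'' hX''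
  rw [key, keyA]
  exact r1_combine hs hΛ hc0 hA1 hA2 hC1 hC2

theorem curvR1_core (Λ s : ℝ) (hΛ : 1 ≤ Λ) (hs : 0 < s) (hs1 : s ≤ 1) :
    ∃ δ > 0, ∃ c > 0, ∃ B : ℝ, ∀ (EA Eφ : B2 → ℝ) (g σ : ℝ), 1 ≤ g → g ≤ Λ → s ≤ σ → σ ≤ 1 →
      ContDiffAt ℝ ∞ EA q0 → ContDiffAt ℝ ∞ Eφ q0 →
      JetB EA δ → JetB Eφ δ →
      ∀ ζ : ℂ, ζ ≠ 0 → Real.exp ((fun b => σ * aS b + Eφ b) q0) * ‖ζ‖ ^ 2 < 1 →
        KB (hart (fun b => g * aS b + EA b) (fun b => σ * aS b + Eφ b)) (q0, ζ) c B := by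
  obtain ⟨CK, hCK, hKH⟩ := r1_KH
  obtain ⟨CX, hCX, hX⟩ := r1_X
  have hΛ0 : 0 < Λ := by linarith
  obtain ⟨c0, hc0⟩ : ∃ c0 : ℝ, c0 = 3 / (4 * Λ * (1 + 3 * Λ / s) ^ 2) := ⟨_, rfl⟩
  have hc0pos : 0 < c0 := by rw [hc0]; positivity
  have hc01 : c0 ≤ 1 := by
    rw [hc0, div_le_one (by positivity)]
    have h1 : 0 ≤ 3 * Λ / s := by positivity
    have h2 : 1 ≤ (1 + 3 * Λ / s) ^ 2 := by nlinarith only [h1]
    have h3 : 1 * 1 ≤ Λ * (1 + 3 * Λ / s) ^ 2 := by gcongr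
    linarith
  have hp1 : 0 < 44 / s ^ 2 := by positivity
  have hp3 : 0 < CX / s := by positivity
  obtain ⟨C, hC⟩ : ∃ C : ℝ, C = 44 / s ^ 2 + 112 + CK + CX / s := ⟨_, rfl⟩
  have hCpos : 0 < C := by rw [hC]; positivity
  obtain ⟨δ, hδ⟩ : ∃ δ : ℝ, δ = min (s / 8) (c0 * s ^ 2 / (32 * C)) := ⟨_, rfl⟩
  have hδpos : 0 < δ := by rw [hδ]; positivity
  have hδs : 8 * δ ≤ s := by
    have : δ ≤ s / 8 := by rw [hδ]; exact min_le_left _ _
    linarith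
  have hδC : C * δ ≤ c0 * s ^ 2 / 32 := by
    have h1 : δ ≤ c0 * s ^ 2 / (32 * C) := by rw [hδ]; exact min_le_right _ _
    calc C * δ ≤ C * (c0 * s ^ 2 / (32 * C)) := by gcongr
      _ = c0 * s ^ 2 / 32 := by field_simp
  refine ⟨δ, hδpos, c0 * s ^ 2 / (32 * Λ ^ 2), by positivity, 160 * Λ / s ^ 2, ?_⟩
  intro EA Eφ g σ hg1 hgΛ hsσ hσ1 hEA hEφ hJA hJφ ζ hζ hlt
  exact r1_point hΛ hs hδpos.le hδs (by rw [hC]; linarith) (by rw [hC]; linarith)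
    (by rw [hC]; linarith) (by rw [hC]; linarith) hc0 hc0pos hc01 hδC hKH hX EA Eφ g σ hg1 hgΛ
    hsσ hσ1 hEA hEφ hJA hJφ ζ hζ hlt

theorem curvR1 (Λ s : ℝ) (hΛ : 1 ≤ Λ) (hs : 0 < s) (hs1 : s ≤ 1) :
    ∃ δ > 0, ∃ c > 0, ∃ B : ℝ, ∀ (A φ : B2 → ℝ) (θ : ℝ), 0 ≤ θ → θ ≤ 1 →
      ContDiffAt ℝ ∞ A q0 → ContDiffAt ℝ ∞ φ q0 →
      JetB (fun b => A b - (1 + (Λ - 1) * θ) * aS b) δ →
      JetB (fun b => φ b - (1 - (1 - s) * θ) * aS b) δ →
      ∀ ζ : ℂ, ζ ≠ 0 → Real.exp (φ q0) * ‖ζ‖ ^ 2 < 1 → KB (hart A φ) (q0, ζ) c B := by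
  obtain ⟨δ, hδ, c, hc, B, h⟩ := curvR1_core Λ s hΛ hs hs1
  refine ⟨δ, hδ, c, hc, B, ?_⟩
  intro A φ θ hθ0 hθ1 hA hφ hJA hJφ ζ hζ hlt
  have e1 : A = fun b => (1 + (Λ - 1) * θ) * aS b + (A b - (1 + (Λ - 1) * θ) * aS b) := by
    funext b; ring
  have e2 : φ = fun b => (1 - (1 - s) * θ) * aS b + (φ b - (1 - (1 - s) * θ) * aS b) := by
    funext b; ring
  have h1 := h (fun b => A b - (1 + (Λ - 1) * θ) * aS b)
    (fun b => φ b - (1 - (1 - s) * θ) * aS b) (1 + (Λ - 1) * θ) (1 - (1 - s) * θ)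
    (by nlinarith) (by nlinarith) (by nlinarith) (by nlinarith)
    (hA.sub (contDiffAt_const.mul aS_at)) (hφ.sub (contDiffAt_const.mul aS_at)) hJA hJφ ζ hζ
    (by
      have : (fun b => (1 - (1 - s) * θ) * aS b + (φ b - (1 - (1 - s) * θ) * aS b)) q0 = φ q0 := by
        simp only []; ring
      rw [this]; exact hlt)
  rw [← e1, ← e2] at h1
  exact h1

end Crest.Agent.R245
end

-- ▼ part R245/HermAlg
section

/-! Hermitian forms on `ℂ²`: elementary area inequalities (helper file for CurvR1, CurvR2). -/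

set_option autoImplicit false

namespace Crest.Agent.R245

open Complex Filter Topology
open scoped ContDiff ComplexConjugate

/-- Hermitian form on `B2` -/
structure HF (S : B2 → B2 → ℂ) : Prop where
  add_left : ∀ x x' y, S (x + x') y = S x y + S x' y
  smul_left : ∀ (c : ℂ) x y, S (c • x) y = c * S x y
  symm : ∀ x y, conj (S x y) = S y x

/-- squared real area -/
def ar (S : B2 → B2 → ℂ) (x y : B2) : ℝ := (S x x).re * (S y y).re - (S x y).re ^ 2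

theorem HF_D11 {P : B2 → ℝ} {p : B2} (hP : ContDiffAt ℝ ∞ P p) : HF (fun X Y => D11 P X Y p) where
  add_left := fun x x' y => D11_add_left hP x x' y
  smul_left := fun c x y => D11_smul_left hP c x y
  symm := fun x y => D11_conj hP x y

namespace HF

variable {S T : B2 → B2 → ℂ}

theorem add_right (h : HF S) (x y y' : B2) : S x (y + y') = S x y + S x y' := by
  rw [← h.symm, h.add_left, map_add, h.symm, h.symm]

theorem smul_right (h : HF S) (c : ℂ) (x y : B2) : S x (c • y) = conj c * S x y := by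
  rw [← h.symm, h.smul_left, map_mul, h.symm]

theorem neg_left (h : HF S) (x y : B2) : S (-x) y = - S x y := by
  have := h.smul_left (-1) x y
  simpa using this

theorem neg_right (h : HF S) (x y : B2) : S x (-y) = - S x y := by
  have := h.smul_right (-1) x y
  simpa using this

theorem sub_left (h : HF S) (x x' y : B2) : S (x - x') y = S x y - S x' y := by
  rw [sub_eq_add_neg, h.add_left, h.neg_left, sub_eq_add_neg]

theorem sub_right (h : HF S) (x y y' : B2) : S x (y - y') = S x y - S x y' := by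
  rw [sub_eq_add_neg, h.add_right, h.neg_right, sub_eq_add_neg]






theorem add (hS : HF S) (hT : HF T) : HF (fun x y => S x y + T x y) where
  add_left := fun x x' y => by simp only [hS.add_left, hT.add_left]; ring
  smul_left := fun c x y => by simp only [hS.smul_left, hT.smul_left]; ring
  symm := fun x y => by simp only [map_add, hS.symm, hT.symm]

theorem sub (hS : HF S) (hT : HF T) : HF (fun x y => S x y - T x y) where
  add_left := fun x x' y => by simp only [hS.add_left, hT.add_left]; ring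
  smul_left := fun c x y => by simp only [hS.smul_left, hT.smul_left]; ring
  symm := fun x y => by simp only [map_sub, hS.symm, hT.symm]

theorem const_mul (hS : HF S) (r : ℝ) : HF (fun x y => (r : ℂ) * S x y) where
  add_left := fun x x' y => by simp only [hS.add_left]; ring
  smul_left := fun c x y => by simp only [hS.smul_left]; ring
  symm := fun x y => by simp only [map_mul, hS.symm, conj_ofReal]

/-- Cauchy–Schwarz for nonnegative forms -/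
theorem cs (h : HF S) (hp : ∀ x, 0 ≤ (S x x).re) (x y : B2) :
    (S x y).re ^ 2 + (S x y).im ^ 2 ≤ (S x x).re * (S y y).re := by
  have key : ∀ t : ℂ, 0 ≤ (S x x).re - 2 * (conj t * S x y).re + ‖t‖ ^ 2 * (S y y).re := by
    intro t
    have h1 := hp (x - t • y)
    have h2 : S (x - t • y) (x - t • y)
        = S x x - conj t * S x y - (t * S y x - t * conj t * S y y) := by
      rw [h.sub_left, h.sub_right, h.sub_right, h.smul_left, h.smul_left, h.smul_right,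
        h.smul_right]
      ring
    rw [h2] at h1
    have h3 : (t * S y x).re = (conj t * S x y).re := by
      rw [← h.symm x y]
      simp only [mul_re, conj_re, conj_im]
      ring
    have h4 : (t * conj t * S y y).re = ‖t‖ ^ 2 * (S y y).re := by
      rw [Complex.mul_conj, Complex.normSq_eq_norm_sq, re_ofReal_mul]
    simp only [sub_re] at h1
    rw [h3, h4] at h1
    linarith
  have hn : (S x y).re ^ 2 + (S x y).im ^ 2 = ‖S x y‖ ^ 2 := by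
    rw [← Complex.normSq_eq_norm_sq, Complex.normSq_apply]; ring
  rw [hn]
  rcases eq_or_lt_of_le (hp y) with h0 | h0
  · -- S y y = 0
    rw [← h0, mul_zero]
    by_contra hcon
    push Not at hcon
    have hne : ‖S x y‖ ≠ 0 := fun hz => by rw [hz] at hcon; norm_num at hcon
    have := key (((((S x x).re + 1) / ‖S x y‖ ^ 2 : ℝ) : ℂ) * S x y)
    rw [← h0] at this
    have e1 : (conj (((((S x x).re + 1) / ‖S x y‖ ^ 2 : ℝ) : ℂ) * S x y) * S x y).re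
        = (S x x).re + 1 := by
      rw [map_mul, conj_ofReal, mul_assoc, mul_comm (conj (S x y)), Complex.mul_conj,
        Complex.normSq_eq_norm_sq, ← ofReal_mul, ofReal_re]
      field_simp
    rw [e1] at this
    have := hp x
    linarith
  · have := key ((((1 / (S y y).re : ℝ)) : ℂ) * S x y)
    have e1 : (conj ((((1 / (S y y).re : ℝ)) : ℂ) * S x y) * S x y).re
        = ‖S x y‖ ^ 2 / (S y y).re := by
      rw [map_mul, conj_ofReal, mul_assoc, mul_comm (conj (S x y)), Complex.mul_conj,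
        Complex.normSq_eq_norm_sq, ← ofReal_mul, ofReal_re]
      ring
    have e2 : ‖(((1 / (S y y).re : ℝ)) : ℂ) * S x y‖ ^ 2 * (S y y).re
        = ‖S x y‖ ^ 2 / (S y y).re := by
      rw [norm_mul, Complex.norm_real, Real.norm_eq_abs, mul_pow, sq_abs]
      field_simp
    rw [e1, e2] at this
    have h5 : ‖S x y‖ ^ 2 / (S y y).re ≤ (S x x).re := by linarith
    rwa [div_le_iff₀ h0] at h5

theorem ar_nonneg (h : HF S) (hp : ∀ x, 0 ≤ (S x x).re) (x y : B2) : 0 ≤ ar S x y := by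
  have := h.cs hp x y
  unfold ar
  nlinarith [sq_nonneg (S x y).im]

theorem im_sq_le (h : HF S) (hp : ∀ x, 0 ≤ (S x x).re) (x y : B2) :
    (S x y).im ^ 2 ≤ ar S x y := by
  have := h.cs hp x y
  unfold ar
  linarith

end HF

/-- mixed discriminant of two psd matrices -/
theorem mixed_nonneg {a b c a' b' c' : ℝ} (ha : 0 ≤ a) (hc : 0 ≤ c) (ha' : 0 ≤ a') (hc' : 0 ≤ c')
    (h : b ^ 2 ≤ a * c) (h' : b' ^ 2 ≤ a' * c') : 2 * (b * b') ≤ a * c' + a' * c := by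
  have h1 : (2 * (b * b')) ^ 2 ≤ (a * c' + a' * c) ^ 2 := by
    have : b ^ 2 * b' ^ 2 ≤ (a * c) * (a' * c') :=
      mul_le_mul h h' (sq_nonneg _) (mul_nonneg ha hc)
    nlinarith [sq_nonneg (a * c' - a' * c)]
  exact le_of_sq_le_sq' h1 (by positivity)
where
  le_of_sq_le_sq' {x y : ℝ} (h : x ^ 2 ≤ y ^ 2) (hy : 0 ≤ y) : x ≤ y :=
    (abs_le_of_sq_le_sq' h hy).2

theorem ar_mono {S T : B2 → B2 → ℂ} (hS : HF S) (hT : HF T) (hp : ∀ x, 0 ≤ (T x x).re)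
    (hle : ∀ x, (T x x).re ≤ (S x x).re) (x y : B2) : ar T x y ≤ ar S x y := by
  have hR := hS.sub hT
  have hRp : ∀ x, 0 ≤ ((fun x y => S x y - T x y) x x).re := fun x => by
    simp only [sub_re]; linarith [hle x]
  have c1 := hT.cs hp x y
  have c2 := hR.cs hRp x y
  simp only [sub_re, sub_im] at c2
  have m := mixed_nonneg (a := (T x x).re) (b := (T x y).re) (c := (T y y).re)
    (a' := (S x x).re - (T x x).re) (b' := (S x y).re - (T x y).re)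
    (c' := (S y y).re - (T y y).re) (hp x) (hp y) (by linarith [hle x]) (by linarith [hle y])
    (by nlinarith [sq_nonneg (T x y).im]) (by nlinarith [sq_nonneg ((S x y).im - (T x y).im)])
  unfold ar
  nlinarith [sq_nonneg ((S x y).im - (T x y).im)]

theorem ar_const_mul (S : B2 → B2 → ℂ) (r : ℝ) (x y : B2) :
    ar (fun x y => (r : ℂ) * S x y) x y = r ^ 2 * ar S x y := by
  unfold ar
  simp only [re_ofReal_mul]
  ring

/-- comparison of areas -/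
theorem ar_lower {S W : B2 → B2 → ℂ} (hS : HF S) (hW : HF W) (hp : ∀ x, 0 ≤ (W x x).re)
    {μ : ℝ} (hμ : 0 ≤ μ) (hle : ∀ x, μ * (W x x).re ≤ (S x x).re) (x y : B2) :
    μ ^ 2 * ar W x y ≤ ar S x y := by
  rw [← ar_const_mul]
  refine ar_mono hS (hW.const_mul μ) (fun x => ?_) (fun x => ?_) x y
  · rw [re_ofReal_mul]; exact mul_nonneg hμ (hp x)
  · rw [re_ofReal_mul]; exact hle x

theorem ar_upper {S W : B2 → B2 → ℂ} (hS : HF S) (hW : HF W) (hp : ∀ x, 0 ≤ (S x x).re)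
    {ν : ℝ} (hle : ∀ x, (S x x).re ≤ ν * (W x x).re) (x y : B2) :
    ar S x y ≤ ν ^ 2 * ar W x y := by
  rw [← ar_const_mul]
  refine ar_mono (hW.const_mul ν) hS hp (fun x => ?_) x y
  rw [re_ofReal_mul]; exact hle x






theorem area_eq (S : B2 → ℝ) (b ξ η : B2) : area S b ξ η = ar (fun X Y => D11 S X Y b) ξ η := rfl



/-- solving with a positive definite form -/
theorem HF.exists_rep {S : B2 → B2 → ℂ} (h : HF S) (hpd : ∀ x, x ≠ 0 → 0 < (S x x).re)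
    (l : B2 → ℂ) (hadd : ∀ x y, l (x + y) = l x + l y)
    (hsmul : ∀ (c : ℂ) x, l (c • x) = conj c * l x) : ∃ v, ∀ w, S v w = l w := by
  set e1 : B2 := (1, 0) with he1
  set e2 : B2 := (0, 1) with he2
  have hdec : ∀ w : B2, w = w.1 • e1 + w.2 • e2 := fun w => by
    ext <;> simp [he1, he2]
  set d : ℂ := S e1 e1 * S e2 e2 - S e1 e2 * S e2 e1 with hd
  have hd0 : d ≠ 0 := by
    intro h0
    set w : B2 := S e2 e2 • e1 - S e1 e2 • e2 with hw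
    have e22 : S e2 e2 ≠ 0 := by
      intro hz
      have := hpd e2 (by rw [he2]; simp)
      rw [hz] at this
      simp at this
    have hwne : w ≠ 0 := by
      intro hz
      have := congrArg Prod.fst hz
      simp [hw, he1, he2] at this
      exact e22 this
    have hww : S w w = conj (S e2 e2) * S e2 e2 * S e1 e1 - conj (S e2 e2) * S e1 e2 * S e2 e1
        - conj (S e1 e2) * (S e2 e2 * S e1 e2 - S e1 e2 * S e2 e2) := by
      rw [hw, h.sub_left, h.sub_right, h.sub_right, h.smul_left, h.smul_left, h.smul_left,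
        h.smul_left, h.smul_right, h.smul_right, h.smul_right, h.smul_right]
      ring
    have : S w w = conj (S e2 e2) * d := by rw [hww, hd]; ring
    rw [h0, mul_zero] at this
    have h1 := hpd w hwne
    rw [this] at h1
    simp at h1
  refine ⟨((l e1 * S e2 e2 - l e2 * S e2 e1) / d) • e1
    + ((l e2 * S e1 e1 - l e1 * S e1 e2) / d) • e2, fun w => ?_⟩
  conv_rhs => rw [hdec w, hadd, hsmul, hsmul]
  conv_lhs => rw [hdec w]
  rw [h.add_left, h.add_right, h.add_right, h.smul_left, h.smul_left, h.smul_left, h.smul_left,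
    h.smul_right, h.smul_right, h.smul_right, h.smul_right]
  field_simp
  rw [hd]
  ring

end Crest.Agent.R245
end

-- ▼ part R245/KBFinish
section

/-! From estimates of the terms of `hart_negK` to `KB` (helper file for CurvR1, CurvR2). -/

set_option autoImplicit false

namespace Crest.Agent.R245

open Complex Filter Topology
open scoped ContDiff ComplexConjugate

theorem aS_smooth_q0 : ContDiffAt ℝ ∞ aS q0 := aS_contDiffAt q0_mem

/-- the form of `aS` at `q0` -/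
theorem aS_self (ξ : B2) : (D11 aS ξ ξ q0).re = ‖ξ.1‖ ^ 2 + (1/4) * ‖ξ.2‖ ^ 2 := by
  rw [aS_D11_q0, Complex.mul_conj, Complex.mul_conj, Complex.normSq_eq_norm_sq,
    Complex.normSq_eq_norm_sq, add_re, ofReal_re,
    show ((1 : ℂ) / 4) = (((1 : ℝ) / 4 : ℝ) : ℂ) by push_cast; rfl, ← ofReal_mul, ofReal_re]

theorem aS_self_nonneg (ξ : B2) : 0 ≤ (D11 aS ξ ξ q0).re := by
  rw [aS_self]; positivity

theorem aS_self_pos (ξ : B2) (h : ξ ≠ 0) : 0 < (D11 aS ξ ξ q0).re := by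
  rw [aS_self]
  by_cases h1 : ξ.1 = 0
  · have h2 : ξ.2 ≠ 0 := fun h2 => h (Prod.ext h1 h2)
    have := norm_pos_iff.2 h2
    positivity
  · have := norm_pos_iff.2 h1
    positivity

theorem norm_sq_le_aS_kb (ξ : B2) : ‖ξ‖ ^ 2 ≤ 4 * (D11 aS ξ ξ q0).re := by
  rw [aS_self, Prod.norm_def]
  rcases le_total ‖ξ.1‖ ‖ξ.2‖ with h | h
  · rw [max_eq_right h]; nlinarith [sq_nonneg ‖ξ.1‖]
  · rw [max_eq_left h]; nlinarith [sq_nonneg ‖ξ.1‖, sq_nonneg ‖ξ.2‖]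

theorem HF_aS : HF (fun X Y => D11 aS X Y q0) := HF_D11 aS_smooth_q0

theorem yy_nonneg {φ : B2 → ℝ} {x : B2 × ℂ} (h : uu φ x < 1) : 0 ≤ yy φ x := by
  unfold yy
  have : 0 ≤ uu φ x := by unfold uu; positivity
  exact div_nonneg this (by linarith)

theorem kbHpot_smooth {A φ : B2 → ℝ} {p : B2} (hA : ContDiffAt ℝ ∞ A p) (hφ : ContDiffAt ℝ ∞ φ p)
    (y : ℝ) : ContDiffAt ℝ ∞ (Hpot A φ y) p := by
  unfold Hpot
  exact hA.add (contDiffAt_const.mul hφ)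


/-- pure real algebra of the final estimate -/
theorem finish_real {μ ν cM m1 m2 a1 a2 P Q AH J HU q M mU T cr ar0 K : ℝ} (hμ : 0 < μ)
    (hν : 0 < ν) (hcM : 0 ≤ cM) (hm1 : 0 < m1) (hm2 : 0 ≤ m2) (ha1 : 0 < a1) (ha2 : 0 ≤ a2)
    (hP : 0 ≤ P) (hQ : 0 ≤ Q)
    (f1 : μ ^ 2 * P ≤ AH) (f1' : AH ≤ ν ^ 2 * P) (f2 : J ^ 2 ≤ AH)
    (f3 : μ * Q ≤ HU) (f3' : HU ≤ ν * Q) (f4 : 0 ≤ HU - 4 * q * J)
    (f5 : ar0 = AH + HU - 2 * q * J + q ^ 2) (f6 : M ^ 2 ≤ cM * P)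
    (f7 : m1 * Q ≤ mU) (f7' : mU ≤ m2 * Q) (f8 : a1 * P ≤ T - M ^ 2) (f8' : T ≤ a2 * P)
    (f9 : |cr| ≤ m1 / 2 * Q + a1 / 2 * P) (hK : K = mU + 4 * q ^ 2 + 4 * q * M + T + cr) :
    (min (min (m1/2) (a1/2)) 1 / (2 * ν ^ 2 + cM + ν + 1)) * ar0 ≤ K ∧
    K ≤ ((2 * (m2 + m1/2)) / μ + 8 + (a2 + a1/2 + cM) / μ ^ 2) * ar0 := by
  have hcr := abs_le.1 f9
  constructor
  · set c3 := min (min (m1/2) (a1/2)) 1 with hc3
    have hc3p : 0 < c3 := by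
      rw [hc3]; exact lt_min (lt_min (by positivity) (by positivity)) one_pos
    have h31 : c3 ≤ m1/2 := (min_le_left _ _).trans (min_le_left _ _)
    have h32 : c3 ≤ a1/2 := (min_le_left _ _).trans (min_le_right _ _)
    have h33 : c3 ≤ 1 := min_le_right _ _
    set Z := P + Q + (2 * q + M) ^ 2 with hZ
    have hZ0 : 0 ≤ Z := by positivity
    have g1 : ar0 ≤ (2 * ν ^ 2 + cM + ν + 1) * Z := by
      have : ar0 ≤ (2 * ν ^ 2 + cM) * P + ν * Q + (2 * q + M) ^ 2 := by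
        rw [f5]
        linarith [sq_nonneg (q + J), sq_nonneg (q + M), pow_two (q + J), pow_two (q + M),
          show (q + J) ^ 2 = q ^ 2 + 2 * q * J + J ^ 2 by ring,
          show (q + M) ^ 2 = q ^ 2 + 2 * q * M + M ^ 2 by ring,
          show (2 * q + M) ^ 2 = 4 * q ^ 2 + 4 * q * M + M ^ 2 by ring]
      have h1 : (2 * ν ^ 2 + cM) * P ≤ (2 * ν ^ 2 + cM + ν + 1) * P :=
        mul_le_mul_of_nonneg_right (by linarith) hP
      have h2 : ν * Q ≤ (2 * ν ^ 2 + cM + ν + 1) * Q :=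
        mul_le_mul_of_nonneg_right (by nlinarith [sq_nonneg ν]) hQ
      have h3 : 1 * (2 * q + M) ^ 2 ≤ (2 * ν ^ 2 + cM + ν + 1) * (2 * q + M) ^ 2 :=
        mul_le_mul_of_nonneg_right (by nlinarith [sq_nonneg ν]) (sq_nonneg _)
      calc ar0 ≤ (2 * ν ^ 2 + cM) * P + ν * Q + (2 * q + M) ^ 2 := this
        _ ≤ (2 * ν ^ 2 + cM + ν + 1) * P + (2 * ν ^ 2 + cM + ν + 1) * Q
            + (2 * ν ^ 2 + cM + ν + 1) * (2 * q + M) ^ 2 := by linarith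
        _ = (2 * ν ^ 2 + cM + ν + 1) * Z := by rw [hZ]; ring
    have g2 : c3 * Z ≤ K := by
      have e1 : c3 * P ≤ a1/2 * P := mul_le_mul_of_nonneg_right h32 hP
      have e2 : c3 * Q ≤ m1/2 * Q := mul_le_mul_of_nonneg_right h31 hQ
      have e3 : c3 * (2 * q + M) ^ 2 ≤ 1 * (2 * q + M) ^ 2 :=
        mul_le_mul_of_nonneg_right h33 (sq_nonneg _)
      calc c3 * Z = c3 * P + c3 * Q + c3 * (2 * q + M) ^ 2 := by rw [hZ]; ring
        _ ≤ a1/2 * P + m1/2 * Q + (2 * q + M) ^ 2 := by linarith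
        _ ≤ K := by
            rw [hK]
            linarith [hcr.1, show (2 * q + M) ^ 2 = 4 * q ^ 2 + 4 * q * M + M ^ 2 by ring]
    have hC : 0 < 2 * ν ^ 2 + cM + ν + 1 := by positivity
    calc (c3 / (2 * ν ^ 2 + cM + ν + 1)) * ar0
        ≤ (c3 / (2 * ν ^ 2 + cM + ν + 1)) * ((2 * ν ^ 2 + cM + ν + 1) * Z) :=
          mul_le_mul_of_nonneg_left g1 (by positivity)
      _ = c3 * Z := by field_simp
      _ ≤ K := g2
  · have g1 : μ ^ 2 * P + q ^ 2 + (μ / 2) * Q ≤ ar0 := by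
      rw [f5]; linarith
    have g2 : K ≤ (m2 + m1/2) * Q + 8 * q ^ 2 + (a2 + a1/2 + cM) * P := by
      rw [hK]
      linarith [hcr.2, sq_nonneg (2 * q - M),
        show (2 * q - M) ^ 2 = 4 * q ^ 2 - 4 * q * M + M ^ 2 by ring]
    have hB1 : 0 ≤ (2 * (m2 + m1/2)) / μ := by positivity
    have hB3 : 0 ≤ (a2 + a1/2 + cM) / μ ^ 2 := by positivity
    set B1 := (2 * (m2 + m1/2)) / μ with hB1d
    set B3 := (a2 + a1/2 + cM) / μ ^ 2 with hB3d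
    have e1 : (m2 + m1/2) * Q = B1 * ((μ / 2) * Q) := by rw [hB1d]; field_simp
    have e3 : (a2 + a1/2 + cM) * P = B3 * (μ ^ 2 * P) := by rw [hB3d]; field_simp
    have hx1 : 0 ≤ (μ / 2) * Q := by positivity
    have hx2 : 0 ≤ μ ^ 2 * P := by positivity
    have hx3 := sq_nonneg q
    calc K ≤ B1 * ((μ / 2) * Q) + 8 * q ^ 2 + B3 * (μ ^ 2 * P) := by rw [← e1, ← e3]; exact g2
      _ ≤ (B1 + 8 + B3) * (μ ^ 2 * P + q ^ 2 + (μ / 2) * Q) := by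
          linarith [mul_nonneg hB1 hx2, mul_nonneg hB1 hx3, mul_nonneg hB3 hx1,
            mul_nonneg hB3 hx3, show (B1 + 8 + B3) * (μ ^ 2 * P + q ^ 2 + (μ / 2) * Q)
              = B1 * (μ ^ 2 * P) + B1 * q ^ 2 + B1 * ((μ / 2) * Q) + 8 * (μ ^ 2 * P) + 8 * q ^ 2
                + 8 * ((μ / 2) * Q) + B3 * (μ ^ 2 * P) + B3 * q ^ 2 + B3 * ((μ / 2) * Q) by ring]
      _ ≤ (B1 + 8 + B3) * ar0 := mul_le_mul_of_nonneg_left g1 (by positivity)

theorem KB_finish {μ ν cM m1 m2 a1 a2 : ℝ} (hμ : 0 < μ) (hν : 0 < ν) (hcM : 0 ≤ cM)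
    (hm1 : 0 < m1) (hm2 : 0 ≤ m2) (ha1 : 0 < a1) (ha2 : 0 ≤ a2)
    {A φ : B2 → ℝ} {ζ : ℂ} {y : ℝ} (hy : y = yy φ (q0, ζ))
    (hA : ContDiffAt ℝ ∞ A q0) (hφ : ContDiffAt ℝ ∞ φ q0)
    (hζ : ζ ≠ 0) (hu : Real.exp (φ q0) * ‖ζ‖ ^ 2 < 1)
    (hlo : ∀ ξ, μ * (1 + y) * (D11 aS ξ ξ q0).re ≤ (D11 (Hpot A φ y) ξ ξ q0).re)
    (hhi : ∀ ξ, (D11 (Hpot A φ y) ξ ξ q0).re ≤ ν * (1 + y) * (D11 aS ξ ξ q0).re)
    (hmf : ∀ κ : B2 → B2, (∀ v w, D11 (Hpot A φ y) (κ v) w q0 = D11 φ v w q0) →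
      (∀ ξ, m1 * (1 + y) * (D11 aS ξ ξ q0).re ≤ (mf A φ y q0 κ ξ ξ).re ∧
        (mf A φ y q0 κ ξ ξ).re ≤ m2 * (1 + y) * (D11 aS ξ ξ q0).re) ∧
      ∀ ξ η, (mf A φ y q0 κ ξ η).im ^ 2 ≤ cM * (1 + y) ^ 2 * area aS q0 ξ η ∧
        ∀ γ11 γ12 γ22, IsGam (Hpot A φ y) q0 ξ ξ γ11 → IsGam (Hpot A φ y) q0 ξ η γ12 →
          IsGam (Hpot A φ y) q0 η η γ22 →
          a1 * (1 + y) ^ 2 * area aS q0 ξ η ≤ y * (1 + y) * calK φ q0 ξ η
              + negK (Hpot A φ y) q0 ξ η γ11 γ12 γ22 - (mf A φ y q0 κ ξ η).im ^ 2 ∧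
            y * (1 + y) * calK φ q0 ξ η + negK (Hpot A φ y) q0 ξ η γ11 γ12 γ22
              ≤ a2 * (1 + y) ^ 2 * area aS q0 ξ η)
    (hcr : ∀ ξ η u' g1 g2, IsGam (Hpot A φ y) q0 ξ u' g1 → IsGam (Hpot A φ y) q0 η u' g2 →
      |2 * Real.sqrt (y * (1 + y)) *
        ((D21 φ ξ u' η q0 - D11 φ g1 η q0) - (D21 φ η u' ξ q0 - D11 φ g2 ξ q0)).re|
      ≤ m1 / 2 * (1 + y) * (D11 aS u' u' q0).re + a1 / 2 * (1 + y) ^ 2 * area aS q0 ξ η) :
    KB (hart A φ) (q0, ζ) (min (min (m1/2) (a1/2)) 1 / (2 * ν ^ 2 + cM + ν + 1))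
      ((2 * (m2 + m1/2)) / μ + 8 + (a2 + a1/2 + cM) / μ ^ 2) := by
  intro X Y Γxx Γxy Γyy h1 h2 h3
  have huu : uu φ (q0, ζ) < 1 := hu
  have hy0 : 0 ≤ y := by rw [hy]; exact yy_nonneg huu
  have hN : 0 < 1 + y := by linarith
  have hHs : ContDiffAt ℝ ∞ (Hpot A φ y) q0 := kbHpot_smooth hA hφ y
  have hHF := HF_D11 hHs
  have hφF := HF_D11 hφ
  have hHpd : ∀ ξ, ξ ≠ 0 → 0 < (D11 (Hpot A φ y) ξ ξ q0).re := fun ξ h =>
    lt_of_lt_of_le (mul_pos (mul_pos hμ hN) (aS_self_pos ξ h)) (hlo ξ)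
  have hHnn : ∀ ξ, 0 ≤ (D11 (Hpot A φ y) ξ ξ q0).re := fun ξ =>
    le_trans (mul_nonneg (mul_nonneg hμ.le hN.le) (aS_self_nonneg ξ)) (hlo ξ)
  have hex : ∀ v, ∃ κv, ∀ w, D11 (Hpot A φ y) κv w q0 = D11 φ v w q0 := fun v =>
    hHF.exists_rep hHpd (fun w => D11 φ v w q0) (fun x x' => hφF.add_right v x x')
      (fun c x => hφF.smul_right c v x)
  choose κ hκ using hex
  have hgam : ∀ X Y : B2, ∃ Γ, IsGam (Hpot A φ y) q0 X Y Γ := fun X Y =>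
    hHF.exists_rep hHpd (fun Z => D21 (Hpot A φ y) X Y Z q0) (fun x x' => D21_add_3 hHs X Y x x')
      (fun c x => D21_smul_3 hHs c X Y x)
  obtain ⟨γ11, k11⟩ := hgam X.1 X.1
  obtain ⟨γ12, k12⟩ := hgam X.1 Y.1
  obtain ⟨γ22, k22⟩ := hgam Y.1 Y.1
  set a := aa φ (q0, ζ) X with ha
  set b := aa φ (q0, ζ) Y with hb
  obtain ⟨u', hu'⟩ : ∃ u', u' = conj a • Y.1 - conj b • X.1 := ⟨_, rfl⟩
  obtain ⟨g1, kg1⟩ := hgam X.1 u'
  obtain ⟨g2, kg2⟩ := hgam Y.1 u'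
  have hform := hart_negK A φ (q0, ζ) hA hφ huu hζ (by rw [← hy]; exact hHpd) κ
    (by rw [← hy]; exact hκ) X Y Γxx Γxy Γyy h1 h2 h3 γ11 γ12 γ22 g1 g2
    (by rw [← hy]; exact k11) (by rw [← hy]; exact k12) (by rw [← hy]; exact k22) u' hu'
    (by rw [← hy]; exact kg1) (by rw [← hy]; exact kg2)
  have harea := hart_area A φ (q0, ζ) hA hφ huu hζ X Y u' hu'
  simp only [← hy, ← ha, ← hb] at hform harea
  obtain ⟨m12, m3⟩ := hmf κ hκ
  obtain ⟨m4, m5⟩ := m3 X.1 Y.1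
  obtain ⟨m6, m7⟩ := m5 γ11 γ12 γ22 k11 k12 k22
  have m8 := hcr X.1 Y.1 u' g1 g2 kg1 kg2
  obtain ⟨m9, m10⟩ := m12 u'
  have hA0 : 0 ≤ area aS q0 X.1 Y.1 := HF_aS.ar_nonneg aS_self_nonneg X.1 Y.1
  have hU0 := aS_self_nonneg u'
  have l1 := ar_lower hHF HF_aS aS_self_nonneg (mul_pos hμ hN).le hlo X.1 Y.1
  have l2 := ar_upper hHF HF_aS hHnn hhi X.1 Y.1
  have l3 := hHF.im_sq_le hHnn X.1 Y.1
  have l4 := hHnn (a • Y.1 - b • X.1)
  -- relation between `H(u,u)` and `H(u',u')`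
  have l5 : (D11 (Hpot A φ y) (a • Y.1 - b • X.1) (a • Y.1 - b • X.1) q0).re
      = (D11 (Hpot A φ y) u' u' q0).re
        - 4 * (a * conj b).im * (D11 (Hpot A φ y) X.1 Y.1 q0).im := by
    have e1 : D11 (Hpot A φ y) (a • Y.1 - b • X.1) (a • Y.1 - b • X.1) q0
        = a * conj a * D11 (Hpot A φ y) Y.1 Y.1 q0 - a * conj b * D11 (Hpot A φ y) Y.1 X.1 q0
          - b * conj a * D11 (Hpot A φ y) X.1 Y.1 q0
          + b * conj b * D11 (Hpot A φ y) X.1 X.1 q0 := by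
      have := hHF.sub_left (a • Y.1) (b • X.1) (a • Y.1 - b • X.1)
      rw [this]
      have h1 := hHF.sub_right (a • Y.1) (a • Y.1) (b • X.1)
      have h2 := hHF.sub_right (b • X.1) (a • Y.1) (b • X.1)
      rw [h1, h2]
      have r1 := hHF.smul_left a Y.1 (a • Y.1)
      have r2 := hHF.smul_left a Y.1 (b • X.1)
      have r3 := hHF.smul_left b X.1 (a • Y.1)
      have r4 := hHF.smul_left b X.1 (b • X.1)
      have s1 := hHF.smul_right a Y.1 Y.1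
      have s2 := hHF.smul_right b Y.1 X.1
      have s3 := hHF.smul_right a X.1 Y.1
      have s4 := hHF.smul_right b X.1 X.1
      rw [r1, r2, r3, r4, s1, s2, s3, s4]
      ring
    have e2 : D11 (Hpot A φ y) u' u' q0
        = conj a * a * D11 (Hpot A φ y) Y.1 Y.1 q0 - conj a * b * D11 (Hpot A φ y) Y.1 X.1 q0
          - conj b * a * D11 (Hpot A φ y) X.1 Y.1 q0
          + conj b * b * D11 (Hpot A φ y) X.1 X.1 q0 := by
      rw [hu']
      have := hHF.sub_left (conj a • Y.1) (conj b • X.1) (conj a • Y.1 - conj b • X.1)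
      rw [this]
      have h1 := hHF.sub_right (conj a • Y.1) (conj a • Y.1) (conj b • X.1)
      have h2 := hHF.sub_right (conj b • X.1) (conj a • Y.1) (conj b • X.1)
      rw [h1, h2]
      have r1 := hHF.smul_left (conj a) Y.1 (conj a • Y.1)
      have r2 := hHF.smul_left (conj a) Y.1 (conj b • X.1)
      have r3 := hHF.smul_left (conj b) X.1 (conj a • Y.1)
      have r4 := hHF.smul_left (conj b) X.1 (conj b • X.1)
      have s1 := hHF.smul_right (conj a) Y.1 Y.1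
      have s2 := hHF.smul_right (conj b) Y.1 X.1
      have s3 := hHF.smul_right (conj a) X.1 Y.1
      have s4 := hHF.smul_right (conj b) X.1 X.1
      simp only [conj_conj] at r1 r2 r3 r4 s1 s2 s3 s4
      rw [r1, r2, r3, r4, s1, s2, s3, s4]
      ring
    have e3 : D11 (Hpot A φ y) Y.1 X.1 q0 = conj (D11 (Hpot A φ y) X.1 Y.1 q0) :=
      (hHF.symm X.1 Y.1).symm
    rw [e1, e2, e3]
    simp only [add_re, sub_re, mul_re, mul_im, conj_re, conj_im]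
    ring
  rw [l5] at l4
  have key := finish_real (μ := μ) (ν := ν) (cM := cM) (m1 := m1) (m2 := m2) (a1 := a1) (a2 := a2)
    (P := (1 + y) ^ 2 * area aS q0 X.1 Y.1) (Q := (1 + y) * (D11 aS u' u' q0).re)
    (AH := area (Hpot A φ y) q0 X.1 Y.1) (J := (D11 (Hpot A φ y) X.1 Y.1 q0).im)
    (HU := (D11 (Hpot A φ y) u' u' q0).re) (q := (a * conj b).im)
    (M := (mf A φ y q0 κ X.1 Y.1).im) (mU := (mf A φ y q0 κ u' u').re)
    (T := y * (1 + y) * calK φ q0 X.1 Y.1 + negK (Hpot A φ y) q0 X.1 Y.1 γ11 γ12 γ22)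
    (cr := 2 * Real.sqrt (y * (1 + y)) *
        ((D21 φ X.1 u' Y.1 q0 - D11 φ g1 Y.1 q0) - (D21 φ Y.1 u' X.1 q0 - D11 φ g2 X.1 q0)).re)
    (ar0 := area (hart A φ) (q0, ζ) X Y) (K := negK (hart A φ) (q0, ζ) X Y Γxx Γxy Γyy)
    hμ hν hcM hm1 hm2 ha1 ha2 (by positivity) (by positivity)
    (by rw [area_eq, area_eq]; calc _ = (μ * (1 + y)) ^ 2 * ar (fun X Y => D11 aS X Y q0) X.1 Y.1 := by ring
          _ ≤ _ := l1)
    (by rw [area_eq, area_eq]; calc _ ≤ _ := l2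
          _ = _ := by ring)
    l3
    (by calc _ = μ * (1 + y) * (D11 aS u' u' q0).re := by ring
          _ ≤ _ := hlo u')
    (by calc _ ≤ _ := hhi u'
          _ = _ := by ring)
    l4
    (by rw [harea])
    (by calc _ ≤ _ := m4
          _ = _ := by ring)
    (by calc _ = m1 * (1 + y) * (D11 aS u' u' q0).re := by ring
          _ ≤ _ := m9)
    (by calc _ ≤ _ := m10
          _ = _ := by ring)
    (by calc _ = a1 * (1 + y) ^ 2 * area aS q0 X.1 Y.1 := by ring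
          _ ≤ _ := m6)
    (by calc _ ≤ _ := m7
          _ = _ := by ring)
    (by calc _ ≤ _ := m8
          _ = _ := by ring)
    (by rw [hform]; ring)
  exact key

end Crest.Agent.R245
end

-- ▼ part R245/CurvR2A
section

/-! Lemmas for CurvR2. -/

set_option autoImplicit false

namespace Crest.Agent.R245

open Complex Filter Topology
open scoped ContDiff ComplexConjugate

theorem KB_mono_of_lt {V : Type*} [NormedAddCommGroup V] [NormedSpace ℝ V] [NormedSpace ℂ V]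
    {P : V → ℝ} {p : V} {c0 B0 c B : ℝ} (h : KB P p c0 B0) (h0 : c0 < B0) (hc : c ≤ c0)
    (hB : B0 ≤ B) : KB P p c B := by
  intro X Y Γ1 Γ2 Γ3 h1 h2 h3
  obtain ⟨a1, a2⟩ := h X Y Γ1 Γ2 Γ3 h1 h2 h3
  have ha : 0 ≤ area P p X Y := by
    by_contra hneg
    push Not at hneg
    nlinarith
  exact ⟨(mul_le_mul_of_nonneg_right hc ha).trans a1, a2.trans (mul_le_mul_of_nonneg_right hB ha)⟩

/-- jets of `const + r u` -/
theorem JetB_affine {u : B2 → ℝ} {C r e : ℝ} (hu : ContDiffAt ℝ ∞ u q0) (hJ : JetB u C)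
    (hr : 0 ≤ r) (he : r * C ≤ e) (c : ℝ) : JetB (fun b => c + r * u b) e := by
  intro k hk1 hk4
  have huk : ContDiffAt ℝ k u q0 := hu.of_le (by exact_mod_cast le_top)
  have hruk : ContDiffAt ℝ k (r • u) q0 := huk.const_smul r
  have e1 : iteratedFDeriv ℝ k (fun b => c + r * u b) q0 = r • iteratedFDeriv ℝ k u q0 := by
    have h1 : (fun b => c + r * u b) = (fun _ : B2 => c) + (r • u) := by
      funext b; simp
    rw [h1, iteratedFDeriv_add_apply contDiffAt_const hruk,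
      iteratedFDeriv_const_of_ne (by omega), iteratedFDeriv_const_smul_apply huk]
    simp
  rw [e1, norm_smul, Real.norm_eq_abs, abs_of_nonneg hr]
  exact (mul_le_mul_of_nonneg_left (hJ k hk1 hk4) hr).trans he

section
variable {u : B2 → ℝ} {η CW τ β : ℝ}

theorem phi_smooth (hu : ContDiffAt ℝ ∞ u q0) (η τ β : ℝ) :
    ContDiffAt ℝ ∞ (fun b => τ * (η * aS b + u b) + β) q0 :=
  (contDiffAt_const.mul ((contDiffAt_const.mul aS_q0_smooth).add hu)).add contDiffAt_const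

theorem phi_D11 (hu : ContDiffAt ℝ ∞ u q0) (η τ β : ℝ) (v w : B2) :
    D11 (fun b => τ * (η * aS b + u b) + β) v w q0 =
      τ * (η * D11 aS v w q0 + D11 u v w q0) := by
  have h1 : ContDiffAt ℝ ∞ (fun b => η * aS b) q0 := contDiffAt_const.mul aS_q0_smooth
  have h2 : ContDiffAt ℝ ∞ (fun b => η * aS b + u b) q0 := h1.add hu
  rw [D11_add (contDiffAt_const.mul h2) contDiffAt_const, D11_const_mul h2, D11_const,
    D11_add h1 hu, D11_const_mul aS_q0_smooth, add_zero]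

theorem phi_D11_re (hu : ContDiffAt ℝ ∞ u q0) (η τ β : ℝ) (v w : B2) :
    (D11 (fun b => τ * (η * aS b + u b) + β) v w q0).re =
      τ * (η * (D11 aS v w q0).re + (D11 u v w q0).re) := by
  rw [phi_D11 hu, Complex.re_ofReal_mul, Complex.add_re, Complex.re_ofReal_mul]

theorem u_hi (hu : ContDiffAt ℝ ∞ u q0) (hJ : JetB u CW) (hCW : 0 < CW) (ξ : B2) :
    (D11 u ξ ξ q0).re ≤ 4 * CW * (D11 aS ξ ξ q0).re := by
  have h1 := D11_le hu ξ ξ
  have h2 := norm_sq_le_aS_kb ξ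
  have h3 := hJ 2 (by norm_num) (by norm_num)
  calc (D11 u ξ ξ q0).re ≤ ‖D11 u ξ ξ q0‖ := Complex.re_le_norm _
    _ ≤ ‖iteratedFDeriv ℝ 2 u q0‖ * ‖ξ‖ * ‖ξ‖ := h1
    _ = ‖iteratedFDeriv ℝ 2 u q0‖ * ‖ξ‖ ^ 2 := by ring
    _ ≤ CW * (4 * (D11 aS ξ ξ q0).re) := by gcongr
    _ = _ := by ring

theorem calK_le {P : B2 → ℝ} (hP : ContDiffAt ℝ ∞ P q0) (h0 : ∀ ξ, 0 ≤ (D11 P ξ ξ q0).re)
    (ξ η : B2) : 0 ≤ calK P q0 ξ η ∧ calK P q0 ξ η ≤ 4 * area P q0 ξ η := by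
  have h1 := (HF_D11 hP).im_sq_le h0 ξ η
  have h2 := (HF_D11 hP).ar_nonneg h0 ξ η
  have e : calK P q0 ξ η = area P q0 ξ η + 3 * (D11 P ξ η q0).im ^ 2 := rfl
  rw [← area_eq] at h1 h2
  rw [e]
  constructor
  · positivity
  · linarith

/-- lower bound of `i∂∂̄φ` -/
theorem wild_phi_lo (hτ : 0 < τ) (hu : ContDiffAt ℝ ∞ u q0)
    (hlev : ∀ ξ, -(η / 2) * (D11 aS ξ ξ q0).re ≤ (D11 u ξ ξ q0).re) (ξ : B2) :
    τ * η / 2 * (D11 aS ξ ξ q0).re ≤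
      (D11 (fun b => τ * (η * aS b + u b) + β) ξ ξ q0).re := by
  rw [phi_D11_re hu]
  have h1 := mul_le_mul_of_nonneg_left (hlev ξ) hτ.le
  linarith

/-- upper bound of `i∂∂̄φ` -/
theorem wild_phi_hi (hτ : 0 < τ) (hu : ContDiffAt ℝ ∞ u q0) (hJ : JetB u CW) (hCW : 0 < CW)
    (ξ : B2) :
    (D11 (fun b => τ * (η * aS b + u b) + β) ξ ξ q0).re ≤
      τ * (η + 4 * CW) * (D11 aS ξ ξ q0).re := by
  rw [phi_D11_re hu]
  have h1 := mul_le_mul_of_nonneg_left (u_hi hu hJ hCW ξ) hτ.le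
  linarith

theorem wild_H_re {φ : B2 → ℝ} (Λ α y : ℝ) (hφ : ContDiffAt ℝ ∞ φ q0) (ξ η : B2) :
    (D11 (Hpot (fun b => Λ * aS b + α) φ y) ξ η q0).re =
      Λ * (D11 aS ξ η q0).re + y * (D11 φ ξ η q0).re := by
  rw [algHpot_D11 (scal_aS_smooth Λ α) hφ, D11_scal_aS, Complex.add_re, Complex.re_ofReal_mul,
    Complex.re_ofReal_mul]

theorem wild_HE (Λ α τ η β y : ℝ) (u : B2 → ℝ) :
    Hpot (fun b => Λ * aS b + α) (fun b => τ * (η * aS b + u b) + β) y =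
      fun b => (Λ + y * (τ * η)) * aS b + ((α + y * β) + (y * τ) * u b) := by
  funext b; simp only [Hpot]; ring

theorem wild_phiE (τ η β : ℝ) (u : B2 → ℝ) :
    (fun b => τ * (η * aS b + u b) + β) = fun b => (τ * η) * aS b + (β + τ * u b) := by
  funext b; ring

/-- real estimate used for `wild_negK` -/
theorem wild_e_est {Cb y τ η CW Λ : ℝ} (hCb : 0 < Cb) (hy : 0 ≤ y) (hτ : 0 < τ) (hη : 0 < η)
    (hCW : 0 < CW) (hΛ : 0 < Λ) :
    Cb * (y * τ * CW + (y * τ * CW) ^ 2 / (Λ + y * (τ * η / 2))) ≤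
      Cb * (CW * (1 + 2 * CW / η)) * (τ * y) := by
  have hmu : 0 < Λ + y * (τ * η / 2) := by positivity
  have e1 : (y * τ * CW) ^ 2 / (Λ + y * (τ * η / 2)) ≤ y * τ * CW * (2 * CW / η) := by
    rw [div_le_iff₀ hmu]
    have : y * τ * CW * (2 * CW / η) * (Λ + y * (τ * η / 2)) =
        (y * τ * CW) ^ 2 + y * τ * CW * (2 * CW / η) * Λ := by
      field_simp; ring
    rw [this]
    have : 0 ≤ y * τ * CW * (2 * CW / η) * Λ := by positivity
    linarith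
  calc Cb * (y * τ * CW + (y * τ * CW) ^ 2 / (Λ + y * (τ * η / 2)))
      ≤ Cb * (y * τ * CW + y * τ * CW * (2 * CW / η)) := by gcongr
    _ = _ := by ring

end

/-- upper bound of the gain -/
theorem gain_upper {Λ tm y : ℝ} (htm : 0 < tm) (hΛ : 0 < Λ) (hy : 0 ≤ y) :
    Λ / 4 + (y * tm) ^ 3 / (8 * (Λ + y * tm)) / 2 ≤ (Λ + tm ^ 2) * (1 + y) ^ 2 := by
  have g1 : (y * tm) ^ 3 / (8 * (Λ + y * tm)) ≤ (y * tm) ^ 2 / 8 := by
    rw [div_le_div_iff₀ (by positivity) (by norm_num)]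
    have h1 : 0 ≤ (y * tm) ^ 2 * Λ := by positivity
    nlinarith [h1]
  have g2 : (y * tm) ^ 2 / 8 ≤ tm ^ 2 * (1 + y) ^ 2 := by
    have : 0 ≤ tm ^ 2 * y := by positivity
    have : 0 ≤ tm ^ 2 * y ^ 2 := by positivity
    nlinarith [sq_nonneg tm]
  have g3 : Λ ≤ Λ * (1 + y) ^ 2 := by
    have := mul_nonneg hΛ.le hy
    have := mul_nonneg hΛ.le (sq_nonneg y)
    nlinarith
  have g4 : 0 ≤ tm ^ 2 * (1 + y) ^ 2 := by positivity
  linarith

/-- lower bound, real form -/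
theorem wild_low_real {Λ G R K1 Y a f M2 nK L kA : ℝ} (hR : R = Λ / 4 + G / 2)
    (f1 : (Λ / 2 + G) * a ≤ Λ * kA + f - M2) (hb : -(K1 * Y * a) ≤ nK - (Λ + L) * kA)
    (hK : K1 * Y * a ≤ R * a) (hL : 0 ≤ L * kA) : R * a ≤ f + nK - M2 := by
  have e3 : R * a + R * a = (Λ / 2 + G) * a := by rw [hR]; ring
  linarith

/-- upper bound, real form -/
theorem wild_upp_real {Λ η τ y tM a aφ kφ kA nK K1 : ℝ} (hΛ : 0 < Λ) (hη : 0 < η) (hτ : 0 < τ)
    (hτ1 : τ ≤ 1) (hy : 0 ≤ y) (ha : 0 ≤ a) (hK1 : 0 ≤ K1)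
    (h1 : kφ ≤ 4 * aφ) (h2 : aφ ≤ tM ^ 2 * a) (h3 : kA ≤ 4 * a)
    (hb : nK - (Λ + y * (τ * η)) * kA ≤ K1 * (τ * y) * a) :
    y * (1 + y) * kφ + nK ≤ (4 * tM ^ 2 + 4 * (Λ + η) + K1) * (1 + y) ^ 2 * a := by
  have hτy : τ * y ≤ (1 + y) ^ 2 := by nlinarith
  have e2 : y * (1 + y) * kφ ≤ 4 * tM ^ 2 * (1 + y) ^ 2 * a := by
    calc y * (1 + y) * kφ ≤ y * (1 + y) * (4 * (tM ^ 2 * a)) := by gcongr; linarith
      _ ≤ (1 + y) ^ 2 * (4 * (tM ^ 2 * a)) := by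
          apply mul_le_mul_of_nonneg_right _ (by positivity)
          nlinarith
      _ = _ := by ring
  have e3 : (Λ + y * (τ * η)) * kA ≤ 4 * (Λ + η) * (1 + y) ^ 2 * a := by
    have e4 : Λ + y * (τ * η) ≤ (Λ + η) * (1 + y) ^ 2 := by
      have h6 : τ * η ≤ η := by nlinarith
      linarith [mul_nonneg hy hΛ.le, mul_nonneg hy hη.le,
        mul_le_mul_of_nonneg_left h6 hy, mul_nonneg (mul_nonneg hy hy) hΛ.le,
        mul_nonneg (mul_nonneg hy hy) hη.le]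
    calc (Λ + y * (τ * η)) * kA ≤ (Λ + y * (τ * η)) * (4 * a) := by gcongr
      _ ≤ (Λ + η) * (1 + y) ^ 2 * (4 * a) := by gcongr
      _ = _ := by ring
  have e5 : K1 * (τ * y) * a ≤ K1 * (1 + y) ^ 2 * a := by gcongr
  linarith

end Crest.Agent.R245
end

-- ▼ part R245/CurvR2B
section

/-! Pointwise form of CurvR2 from abstract estimates. -/

set_option autoImplicit false

namespace Crest.Agent.R245

open Complex Filter Topology
open scoped ContDiff ComplexConjugate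

theorem wild_hmf {Λ τ η α tm tM K1 R y : ℝ} (hΛ : 0 < Λ) (hη : 0 < η) (hτ : 0 < τ) (hτ1 : τ ≤ 1)
    (hK1 : 0 ≤ K1) (htm0 : 0 < tm) (h4 : 4 * tM ^ 2 ≤ Λ) (htMΛ : tM ≤ Λ) (htM0 : 0 < tM)
    {φ : B2 → ℝ} (hφ : ContDiffAt ℝ ∞ φ q0)
    (hφlo : ∀ ξ, tm * (D11 aS ξ ξ q0).re ≤ (D11 φ ξ ξ q0).re)
    (hφhi : ∀ ξ, (D11 φ ξ ξ q0).re ≤ tM * (D11 aS ξ ξ q0).re)
    (hy0 : 0 ≤ y)
    (hneg : ∀ ξ η' γ11 γ12 γ22, IsGam (Hpot (fun b => Λ * aS b + α) φ y) q0 ξ ξ γ11 →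
      IsGam (Hpot (fun b => Λ * aS b + α) φ y) q0 ξ η' γ12 →
      IsGam (Hpot (fun b => Λ * aS b + α) φ y) q0 η' η' γ22 →
      |negK (Hpot (fun b => Λ * aS b + α) φ y) q0 ξ η' γ11 γ12 γ22
        - (Λ + y * (τ * η)) * calK aS q0 ξ η'| ≤ K1 * (τ * y) * area aS q0 ξ η')
    (hR : R = Λ / 4 + (y * tm) ^ 3 / (8 * (Λ + y * tm)) / 2)
    (habs : K1 * (τ * y) ≤ R)
    (κ : B2 → B2)
    (hκ : ∀ v w, D11 (Hpot (fun b => Λ * aS b + α) φ y) (κ v) w q0 = D11 φ v w q0) :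
    (∀ ξ, tm * (1 + y) * (D11 aS ξ ξ q0).re ≤ (mf (fun b => Λ * aS b + α) φ y q0 κ ξ ξ).re ∧
        (mf (fun b => Λ * aS b + α) φ y q0 κ ξ ξ).re ≤ (2 * tM) * (1 + y) * (D11 aS ξ ξ q0).re) ∧
      ∀ ξ η', (mf (fun b => Λ * aS b + α) φ y q0 κ ξ η').im ^ 2 ≤
          (8 * tM ^ 2) * (1 + y) ^ 2 * area aS q0 ξ η' ∧
        ∀ γ11 γ12 γ22, IsGam (Hpot (fun b => Λ * aS b + α) φ y) q0 ξ ξ γ11 →
          IsGam (Hpot (fun b => Λ * aS b + α) φ y) q0 ξ η' γ12 →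
          IsGam (Hpot (fun b => Λ * aS b + α) φ y) q0 η' η' γ22 →
          R * area aS q0 ξ η' ≤ y * (1 + y) * calK φ q0 ξ η'
              + negK (Hpot (fun b => Λ * aS b + α) φ y) q0 ξ η' γ11 γ12 γ22
              - (mf (fun b => Λ * aS b + α) φ y q0 κ ξ η').im ^ 2 ∧
            y * (1 + y) * calK φ q0 ξ η'
              + negK (Hpot (fun b => Λ * aS b + α) φ y) q0 ξ η' γ11 γ12 γ22
              ≤ (4 * tM ^ 2 + 4 * (Λ + η) + K1) * (1 + y) ^ 2 * area aS q0 ξ η' := by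
  have hform := fun ξ η' => alg_form Λ y tm tM hΛ hy0 htm0 h4 htMΛ φ hφ α hφlo hφhi κ hκ ξ η'
  have hφ0 : ∀ ξ, 0 ≤ (D11 φ ξ ξ q0).re := fun ξ =>
    le_trans (mul_nonneg htm0.le (aS_self_nonneg ξ)) (hφlo ξ)
  constructor
  · intro ξ
    obtain ⟨-, f2, f3, -⟩ := hform ξ ξ
    have hT := aS_self_nonneg ξ
    constructor
    · calc tm * (1 + y) * (D11 aS ξ ξ q0).re = (1 + y) * tm * (D11 aS ξ ξ q0).re := by ring
        _ ≤ _ := f2
    · refine f3.trans (mul_le_mul_of_nonneg_right ?_ hT)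
      linarith
  · intro ξ η'
    obtain ⟨f1, -, -, f4⟩ := hform ξ η'
    have har : 0 ≤ area aS q0 ξ η' := HF_aS.ar_nonneg aS_self_nonneg ξ η'
    constructor
    · calc (mf (fun b => Λ * aS b + α) φ y q0 κ ξ η').im ^ 2
            ≤ ((1 + 2 * y) * tM) ^ 2 * 2 * area aS q0 ξ η' := f4
        _ ≤ (2 * (1 + y) * tM) ^ 2 * 2 * area aS q0 ξ η' := by gcongr; linarith
        _ = _ := by ring
    · intro γ11 γ12 γ22 k11 k12 k22
      have hb := hneg ξ η' γ11 γ12 γ22 k11 k12 k22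
      obtain ⟨ck0, ck4⟩ := calK_le aS_q0_smooth aS_self_nonneg ξ η'
      obtain ⟨-, cφ4⟩ := calK_le hφ hφ0 ξ η'
      have hbl := (abs_le.1 hb).1
      have hbu := (abs_le.1 hb).2
      have hK1Ra := mul_le_mul_of_nonneg_right habs har
      have e1 : area φ q0 ξ η' ≤ tM ^ 2 * area aS q0 ξ η' :=
        ar_upper (HF_D11 hφ) HF_aS hφ0 hφhi ξ η'
      constructor
      · have e2 : 0 ≤ y * (τ * η) * calK aS q0 ξ η' := by positivity
        exact wild_low_real (G := (y * tm) ^ 3 / (8 * (Λ + y * tm))) hR f1 hbl hK1Ra e2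
      · exact wild_upp_real hΛ hη hτ hτ1 hy0 har hK1 cφ4 e1 ck4 hbu

theorem wild_pt {Λ τ η α tm tM K1 K y : ℝ} (hΛ : 0 < Λ) (hη : 0 < η) (hτ : 0 < τ) (hτ1 : τ ≤ 1)
    (hK1 : 0 ≤ K1) (hK : 0 ≤ K) (htm : tm = τ * η / 2) (htmM : tm ≤ tM)
    (h4 : 4 * tM ^ 2 ≤ Λ) (htMΛ : tM ≤ Λ)
    {φ : B2 → ℝ} (hφ : ContDiffAt ℝ ∞ φ q0)
    (hφlo : ∀ ξ, tm * (D11 aS ξ ξ q0).re ≤ (D11 φ ξ ξ q0).re)
    (hφhi : ∀ ξ, (D11 φ ξ ξ q0).re ≤ tM * (D11 aS ξ ξ q0).re)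
    (hy0 : 0 ≤ y)
    (hneg : ∀ ξ η' γ11 γ12 γ22, IsGam (Hpot (fun b => Λ * aS b + α) φ y) q0 ξ ξ γ11 →
      IsGam (Hpot (fun b => Λ * aS b + α) φ y) q0 ξ η' γ12 →
      IsGam (Hpot (fun b => Λ * aS b + α) φ y) q0 η' η' γ22 →
      |negK (Hpot (fun b => Λ * aS b + α) φ y) q0 ξ η' γ11 γ12 γ22
        - (Λ + y * (τ * η)) * calK aS q0 ξ η'| ≤ K1 * (τ * y) * area aS q0 ξ η')
    (hcross : ∀ ξ η' u' g1 g2, IsGam (Hpot (fun b => Λ * aS b + α) φ y) q0 ξ u' g1 →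
      IsGam (Hpot (fun b => Λ * aS b + α) φ y) q0 η' u' g2 →
      |((D21 φ ξ u' η' q0 - D11 φ g1 η' q0) - (D21 φ η' u' ξ q0 - D11 φ g2 ξ q0)).re| ≤
        K * τ * Real.sqrt (area aS q0 ξ η') * Real.sqrt (D11 aS u' u' q0).re)
    (habs : (K1 + 2 * (4 * K ^ 2 / η)) * (τ * y) ≤
      Λ / 4 + (y * tm) ^ 3 / (8 * (Λ + y * tm)) / 2)
    {ζ : ℂ} (hζ : ζ ≠ 0) (hexp : Real.exp (φ q0) * ‖ζ‖ ^ 2 < 1) (hy : y = yy φ (q0, ζ)) :
    ∃ a1 : ℝ, tm ^ 3 / (64 * (Λ + tm)) ≤ a1 ∧ a1 ≤ Λ + tm ^ 2 ∧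
      KB (hart (fun b => Λ * aS b + α) φ) (q0, ζ)
        (min (min (tm/2) (a1/2)) 1 / (2 * (Λ + tM) ^ 2 + 8 * tM ^ 2 + (Λ + tM) + 1))
        ((2 * (2 * tM + tm/2)) / tm + 8 +
          ((4 * tM ^ 2 + 4 * (Λ + η) + K1) + a1/2 + 8 * tM ^ 2) / tm ^ 2) := by
  have htm0 : 0 < tm := by rw [htm]; positivity
  have htM0 : 0 < tM := lt_of_lt_of_le htm0 htmM
  have h4' : 4 * tm ^ 2 ≤ Λ := by nlinarith
  have htmΛ : tm ≤ Λ := htmM.trans htMΛ
  have h1y : 0 < 1 + y := by linarith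
  obtain ⟨R, hR⟩ : ∃ R : ℝ, R = Λ / 4 + (y * tm) ^ 3 / (8 * (Λ + y * tm)) / 2 := ⟨_, rfl⟩
  have hR0 : 0 < R := by rw [hR]; positivity
  have hKη : 0 ≤ 4 * K ^ 2 / η := by positivity
  rw [← hR] at habs
  have hlow : tm ^ 3 / (64 * (Λ + tm)) * (1 + y) ^ 2 ≤ R := by
    rw [hR]; exact gain_lower htm0 hΛ h4' hy0
  have hupp : R ≤ (Λ + tm ^ 2) * (1 + y) ^ 2 := by
    rw [hR]; exact gain_upper htm0 hΛ hy0
  have ha1R : R / (1 + y) ^ 2 * (1 + y) ^ 2 = R := by field_simp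
  have ha1p : 0 < R / (1 + y) ^ 2 := by positivity
  have habs1 : K1 * (τ * y) ≤ R := by
    refine le_trans ?_ habs
    apply mul_le_mul_of_nonneg_right _ (by positivity)
    linarith
  have habs2 : 4 * K ^ 2 / η * (τ * y) ≤ R / 2 := by
    have h0 : 0 ≤ K1 * (τ * y) := by positivity
    have h1 : (K1 + 2 * (4 * K ^ 2 / η)) * (τ * y) =
      K1 * (τ * y) + 2 * (4 * K ^ 2 / η * (τ * y)) := by ring
    linarith
  refine ⟨R / (1 + y) ^ 2, ?_, ?_, ?_⟩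
  · rw [le_div_iff₀ (by positivity)]; exact hlow
  · rw [div_le_iff₀ (by positivity)]; exact hupp
  · refine KB_finish (μ := tm) (ν := Λ + tM) (cM := 8 * tM ^ 2) (m1 := tm) (m2 := 2 * tM)
      (a1 := R / (1 + y) ^ 2) (a2 := 4 * tM ^ 2 + 4 * (Λ + η) + K1)
      htm0 (by positivity) (by positivity) htm0 (by positivity) ha1p (by positivity)
      (y := y) hy (scal_aS_smooth Λ α) hφ hζ hexp ?_ ?_ ?_ ?_
    · intro ξ
      rw [wild_H_re Λ α y hφ]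
      have h1 := mul_le_mul_of_nonneg_left (hφlo ξ) hy0
      have h2 := mul_le_mul_of_nonneg_right htmΛ (aS_self_nonneg ξ)
      linarith
    · intro ξ
      rw [wild_H_re Λ α y hφ]
      have h1 := mul_le_mul_of_nonneg_left (hφhi ξ) hy0
      have h2 := mul_nonneg htM0.le (aS_self_nonneg ξ)
      have h3 := mul_nonneg (mul_nonneg hy0 hΛ.le) (aS_self_nonneg ξ)
      linarith
    · intro κ hκ
      have := wild_hmf hΛ hη hτ hτ1 hK1 htm0 h4 htMΛ htM0 hφ hφlo hφhi hy0 hneg hR habs1 κ hκ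
      rw [ha1R]
      exact this
    · intro ξ η' u' g1 g2 hg1 hg2
      have har : 0 ≤ area aS q0 ξ η' := HF_aS.ar_nonneg aS_self_nonneg ξ η'
      have hX' := cross_absorb (y := y) (tm := tm) (τ := τ) (η := η) (K := K)
        (a := area aS q0 ξ η') (b := (D11 aS u' u' q0).re) hy0 hτ hη htm hK har
        (aS_self_nonneg u') (X := ((D21 φ ξ u' η' q0 - D11 φ g1 η' q0)
          - (D21 φ η' u' ξ q0 - D11 φ g2 ξ q0)).re) (hcross ξ η' u' g1 g2 hg1 hg2)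
      refine hX'.trans ?_
      have e1 : 4 * K ^ 2 / η * (τ * y) * area aS q0 ξ η' ≤ R / 2 * area aS q0 ξ η' :=
        mul_le_mul_of_nonneg_right habs2 har
      have e2 : R / (1 + y) ^ 2 / 2 * (1 + y) ^ 2 = R / 2 := by field_simp
      rw [e2]
      linarith

end Crest.Agent.R245
end

-- ▼ part R245/CurvR2

/-! TASK CurvR2: curvature in the wild region. -/

set_option autoImplicit false

namespace Crest.Agent.R245

open Complex Filter Topology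
open scoped ContDiff ComplexConjugate

theorem curvR2 (η CW : ℝ) (hη : 0 < η) (hη1 : η ≤ 1) (hCW : 0 < CW) :
    ∃ Λ₀ : ℝ, 1 ≤ Λ₀ ∧ ∀ Λ : ℝ, Λ₀ ≤ Λ → ∀ τ : ℝ, 0 < τ → τ ≤ 1 → ∃ c > 0, ∃ B : ℝ,
      ∀ (u : B2 → ℝ) (α β : ℝ), ContDiffAt ℝ ∞ u q0 → JetB u CW →
        (∀ ξ, -(η / 2) * (D11 aS ξ ξ q0).re ≤ (D11 u ξ ξ q0).re) →
        ∀ ζ : ℂ, ζ ≠ 0 → Real.exp (τ * (η * aS q0 + u q0) + β) * ‖ζ‖ ^ 2 < 1 →
          KB (hart (fun b => Λ * aS b + α) (fun b => τ * (η * aS b + u b) + β)) (q0, ζ) c B := by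
  obtain ⟨Cb, hCb, hbp⟩ := base_pert
  obtain ⟨Cc, hCc, hcb⟩ := cross_bound'
  obtain ⟨K1, hK1⟩ : ∃ K1 : ℝ, K1 = Cb * (CW * (1 + 2 * CW / η)) := ⟨_, rfl⟩
  have hK1p : 0 < K1 := by rw [hK1]; positivity
  obtain ⟨C, hC⟩ : ∃ C : ℝ, C = K1 + 2 * (4 * (Cc * CW) ^ 2 / η) := ⟨_, rfl⟩
  have hCp : 0 < C := by rw [hC]; positivity
  obtain ⟨D, hD⟩ : ∃ D : ℝ, D = η + 4 * CW := ⟨_, rfl⟩
  have hDp : 0 < D := by rw [hD]; positivity
  have hbig : 0 ≤ 256 * C ^ 2 * (1 + 8 * C / η) / η ^ 2 := by positivity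
  have hD2 : 0 ≤ 4 * D ^ 2 := by positivity
  refine ⟨1 + (4 * D ^ 2 + D) + 256 * C ^ 2 * (1 + 8 * C / η) / η ^ 2, by linarith, ?_⟩
  intro Λ hΛ0 τ hτ hτ1
  have hΛ : 0 < Λ := by linarith
  have hΛD : 4 * D ^ 2 ≤ Λ := by linarith
  have hΛD1 : D ≤ Λ := by linarith
  have hΛC : 256 * C ^ 2 * (1 + 8 * C / η) / η ^ 2 ≤ Λ := by linarith
  obtain ⟨tm, htm⟩ : ∃ tm : ℝ, tm = τ * η / 2 := ⟨_, rfl⟩
  obtain ⟨tM, htM⟩ : ∃ tM : ℝ, tM = τ * D := ⟨_, rfl⟩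
  have htm0 : 0 < tm := by rw [htm]; positivity
  have htM0 : 0 < tM := by rw [htM]; positivity
  have htmM : tm ≤ tM := by
    rw [htm, htM, hD]
    have := mul_pos hτ hη
    have := mul_pos hτ hCW
    linarith
  have htMD : tM ≤ D := by
    rw [htM]
    calc τ * D ≤ 1 * D := mul_le_mul_of_nonneg_right hτ1 hDp.le
      _ = D := one_mul D
  have h4 : 4 * tM ^ 2 ≤ Λ := by
    have : tM ^ 2 ≤ D ^ 2 := pow_le_pow_left₀ htM0.le htMD 2
    linarith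
  have htMΛ : tM ≤ Λ := htMD.trans hΛD1
  refine ⟨min (min (tm/2) (tm ^ 3 / (64 * (Λ + tm)) / 2)) 1 /
      (2 * (Λ + tM) ^ 2 + 8 * tM ^ 2 + (Λ + tM) + 1), ?_,
    (2 * (2 * tM + tm/2)) / tm + 8 +
          ((4 * tM ^ 2 + 4 * (Λ + η) + K1) + (Λ + tm ^ 2)/2 + 8 * tM ^ 2) / tm ^ 2, ?_⟩
  · apply div_pos _ (by positivity)
    exact lt_min (lt_min (by positivity) (by positivity)) one_pos
  intro u α β hu hJ hlev ζ hζ hexp
  have hφ := phi_smooth hu η τ β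
  have hφlo : ∀ ξ, tm * (D11 aS ξ ξ q0).re ≤
      (D11 (fun b => τ * (η * aS b + u b) + β) ξ ξ q0).re := by
    intro ξ; rw [htm]; exact wild_phi_lo hτ hu hlev ξ
  have hφhi : ∀ ξ, (D11 (fun b => τ * (η * aS b + u b) + β) ξ ξ q0).re ≤
      tM * (D11 aS ξ ξ q0).re := by
    intro ξ; rw [htM, hD]; exact wild_phi_hi hτ hu hJ hCW ξ
  have hφ0 : ∀ ξ, 0 ≤ (D11 (fun b => τ * (η * aS b + u b) + β) ξ ξ q0).re := fun ξ =>
    le_trans (mul_nonneg htm0.le (aS_self_nonneg ξ)) (hφlo ξ)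
  obtain ⟨y, hy⟩ : ∃ y : ℝ, y = yy (fun b => τ * (η * aS b + u b) + β) (q0, ζ) := ⟨_, rfl⟩
  have hy0 : 0 ≤ y := by rw [hy]; exact yy_nonneg hexp
  have hmu : 0 < Λ + y * tm := by positivity
  have habs : (K1 + 2 * (4 * (Cc * CW) ^ 2 / η)) * (τ * y) ≤
      Λ / 4 + (y * tm) ^ 3 / (8 * (Λ + y * tm)) / 2 := by
    rw [← hC]
    have := wild_absorb (Y := τ * y) hη hCp hΛ (by positivity) hΛC
    have e : τ * y * η / 2 = y * tm := by rw [htm]; ring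
    rw [e] at this
    exact this
  obtain ⟨a1, ha1lo, ha1hi, hKB⟩ := wild_pt (Λ := Λ) (τ := τ) (η := η) (α := α) (tm := tm)
    (tM := tM) (K1 := K1) (K := Cc * CW) (y := y) hΛ hη hτ hτ1 hK1p.le (by positivity) htm htmM
    h4 htMΛ hφ hφlo hφhi hy0 (by
      intro ξ η' γ11 γ12 γ22 k11 k12 k22
      have har : 0 ≤ area aS q0 ξ η' := HF_aS.ar_nonneg aS_self_nonneg ξ η'
      rw [wild_HE] at k11 k12 k22 ⊢
      have hE : ContDiffAt ℝ ∞ (fun b : B2 => (α + y * β) + (y * τ) * u b) q0 :=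
        contDiffAt_const.add (contDiffAt_const.mul hu)
      have hJE : JetB (fun b : B2 => (α + y * β) + (y * τ) * u b) (y * τ * CW) :=
        JetB_affine hu hJ (by positivity) le_rfl _
      have hlow : ∀ ξ, (Λ + y * tm) * (D11 aS ξ ξ q0).re ≤
          (D11 (fun b => (Λ + y * (τ * η)) * aS b + ((α + y * β) + (y * τ) * u b)) ξ ξ q0).re := by
        intro ξ
        rw [← wild_HE, wild_H_re Λ α y hφ]
        have h1 := mul_le_mul_of_nonneg_left (hφlo ξ) hy0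
        linarith
      have hp := hbp (Λ + y * (τ * η)) (Λ + y * tm) (y * τ * CW)
        (fun b : B2 => (α + y * β) + (y * τ) * u b) (by positivity) hmu (by positivity)
        hE hJE hlow ξ η' γ11 γ12 γ22 k11 k12 k22
      refine hp.trans (mul_le_mul_of_nonneg_right ?_ har)
      rw [htm, hK1]
      exact wild_e_est hCb hy0 hτ hη hCW hΛ) (by
      intro ξ η' u' g1 g2 hg1 hg2
      have hJE : JetB (fun b : B2 => β + τ * u b) (τ * CW) := JetB_affine hu hJ hτ.le le_rfl _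
      have hE : ContDiffAt ℝ ∞ (fun b : B2 => β + τ * u b) q0 :=
        contDiffAt_const.add (contDiffAt_const.mul hu)
      rw [wild_phiE] at hg1 hg2 ⊢
      have hX := hcb Λ (τ * η) y (Λ + y * tm) (τ * CW) α (fun b : B2 => β + τ * u b) hΛ
        (by positivity) hy0 (by positivity) hE hJE (by rw [← wild_phiE]; exact hφ0) ξ η' u' g1 g2
        hg1 hg2
      calc _ ≤ _ := hX
        _ = _ := by ring) habs hζ hexp hy
  have htm2 : 0 < tm ^ 2 := by positivity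
  have ha1p : 0 ≤ a1 := le_trans (by positivity) ha1lo
  refine KB_mono_of_lt hKB ?_ ?_ ?_
  · have h1 : min (min (tm/2) (a1/2)) 1 /
        (2 * (Λ + tM) ^ 2 + 8 * tM ^ 2 + (Λ + tM) + 1) ≤ 1 := by
      rw [div_le_one (by positivity)]
      have : min (min (tm/2) (a1/2)) 1 ≤ 1 := min_le_right _ _
      have h2 : 0 ≤ 2 * (Λ + tM) ^ 2 + 8 * tM ^ 2 + (Λ + tM) := by positivity
      linarith
    have h2 : 0 ≤ (2 * (2 * tM + tm/2)) / tm := by positivity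
    have h3 : 0 ≤ ((4 * tM ^ 2 + 4 * (Λ + η) + K1) + a1/2 + 8 * tM ^ 2) / tm ^ 2 := by
      positivity
    linarith
  · apply div_le_div_of_nonneg_right _ (by positivity)
    apply min_le_min _ le_rfl
    apply min_le_min le_rfl
    linarith
  · gcongr

end Crest.Agent.R245
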