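import Crest.Agent.R245.Ops

-- ▼ part R245/OpsForms
section

/-! Row 245, OpsForms: the forms `D11, D21, D22`. -/

set_option autoImplicit false
set_option linter.unusedSectionVars false
set_option linter.unusedVariables false

namespace Crest.Agent.R245

open Complex Filter Topology
open scoped ContDiff ComplexConjugate

section Forms

variable {V : Type*} [NormedAddCommGroup V] [NormedSpace ℝ V] [NormedSpace ℂ V] [IsScalarTower ℝ ℂ V]
variable {V' : Type*} [NormedAddCommGroup V'] [NormedSpace ℝ V'] [NormedSpace ℂ V']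
  [IsScalarTower ℝ ℂ V']
variable {P Q : V → ℝ} {p : V}

/-! congruence -/
theorem ofReal_congr (h : P =ᶠ[𝓝 p] Q) :
    (fun q => (P q : ℂ)) =ᶠ[𝓝 p] (fun q => (Q q : ℂ)) := by
  filter_upwards [h] with q hq
  rw [hq]
theorem D11_congr (h : P =ᶠ[𝓝 p] Q) (X Y : V) : D11 P X Y p = D11 Q X Y p :=
  dz_congr (dzb_eventuallyEq (ofReal_congr h))
theorem D21_congr (h : P =ᶠ[𝓝 p] Q) (X Y Z : V) : D21 P X Y Z p = D21 Q X Y Z p :=
  dz_congr (dz_eventuallyEq (dzb_eventuallyEq (ofReal_congr h)))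
theorem D22_congr (h : P =ᶠ[𝓝 p] Q) (X Y Z W : V) : D22 P X Y Z W p = D22 Q X Y Z W p :=
  dz_congr (dz_eventuallyEq (dzb_eventuallyEq (dzb_eventuallyEq (ofReal_congr h))))

/-! smoothness helpers -/
section smooth
variable {u v : V → ℂ}

theorem cd_ev {n : ℕ} (h : ContDiffAt ℝ n u p) : ∀ᶠ q in 𝓝 p, ContDiffAt ℝ n u q :=
  h.eventually (by simp)

theorem cd_diff {n : ℕ} (hn : n ≠ 0) (h : ContDiffAt ℝ n u p) : DifferentiableAt ℝ u p :=
  h.differentiableAt (by exact_mod_cast hn)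

theorem cd_dz {n : ℕ} (X : V) (h : ContDiffAt ℝ (n + 1 : ℕ) u p) :
    ContDiffAt ℝ n (dz X u) p := contDiffAt_dz_le X h (by push_cast; exact le_rfl)

theorem cd_dzb {n : ℕ} (X : V) (h : ContDiffAt ℝ (n + 1 : ℕ) u p) :
    ContDiffAt ℝ n (dzb X u) p := contDiffAt_dzb_le X h (by push_cast; exact le_rfl)

theorem dz_add_ev (X : V) (hu : ContDiffAt ℝ (1 : ℕ) u p) (hv : ContDiffAt ℝ (1 : ℕ) v p) :
    dz X (fun q => u q + v q) =ᶠ[𝓝 p] fun q => dz X u q + dz X v q := by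
  filter_upwards [cd_ev hu, cd_ev hv] with q h1 h2
  exact dz_add (cd_diff one_ne_zero h1) (cd_diff one_ne_zero h2)

theorem dzb_add_ev (X : V) (hu : ContDiffAt ℝ (1 : ℕ) u p) (hv : ContDiffAt ℝ (1 : ℕ) v p) :
    dzb X (fun q => u q + v q) =ᶠ[𝓝 p] fun q => dzb X u q + dzb X v q := by
  filter_upwards [cd_ev hu, cd_ev hv] with q h1 h2
  exact dzb_add (cd_diff one_ne_zero h1) (cd_diff one_ne_zero h2)

theorem dz_cmul_ev (X : V) (c : ℂ) (hu : ContDiffAt ℝ (1 : ℕ) u p) :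
    dz X (fun q => c * u q) =ᶠ[𝓝 p] fun q => c * dz X u q := by
  filter_upwards [cd_ev hu] with q h1
  exact dz_const_mul c (cd_diff one_ne_zero h1)

theorem dzb_cmul_ev (X : V) (c : ℂ) (hu : ContDiffAt ℝ (1 : ℕ) u p) :
    dzb X (fun q => c * u q) =ᶠ[𝓝 p] fun q => c * dzb X u q := by
  filter_upwards [cd_ev hu] with q h1
  exact dzb_const_mul c (cd_diff one_ne_zero h1)


theorem dzb_comm_ev (X Y : V) (hu : ContDiffAt ℝ (2 : ℕ) u p) :
    dzb X (dzb Y u) =ᶠ[𝓝 p] dzb Y (dzb X u) := by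
  filter_upwards [cd_ev hu] with q h1 using dzb_comm h1

theorem dz_dzb_comm_ev (X Y : V) (hu : ContDiffAt ℝ (2 : ℕ) u p) :
    dz X (dzb Y u) =ᶠ[𝓝 p] dzb Y (dz X u) := by
  filter_upwards [cd_ev hu] with q h1 using dz_dzb_comm h1

theorem cd_mono {m n : ℕ} (hmn : m ≤ n) (h : ContDiffAt ℝ n u p) : ContDiffAt ℝ m u p :=
  h.of_le (by exact_mod_cast hmn)

theorem cdP (n : ℕ) (h : ContDiffAt ℝ ∞ P p) : ContDiffAt ℝ n (fun q => (P q : ℂ)) p :=
  (contDiffAt_ofReal h).of_le (by exact_mod_cast le_top)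

theorem conj_dz_fun (X : V) (u : V → ℂ) :
    (fun q => conj (dz X u q)) = dzb X (fun q => conj (u q)) := by
  funext q; exact (dzb_conj X u q).symm

theorem conj_dzb_fun (X : V) (u : V → ℂ) :
    (fun q => conj (dzb X u q)) = dz X (fun q => conj (u q)) := by
  funext q; exact (dz_conj X u q).symm

end smooth

/-! sesquilinearity and symmetry -/
theorem D11_add_left' (X X' Y : V) :
    D11 P (X + X') Y p = D11 P X Y p + D11 P X' Y p := dz_vec_add _ _ _ _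
theorem D11_smul_left' (c : ℂ) (X Y : V) :
    D11 P (c • X) Y p = c * D11 P X Y p := dz_vec_smul _ _ _ _

theorem dzb_add_dir_fun (X Y : V) (u : V → ℂ) :
    dzb (X + Y) u = fun q => dzb X u q + dzb Y u q := by
  funext q; exact dzb_vec_add _ _ _ _
theorem dzb_smul_dir_fun (c : ℂ) (X : V) (u : V → ℂ) :
    dzb (c • X) u = fun q => conj c * dzb X u q := by
  funext q; exact dzb_vec_smul _ _ _ _

theorem D11_add_right' (hP : ContDiffAt ℝ (2 : ℕ) (fun q => (P q : ℂ)) p) (X Y Y' : V) :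
    D11 P X (Y + Y') p = D11 P X Y p + D11 P X Y' p := by
  unfold D11
  rw [dzb_add_dir_fun]
  exact dz_add (cd_diff one_ne_zero (cd_dzb (n := 1) _ hP)) (cd_diff one_ne_zero (cd_dzb (n := 1) _ hP))
theorem D11_smul_right' (hP : ContDiffAt ℝ (2 : ℕ) (fun q => (P q : ℂ)) p) (c : ℂ) (X Y : V) :
    D11 P X (c • Y) p = conj c * D11 P X Y p := by
  unfold D11
  rw [dzb_smul_dir_fun]
  exact dz_const_mul _ (cd_diff one_ne_zero (cd_dzb (n := 1) _ hP))
theorem D11_conj' (hP : ContDiffAt ℝ (2 : ℕ) (fun q => (P q : ℂ)) p) (X Y : V) :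
    conj (D11 P X Y p) = D11 P Y X p := by
  unfold D11
  rw [← dzb_conj, conj_dzb_fun]
  have h : (fun q => conj ((P q : ℂ))) = fun q => (P q : ℂ) := by
    funext q; exact conj_ofReal _
  rw [h]
  exact (dz_dzb_comm hP).symm
theorem D21_symm' (hP : ContDiffAt ℝ (3 : ℕ) (fun q => (P q : ℂ)) p) (X Y Z : V) :
    D21 P X Y Z p = D21 P Y X Z p :=
  dz_comm (cd_dzb (n := 2) _ hP)
theorem D21_add_3' (hP : ContDiffAt ℝ (3 : ℕ) (fun q => (P q : ℂ)) p) (X Y Z Z' : V) :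
    D21 P X Y (Z + Z') p = D21 P X Y Z p + D21 P X Y Z' p := by
  unfold D21
  rw [dzb_add_dir_fun]
  have h2 : ∀ Z : V, ContDiffAt ℝ (2 : ℕ) (dzb Z (fun q => (P q : ℂ))) p := fun Z => cd_dzb (n := 2) _ hP
  rw [dz_congr (dz_add_ev Y (cd_mono (by norm_num) (h2 Z)) (cd_mono (by norm_num) (h2 Z')))]
  exact dz_add (cd_diff one_ne_zero (cd_dz (n := 1) _ (h2 Z)))
    (cd_diff one_ne_zero (cd_dz (n := 1) _ (h2 Z')))
theorem D21_smul_3' (hP : ContDiffAt ℝ (3 : ℕ) (fun q => (P q : ℂ)) p) (c : ℂ) (X Y Z : V) :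
    D21 P X Y (c • Z) p = conj c * D21 P X Y Z p := by
  unfold D21
  rw [dzb_smul_dir_fun]
  have h2 : ContDiffAt ℝ (2 : ℕ) (dzb Z (fun q => (P q : ℂ))) p := cd_dzb (n := 2) _ hP
  rw [dz_congr (dz_cmul_ev Y _ (cd_mono (by norm_num) h2))]
  exact dz_const_mul _ (cd_diff one_ne_zero (cd_dz (n := 1) _ h2))

theorem D11_add_left (hP : ContDiffAt ℝ ∞ P p) (X X' Y : V) :
    D11 P (X + X') Y p = D11 P X Y p + D11 P X' Y p := dz_vec_add _ _ _ _
theorem D11_smul_left (hP : ContDiffAt ℝ ∞ P p) (c : ℂ) (X Y : V) :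
    D11 P (c • X) Y p = c * D11 P X Y p := dz_vec_smul _ _ _ _
theorem D11_add_right (hP : ContDiffAt ℝ ∞ P p) (X Y Y' : V) :
    D11 P X (Y + Y') p = D11 P X Y p + D11 P X Y' p := D11_add_right' (cdP 2 hP) _ _ _
theorem D11_smul_right (hP : ContDiffAt ℝ ∞ P p) (c : ℂ) (X Y : V) :
    D11 P X (c • Y) p = conj c * D11 P X Y p := D11_smul_right' (cdP 2 hP) _ _ _
theorem D11_conj (hP : ContDiffAt ℝ ∞ P p) (X Y : V) : conj (D11 P X Y p) = D11 P Y X p :=
  D11_conj' (cdP 2 hP) _ _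
theorem D21_add_1 (hP : ContDiffAt ℝ ∞ P p) (X X' Y Z : V) :
    D21 P (X + X') Y Z p = D21 P X Y Z p + D21 P X' Y Z p := dz_vec_add _ _ _ _
theorem D21_smul_1 (hP : ContDiffAt ℝ ∞ P p) (c : ℂ) (X Y Z : V) :
    D21 P (c • X) Y Z p = c * D21 P X Y Z p := dz_vec_smul _ _ _ _
theorem D21_symm (hP : ContDiffAt ℝ ∞ P p) (X Y Z : V) : D21 P X Y Z p = D21 P Y X Z p :=
  D21_symm' (cdP 3 hP) _ _ _
theorem D21_add_3 (hP : ContDiffAt ℝ ∞ P p) (X Y Z Z' : V) :
    D21 P X Y (Z + Z') p = D21 P X Y Z p + D21 P X Y Z' p := D21_add_3' (cdP 3 hP) _ _ _ _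
theorem D21_smul_3 (hP : ContDiffAt ℝ ∞ P p) (c : ℂ) (X Y Z : V) :
    D21 P X Y (c • Z) p = conj c * D21 P X Y Z p := D21_smul_3' (cdP 3 hP) _ _ _ _
theorem D22_add_1 (hP : ContDiffAt ℝ ∞ P p) (X X' Y Z W : V) :
    D22 P (X + X') Y Z W p = D22 P X Y Z W p + D22 P X' Y Z W p := dz_vec_add _ _ _ _
theorem D22_smul_1 (hP : ContDiffAt ℝ ∞ P p) (c : ℂ) (X Y Z W : V) :
    D22 P (c • X) Y Z W p = c * D22 P X Y Z W p := dz_vec_smul _ _ _ _
theorem D22_symm12 (hP : ContDiffAt ℝ ∞ P p) (X Y Z W : V) :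
    D22 P X Y Z W p = D22 P Y X Z W p :=
  dz_comm (cd_dzb (n := 2) _ (cd_dzb (n := 3) _ (cdP 4 hP)))
theorem D22_symm34 (hP : ContDiffAt ℝ ∞ P p) (X Y Z W : V) :
    D22 P X Y Z W p = D22 P X Y W Z p :=
  dz_congr (dz_eventuallyEq (dzb_comm_ev Z W (cdP 2 hP)))
theorem D22_conj (hP : ContDiffAt ℝ ∞ P p) (X Y Z W : V) :
    conj (D22 P X Y Z W p) = D22 P Z W X Y p := by
  unfold D22
  rw [← dzb_conj, conj_dz_fun, conj_dzb_fun, conj_dzb_fun]
  have h : (fun q => conj ((P q : ℂ))) = fun q => (P q : ℂ) := by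
    funext q; exact conj_ofReal _
  rw [h]
  have h4 := cdP 4 hP
  -- move `dzb Y` inside
  have e1 : dzb Y (dz Z (dz W (fun q => (P q : ℂ)))) =ᶠ[𝓝 p]
      dz Z (dz W (dzb Y (fun q => (P q : ℂ)))) := by
    refine (dz_dzb_comm_ev Z Y (cd_dz (n := 2) _ (cdP 3 hP))).symm.trans ?_
    exact dz_eventuallyEq (dz_dzb_comm_ev W Y (cdP 2 hP)).symm
  rw [dzb_congr e1]
  have h5 : ContDiffAt ℝ (3 : ℕ) (dzb Y (fun q => (P q : ℂ))) p := cd_dzb (n := 3) _ h4
  rw [← dz_dzb_comm (cd_dz (n := 2) _ h5)]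
  exact dz_congr (dz_dzb_comm_ev W X (cd_mono (by norm_num) h5)).symm

/-! linearity in the potential -/
theorem D11_add (hP : ContDiffAt ℝ ∞ P p) (hQ : ContDiffAt ℝ ∞ Q p) (X Y : V) :
    D11 (fun q => P q + Q q) X Y p = D11 P X Y p + D11 Q X Y p := by
  unfold D11
  have e : (fun q => ((P q + Q q : ℝ) : ℂ)) = fun q => (P q : ℂ) + (Q q : ℂ) := by
    funext q; push_cast; rfl
  rw [e, dz_congr (dzb_add_ev Y (cdP 1 hP) (cdP 1 hQ))]
  exact dz_add (cd_diff one_ne_zero (cd_dzb (n := 1) _ (cdP 2 hP)))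
    (cd_diff one_ne_zero (cd_dzb (n := 1) _ (cdP 2 hQ)))
theorem D21_add (hP : ContDiffAt ℝ ∞ P p) (hQ : ContDiffAt ℝ ∞ Q p) (X Y Z : V) :
    D21 (fun q => P q + Q q) X Y Z p = D21 P X Y Z p + D21 Q X Y Z p := by
  unfold D21
  have e : (fun q => ((P q + Q q : ℝ) : ℂ)) = fun q => (P q : ℂ) + (Q q : ℂ) := by
    funext q; push_cast; rfl
  have e2 : dz Y (dzb Z (fun q => ((P q + Q q : ℝ) : ℂ))) =ᶠ[𝓝 p]
      fun q => dz Y (dzb Z (fun q => (P q : ℂ))) q + dz Y (dzb Z (fun q => (Q q : ℂ))) q := by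
    rw [e]
    refine (dz_eventuallyEq (dzb_add_ev Z (cdP 1 hP) (cdP 1 hQ))).trans ?_
    exact dz_add_ev Y (cd_dzb (n := 1) _ (cdP 2 hP)) (cd_dzb (n := 1) _ (cdP 2 hQ))
  rw [dz_congr e2]
  exact dz_add (cd_diff one_ne_zero (cd_dz (n := 1) _ (cd_dzb (n := 2) _ (cdP 3 hP))))
    (cd_diff one_ne_zero (cd_dz (n := 1) _ (cd_dzb (n := 2) _ (cdP 3 hQ))))
theorem D22_add (hP : ContDiffAt ℝ ∞ P p) (hQ : ContDiffAt ℝ ∞ Q p) (X Y Z W : V) :
    D22 (fun q => P q + Q q) X Y Z W p = D22 P X Y Z W p + D22 Q X Y Z W p := by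
  unfold D22
  have e : (fun q => ((P q + Q q : ℝ) : ℂ)) = fun q => (P q : ℂ) + (Q q : ℂ) := by
    funext q; push_cast; rfl
  have e1 : dzb Z (dzb W (fun q => ((P q + Q q : ℝ) : ℂ))) =ᶠ[𝓝 p]
      fun q => dzb Z (dzb W (fun q => (P q : ℂ))) q + dzb Z (dzb W (fun q => (Q q : ℂ))) q := by
    rw [e]
    refine (dzb_eventuallyEq (dzb_add_ev W (cdP 1 hP) (cdP 1 hQ))).trans ?_
    exact dzb_add_ev Z (cd_dzb (n := 1) _ (cdP 2 hP)) (cd_dzb (n := 1) _ (cdP 2 hQ))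
  have e2 : dz Y (dzb Z (dzb W (fun q => ((P q + Q q : ℝ) : ℂ)))) =ᶠ[𝓝 p]
      fun q => dz Y (dzb Z (dzb W (fun q => (P q : ℂ)))) q
        + dz Y (dzb Z (dzb W (fun q => (Q q : ℂ)))) q := by
    refine (dz_eventuallyEq e1).trans ?_
    exact dz_add_ev Y (cd_dzb (n := 1) _ (cd_dzb (n := 2) _ (cdP 3 hP)))
      (cd_dzb (n := 1) _ (cd_dzb (n := 2) _ (cdP 3 hQ)))
  rw [dz_congr e2]
  exact dz_add
    (cd_diff one_ne_zero (cd_dz (n := 1) _ (cd_dzb (n := 2) _ (cd_dzb (n := 3) _ (cdP 4 hP)))))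
    (cd_diff one_ne_zero (cd_dz (n := 1) _ (cd_dzb (n := 2) _ (cd_dzb (n := 3) _ (cdP 4 hQ)))))
theorem D11_const_mul (hP : ContDiffAt ℝ ∞ P p) (r : ℝ) (X Y : V) :
    D11 (fun q => r * P q) X Y p = r * D11 P X Y p := by
  unfold D11
  have e : (fun q => ((r * P q : ℝ) : ℂ)) = fun q => (r : ℂ) * (P q : ℂ) := by
    funext q; push_cast; rfl
  rw [e, dz_congr (dzb_cmul_ev Y _ (cdP 1 hP))]
  exact dz_const_mul _ (cd_diff one_ne_zero (cd_dzb (n := 1) _ (cdP 2 hP)))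
theorem D21_const_mul (hP : ContDiffAt ℝ ∞ P p) (r : ℝ) (X Y Z : V) :
    D21 (fun q => r * P q) X Y Z p = r * D21 P X Y Z p := by
  unfold D21
  have e : (fun q => ((r * P q : ℝ) : ℂ)) = fun q => (r : ℂ) * (P q : ℂ) := by
    funext q; push_cast; rfl
  have e2 : dz Y (dzb Z (fun q => ((r * P q : ℝ) : ℂ))) =ᶠ[𝓝 p]
      fun q => (r : ℂ) * dz Y (dzb Z (fun q => (P q : ℂ))) q := by
    rw [e]
    refine (dz_eventuallyEq (dzb_cmul_ev Z _ (cdP 1 hP))).trans ?_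
    exact dz_cmul_ev Y _ (cd_dzb (n := 1) _ (cdP 2 hP))
  rw [dz_congr e2]
  exact dz_const_mul _ (cd_diff one_ne_zero (cd_dz (n := 1) _ (cd_dzb (n := 2) _ (cdP 3 hP))))
theorem D22_const_mul (hP : ContDiffAt ℝ ∞ P p) (r : ℝ) (X Y Z W : V) :
    D22 (fun q => r * P q) X Y Z W p = r * D22 P X Y Z W p := by
  unfold D22
  have e : (fun q => ((r * P q : ℝ) : ℂ)) = fun q => (r : ℂ) * (P q : ℂ) := by
    funext q; push_cast; rfl
  have e1 : dzb Z (dzb W (fun q => ((r * P q : ℝ) : ℂ))) =ᶠ[𝓝 p]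
      fun q => (r : ℂ) * dzb Z (dzb W (fun q => (P q : ℂ))) q := by
    rw [e]
    refine (dzb_eventuallyEq (dzb_cmul_ev W _ (cdP 1 hP))).trans ?_
    exact dzb_cmul_ev Z _ (cd_dzb (n := 1) _ (cdP 2 hP))
  have e2 : dz Y (dzb Z (dzb W (fun q => ((r * P q : ℝ) : ℂ)))) =ᶠ[𝓝 p]
      fun q => (r : ℂ) * dz Y (dzb Z (dzb W (fun q => (P q : ℂ)))) q := by
    refine (dz_eventuallyEq e1).trans ?_
    exact dz_cmul_ev Y _ (cd_dzb (n := 1) _ (cd_dzb (n := 2) _ (cdP 3 hP)))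
  rw [dz_congr e2]
  exact dz_const_mul _
    (cd_diff one_ne_zero (cd_dz (n := 1) _ (cd_dzb (n := 2) _ (cd_dzb (n := 3) _ (cdP 4 hP)))))
theorem dzb_const_fun (c : ℂ) (X : V) : dzb X (fun _ : V => c) = fun _ => 0 := by
  funext q; exact dzb_const c
theorem dz_const_fun (c : ℂ) (X : V) : dz X (fun _ : V => c) = fun _ => 0 := by
  funext q; exact dz_const c
theorem D11_const (r : ℝ) (X Y : V) : D11 (fun _ : V => r) X Y p = 0 := by
  unfold D11; rw [dzb_const_fun, dz_const]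
theorem D21_const (r : ℝ) (X Y Z : V) : D21 (fun _ : V => r) X Y Z p = 0 := by
  unfold D21; rw [dzb_const_fun, dz_const_fun, dz_const]

/-! composition with affine maps -/
theorem dz_comp_ev (L : V →L[ℂ] V') (x₀ : V') {f : V' → ℂ} (X : V)
    (hf : ContDiffAt ℝ (1 : ℕ) f (L p + x₀)) :
    dz X (fun q => f (L q + x₀)) =ᶠ[𝓝 p] fun q => dz (L X) f (L q + x₀) := by
  have hc : Tendsto (fun q => L q + x₀) (𝓝 p) (𝓝 (L p + x₀)) :=
    (L.continuous.add continuous_const).continuousAt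
  filter_upwards [hc.eventually (cd_ev hf)] with q hq
  exact dz_comp_affine L x₀ (cd_diff one_ne_zero hq)
theorem dzb_comp_ev (L : V →L[ℂ] V') (x₀ : V') {f : V' → ℂ} (X : V)
    (hf : ContDiffAt ℝ (1 : ℕ) f (L p + x₀)) :
    dzb X (fun q => f (L q + x₀)) =ᶠ[𝓝 p] fun q => dzb (L X) f (L q + x₀) := by
  have hc : Tendsto (fun q => L q + x₀) (𝓝 p) (𝓝 (L p + x₀)) :=
    (L.continuous.add continuous_const).continuousAt
  filter_upwards [hc.eventually (cd_ev hf)] with q hq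
  exact dzb_comp_affine L x₀ (cd_diff one_ne_zero hq)

theorem D11_comp_affine (L : V →L[ℂ] V') (x₀ : V') {f : V' → ℝ}
    (hf : ContDiffAt ℝ ∞ f (L p + x₀)) (X Y : V) :
    D11 (fun q => f (L q + x₀)) X Y p = D11 f (L X) (L Y) (L p + x₀) := by
  unfold D11
  rw [dz_congr (dzb_comp_ev L x₀ (f := fun q => (f q : ℂ)) Y (cdP 1 hf))]
  exact dz_comp_affine L x₀ (cd_diff one_ne_zero (cd_dzb (n := 1) _ (cdP 2 hf)))
theorem D21_comp_affine (L : V →L[ℂ] V') (x₀ : V') {f : V' → ℝ}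
    (hf : ContDiffAt ℝ ∞ f (L p + x₀)) (X Y Z : V) :
    D21 (fun q => f (L q + x₀)) X Y Z p = D21 f (L X) (L Y) (L Z) (L p + x₀) := by
  unfold D21
  rw [dz_congr (dz_eventuallyEq (dzb_comp_ev L x₀ (f := fun q => (f q : ℂ)) Z (cdP 1 hf))),
    dz_congr (dz_comp_ev L x₀ Y (cd_dzb (n := 1) _ (cdP 2 hf)))]
  exact dz_comp_affine L x₀
    (cd_diff one_ne_zero (cd_dz (n := 1) _ (cd_dzb (n := 2) _ (cdP 3 hf))))
theorem D22_comp_affine (L : V →L[ℂ] V') (x₀ : V') {f : V' → ℝ}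
    (hf : ContDiffAt ℝ ∞ f (L p + x₀)) (X Y Z W : V) :
    D22 (fun q => f (L q + x₀)) X Y Z W p = D22 f (L X) (L Y) (L Z) (L W) (L p + x₀) := by
  unfold D22
  rw [dz_congr (dz_eventuallyEq (dzb_eventuallyEq
      (dzb_comp_ev L x₀ (f := fun q => (f q : ℂ)) W (cdP 1 hf)))),
    dz_congr (dz_eventuallyEq (dzb_comp_ev L x₀ Z (cd_dzb (n := 1) _ (cdP 2 hf)))),
    dz_congr (dz_comp_ev L x₀ Y (cd_dzb (n := 1) _ (cd_dzb (n := 2) _ (cdP 3 hf))))]
  exact dz_comp_affine L x₀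
    (cd_diff one_ne_zero (cd_dz (n := 1) _ (cd_dzb (n := 2) _ (cd_dzb (n := 3) _ (cdP 4 hf)))))

end Forms

end Crest.Agent.R245
end

-- ▼ part R245/OpsNorm
section

/-! TASK OpsNorm: norm bounds for `D11, D21, D22`. -/

set_option autoImplicit false

namespace Crest.Agent.R245

open Complex Filter Topology
open scoped ContDiff ComplexConjugate

section Forms

variable {V : Type*} [NormedAddCommGroup V] [NormedSpace ℝ V] [NormedSpace ℂ V] [IsScalarTower ℝ ℂ V]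
variable {V' : Type*} [NormedAddCommGroup V'] [NormedSpace ℝ V'] [NormedSpace ℂ V']
  [IsScalarTower ℝ ℂ V']
variable {P Q : V → ℝ} {p : V}

/-- `T ↦ (T X + c T (I X)) / 2` -/
noncomputable def opL (c : ℂ) (X : V) : (V →L[ℝ] ℂ) →L[ℝ] ℂ :=
  (1 / 2 : ℝ) • (ContinuousLinearMap.apply ℝ ℂ X)
    + ((1 / 2 : ℝ) • (ContinuousLinearMap.mul ℝ ℂ c)).comp (ContinuousLinearMap.apply ℝ ℂ (I • X))

omit [IsScalarTower ℝ ℂ V] in
lemma opL_apply (c : ℂ) (X : V) (T : V →L[ℝ] ℂ) : opL c X T = (T X + c * T (I • X)) / 2 := by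
  simp [opL]
  ring

omit [IsScalarTower ℝ ℂ V] in
lemma opL_norm_le (c : ℂ) (hc : ‖c‖ = 1) (X : V) : ‖opL c X‖ ≤ ‖X‖ := by
  refine ContinuousLinearMap.opNorm_le_bound _ (norm_nonneg _) fun T => ?_
  rw [opL_apply, norm_div]
  have h1 : ‖T X‖ ≤ ‖T‖ * ‖X‖ := T.le_opNorm X
  have h2 : ‖T (I • X)‖ ≤ ‖T‖ * ‖X‖ := by
    have := T.le_opNorm (I • X)
    rwa [norm_smul, Complex.norm_I, one_mul] at this
  have h3 : ‖T X + c * T (I • X)‖ ≤ ‖T X‖ + ‖T (I • X)‖ := by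
    refine (norm_add_le _ _).trans ?_
    rw [norm_mul, hc, one_mul]
  have h4 : ‖(2:ℂ)‖ = 2 := by simp
  rw [h4, div_le_iff₀ (by norm_num)]
  nlinarith

omit [IsScalarTower ℝ ℂ V] in
lemma dz_eq_opL (X : V) (u : V → ℂ) : dz X u = fun q => opL (-I) X (fderiv ℝ u q) := by
  ext q
  rw [opL_apply]
  simp only [dz]
  ring

omit [IsScalarTower ℝ ℂ V] in
lemma dzb_eq_opL (X : V) (u : V → ℂ) : dzb X u = fun q => opL I X (fderiv ℝ u q) := by
  ext q
  rw [opL_apply]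
  simp only [dzb]

omit [NormedSpace ℂ V] [IsScalarTower ℝ ℂ V] in
lemma norm_iteratedFDeriv_opL_le {u : V → ℂ} {p : V} (hu : ContDiffAt ℝ ∞ u p)
    (L : (V →L[ℝ] ℂ) →L[ℝ] ℂ) (k : ℕ) :
    ‖iteratedFDeriv ℝ k (fun q => L (fderiv ℝ u q)) p‖ ≤ ‖L‖ * ‖iteratedFDeriv ℝ (k + 1) u p‖ := by
  have h1 : ContDiffAt ℝ k (fderiv ℝ u) p := hu.fderiv_right (by norm_cast; exact le_top)
  have h2 : iteratedFDeriv ℝ k (L ∘ fderiv ℝ u) p =
      L.compContinuousMultilinearMap (iteratedFDeriv ℝ k (fderiv ℝ u) p) :=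
    L.iteratedFDeriv_comp_left h1 le_rfl
  have h3 : (fun q => L (fderiv ℝ u q)) = L ∘ fderiv ℝ u := rfl
  rw [h3, h2, ← norm_iteratedFDeriv_fderiv]
  exact ContinuousLinearMap.norm_compContinuousMultilinearMap_le _ _

omit [IsScalarTower ℝ ℂ V] in
lemma norm_iteratedFDeriv_dz_le {u : V → ℂ} {p : V} (hu : ContDiffAt ℝ ∞ u p) (X : V) (k : ℕ) :
    ‖iteratedFDeriv ℝ k (dz X u) p‖ ≤ ‖X‖ * ‖iteratedFDeriv ℝ (k + 1) u p‖ := by
  rw [dz_eq_opL]
  refine (norm_iteratedFDeriv_opL_le hu (opL (-I) X) k).trans ?_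
  gcongr
  exact opL_norm_le _ (by simp) X

omit [IsScalarTower ℝ ℂ V] in
lemma norm_iteratedFDeriv_dzb_le {u : V → ℂ} {p : V} (hu : ContDiffAt ℝ ∞ u p) (X : V) (k : ℕ) :
    ‖iteratedFDeriv ℝ k (dzb X u) p‖ ≤ ‖X‖ * ‖iteratedFDeriv ℝ (k + 1) u p‖ := by
  rw [dzb_eq_opL]
  refine (norm_iteratedFDeriv_opL_le hu (opL I X) k).trans ?_
  gcongr
  exact opL_norm_le _ (by simp) X

omit [NormedSpace ℂ V] [IsScalarTower ℝ ℂ V] in
lemma norm_iteratedFDeriv_ofReal_comp (hP : ContDiffAt ℝ ∞ P p) (k : ℕ) :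
    ‖iteratedFDeriv ℝ k (fun q => (P q : ℂ)) p‖ = ‖iteratedFDeriv ℝ k P p‖ := by
  have h : (fun q => (P q : ℂ)) = (Complex.ofRealLI : ℝ →ₗᵢ[ℝ] ℂ) ∘ P := by
    ext q; simp
  rw [h]
  exact LinearIsometry.norm_iteratedFDeriv_comp_left _ (hP.of_le (by norm_cast; exact le_top : (k : WithTop ℕ∞) ≤ ∞)) le_rfl

omit [NormedSpace ℂ V] [IsScalarTower ℝ ℂ V] in
lemma contDiffAt_ofReal_comp' (hP : ContDiffAt ℝ ∞ P p) :
    ContDiffAt ℝ ∞ (fun q => (P q : ℂ)) p :=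
  (Complex.ofRealCLM.contDiff (n := ∞)).contDiffAt.comp p hP

/-! norm bounds by iterated derivatives -/
theorem D11_le (hP : ContDiffAt ℝ ∞ P p) (X Y : V) :
    ‖D11 P X Y p‖ ≤ ‖iteratedFDeriv ℝ 2 P p‖ * ‖X‖ * ‖Y‖ := by
  have h0 := contDiffAt_ofReal_comp' hP
  have h1 := contDiffAt_dzb_inf Y h0
  have a1 := norm_iteratedFDeriv_dz_le h1 X 0
  have a2 := norm_iteratedFDeriv_dzb_le h0 Y 1
  rw [norm_iteratedFDeriv_zero] at a1
  rw [norm_iteratedFDeriv_ofReal_comp hP] at a2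
  unfold D11
  calc _ ≤ ‖X‖ * ‖iteratedFDeriv ℝ (0 + 1) (dzb Y (fun q => (P q : ℂ))) p‖ := a1
    _ ≤ ‖X‖ * (‖Y‖ * ‖iteratedFDeriv ℝ (1 + 1) P p‖) := by gcongr
    _ = _ := by ring

theorem D21_le (hP : ContDiffAt ℝ ∞ P p) (X Y Z : V) :
    ‖D21 P X Y Z p‖ ≤ ‖iteratedFDeriv ℝ 3 P p‖ * ‖X‖ * ‖Y‖ * ‖Z‖ := by
  have h0 := contDiffAt_ofReal_comp' hP
  have h1 := contDiffAt_dzb_inf Z h0
  have h2 := contDiffAt_dz_inf Y h1
  have a1 := norm_iteratedFDeriv_dz_le h2 X 0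
  have a2 := norm_iteratedFDeriv_dz_le h1 Y 1
  have a3 := norm_iteratedFDeriv_dzb_le h0 Z 2
  rw [norm_iteratedFDeriv_zero] at a1
  rw [norm_iteratedFDeriv_ofReal_comp hP] at a3
  unfold D21
  calc _ ≤ ‖X‖ * ‖iteratedFDeriv ℝ (0 + 1) (dz Y (dzb Z (fun q => (P q : ℂ)))) p‖ := a1
    _ ≤ ‖X‖ * (‖Y‖ * ‖iteratedFDeriv ℝ (1 + 1) (dzb Z (fun q => (P q : ℂ))) p‖) := by
      gcongr
    _ ≤ ‖X‖ * (‖Y‖ * (‖Z‖ * ‖iteratedFDeriv ℝ (2 + 1) P p‖)) := by gcongr
    _ = _ := by ring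

theorem D22_le (hP : ContDiffAt ℝ ∞ P p) (X Y Z W : V) :
    ‖D22 P X Y Z W p‖ ≤ ‖iteratedFDeriv ℝ 4 P p‖ * ‖X‖ * ‖Y‖ * ‖Z‖ * ‖W‖ := by
  have h0 := contDiffAt_ofReal_comp' hP
  have h1 := contDiffAt_dzb_inf W h0
  have h2 := contDiffAt_dzb_inf Z h1
  have h3 := contDiffAt_dz_inf Y h2
  have a1 := norm_iteratedFDeriv_dz_le h3 X 0
  have a2 := norm_iteratedFDeriv_dz_le h2 Y 1
  have a3 := norm_iteratedFDeriv_dzb_le h1 Z 2
  have a4 := norm_iteratedFDeriv_dzb_le h0 W 3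
  rw [norm_iteratedFDeriv_zero] at a1
  rw [norm_iteratedFDeriv_ofReal_comp hP] at a4
  unfold D22
  calc _ ≤ ‖X‖ * ‖iteratedFDeriv ℝ (0 + 1) (dz Y (dzb Z (dzb W (fun q => (P q : ℂ))))) p‖ := a1
    _ ≤ ‖X‖ * (‖Y‖ * ‖iteratedFDeriv ℝ (1 + 1) (dzb Z (dzb W (fun q => (P q : ℂ)))) p‖) := by
      gcongr
    _ ≤ ‖X‖ * (‖Y‖ * (‖Z‖ * ‖iteratedFDeriv ℝ (2 + 1) (dzb W (fun q => (P q : ℂ))) p‖)) := by
      gcongr
    _ ≤ ‖X‖ * (‖Y‖ * (‖Z‖ * (‖W‖ * ‖iteratedFDeriv ℝ (3 + 1) P p‖))) := by gcongr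
    _ = _ := by ring

end Forms

end Crest.Agent.R245
end

-- ▼ part R245/OpsKB

/-! Row 245, OpsKB: invariance properties of `KB`, `PD`. -/

set_option autoImplicit false
set_option linter.unusedSectionVars false
set_option linter.unusedVariables false

namespace Crest.Agent.R245

open Complex Filter Topology
open scoped ContDiff ComplexConjugate

section Forms

variable {V : Type*} [NormedAddCommGroup V] [NormedSpace ℝ V] [NormedSpace ℂ V] [IsScalarTower ℝ ℂ V]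
variable {V' : Type*} [NormedAddCommGroup V'] [NormedSpace ℝ V'] [NormedSpace ℂ V']
  [IsScalarTower ℝ ℂ V']
variable {P Q : V → ℝ} {p : V}

/-! `KB` and `PD` -/
theorem KB_congr (h : P =ᶠ[𝓝 p] Q) (c B : ℝ) : KB P p c B ↔ KB Q p c B := by
  unfold KB IsGam area negK
  simp only [D11_congr h, D21_congr h, D22_congr h]
theorem PD_congr (h : P =ᶠ[𝓝 p] Q) : PD P p ↔ PD Q p := by
  unfold PD
  simp only [D11_congr h]
theorem area_nonneg (hP : ContDiffAt ℝ ∞ P p) (hpd : PD P p) (X Y : V) : 0 ≤ area P p X Y := by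
  unfold area
  by_cases hY : Y = 0
  · subst hY
    have h1 : ∀ Z : V, D11 P Z 0 p = 0 := fun Z => by
      have := D11_smul_right hP 0 Z (0 : V)
      simpa using this
    rw [h1, h1]; simp
  · have hYY := hpd Y hY
    set a := (D11 P Y Y p).re with ha
    set b := (D11 P X Y p).re with hb
    have hsym : (D11 P Y X p).re = b := by
      rw [← D11_conj hP X Y, conj_re]
    have key : 0 ≤ (D11 P ((a : ℂ) • X + ((-b : ℝ) : ℂ) • Y) ((a : ℂ) • X + ((-b : ℝ) : ℂ) • Y) p).re := by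
      by_cases hZ : ((a : ℂ) • X + ((-b : ℝ) : ℂ) • Y) = 0
      · rw [hZ]
        have := D11_smul_right hP 0 (0 : V) (0 : V)
        simp only [smul_zero, map_zero, zero_mul] at this
        rw [this]; simp
      · exact (hpd _ hZ).le
    rw [D11_add_right hP, D11_add_left hP, D11_add_left hP] at key
    simp only [D11_smul_left hP, D11_smul_right hP, conj_ofReal, add_re, re_ofReal_mul] at key
    rw [hsym, ← hb, ← ha] at key
    have h2 : 0 ≤ a * ((D11 P X X p).re * a - b ^ 2) := by nlinarith [key]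
    exact nonneg_of_mul_nonneg_right h2 hYY
theorem KB_mono (hP : ContDiffAt ℝ ∞ P p) (hpd : PD P p) {c c' B B' : ℝ} (hc : c' ≤ c)
    (hB : B ≤ B') (h : KB P p c B) : KB P p c' B' := by
  intro X Y G1 G2 G3 h1 h2 h3
  obtain ⟨h4, h5⟩ := h X Y G1 G2 G3 h1 h2 h3
  have ha := area_nonneg hP hpd X Y
  exact ⟨(mul_le_mul_of_nonneg_right hc ha).trans h4,
    h5.trans (mul_le_mul_of_nonneg_right hB ha)⟩

section equiv
variable (L : V ≃L[ℂ] V') (x₀ : V')

theorem dz_comp_equiv_fun (X : V) (f : V' → ℂ) :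
    dz X (fun q => f (L q + x₀)) = fun q => dz (L X) f (L q + x₀) := by
  funext q; exact dz_comp_affineEquiv L x₀ f
theorem dzb_comp_equiv_fun (X : V) (f : V' → ℂ) :
    dzb X (fun q => f (L q + x₀)) = fun q => dzb (L X) f (L q + x₀) := by
  funext q; exact dzb_comp_affineEquiv L x₀ f
theorem D11_comp_equiv (f : V' → ℝ) (X Y : V) :
    D11 (fun q => f (L q + x₀)) X Y p = D11 f (L X) (L Y) (L p + x₀) := by
  unfold D11
  rw [dzb_comp_equiv_fun L x₀ Y (fun q => (f q : ℂ)), dz_comp_affineEquiv L x₀]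
theorem D21_comp_equiv (f : V' → ℝ) (X Y Z : V) :
    D21 (fun q => f (L q + x₀)) X Y Z p = D21 f (L X) (L Y) (L Z) (L p + x₀) := by
  unfold D21
  rw [dzb_comp_equiv_fun L x₀ Z (fun q => (f q : ℂ)), dz_comp_equiv_fun L x₀,
    dz_comp_affineEquiv L x₀]
theorem D22_comp_equiv (f : V' → ℝ) (X Y Z W : V) :
    D22 (fun q => f (L q + x₀)) X Y Z W p = D22 f (L X) (L Y) (L Z) (L W) (L p + x₀) := by
  unfold D22
  rw [dzb_comp_equiv_fun L x₀ W (fun q => (f q : ℂ)), dzb_comp_equiv_fun L x₀,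
    dz_comp_equiv_fun L x₀, dz_comp_affineEquiv L x₀]

theorem IsGam_comp_equiv (f : V' → ℝ) (X Y G : V) :
    IsGam (fun q => f (L q + x₀)) p X Y G ↔ IsGam f (L p + x₀) (L X) (L Y) (L G) := by
  unfold IsGam
  simp only [D11_comp_equiv, D21_comp_equiv]
  constructor
  · intro h Z
    have := h (L.symm Z)
    simpa using this
  · intro h Z
    exact h (L Z)

end equiv

theorem KB_comp_affineEquiv (L : V ≃L[ℂ] V') (x₀ : V') (f : V' → ℝ) (c B : ℝ) :
    KB (fun q => f (L q + x₀)) p c B ↔ KB f (L p + x₀) c B := by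
  unfold KB
  simp only [IsGam_comp_equiv]
  unfold area negK
  simp only [D11_comp_equiv, D22_comp_equiv]
  constructor
  · intro h X Y G1 G2 G3 h1 h2 h3
    have := h (L.symm X) (L.symm Y) (L.symm G1) (L.symm G2) (L.symm G3)
    simp only [ContinuousLinearEquiv.apply_symm_apply] at this
    exact this h1 h2 h3
  · intro h X Y G1 G2 G3 h1 h2 h3
    exact h _ _ _ _ _ h1 h2 h3
theorem PD_comp_affineEquiv (L : V ≃L[ℂ] V') (x₀ : V') (f : V' → ℝ) :
    PD (fun q => f (L q + x₀)) p ↔ PD f (L p + x₀) := by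
  unfold PD
  simp only [D11_comp_equiv]
  constructor
  · intro h X hX
    have := h (L.symm X) (by simpa using hX)
    simpa using this
  · intro h X hX
    exact h _ (by simpa using hX)
theorem IsGam_const_mul (hP : ContDiffAt ℝ ∞ P p) {r : ℝ} (hr : r ≠ 0) (X Y G : V) :
    IsGam (fun q => r * P q) p X Y G ↔ IsGam P p X Y G := by
  unfold IsGam
  simp only [D11_const_mul hP, D21_const_mul hP]
  have hr' : (r : ℂ) ≠ 0 := by exact_mod_cast hr
  constructor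
  · intro h Z; exact mul_left_cancel₀ hr' (h Z)
  · intro h Z; rw [h Z]
theorem KB_const_mul (hP : ContDiffAt ℝ ∞ P p) {r : ℝ} (hr : 0 < r) {c B : ℝ} (h : KB P p c B) :
    KB (fun q => r * P q) p (c / r) (B / r) := by
  intro X Y G1 G2 G3 h1 h2 h3
  rw [IsGam_const_mul hP hr.ne'] at h1 h2 h3
  obtain ⟨h4, h5⟩ := h X Y G1 G2 G3 h1 h2 h3
  have e1 : area (fun q => r * P q) p X Y = r ^ 2 * area P p X Y := by
    unfold area; simp only [D11_const_mul hP, re_ofReal_mul]; ring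
  have e2 : negK (fun q => r * P q) p X Y G1 G2 G3 = r * negK P p X Y G1 G2 G3 := by
    unfold negK; simp only [D11_const_mul hP, D22_const_mul hP]
    rw [← re_ofReal_mul]; congr 1; ring
  rw [e1, e2]
  have e3 : ∀ t : ℝ, t / r * (r ^ 2 * area P p X Y) = r * (t * area P p X Y) := by
    intro t; field_simp
  rw [e3, e3]
  exact ⟨mul_le_mul_of_nonneg_left h4 hr.le, mul_le_mul_of_nonneg_left h5 hr.le⟩
theorem PD_const_mul (hP : ContDiffAt ℝ ∞ P p) {r : ℝ} (hr : 0 < r) (h : PD P p) :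
    PD (fun q => r * P q) p := by
  intro X hX
  rw [D11_const_mul hP, re_ofReal_mul]
  exact mul_pos hr (h X hX)
theorem dzb_add_const_fun (r : ℂ) (X : V) (u : V → ℂ) :
    dzb X (fun q => u q + r) = dzb X u := by
  funext q; unfold dzb; rw [fderiv_add_const]
theorem KB_add_const (hP : ContDiffAt ℝ ∞ P p) (r : ℝ) {c B : ℝ} :
    KB (fun q => P q + r) p c B ↔ KB P p c B := by
  have e : (fun q => ((P q + r : ℝ) : ℂ)) = fun q => (P q : ℂ) + (r : ℂ) := by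
    funext q; push_cast; rfl
  have e1 : ∀ X Y : V, D11 (fun q => P q + r) X Y p = D11 P X Y p := by
    intro X Y; unfold D11; rw [e, dzb_add_const_fun]
  have e2 : ∀ X Y Z : V, D21 (fun q => P q + r) X Y Z p = D21 P X Y Z p := by
    intro X Y Z; unfold D21; rw [e, dzb_add_const_fun]
  have e3 : ∀ X Y Z W : V, D22 (fun q => P q + r) X Y Z W p = D22 P X Y Z W p := by
    intro X Y Z W; unfold D22; rw [e, dzb_add_const_fun]
  unfold KB IsGam area negK
  simp only [e1, e2, e3]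

/-! closure of curvature bounds -/

theorem continuousAt_D11 (hP : ContDiffAt ℝ ∞ P p) (X Y : V) : ContinuousAt (D11 P X Y) p :=
  (cd_dz (n := 0) X (cd_dzb (n := 1) Y (cdP 2 hP))).continuousAt
theorem continuousAt_D21 (hP : ContDiffAt ℝ ∞ P p) (X Y Z : V) : ContinuousAt (D21 P X Y Z) p :=
  (cd_dz (n := 0) X (cd_dz (n := 1) Y (cd_dzb (n := 2) Z (cdP 3 hP)))).continuousAt
theorem continuousAt_D22 (hP : ContDiffAt ℝ ∞ P p) (X Y Z W : V) :
    ContinuousAt (D22 P X Y Z W) p :=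
  (cd_dz (n := 0) X (cd_dz (n := 1) Y (cd_dzb (n := 2) Z (cd_dzb (n := 3) W (cdP 4 hP))))).continuousAt

theorem D11_sum_left {ι : Type*} (s : Finset ι) (g : ι → ℂ) (b : ι → V) (Y : V) (q : V) :
    D11 P (∑ i ∈ s, g i • b i) Y q = ∑ i ∈ s, g i * D11 P (b i) Y q := by
  unfold D11
  rw [dz_vec_sum]
  exact Finset.sum_congr rfl fun i _ => dz_vec_smul _ _ _ _

theorem D11_zero_right {q : V} (hP : ContDiffAt ℝ (2 : ℕ) (fun q => (P q : ℂ)) q) (X : V) :
    D11 P X 0 q = 0 := by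
  have := D11_smul_right' hP 0 X (0 : V)
  simpa using this

theorem D11_sum_right {ι : Type*} {q : V} (hP : ContDiffAt ℝ (2 : ℕ) (fun q => (P q : ℂ)) q)
    (s : Finset ι) (g : ι → ℂ) (b : ι → V) (X : V) :
    D11 P X (∑ i ∈ s, g i • b i) q = ∑ i ∈ s, conj (g i) * D11 P X (b i) q := by
  classical
  induction s using Finset.induction_on with
  | empty => simp [D11_zero_right hP]
  | insert a s ha ih =>
    rw [Finset.sum_insert ha, Finset.sum_insert ha, D11_add_right' hP, ih, D11_smul_right' hP]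

theorem D21_zero_right {q : V} (hP : ContDiffAt ℝ (3 : ℕ) (fun q => (P q : ℂ)) q) (X Y : V) :
    D21 P X Y 0 q = 0 := by
  have := D21_smul_3' hP 0 X Y (0 : V)
  simpa using this

theorem D21_sum_right {ι : Type*} {q : V} (hP : ContDiffAt ℝ (3 : ℕ) (fun q => (P q : ℂ)) q)
    (s : Finset ι) (g : ι → ℂ) (b : ι → V) (X Y : V) :
    D21 P X Y (∑ i ∈ s, g i • b i) q = ∑ i ∈ s, conj (g i) * D21 P X Y (b i) q := by
  classical
  induction s using Finset.induction_on with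
  | empty => simp [D21_zero_right hP]
  | insert a s ha ih =>
    rw [Finset.sum_insert ha, Finset.sum_insert ha, D21_add_3' hP, ih, D21_smul_3' hP]

theorem IsGam_unique (hP : ContDiffAt ℝ ∞ P p) (hpd : PD P p) {X Y G G' : V}
    (h : IsGam P p X Y G) (h' : IsGam P p X Y G') : G = G' := by
  by_contra hne
  have h1 : G - G' ≠ 0 := sub_ne_zero.2 hne
  have h2 := hpd _ h1
  have h3 : D11 P (G - G') (G - G') p = 0 := by
    have e : G - G' = G + (-1 : ℂ) • G' := by rw [neg_one_smul, sub_eq_add_neg]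
    conv_lhs => rw [show D11 P (G - G') (G - G') p = D11 P (G + (-1 : ℂ) • G') (G - G') p by rw [← e]]
    rw [D11_add_left', D11_smul_left', h, h']; ring
  rw [h3] at h2; simp at h2

/-- local continuous choice of the Christoffel vector. -/
theorem exists_gam_cont [FiniteDimensional ℂ V] (hP : ContDiffAt ℝ ∞ P p) (hpd : PD P p)
    (X Y : V) : ∃ (b : Module.Basis (Fin (Module.finrank ℂ V)) ℂ V)
      (g : Fin (Module.finrank ℂ V) → V → ℂ), b = Module.finBasis ℂ V ∧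
      (∀ i, ContinuousAt (g i) p) ∧
      ∀ᶠ q in 𝓝 p, IsGam P q X Y (∑ i, g i q • b i) := by
  classical
  set b := Module.finBasis ℂ V with hb
  let A : V → Matrix (Fin (Module.finrank ℂ V)) (Fin (Module.finrank ℂ V)) ℂ :=
    fun q => Matrix.of fun i j => D11 P (b j) (b i) q
  let c : V → Fin (Module.finrank ℂ V) → ℂ := fun q i => D21 P X Y (b i) q
  have hA : ContinuousAt A p := by
    refine continuousAt_pi.2 fun i => continuousAt_pi.2 fun j => ?_
    exact continuousAt_D11 hP _ _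
  have hc : ContinuousAt c p := continuousAt_pi.2 fun i => continuousAt_D21 hP _ _ _
  have hdet : ContinuousAt (fun q => (A q).det) p :=
    (continuous_id.matrix_det).continuousAt.comp hA
  have hadj : ContinuousAt (fun q => (A q).adjugate) p :=
    (continuous_id.matrix_adjugate).continuousAt.comp hA
  have hdet0 : (A p).det ≠ 0 := by
    intro h0
    obtain ⟨v, hv, hv2⟩ := Matrix.exists_mulVec_eq_zero_iff.2 h0
    have hz : (∑ i, v i • b i) ≠ 0 := by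
      intro h
      apply hv
      have := (Fintype.linearIndependent_iff.1 b.linearIndependent) v h
      funext i; exact this i
    have h1 := hpd _ hz
    rw [D11_sum_right (cdP 2 hP)] at h1
    have h2 : ∀ i, D11 P (∑ j, v j • b j) (b i) p = 0 := by
      intro i
      rw [D11_sum_left]
      have := congrFun hv2 i
      simp only [Matrix.mulVec, dotProduct, A, Matrix.of_apply, Pi.zero_apply] at this
      rw [← this]
      exact Finset.sum_congr rfl fun j _ => mul_comm _ _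
    simp only [h2, mul_zero, Finset.sum_const_zero, zero_re, lt_irrefl] at h1
  have hevdet : ∀ᶠ q in 𝓝 p, (A q).det ≠ 0 := hdet.eventually_ne hdet0
  refine ⟨b, fun i q => (((A q).det)⁻¹ • ((A q).adjugate.mulVec (c q))) i, rfl, ?_, ?_⟩
  · intro i
    have h1 : ContinuousAt (fun q => ((A q).det)⁻¹ • ((A q).adjugate.mulVec (c q))) p := by
      refine (hdet.inv₀ hdet0).smul ?_
      refine continuousAt_pi.2 fun j => ?_
      simp only [Matrix.mulVec, dotProduct]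
      refine tendsto_finset_sum _ fun k _ => ?_
      exact ((continuousAt_pi.1 (continuousAt_pi.1 hadj j) k).mul (continuousAt_pi.1 hc k))
    exact continuousAt_pi.1 h1 i
  · filter_upwards [hevdet, cd_ev (cdP 3 hP)] with q hq h3
    intro Z
    have h2 := cd_mono (m := 2) (by norm_num) h3
    have hsolve : (A q).mulVec (((A q).det)⁻¹ • ((A q).adjugate.mulVec (c q))) = c q := by
      rw [Matrix.mulVec_smul, Matrix.mulVec_mulVec, Matrix.mul_adjugate, Matrix.smul_mulVec,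
        Matrix.one_mulVec, smul_smul, inv_mul_cancel₀ hq, one_smul]
    have hbasis : ∀ i, D11 P (∑ j, (((A q).det)⁻¹ • ((A q).adjugate.mulVec (c q))) j • b j) (b i) q
        = D21 P X Y (b i) q := by
      intro i
      rw [D11_sum_left]
      have := congrFun hsolve i
      have e : D21 P X Y (b i) q = c q i := rfl
      rw [e, ← this]
      simp only [Matrix.mulVec, dotProduct, A, Matrix.of_apply]
      exact Finset.sum_congr rfl fun j _ => mul_comm _ _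
    have hZ : Z = ∑ i, (b.repr Z i) • b i := (b.sum_repr Z).symm
    rw [hZ, D11_sum_right h2, D21_sum_right h3]
    exact Finset.sum_congr rfl fun i _ => by rw [hbasis i]

/-- closure: a curvature bound valid at points accumulating at `p` is valid at `p`. -/
theorem KB_of_frequently [FiniteDimensional ℂ V] (hP : ContDiffAt ℝ ∞ P p) (hpd : PD P p)
    {c B : ℝ} (h : ∃ᶠ q in 𝓝 p, KB P q c B) : KB P p c B := by
  classical
  intro X Y G1 G2 G3 h1 h2 h3
  obtain ⟨b1, g1, hb1, hc1, he1⟩ := exists_gam_cont hP hpd X X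
  obtain ⟨b2, g2, hb2, hc2, he2⟩ := exists_gam_cont hP hpd X Y
  obtain ⟨b3, g3, hb3, hc3, he3⟩ := exists_gam_cont hP hpd Y Y
  subst hb1
  subst hb2
  subst hb3
  set b := Module.finBasis ℂ V with hb
  have e1 : G1 = ∑ i, g1 i p • b i := IsGam_unique hP hpd h1 he1.self_of_nhds
  have e2 : G2 = ∑ i, g2 i p • b i := IsGam_unique hP hpd h2 he2.self_of_nhds
  have e3 : G3 = ∑ i, g3 i p • b i := IsGam_unique hP hpd h3 he3.self_of_nhds
  -- continuity of `D11 P (∑ g i • b i) (∑ g' j • b j)`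
  have hcont : ∀ g g' : Fin (Module.finrank ℂ V) → V → ℂ, (∀ i, ContinuousAt (g i) p) →
      (∀ i, ContinuousAt (g' i) p) →
      ContinuousAt (fun q => D11 P (∑ i, g i q • b i) (∑ i, g' i q • b i) q) p := by
    intro g g' hg hg'
    have h5 : (fun q => D11 P (∑ i, g i q • b i) (∑ i, g' i q • b i) q) =ᶠ[𝓝 p]
        fun q => ∑ i, conj (g' i q) * ∑ j, g j q * D11 P (b j) (b i) q := by
      filter_upwards [cd_ev (cdP 2 hP)] with q hq
      rw [D11_sum_right hq]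
      exact Finset.sum_congr rfl fun i _ => by rw [D11_sum_left]
    refine ContinuousAt.congr ?_ h5.symm
    refine tendsto_finset_sum _ fun i _ => ?_
    refine ContinuousAt.mul (continuous_conj.continuousAt.comp (hg' i)) ?_
    refine tendsto_finset_sum _ fun j _ => ?_
    exact (hg j).mul (continuousAt_D11 hP _ _)
  have hneg : ContinuousAt (fun q => negK P q X Y (∑ i, g1 i q • b i) (∑ i, g2 i q • b i)
      (∑ i, g3 i q • b i)) p := by
    unfold negK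
    refine Complex.continuous_re.continuousAt.comp ?_
    exact (((continuousAt_D22 hP _ _ _ _).sub (hcont g2 g2 hc2 hc2)).sub
      (continuousAt_D22 hP _ _ _ _)).add (hcont g1 g3 hc1 hc3)
  have harea : ContinuousAt (fun q => area P q X Y) p := by
    unfold area
    have r : ∀ X Y : V, ContinuousAt (fun q => (D11 P X Y q).re) p := fun X Y =>
      Complex.continuous_re.continuousAt.comp (continuousAt_D11 hP X Y)
    exact ((r X X).mul (r Y Y)).sub ((r X Y).pow 2)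
  rw [e1, e2, e3]
  constructor
  · by_contra hlt
    push_neg at hlt
    have hev := (hneg.eventually_lt (continuousAt_const.mul harea) hlt)
    obtain ⟨q, hq, hq2, hq3, hq4, hq5⟩ := (h.and_eventually
      ((hev.and he1).and (he2.and he3))).exists.imp fun q hq =>
        (⟨hq.1, hq.2.1.1, hq.2.1.2, hq.2.2.1, hq.2.2.2⟩ :
          KB P q c B ∧ _ ∧ _ ∧ _ ∧ _)
    have := (hq X Y _ _ _ hq3 hq4 hq5).1
    exact absurd this (not_le.2 hq2)
  · by_contra hlt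
    push_neg at hlt
    have hev := ((continuousAt_const.mul harea).eventually_lt hneg hlt)
    obtain ⟨q, hq, hq2, hq3, hq4, hq5⟩ := (h.and_eventually
      ((hev.and he1).and (he2.and he3))).exists.imp fun q hq =>
        (⟨hq.1, hq.2.1.1, hq.2.1.2, hq.2.2.1, hq.2.2.2⟩ :
          KB P q c B ∧ _ ∧ _ ∧ _ ∧ _)
    have := (hq X Y _ _ _ hq3 hq4 hq5).2
    exact absurd this (not_le.2 hq2)

end Forms

end Crest.Agent.R245
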