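import Crest.Agent.R245.NS1_Mg
import Crest.Agent.R245.NS2
import Crest.Agent.R245.NS3

/-! TASK WildNS: the weight `τ (PhiW + η aS)` has no holomorphic minorant. -/

set_option autoImplicit false

namespace Crest.Agent.R245

open Complex Filter Topology
open scoped ContDiff ComplexConjugate

/-- maximum principle for the real part on a closed disc -/
private theorem exists_bdry_re {h : ℂ → ℂ} {z0 z : ℂ} {R : ℝ} (hz : ‖z - z0‖ ≤ R)
    (hd : ∀ w, ‖w - z0‖ ≤ R → DifferentiableAt ℂ h w) :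
    ∃ z1, ‖z1 - z0‖ = R ∧ (h z).re ≤ (h z1).re := by
  rcases eq_or_lt_of_le ((norm_nonneg _).trans hz) with hR | hR
  · refine ⟨z, le_antisymm hz ?_, le_rfl⟩
    rw [← hR]; exact norm_nonneg _
  · have hcl : closure (Metric.ball z0 R) = Metric.closedBall z0 R := closure_ball z0 hR.ne'
    have hdc : DiffContOnCl ℂ (fun w => Complex.exp (h w)) (Metric.ball z0 R) := by
      apply DifferentiableOn.diffContOnCl
      rw [hcl]
      intro w hw
      exact ((hd w (by simpa [dist_eq_norm] using hw)).cexp).differentiableWithinAt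
    obtain ⟨z1, hz1, hmax⟩ := Complex.exists_mem_frontier_isMaxOn_norm Metric.isBounded_ball
      ⟨z0, Metric.mem_ball_self hR⟩ hdc
    rw [frontier_ball z0 hR.ne'] at hz1
    refine ⟨z1, by simpa [dist_eq_norm] using hz1, ?_⟩
    have h1 : z ∈ closure (Metric.ball z0 R) := by
      rw [hcl]; simpa [dist_eq_norm] using hz
    have h2 := hmax h1
    simp only [Set.mem_ofPred_eq, Function.comp, Complex.norm_exp] at h2
    exact Real.exp_le_exp.1 h2

private theorem exp_neg_le {y : ℝ} (h0 : 0 ≤ y) (h1 : y ≤ 1) : Real.exp (-y) ≤ 1 - y / 2 := by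
  have h2 : 1 + y ≤ Real.exp y := by
    have := Real.add_one_le_exp y; linarith
  rw [Real.exp_neg]
  have h3 : (Real.exp y)⁻¹ ≤ (1 + y)⁻¹ := inv_anti₀ (by positivity) h2
  refine h3.trans ?_
  rw [inv_le_iff_one_le_mul₀ (by positivity)]
  nlinarith

theorem wild_vanish : ∃ ε b η₀ τ₀ : ℝ, 0 < ε ∧ ε ≤ 1 ∧ 2 ≤ b ∧ 0 < η₀ ∧ η₀ ≤ 1 ∧ 0 < τ₀ ∧
    τ₀ ≤ 1 ∧ ∀ T M η τ Vh : ℝ, 3 ≤ T → 256 * T ≤ M ^ 2 → 0 < M → 0 < η → η ≤ η₀ → 0 < τ →
    τ ≤ τ₀ → 0 < Vh → ∀ F : B2 → ℂ, DifferentiableOn ℂ F Dom → ∀ C : ℝ,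
      (∀ p ∈ Dom, p.2.im < Vh → ‖F p‖ ≤ C * Real.exp (τ / 2 * (PhiW ε T M b p + η * aS p))) →
      ∀ p ∈ Dom, F p = 0 := by
  obtain ⟨r₀, K₁, hr0, hr1, hK1, hgeo⟩ := geo
  set n : ℕ := ⌈2 / r₀⌉₊ with hn
  set K : ℝ := 2 * K₁ + 1 / 2 with hK
  have hKpos : 0 < K := by rw [hK]; linarith
  set L : ℝ := 2 * (3 ^ n * K) + 1 with hL
  have h3K : 0 < 3 ^ n * K := by positivity
  have hLpos : 0 < L := by rw [hL]; linarith
  obtain ⟨ε, b, η₀, hε, hε1, hb, hη0, hη1, H⟩ := hgeo L hLpos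
  refine ⟨ε, b, η₀, 1 / (K₁ + L + 1), hε, hε1, hb, hη0, hη1, by positivity, ?_, ?_⟩
  · rw [div_le_one (by positivity)]; linarith
  intro T M η τ Vh hT hTM hM hη hηη hτ hττ hVh F hF C hC
  by_contra hne
  push Not at hne
  have hτK : τ * (K₁ + L + 1) ≤ 1 := by
    rw [le_div_iff₀ (by positivity)] at hττ; exact hττ
  obtain ⟨v₀, hv0, Hp⟩ := H T M η Vh hT hTM hM hη hηη hVh
  obtain ⟨p, hp, hpv, hFp, M', hsup⟩ := sup_point (Psi ε T M b η) F hF τ C Vh v₀ (τ / 8) hτ hVh hv0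
    (by positivity) hC hne
  obtain ⟨z0, R, hzR, hdisc, hcirc⟩ := Hp p hp hpv
  -- the normalized function
  set G0 : B2 → ℂ := fun q => F q * Complex.exp (I * M' * (q.2 - p.2)) / F p with hG0
  have hG0d : ∀ q ∈ Dom, DifferentiableAt ℂ G0 q := by
    intro q hq
    have h1 : DifferentiableAt ℂ F q := hF.differentiableAt (isOpen_Dom.mem_nhds hq)
    have h2 : DifferentiableAt ℂ (fun q : B2 => Complex.exp (I * M' * (q.2 - p.2))) q := by
      fun_prop
    have h3 := (h1.fun_mul h2).mul_const (F p)⁻¹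
    simpa only [hG0, div_eq_mul_inv] using h3
  have hG0p : G0 p = 1 := by
    simp only [hG0, sub_self, mul_zero, Complex.exp_zero, mul_one]
    exact div_self hFp
  -- maximum principle
  have hline : lineq z0 p p.1 = p := by
    simp [lineq]
  have hlined : Differentiable ℂ (lineq z0 p) := by
    unfold lineq
    fun_prop
  obtain ⟨z1, hz1, hre⟩ := exists_bdry_re (h := fun z => G0 (lineq z0 p z)) hzR (fun w hw =>
    (hG0d _ (hdisc w hw).1).comp w (hlined w))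
  simp only [hline, hG0p, Complex.one_re] at hre
  obtain ⟨q2, htube, hq2⟩ := hcirc z1 hz1
  set q1 := lineq z0 p z1 with hq1
  -- the function on the tube
  set G : ℂ → ℂ := fun l => ((2 / τ : ℝ) : ℂ) * (G0 (q1 + l • (q2 - q1)) - 1) with hG
  have hGd : ∀ z : ℂ, (∃ t ∈ Set.Icc (0:ℝ) 1, ‖z - t‖ ≤ r₀) → DifferentiableAt ℂ G z := by
    intro z hz
    have h2 : DifferentiableAt ℂ (fun l : ℂ => q1 + l • (q2 - q1)) z := by fun_prop
    have h1 : DifferentiableAt ℂ (fun l : ℂ => G0 (q1 + l • (q2 - q1))) z :=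
      DifferentiableAt.comp (g := G0) (f := fun l : ℂ => q1 + l • (q2 - q1)) z
        (hG0d _ (htube z hz).1) h2
    exact (h1.sub_const 1).const_mul _
  have hGre : ∀ z, (G z).re = 2 / τ * ((G0 (q1 + z • (q2 - q1))).re - 1) := by
    intro z
    simp only [hG, Complex.re_ofReal_mul, Complex.sub_re, Complex.one_re]
  have hGle : ∀ z : ℂ, (∃ t ∈ Set.Icc (0:ℝ) 1, ‖z - t‖ ≤ r₀) → (G z).re ≤ K := by
    intro z hz
    obtain ⟨ht1, ht2, ht3⟩ := htube z hz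
    have h1 := hsup _ ht1 ht2
    have h2 : (G0 (q1 + z • (q2 - q1))).re ≤ Real.exp (τ * (K₁ / 2 + 1 / 8)) := by
      refine (Complex.re_le_norm _).trans (h1.trans (Real.exp_le_exp.2 ?_))
      have := mul_le_mul_of_nonneg_left ht3 (show 0 ≤ τ / 2 by positivity)
      linarith
    have hx0 : 0 ≤ τ * (K₁ / 2 + 1 / 8) := by positivity
    have hx1 : τ * (K₁ / 2 + 1 / 8) ≤ 1 := by
      refine le_trans (mul_le_mul_of_nonneg_left ?_ hτ.le) hτK
      linarith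
    have h3 := Real.abs_exp_sub_one_le (x := τ * (K₁ / 2 + 1 / 8)) (by rwa [abs_of_nonneg hx0])
    rw [abs_of_nonneg hx0] at h3
    have h4 := (le_abs_self _).trans h3
    rw [hGre]
    have h5 : (G0 (q1 + z • (q2 - q1))).re - 1 ≤ 2 * (τ * (K₁ / 2 + 1 / 8)) := by linarith
    calc 2 / τ * ((G0 (q1 + z • (q2 - q1))).re - 1)
        ≤ 2 / τ * (2 * (τ * (K₁ / 2 + 1 / 8))) :=
          mul_le_mul_of_nonneg_left h5 (by positivity)
      _ = K := by rw [hK]; field_simp; ring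
  have hG0' : 0 ≤ (G 0).re := by
    rw [hGre]
    simp only [zero_smul, add_zero]
    exact mul_nonneg (by positivity) (by linarith)
  have hch := harnack_chain G r₀ K n hr0 hKpos.le (Nat.le_ceil _) hGd hGle hG0'
  -- the end point
  have hend : (G 1).re ≤ -((L - 1/4) / 2) := by
    obtain ⟨ht1, ht2, ht3⟩ := htube 1 ⟨1, ⟨zero_le_one, le_rfl⟩, by simpa using hr0.le⟩
    have h1 := hsup _ ht1 ht2
    have e1 : q1 + (1:ℂ) • (q2 - q1) = q2 := by
      rw [one_smul]; abel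
    rw [e1] at h1
    have h2 : (G0 q2).re ≤ Real.exp (-(τ * (L / 2 - 1 / 8))) := by
      refine (Complex.re_le_norm _).trans (h1.trans (Real.exp_le_exp.2 ?_))
      have := mul_le_mul_of_nonneg_left hq2 (show 0 ≤ τ / 2 by positivity)
      linarith
    have hL1 : 1 ≤ L := by rw [hL]; linarith
    have hy0 : 0 ≤ τ * (L / 2 - 1 / 8) := mul_nonneg hτ.le (by linarith)
    have hy1 : τ * (L / 2 - 1 / 8) ≤ 1 := by
      refine le_trans (mul_le_mul_of_nonneg_left ?_ hτ.le) hτK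
      linarith
    have h3 := exp_neg_le hy0 hy1
    rw [hGre, e1]
    have h5 : (G0 q2).re - 1 ≤ -(τ * (L / 2 - 1 / 8) / 2) := by linarith
    calc 2 / τ * ((G0 q2).re - 1) ≤ 2 / τ * (-(τ * (L / 2 - 1 / 8) / 2)) :=
          mul_le_mul_of_nonneg_left h5 (by positivity)
      _ = -((L - 1/4) / 2) := by field_simp; ring
  rw [hL] at hend
  linarith

private theorem aS_levi_nonneg {p : B2} (hp : p ∈ Dom) (ξ : B2) : 0 ≤ (D11 aS ξ ξ p).re := by
  obtain ⟨C, hC, H⟩ := PhiW_levi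
  have hr : 0 < rho p := hp
  -- choose `M` with `3 / M² < ρ(p)`
  set M : ℝ := 768 + 3 / rho p with hM
  have hMpos : 0 < M := by positivity
  have hM2 : 256 * 3 ≤ M ^ 2 := by
    have : 768 ≤ M := by rw [hM]; have : 0 ≤ 3 / rho p := by positivity
                         linarith
    nlinarith
  have hlt : 3 / M ^ 2 < rho p := by
    rw [div_lt_iff₀ (by positivity)]
    have h1 : 3 / rho p < M := by rw [hM]; linarith
    have h2 : 3 < M * rho p := by rwa [div_lt_iff₀ hr] at h1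
    have h3 : 1 ≤ M := by rw [hM]; have : 0 ≤ 3 / rho p := by positivity
                          linarith
    nlinarith
  have hcont : Continuous rho := by unfold rho; fun_prop
  have hev : PhiW 1 3 M 2 =ᶠ[𝓝 p] fun _ => (0:ℝ) := by
    have h1 : {q | 3 / M ^ 2 < rho q} ∈ 𝓝 p := (isOpen_lt continuous_const hcont).mem_nhds hlt
    filter_upwards [h1, isOpen_Dom.mem_nhds hp] with q hq hqd
    exact PhiW_eq_zero one_pos le_rfl le_rfl hM2 hMpos hqd (Or.inl (le_of_lt hq))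
  have h := H 1 3 M 2 one_pos le_rfl le_rfl le_rfl hM2 hMpos p hp ξ
  rw [D11_congr hev, D11_const] at h
  simp only [Complex.zero_re] at h
  have hpos : 0 < C * 3 ^ 3 * Real.exp (-3) := by positivity
  by_contra hneg
  push Not at hneg
  nlinarith

private theorem exists_T (C η : ℝ) (hη : 0 < η) :
    ∃ T : ℝ, 3 ≤ T ∧ C * T ^ 3 * Real.exp (-T) ≤ η / 2 := by
  have h1 : Tendsto (fun T : ℝ => C * (T ^ 3 * Real.exp (-T))) atTop (𝓝 (C * 0)) :=
    (Real.tendsto_pow_mul_exp_neg_atTop_nhds_zero 3).const_mul C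
  rw [mul_zero] at h1
  have h2 := (h1.eventually_le_const (show (0:ℝ) < η / 2 by positivity)).and (eventually_ge_atTop 3)
  obtain ⟨T, hT1, hT2⟩ := h2.exists
  exact ⟨T, hT2, by rw [mul_assoc]; exact hT1⟩

/-- assembled black box -/
theorem wild_exists : ∃ CW η τ₀ : ℝ, 0 < CW ∧ 0 < η ∧ η ≤ 1 ∧ 0 < τ₀ ∧ τ₀ ≤ 1 ∧
    ∀ M : ℝ, 1 ≤ M → ∃ Φ : B2 → ℝ, ContDiffOn ℝ ∞ Φ Dom ∧
      (∀ p ∈ Dom, (1 / M ≤ rho p ∨ 1/8 ≤ ‖p.1‖) → Φ p = 0) ∧
      (∀ p ∈ Dom, JetB (fun q => Φ (gp p q)) CW) ∧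
      (∀ p ∈ Dom, ∀ ξ : B2, -(η / 2) * (D11 aS ξ ξ p).re ≤ (D11 Φ ξ ξ p).re) ∧
      (∀ p ∈ Dom, 0 ≤ aS p → Φ p ≤ CW * (1 + aS p)) ∧
      (∀ τ Vh : ℝ, 0 < τ → τ ≤ τ₀ → 0 < Vh → ∀ F : B2 → ℂ, DifferentiableOn ℂ F Dom → ∀ C : ℝ,
        (∀ p ∈ Dom, p.2.im < Vh → ‖F p‖ ≤ C * Real.exp (τ / 2 * (Φ p + η * aS p))) →
        ∀ p ∈ Dom, F p = 0) := by
  obtain ⟨ε, b, η, τ₀, hε, hε1, hb, hη, hη1, hτ0, hτ1, hv⟩ := wild_vanish
  obtain ⟨C1, hC1, hjet⟩ := PhiW_jet ε hε hε1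
  obtain ⟨C2, hC2, hgr⟩ := PhiW_growth
  obtain ⟨C3, hC3, hlevi⟩ := PhiW_levi
  obtain ⟨T, hT, hTη⟩ := exists_T C3 η hη
  refine ⟨C1 + C2, η, τ₀, by positivity, hη, hη1, hτ0, hτ1, ?_⟩
  intro M hM
  set M' : ℝ := 256 * T * M with hM'
  have hT0 : 0 < T := by linarith
  have hM0 : 0 < M := by linarith
  have hM'0 : 0 < M' := by positivity
  have hTM : T * M ≤ M' ^ 2 := by
    have h1 : 1 ≤ M' := by rw [hM']; nlinarith
    have h2 : T * M ≤ M' := by rw [hM']; nlinarith [mul_pos hT0 hM0]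
    nlinarith
  have h256 : 256 * T ≤ M' ^ 2 := by
    have h1 : 1 ≤ M' := by rw [hM']; nlinarith
    have h2 : 256 * T ≤ M' := by rw [hM']; nlinarith
    nlinarith
  refine ⟨PhiW ε T M' b, PhiW_contDiffOn hε hT hb h256 hM'0, ?_, ?_, ?_, ?_, ?_⟩
  · intro p hp h
    refine PhiW_eq_zero hε hT hb h256 hM'0 hp (h.imp_left (fun h => le_trans ?_ h))
    rw [div_le_div_iff₀ (by positivity) hM0]
    linarith
  · intro p hp k hk1 hk4
    exact (hjet T M' b hT hb h256 hM'0 p hp k hk1 hk4).trans (by linarith)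
  · intro p hp ξ
    refine le_trans ?_ (hlevi ε T M' b hε hε1 hT hb h256 hM'0 p hp ξ)
    have := mul_le_mul_of_nonneg_right hTη (aS_levi_nonneg hp ξ)
    linarith
  · intro p hp ha
    refine (hgr ε T M' b hε hε1 hT hb h256 hM'0 p hp ha).trans ?_
    have : 0 ≤ C1 * (1 + aS p) := by positivity
    linarith
  · intro τ Vh h1 h2 h3 F hF C hC
    exact hv T M' η τ Vh hT h256 hM'0 hη le_rfl h1 h2 h3 F hF C hC

end Crest.Agent.R245
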