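import Crest.Agent.R245.Profile
import Crest.Agent.R245.Defs
import Crest.Agent.R245.OpsKB
import Crest.Agent.R245.BasePertA
import Crest.Agent.R245.LemmaH
import Crest.Agent.R245.WildNS
import Crest.Agent.R245.CurvR2_Mg

-- ▼ part R245/BulgeA
section

/-! TASK BulgeA: slowly varying profile. -/

set_option autoImplicit false

namespace Crest.Agent.R245

open Complex Filter Topology
open scoped ContDiff ComplexConjugate

/-- slowly varying profile -/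
theorem exists_psi (ε₁ a₀ : ℝ) (hε : 0 < ε₁) : ∃ (ψ : ℝ → ℝ) (a₁ κ : ℝ), ContDiff ℝ ∞ ψ ∧
    a₀ ≤ a₁ ∧ a₀ ≤ κ ∧ κ ≤ a₁ ∧ (∀ t, t ≤ a₀ → ψ t = 0) ∧ (∀ t, a₁ ≤ t → ψ t = t - κ) ∧
    (∀ t, 0 ≤ deriv ψ t ∧ deriv ψ t ≤ 1) ∧ (∀ t, 0 ≤ ψ t) ∧ (∀ t, a₀ ≤ t → ψ t ≤ t - a₀) ∧
    (∀ k : ℕ, 2 ≤ k → k ≤ 4 → ∀ t, |iteratedDeriv k ψ t| ≤ ε₁) :=
  exists_psi0 ε₁ a₀ hε

end Crest.Agent.R245
end

-- ▼ part R245/JetTrans
section

/-! Row 245: normalized jets of the transition functions. -/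

set_option autoImplicit false

namespace Crest.Agent.R245

open Complex Filter Topology
open scoped ContDiff ComplexConjugate Nat

section General

variable {E F G : Type*} [NormedAddCommGroup E] [NormedSpace ℝ E] [NormedAddCommGroup F]
  [NormedSpace ℝ F] [NormedAddCommGroup G] [NormedSpace ℝ G]

theorem jet_comp_le {g : F → G} {f : E → F} {s : Set E} (hs : IsOpen s) {x : E} (hx : x ∈ s)
    (hf : ContDiffOn ℝ ∞ f s) (hg : ContDiff ℝ ∞ g) {n : ℕ} {C D : ℝ}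
    (hC : ∀ i, i ≤ n → ‖iteratedFDeriv ℝ i g (f x)‖ ≤ C)
    (hD : ∀ i, 1 ≤ i → i ≤ n → ‖iteratedFDeriv ℝ i f x‖ ≤ D ^ i) :
    ‖iteratedFDeriv ℝ n (fun y => g (f y)) x‖ ≤ n ! * C * D ^ n := by
  have h1 := norm_iteratedFDerivWithin_comp_le (n := n) (N := ∞) (g := g) (f := f) (s := s)
    (t := Set.univ) (x := x) hg.contDiffOn hf (by exact_mod_cast le_top) uniqueDiffOn_univ
    hs.uniqueDiffOn (fun _ _ => Set.mem_univ _) hx (C := C) (D := D)
    (fun i hi => by rw [iteratedFDerivWithin_univ]; exact hC i hi)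
    (fun i h1 h2 => by rw [iteratedFDerivWithin_of_isOpen i hs hx]; exact hD i h1 h2)
  rw [iteratedFDerivWithin_of_isOpen n hs hx] at h1
  exact h1

theorem jet_mul_le {f g : E → ℝ} {s : Set E} (hs : IsOpen s) {x : E} (hx : x ∈ s)
    (hf : ContDiffOn ℝ ∞ f s) (hg : ContDiffOn ℝ ∞ g s) (n : ℕ) :
    ‖iteratedFDeriv ℝ n (fun y => f y * g y) x‖ ≤ ∑ i ∈ Finset.range (n + 1),
      (n.choose i : ℝ) * ‖iteratedFDeriv ℝ i f x‖ * ‖iteratedFDeriv ℝ (n - i) g x‖ := by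
  have h1 := norm_iteratedFDerivWithin_mul_le (𝕜 := ℝ) (A := ℝ) (N := ∞) hf hg hs.uniqueDiffOn hx
    (n := n) (by exact_mod_cast le_top)
  rw [iteratedFDerivWithin_of_isOpen n hs hx] at h1
  refine h1.trans (le_of_eq ?_)
  apply Finset.sum_congr rfl
  intro i _
  rw [iteratedFDerivWithin_of_isOpen i hs hx, iteratedFDerivWithin_of_isOpen (n - i) hs hx]

/-- product bound with a uniform constant -/
theorem jet_mul_le' {f g : E → ℝ} {s : Set E} (hs : IsOpen s) {x : E} (hx : x ∈ s)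
    (hf : ContDiffOn ℝ ∞ f s) (hg : ContDiffOn ℝ ∞ g s) (n : ℕ) {a b : ℝ} (ha : 0 ≤ a)
    (hfa : ∀ i, i ≤ n → ‖iteratedFDeriv ℝ i f x‖ ≤ a)
    (hgb : ∀ i, i ≤ n → ‖iteratedFDeriv ℝ i g x‖ ≤ b) :
    ‖iteratedFDeriv ℝ n (fun y => f y * g y) x‖ ≤ 2 ^ n * a * b := by
  refine (jet_mul_le hs hx hf hg n).trans ?_
  calc ∑ i ∈ Finset.range (n + 1),
      (n.choose i : ℝ) * ‖iteratedFDeriv ℝ i f x‖ * ‖iteratedFDeriv ℝ (n - i) g x‖
      ≤ ∑ i ∈ Finset.range (n + 1), (n.choose i : ℝ) * a * b := by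
        apply Finset.sum_le_sum
        intro i hi
        rw [Finset.mem_range] at hi
        have h1 := hfa i (by omega)
        have h2 := hgb (n - i) (by omega)
        gcongr
    _ = 2 ^ n * a * b := by
        rw [← Finset.sum_mul, ← Finset.sum_mul]
        congr 2
        exact_mod_cast Nat.sum_range_choose n

end General

theorem rho_contDiff' : ContDiff ℝ ∞ rho := by
  unfold rho
  exact (Complex.imCLM.contDiff.comp contDiff_snd).sub (contDiff_fst.norm_sq ℝ)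

theorem isOpen_Dom' : IsOpen Dom := isOpen_lt continuous_const rho_contDiff'.continuous

theorem q0_mem' : q0 ∈ Dom := by simp [Dom, rho, q0]

theorem aS_smooth' : ContDiffOn ℝ ∞ aS Dom := by
  unfold aS
  exact (rho_contDiff'.contDiffOn.log (fun x hx => ne_of_gt hx)).neg

theorem aS_q0 : aS q0 = 0 := by simp [aS, rho, q0]

theorem gp_q0 (p : B2) (hp : p ∈ Dom) : gp p q0 = p := by
  have h1 : (0:ℝ) ≤ rho p := le_of_lt hp
  apply Prod.ext
  · simp [gp, q0]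
  · simp only [gp, q0]
    apply Complex.ext
    · simp [rho]
    · simp [rho]

theorem rho_gp (p q : B2) (hp : 0 ≤ rho p) : rho (gp p q) = rho p * rho q := by
  obtain ⟨z, w⟩ := p
  obtain ⟨z', w'⟩ := q
  have hs : Real.sqrt (rho (z, w)) * Real.sqrt (rho (z, w)) = rho (z, w) := Real.mul_self_sqrt hp
  simp only [gp]
  set s := Real.sqrt (rho (z, w)) with hsdef
  set r := rho (z, w) with hr
  simp only [rho, Complex.sq_norm, Complex.normSq_apply, Complex.add_re, Complex.add_im,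
    Complex.mul_re, Complex.mul_im, Complex.ofReal_re, Complex.ofReal_im, Complex.I_re,
    Complex.I_im, Complex.conj_re, Complex.conj_im, Complex.re_ofNat, Complex.im_ofNat]
  linear_combination (-(z'.re * z'.re + z'.im * z'.im)) * hs


theorem aS_gp (p : B2) (hp : p ∈ Dom) (q : B2) (hq : q ∈ Dom) :
    aS (gp p q) = aS p + aS q := by
  have h1 : 0 < rho p := hp
  have h2 : 0 < rho q := hq
  unfold aS
  rw [rho_gp p q h1.le, Real.log_mul h1.ne' h2.ne']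
  ring

/-- all derivatives of a bump function are bounded -/
theorem bump_bdd (χ : ℂ → ℝ) (hχ : ContDiff ℝ ∞ χ) (hχc : HasCompactSupport χ) :
    ∃ C : ℝ, 1 ≤ C ∧ ∀ i : ℕ, i ≤ 4 → ∀ z, ‖iteratedFDeriv ℝ i χ z‖ ≤ C := by
  have h : ∀ i : ℕ, ∃ C : ℝ, ∀ z, ‖iteratedFDeriv ℝ i χ z‖ ≤ C := by
    intro i
    have h1 : HasCompactSupport (iteratedFDeriv ℝ i χ) := hχc.iteratedFDeriv i
    have h2 : Continuous (iteratedFDeriv ℝ i χ) :=
      hχ.continuous_iteratedFDeriv (by exact_mod_cast le_top)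
    exact h2.bounded_above_of_compact_support h1
  choose C hC using h
  refine ⟨1 + ∑ i ∈ Finset.range 5, |C i|, ?_, ?_⟩
  · have : 0 ≤ ∑ i ∈ Finset.range 5, |C i| := Finset.sum_nonneg (fun i _ => abs_nonneg _)
    linarith
  · intro i hi z
    have h1 : |C i| ≤ ∑ i ∈ Finset.range 5, |C i| :=
      Finset.single_le_sum (f := fun i => |C i|) (fun i _ => abs_nonneg _)
        (Finset.mem_range.2 (by omega))
    have h2 := hC i z
    have h3 := le_abs_self (C i)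
    linarith

/-- jets of `aS` at `q0` -/
theorem aS_jets : ∃ D : ℝ, 1 ≤ D ∧ ∀ i : ℕ, 1 ≤ i → i ≤ 4 → ‖iteratedFDeriv ℝ i aS q0‖ ≤ D ^ i := by
  refine ⟨1 + ∑ i ∈ Finset.range 5, ‖iteratedFDeriv ℝ i aS q0‖, ?_, ?_⟩
  · have : 0 ≤ ∑ i ∈ Finset.range 5, ‖iteratedFDeriv ℝ i aS q0‖ :=
      Finset.sum_nonneg (fun i _ => norm_nonneg _)
    linarith
  · intro i h1 hi
    have h2 : ‖iteratedFDeriv ℝ i aS q0‖ ≤ ∑ i ∈ Finset.range 5, ‖iteratedFDeriv ℝ i aS q0‖ :=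
      Finset.single_le_sum (f := fun i => ‖iteratedFDeriv ℝ i aS q0‖) (fun i _ => norm_nonneg _)
        (Finset.mem_range.2 (by omega))
    have h3 : (1:ℝ) ≤ 1 + ∑ i ∈ Finset.range 5, ‖iteratedFDeriv ℝ i aS q0‖ := by
      have : 0 ≤ ∑ i ∈ Finset.range 5, ‖iteratedFDeriv ℝ i aS q0‖ :=
        Finset.sum_nonneg (fun i _ => norm_nonneg _)
      linarith
    calc ‖iteratedFDeriv ℝ i aS q0‖ ≤ 1 + ∑ i ∈ Finset.range 5, ‖iteratedFDeriv ℝ i aS q0‖ := by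
          linarith
      _ ≤ (1 + ∑ i ∈ Finset.range 5, ‖iteratedFDeriv ℝ i aS q0‖) ^ i :=
          le_self_pow₀ h3 (by omega)

/-- `(1+x) e^{-x/2}` is small for `x` large -/
theorem exp_small (δ : ℝ) (hδ : 0 < δ) : ∃ A₀ : ℝ, 1 ≤ A₀ ∧ ∀ x, A₀ ≤ x →
    Real.exp (-x / 2) * (1 + x) ≤ δ := by
  refine ⟨max 1 (16 / δ), le_max_left _ _, fun x hx => ?_⟩
  have hx1 : 1 ≤ x := (le_max_left _ _).trans hx
  have hx2 : 16 / δ ≤ x := (le_max_right _ _).trans hx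
  have h1 : (1 + x) ^ 2 / 16 ≤ Real.exp (x / 2) := by
    have h2 : 1 + x / 4 ≤ Real.exp (x / 4) := by
      have := Real.add_one_le_exp (x / 4); linarith
    have h3 : Real.exp (x / 2) = Real.exp (x / 4) ^ 2 := by
      rw [← Real.exp_nat_mul]; congr 1; push_cast; ring
    rw [h3]
    have h4 : (1 + x) / 4 ≤ Real.exp (x / 4) := by linarith
    calc (1 + x) ^ 2 / 16 = ((1 + x) / 4) ^ 2 := by ring
      _ ≤ Real.exp (x / 4) ^ 2 := by gcongr
  have h5 : Real.exp (-x / 2) = (Real.exp (x / 2))⁻¹ := by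
    rw [← Real.exp_neg]; congr 1; ring
  rw [h5, inv_mul_le_iff₀ (Real.exp_pos _)]
  have h6 : 16 ≤ x * δ := by rwa [div_le_iff₀ hδ] at hx2
  calc 1 + x ≤ (1 + x) * ((1 + x) * δ / 16) := by
        have : 1 ≤ (1 + x) * δ / 16 := by rw [le_div_iff₀ (by norm_num)]; linarith
        nlinarith
    _ = (1 + x) ^ 2 / 16 * δ := by ring
    _ ≤ Real.exp (x / 2) * δ := by gcongr

theorem sqrt_rho_eq (p : B2) (hp : p ∈ Dom) : Real.sqrt (rho p) = Real.exp (-aS p / 2) := by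
  have h1 : 0 < rho p := hp
  rw [Real.sqrt_eq_rpow, Real.rpow_def_of_pos h1]
  unfold aS
  congr 1; ring

theorem jet_sub_const {E : Type*} [NormedAddCommGroup E] [NormedSpace ℝ E] {f : E → ℝ} {x : E}
    {i : ℕ} (hi : 1 ≤ i) (hf : ContDiffAt ℝ ∞ f x) (c : ℝ) :
    iteratedFDeriv ℝ i (fun q => f q - c) x = iteratedFDeriv ℝ i f x := by
  have h1 : iteratedFDeriv ℝ i (fun q => f q - c) x
      = iteratedFDeriv ℝ i f x - iteratedFDeriv ℝ i (fun _ => c) x :=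
    iteratedFDeriv_sub_apply (hf.of_le (by exact_mod_cast le_top)) contDiffAt_const
  rw [h1, iteratedFDeriv_const_of_ne (by omega)]
  simp

/-- the bump part -/
theorem bump_part (χ : ℂ → ℝ) (hχ : ContDiff ℝ ∞ χ) {C : ℝ} (hC0 : 0 ≤ C)
    (hC : ∀ i : ℕ, i ≤ 4 → ∀ z, ‖iteratedFDeriv ℝ i χ z‖ ≤ C) (z0 : ℂ) {s : ℝ} (hs : 0 ≤ s)
    (hs1 : s ≤ 1) (q : B2) (hq : q.1 = 0) (i : ℕ) (hi : i ≤ 4) :
    ‖iteratedFDeriv ℝ i (fun q : B2 => χ (z0 + (s : ℂ) * q.1) - χ z0) q‖ ≤ C * s := by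
  rcases Nat.eq_zero_or_pos i with rfl | hpos
  · rw [norm_iteratedFDeriv_zero]
    simp only [hq, mul_zero, add_zero, sub_self, norm_zero]
    positivity
  · set L : B2 →L[ℝ] ℂ := s • ContinuousLinearMap.fst ℝ ℂ ℂ with hL
    have hLn : ‖L‖ ≤ s := by
      rw [hL, norm_smul, Real.norm_of_nonneg hs]
      have := ContinuousLinearMap.norm_fst_le ℝ ℂ ℂ
      calc s * ‖ContinuousLinearMap.fst ℝ ℂ ℂ‖ ≤ s * 1 := by gcongr
        _ = s := mul_one s
    set g : ℂ → ℝ := fun z => χ (z0 + z) with hg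
    have hgc : ContDiff ℝ ∞ g := hχ.comp (contDiff_const.add contDiff_id)
    have e1 : (fun q : B2 => χ (z0 + (s : ℂ) * q.1)) = g ∘ L := by
      funext q
      simp [hg, hL]
    rw [jet_sub_const hpos (by rw [e1]; exact (hgc.comp L.contDiff).contDiffAt), e1,
      ContinuousLinearMap.iteratedFDeriv_comp_right L hgc q (by exact_mod_cast le_top)]
    refine (ContinuousMultilinearMap.norm_compContinuousLinearMap_le _ _).trans ?_
    rw [Finset.prod_const, Finset.card_univ, Fintype.card_fin]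
    have h1 : ‖iteratedFDeriv ℝ i g (L q)‖ ≤ C := by
      rw [hg, iteratedFDeriv_comp_add_left]; exact hC i hi _
    have h2 : ‖L‖ ^ i ≤ s := by
      calc ‖L‖ ^ i ≤ s ^ i := by gcongr
        _ ≤ s ^ 1 := pow_le_pow_of_le_one hs hs1 hpos
        _ = s := pow_one s
    gcongr

/-- the transition functions have small normalized jets -/
theorem jet_transition' (χ : ℂ → ℝ) (hχ : ContDiff ℝ ∞ χ) (hχc : HasCompactSupport χ)
    (hχ01 : ∀ z, 0 ≤ χ z ∧ χ z ≤ 1) (δ : ℝ) (hδ : 0 < δ) :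
    ∃ ε₁ > 0, ∃ A₀ : ℝ, 1 ≤ A₀ ∧ ∀ (a₀ : ℝ) (ψ : ℝ → ℝ), A₀ ≤ a₀ → ContDiff ℝ ∞ ψ →
      (∀ t, t ≤ a₀ → ψ t = 0) → (∀ t, 0 ≤ deriv ψ t ∧ deriv ψ t ≤ 1) →
      (∀ k : ℕ, 2 ≤ k → k ≤ 4 → ∀ t, |iteratedDeriv k ψ t| ≤ ε₁) →
      ∀ p ∈ Dom, JetB (fun q => χ (gp p q).1 * ψ (aS (gp p q))
        - (χ p.1 * deriv ψ (aS p)) * aS q) δ := by
  obtain ⟨C, hC1, hC⟩ := bump_bdd χ hχ hχc
  obtain ⟨D, hD1, hD⟩ := aS_jets
  set K1 : ℝ := 384 * C * D ^ 4 with hK1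
  set K2 : ℝ := 24 * D ^ 4 with hK2
  have hC0 : 0 < C := by linarith
  have hD0 : 0 < D := by linarith
  have hK1p : 0 < K1 := by positivity
  have hK2p : 0 < K2 := by positivity
  obtain ⟨A₀, hA1, hA⟩ := exp_small (δ / (2 * K1)) (by positivity)
  refine ⟨min 1 (δ / (2 * K2)), lt_min one_pos (by positivity), A₀, hA1, ?_⟩
  intro a₀ ψ ha₀ hψ hψ0 hψ1 hψk p hp k hk hk4
  have hε1 : ∀ k : ℕ, 2 ≤ k → k ≤ 4 → ∀ t, |iteratedDeriv k ψ t| ≤ 1 :=
    fun k h1 h2 t => (hψk k h1 h2 t).trans (min_le_left _ _)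
  set ε₁ : ℝ := min 1 (δ / (2 * K2)) with hε
  have hε0 : 0 < ε₁ := lt_min one_pos (by positivity)
  have hεK : K2 * ε₁ ≤ δ / 2 := by
    have : ε₁ ≤ δ / (2 * K2) := min_le_right _ _
    calc K2 * ε₁ ≤ K2 * (δ / (2 * K2)) := by gcongr
      _ = δ / 2 := by field_simp
  have hρ : 0 < rho p := hp
  set a := aS p with hadef
  set s := Real.sqrt (rho p) with hsdef
  have hDomN : Dom ∈ 𝓝 q0 := isOpen_Dom'.mem_nhds q0_mem'
  rcases lt_or_ge a a₀ with hlt | hge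
  · -- everything vanishes near `q0`
    have hz : (fun q => χ (gp p q).1 * ψ (aS (gp p q)) - (χ p.1 * deriv ψ a) * aS q)
        =ᶠ[𝓝 q0] fun _ => (0:ℝ) := by
      have hd0 : deriv ψ a = 0 := by
        have : ψ =ᶠ[𝓝 a] fun _ => (0:ℝ) := by
          filter_upwards [Iio_mem_nhds hlt] with t ht using hψ0 t (le_of_lt ht)
        rw [this.deriv_eq]; simp
      have hcont : ContinuousAt aS q0 := (aS_smooth'.continuousOn).continuousAt hDomN
      have h1 : ∀ᶠ q in 𝓝 q0, aS q < a₀ - a := by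
        apply hcont.eventually_lt_const
        rw [aS_q0]; linarith
      filter_upwards [h1, hDomN] with q hq1 hq2
      rw [aS_gp p hp q hq2, hd0, hψ0 _ (by linarith : aS p + aS q ≤ a₀)]
      ring
    rw [(hz.iteratedFDeriv ℝ k).eq_of_nhds, iteratedFDeriv_const_of_ne (by omega)]
    simpa using hδ.le
  · have ha1 : 1 ≤ a := by linarith
    have hsexp : s = Real.exp (-a / 2) := sqrt_rho_eq p hp
    have hs0 : 0 ≤ s := Real.sqrt_nonneg _
    have hs1 : s ≤ 1 := by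
      rw [hsexp, Real.exp_le_one_iff]; linarith
    -- values of ψ
    have hdiff : ∀ t, DifferentiableAt ℝ ψ t := fun t =>
      (hψ.differentiable (by simp)) t
    have hmono : Monotone ψ := monotone_of_deriv_nonneg hdiff (fun t => (hψ1 t).1)
    have hψnn : 0 ≤ ψ a := by
      rw [← hψ0 a₀ le_rfl]; exact hmono hge
    have hψle : ψ a ≤ a := by
      have h : Monotone fun t : ℝ => t - ψ t := by
        apply monotone_of_deriv_nonneg
        · intro t; exact differentiableAt_id.sub (hdiff t)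
        · intro t
          have : HasDerivAt (fun t : ℝ => t - ψ t) (1 - deriv ψ t) t :=
            (hasDerivAt_id t).sub (hdiff t).hasDerivAt
          rw [this.deriv]; linarith [(hψ1 t).2]
      have := h hge
      simp only [hψ0 a₀ le_rfl] at this
      linarith
    set f : B2 → ℝ := fun q => χ (p.1 + (s : ℂ) * q.1) - χ p.1 with hf
    set g : B2 → ℝ := fun q => ψ (a + aS q) with hg
    set G : ℝ → ℝ := fun t => ψ (a + t) with hG
    set H : ℝ → ℝ := fun t => ψ (a + t) - deriv ψ a * t - ψ a with hH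
    have hGc : ContDiff ℝ ∞ G := hψ.comp (contDiff_const.add contDiff_id)
    have hHc : ContDiff ℝ ∞ H := (hGc.sub (contDiff_const.mul contDiff_id)).sub contDiff_const
    have hfc : ContDiff ℝ ∞ f := by
      refine ContDiff.sub (hχ.comp ?_) contDiff_const
      exact contDiff_const.add (contDiff_const.mul contDiff_fst)
    have hgc : ContDiffOn ℝ ∞ g Dom := hGc.comp_contDiffOn aS_smooth'
    have hGk : ∀ i : ℕ, iteratedDeriv i G 0 = iteratedDeriv i ψ a := by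
      intro i
      have := congrFun (iteratedDeriv_comp_const_add i ψ a) 0
      rw [hG, this, add_zero]
    -- decomposition
    have hdec : (fun q => χ (gp p q).1 * ψ (aS (gp p q)) - (χ p.1 * deriv ψ a) * aS q)
        =ᶠ[𝓝 q0] fun q => (f q * g q + χ p.1 * H (aS q)) - (-(χ p.1 * ψ a)) := by
      filter_upwards [hDomN] with q hq
      rw [aS_gp p hp q hq]
      simp only [hf, hg, hH, gp, ← hsdef, ← hadef]
      ring
    have hHcd : ContDiffOn ℝ ∞ (fun q => H (aS q)) Dom := hHc.comp_contDiffOn aS_smooth'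
    have hfg : ContDiffOn ℝ ∞ (fun q => f q * g q) Dom := hfc.contDiffOn.mul hgc
    have hcH : ContDiffOn ℝ ∞ (fun q => χ p.1 * H (aS q)) Dom := contDiffOn_const.mul hHcd
    rw [(hdec.iteratedFDeriv ℝ k).eq_of_nhds,
      jet_sub_const hk ((hfg.add hcH).contDiffAt hDomN)]
    have hsplit : iteratedFDeriv ℝ k (fun q => f q * g q + χ p.1 * H (aS q)) q0
        = iteratedFDeriv ℝ k (fun q => f q * g q) q0
          + iteratedFDeriv ℝ k (fun q => χ p.1 * H (aS q)) q0 :=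
      iteratedFDeriv_add_apply ((hfg.contDiffAt hDomN).of_le (by exact_mod_cast le_top))
        ((hcH.contDiffAt hDomN).of_le (by exact_mod_cast le_top))
    rw [hsplit]
    refine (norm_add_le _ _).trans ?_
    -- first term
    have hT1 : ‖iteratedFDeriv ℝ k (fun q => f q * g q) q0‖ ≤ δ / 2 := by
      have hfb : ∀ i, i ≤ k → ‖iteratedFDeriv ℝ i f q0‖ ≤ C * s := fun i hi =>
        bump_part χ hχ hC0.le hC p.1 hs0 hs1 q0 rfl i (hi.trans hk4)
      have hgb : ∀ i, i ≤ k → ‖iteratedFDeriv ℝ i g q0‖ ≤ 24 * (a + 1) * D ^ 4 := by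
        intro i hi
        have h1 := jet_comp_le (g := G) (f := aS) isOpen_Dom' q0_mem' aS_smooth' hGc (n := i)
          (C := a + 1) (D := D) ?_ (fun j h1 h2 => hD j h1 (h2.trans (hi.trans hk4)))
        · refine h1.trans ?_
          have hfac : ((i !: ℕ) : ℝ) ≤ 24 := by
            have : i ! ≤ 4 ! := Nat.factorial_le (hi.trans hk4)
            have h24 : (4 ! : ℕ) = 24 := rfl
            rw [h24] at this
            exact_mod_cast this
          have hpw : D ^ i ≤ D ^ 4 := pow_le_pow_right₀ hD1 (hi.trans hk4)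
          gcongr
        · intro j hj
          rw [aS_q0, norm_iteratedFDeriv_eq_norm_iteratedDeriv, hGk, Real.norm_eq_abs]
          have hj4 : j ≤ 4 := hj.trans (hi.trans hk4)
          rcases Nat.lt_or_ge j 2 with h2 | h2
          · have : j = 0 ∨ j = 1 := by omega
            rcases this with rfl | rfl
            · rw [iteratedDeriv_zero, abs_of_nonneg hψnn]; linarith
            · rw [iteratedDeriv_one, abs_of_nonneg (hψ1 a).1]; linarith [(hψ1 a).2]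
          · have := hε1 j h2 hj4 a; linarith
      have h1 := jet_mul_le' isOpen_Dom' q0_mem' hfc.contDiffOn hgc k (by positivity) hfb hgb
      refine h1.trans ?_
      have h2 : (2:ℝ) ^ k ≤ 2 ^ 4 := pow_le_pow_right₀ (by norm_num) hk4
      have h3 := hA a (ha₀.trans hge)
      rw [← hsexp] at h3
      calc (2:ℝ) ^ k * (C * s) * (24 * (a + 1) * D ^ 4)
          ≤ 2 ^ 4 * (C * s) * (24 * (a + 1) * D ^ 4) := by gcongr
        _ = K1 * (s * (1 + a)) := by rw [hK1]; ring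
        _ ≤ K1 * (δ / (2 * K1)) := by gcongr
        _ = δ / 2 := by field_simp
    -- second term
    have hT2 : ‖iteratedFDeriv ℝ k (fun q => χ p.1 * H (aS q)) q0‖ ≤ δ / 2 := by
      have e1 : iteratedFDeriv ℝ k (fun q => χ p.1 * H (aS q)) q0
          = χ p.1 • iteratedFDeriv ℝ k (fun q => H (aS q)) q0 :=
        iteratedFDeriv_const_smul_apply' (a := χ p.1)
          ((hHcd.contDiffAt hDomN).of_le (by exact_mod_cast le_top))
      rw [e1, norm_smul, Real.norm_of_nonneg (hχ01 _).1]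
      have h1 := jet_comp_le (g := H) (f := aS) isOpen_Dom' q0_mem' aS_smooth' hHc (n := k)
        (C := ε₁) (D := D) ?_ (fun j h1 h2 => hD j h1 (h2.trans hk4))
      · have hfac : ((k !: ℕ) : ℝ) ≤ 24 := by
          have : k ! ≤ 4 ! := Nat.factorial_le hk4
          have h24 : (4 ! : ℕ) = 24 := rfl
          rw [h24] at this
          exact_mod_cast this
        have hpw : D ^ k ≤ D ^ 4 := pow_le_pow_right₀ hD1 hk4
        calc χ p.1 * ‖iteratedFDeriv ℝ k (fun q => H (aS q)) q0‖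
            ≤ 1 * ((k ! : ℝ) * ε₁ * D ^ k) :=
              mul_le_mul (hχ01 _).2 h1 (norm_nonneg _) (by norm_num)
          _ ≤ 1 * (24 * ε₁ * D ^ 4) := by gcongr
          _ = K2 * ε₁ := by rw [hK2]; ring
          _ ≤ δ / 2 := hεK
      · intro j hj
        rw [aS_q0, norm_iteratedFDeriv_eq_norm_iteratedDeriv, Real.norm_eq_abs]
        have hj4 : j ≤ 4 := hj.trans hk4
        have hder : deriv H = fun t => deriv ψ (a + t) - deriv ψ a := by
          funext t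
          have h1 : HasDerivAt G (deriv ψ (a + t)) t := by
            have := ((hdiff (a + t)).hasDerivAt).comp_const_add a t
            exact this
          have h2 : HasDerivAt (fun t : ℝ => deriv ψ a * t) (deriv ψ a) t := by
            simpa using (hasDerivAt_id t).const_mul (deriv ψ a)
          have h3 : HasDerivAt H (deriv ψ (a + t) - deriv ψ a) t := (h1.sub h2).sub_const _
          exact h3.deriv
        rcases Nat.lt_or_ge j 2 with h2 | h2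
        · have : j = 0 ∨ j = 1 := by omega
          rcases this with rfl | rfl
          · rw [iteratedDeriv_zero]; simp only [hH]; simpa using hε0.le
          · rw [iteratedDeriv_one, hder]; simpa using hε0.le
        · obtain ⟨i, rfl⟩ : ∃ i, j = i + 1 := ⟨j - 1, by omega⟩
          have e2 : iteratedDeriv (i + 1) H 0 = iteratedDeriv (i + 1) ψ a := by
            rw [← hGk, iteratedDeriv_succ', iteratedDeriv_succ', hder]
            have hGd : deriv G = fun t => deriv ψ (a + t) := by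
              funext t; exact (((hdiff (a + t)).hasDerivAt).comp_const_add a t).deriv
            rw [hGd]
            obtain ⟨l, rfl⟩ : ∃ l, i = l + 1 := ⟨i - 1, by omega⟩
            rw [iteratedDeriv_succ', iteratedDeriv_succ']
            congr 1
            funext t
            rw [deriv_sub_const]
          rw [e2]; exact hψk _ h2 hj4 a
    linarith

end Crest.Agent.R245
end

-- ▼ part R245/GpAff
section

/-! Row 245: the affine automorphisms `gp p` as complex affine equivalences. -/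

set_option autoImplicit false

namespace Crest.Agent.R245

open Complex Filter Topology
open scoped ContDiff ComplexConjugate

/-- linear part of `gp p` (as a linear equivalence) -/
noncomputable def gpLin (p : B2) (hp : 0 < rho p) : B2 ≃ₗ[ℂ] B2 where
  toFun b := ((Real.sqrt (rho p) : ℂ) * b.1,
    2 * I * conj p.1 * (Real.sqrt (rho p) : ℂ) * b.1 + (rho p : ℂ) * b.2)
  invFun b := ((Real.sqrt (rho p) : ℂ)⁻¹ * b.1, (rho p : ℂ)⁻¹ * (b.2 - 2 * I * conj p.1 * b.1))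
  map_add' a b := by
    apply Prod.ext <;> simp <;> ring
  map_smul' c a := by
    apply Prod.ext <;> simp <;> ring
  left_inv a := by
    have h1 : (Real.sqrt (rho p) : ℂ) ≠ 0 := by
      exact_mod_cast (Real.sqrt_pos.2 hp).ne'
    have h2 : (rho p : ℂ) ≠ 0 := by exact_mod_cast hp.ne'
    apply Prod.ext
    · simp only; field_simp
    · simp only; field_simp; ring
  right_inv a := by
    have h1 : (Real.sqrt (rho p) : ℂ) ≠ 0 := by
      exact_mod_cast (Real.sqrt_pos.2 hp).ne'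
    have h2 : (rho p : ℂ) ≠ 0 := by exact_mod_cast hp.ne'
    apply Prod.ext
    · simp only; field_simp
    · simp only; field_simp; ring

/-- linear part of `gp p` -/
noncomputable def gpL (p : B2) (hp : 0 < rho p) : B2 ≃L[ℂ] B2 :=
  (gpLin p hp).toContinuousLinearEquiv

/-- constant part of `gp p` -/
noncomputable def gpc (p : B2) : B2 := (p.1, (p.2.re : ℂ) + I * ((‖p.1‖ ^ 2 : ℝ) : ℂ))

theorem gp_eq (p : B2) (hp : 0 < rho p) (b : B2) : gp p b = gpL p hp b + gpc p := by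
  show _ = gpLin p hp b + gpc p
  apply Prod.ext
  · simp [gp, gpLin, gpc]; ring
  · simp [gp, gpLin, gpc]; ring

theorem gp_fun_eq (p : B2) (hp : 0 < rho p) : gp p = fun b => gpL p hp b + gpc p :=
  funext (gp_eq p hp)

/-- transport of the Levi form -/
theorem D11_gp (p : B2) (hp : 0 < rho p) (f : B2 → ℝ) (X Y : B2) :
    D11 (fun q => f (gp p q)) X Y q0 = D11 f (gpL p hp X) (gpL p hp Y) p := by
  have h := D11_comp_equiv (p := q0) (gpL p hp) (gpc p) f X Y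
  have h2 : gpL p hp q0 + gpc p = p := by rw [← gp_eq p hp, gp_q0 p hp]
  rw [h2] at h
  simp only [gp_fun_eq p hp]
  exact h

/-- the equivalence on the total space -/
noncomputable def gpLt (p : B2) (hp : 0 < rho p) : (B2 × ℂ) ≃L[ℂ] (B2 × ℂ) :=
  (gpL p hp).prodCongr (ContinuousLinearEquiv.refl ℂ ℂ)

/-- transport of curvature bounds from `q0` to `p` -/
theorem KB_hart_gp (A φ : B2 → ℝ) (p : B2) (hp : p ∈ Dom) (ζ : ℂ) (c B : ℝ) :
    KB (hart (fun q => A (gp p q)) (fun q => φ (gp p q))) (q0, ζ) c B ↔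
      KB (hart A φ) (p, ζ) c B := by
  have hr : 0 < rho p := hp
  have h := KB_comp_affineEquiv (p := ((q0, ζ) : B2 × ℂ)) (gpLt p hr) ((gpc p, 0) : B2 × ℂ)
    (hart A φ) c B
  have h2 : gpLt p hr (q0, ζ) + (gpc p, 0) = (p, ζ) := by
    show ((gpL p hr q0, ζ) : B2 × ℂ) + (gpc p, 0) = (p, ζ)
    rw [Prod.mk_add_mk, ← gp_eq p hr, gp_q0 p hp, add_zero]
  have h3 : (fun q : B2 × ℂ => hart A φ (gpLt p hr q + (gpc p, 0)))
      = hart (fun q => A (gp p q)) (fun q => φ (gp p q)) := by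
    funext q
    have e : gpLt p hr q + (gpc p, 0) = (gp p q.1, q.2) := by
      show ((gpL p hr q.1, q.2) : B2 × ℂ) + (gpc p, 0) = (gp p q.1, q.2)
      rw [Prod.mk_add_mk, ← gp_eq p hr, add_zero]
    rw [e]
    rfl
  rw [h2, h3] at h
  exact h

end Crest.Agent.R245
end

-- ▼ part R245/BulgeC
section

/-! TASK BulgeC: normalisation maps: `KB_hart_gp` is in `GpAff.lean`; `aS_gp`, `gp_q0`, `rho_gp`,
`gp_mem` are in `JetTrans.lean` (helper694; proofs also by helper475, helper899). -/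
end

-- ▼ part R245/BulgeB
section

/-! TASK BulgeB: jets of the transition functions (proof in `JetTrans.lean`). -/

set_option autoImplicit false

namespace Crest.Agent.R245

open Complex Filter Topology
open scoped ContDiff ComplexConjugate

/-- the transition functions have small normalized jets -/
theorem jet_transition (χ : ℂ → ℝ) (hχ : ContDiff ℝ ∞ χ) (hχc : HasCompactSupport χ)
    (hχ01 : ∀ z, 0 ≤ χ z ∧ χ z ≤ 1) (δ : ℝ) (hδ : 0 < δ) :
    ∃ ε₁ > 0, ∃ A₀ : ℝ, 1 ≤ A₀ ∧ ∀ (a₀ : ℝ) (ψ : ℝ → ℝ), A₀ ≤ a₀ → ContDiff ℝ ∞ ψ →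
      (∀ t, t ≤ a₀ → ψ t = 0) → (∀ t, 0 ≤ deriv ψ t ∧ deriv ψ t ≤ 1) →
      (∀ k : ℕ, 2 ≤ k → k ≤ 4 → ∀ t, |iteratedDeriv k ψ t| ≤ ε₁) →
      ∀ p ∈ Dom, JetB (fun q => χ (gp p q).1 * ψ (aS (gp p q))
        - (χ p.1 * deriv ψ (aS p)) * aS q) δ := jet_transition' χ hχ hχc hχ01 δ hδ

end Crest.Agent.R245
end

-- ▼ part R245/BulgeLem
section

/-! Row 245: auxiliary lemmas for the construction of a bulge. -/

set_option autoImplicit false

namespace Crest.Agent.R245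

open Complex Filter Topology
open scoped ContDiff ComplexConjugate

theorem tendsto_gp (p : B2) (hp : p ∈ Dom) : Tendsto (gp p) (𝓝 q0) (𝓝 p) := by
  have hr : 0 < rho p := hp
  have h1 : Continuous (gp p) := by
    rw [gp_fun_eq p hr]
    exact (gpL p hr).continuous.add continuous_const
  have := h1.tendsto q0
  rwa [gp_q0 p hp] at this

theorem contDiff_gp (p : B2) (hp : p ∈ Dom) : ContDiff ℝ ∞ (gp p) := by
  have hr : 0 < rho p := hp
  rw [gp_fun_eq p hr]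
  exact (((gpL p hr : B2 →L[ℂ] B2).restrictScalars ℝ).contDiff).add contDiff_const

theorem contDiffAt_comp_gp {f : B2 → ℝ} {p : B2} (hp : p ∈ Dom) (hf : ContDiffOn ℝ ∞ f Dom) :
    ContDiffAt ℝ ∞ (fun q => f (gp p q)) q0 := by
  have h1 : ContDiffAt ℝ ∞ f (gp p q0) := by
    rw [gp_q0 p hp]; exact hf.contDiffAt (isOpen_Dom'.mem_nhds hp)
  exact h1.comp q0 (contDiff_gp p hp).contDiffAt

/-- `aS (gp p ·) = aS p + aS` near `q0` -/
theorem aS_gp_ev (p : B2) (hp : p ∈ Dom) :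
    (fun q => aS (gp p q)) =ᶠ[𝓝 q0] fun q => aS p + aS q := by
  filter_upwards [isOpen_Dom'.mem_nhds q0_mem'] with q hq using aS_gp p hp q hq

theorem aS_cd_q0 : ContDiffAt ℝ ∞ aS q0 := aS_smooth'.contDiffAt (isOpen_Dom'.mem_nhds q0_mem')

theorem D11_const_add' {V : Type*} [NormedAddCommGroup V] [NormedSpace ℝ V] [NormedSpace ℂ V]
    [IsScalarTower ℝ ℂ V] {P : V → ℝ} {p : V} (hP : ContDiffAt ℝ ∞ P p) (r : ℝ) (X Y : V) :
    D11 (fun q => r + P q) X Y p = D11 P X Y p := by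
  rw [D11_add (P := fun _ => r) contDiffAt_const hP, D11_const, zero_add]

theorem D11_aS_gp (p : B2) (hp : p ∈ Dom) (X Y : B2) :
    D11 aS (gpL p hp X) (gpL p hp Y) p = D11 aS X Y q0 := by
  rw [← D11_gp p hp aS X Y, D11_congr (aS_gp_ev p hp), D11_const_add' aS_cd_q0]

/-- transport of lower Levi bounds -/
theorem levi_transport {f : B2 → ℝ} {p : B2} (hp : p ∈ Dom) {c : ℝ}
    (h : ∀ ξ, c * (D11 aS ξ ξ q0).re ≤ (D11 (fun q => f (gp p q)) ξ ξ q0).re) (ξ : B2) :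
    c * (D11 aS ξ ξ p).re ≤ (D11 f ξ ξ p).re := by
  have h1 := h ((gpL p hp).symm ξ)
  rw [D11_gp p hp, ← D11_aS_gp p hp] at h1
  simpa using h1

/-- converse transport -/
theorem levi_transport' {f : B2 → ℝ} {p : B2} (hp : p ∈ Dom) {c : ℝ}
    (h : ∀ ξ, c * (D11 aS ξ ξ p).re ≤ (D11 f ξ ξ p).re) (ξ : B2) :
    c * (D11 aS ξ ξ q0).re ≤ (D11 (fun q => f (gp p q)) ξ ξ q0).re := by
  have h1 := h (gpL p hp ξ)
  rw [D11_gp p hp, ← D11_aS_gp p hp]
  exact h1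

theorem D11_aS_q0_re (ξ : B2) : (D11 aS ξ ξ q0).re = ‖ξ.1‖ ^ 2 + (1/4) * ‖ξ.2‖ ^ 2 := by
  rw [aS_D11_q0]
  have h1 : ξ.1 * conj ξ.1 = ((‖ξ.1‖ ^ 2 : ℝ) : ℂ) := by
    rw [Complex.mul_conj, Complex.normSq_eq_norm_sq]
  have h2 : ξ.2 * conj ξ.2 = ((‖ξ.2‖ ^ 2 : ℝ) : ℂ) := by
    rw [Complex.mul_conj, Complex.normSq_eq_norm_sq]
  rw [h1, h2]
  have : (((‖ξ.1‖ ^ 2 : ℝ) : ℂ) + 1 / 4 * ((‖ξ.2‖ ^ 2 : ℝ) : ℂ))
      = ((‖ξ.1‖ ^ 2 + (1/4) * ‖ξ.2‖ ^ 2 : ℝ) : ℂ) := by push_cast; ring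
  rw [this, Complex.ofReal_re]

theorem norm_sq_le_aS_bl (ξ : B2) : ‖ξ‖ ^ 2 ≤ 4 * (D11 aS ξ ξ q0).re := by
  rw [D11_aS_q0_re, Prod.norm_def]
  rcases le_total ‖ξ.1‖ ‖ξ.2‖ with h | h
  · rw [max_eq_right h]; nlinarith [sq_nonneg ‖ξ.1‖]
  · rw [max_eq_left h]; nlinarith [sq_nonneg ‖ξ.2‖, sq_nonneg ‖ξ.1‖]

theorem aS_q0_nonneg (ξ : B2) : 0 ≤ (D11 aS ξ ξ q0).re := by
  rw [D11_aS_q0_re]; positivity

theorem norm_le_sqrt_aS (ξ : B2) : ‖ξ‖ ≤ 2 * Real.sqrt (D11 aS ξ ξ q0).re := by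
  have h1 := norm_sq_le_aS_bl ξ
  have h2 := aS_q0_nonneg ξ
  have h3 : ‖ξ‖ = Real.sqrt (‖ξ‖ ^ 2) := (Real.sqrt_sq (norm_nonneg _)).symm
  rw [h3]
  calc Real.sqrt (‖ξ‖ ^ 2) ≤ Real.sqrt (4 * (D11 aS ξ ξ q0).re) := Real.sqrt_le_sqrt h1
    _ = 2 * Real.sqrt (D11 aS ξ ξ q0).re := by
      rw [Real.sqrt_mul (by norm_num)]
      congr 1
      rw [show (4:ℝ) = 2 ^ 2 by norm_num, Real.sqrt_sq (by norm_num)]

/-- Levi form bound from the jet bound -/
theorem levi_of_jet {E : B2 → ℝ} {e : ℝ} (hE : ContDiffAt ℝ ∞ E q0) (h : JetB E e) (ξ : B2) :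
    |(D11 E ξ ξ q0).re| ≤ 4 * e * (D11 aS ξ ξ q0).re := by
  have h1 := D11_le hE ξ ξ
  have h2 := h 2 (by norm_num) (by norm_num)
  have h3 := Complex.abs_re_le_norm (D11 E ξ ξ q0)
  have h4 := norm_sq_le_aS_bl ξ
  have he : 0 ≤ e := (norm_nonneg _).trans h2
  calc |(D11 E ξ ξ q0).re| ≤ ‖D11 E ξ ξ q0‖ := h3
    _ ≤ ‖iteratedFDeriv ℝ 2 E q0‖ * ‖ξ‖ * ‖ξ‖ := h1
    _ = ‖iteratedFDeriv ℝ 2 E q0‖ * ‖ξ‖ ^ 2 := by ring
    _ ≤ e * (4 * (D11 aS ξ ξ q0).re) := by gcongr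
    _ = 4 * e * (D11 aS ξ ξ q0).re := by ring

theorem JetB_congr {u v : B2 → ℝ} (h : u =ᶠ[𝓝 q0] v) {C : ℝ} (hv : JetB v C) : JetB u C := by
  intro k h1 h2
  rw [(h.iteratedFDeriv ℝ k).eq_of_nhds]
  exact hv k h1 h2

theorem JetB_mono {u : B2 → ℝ} {C C' : ℝ} (h : C ≤ C') (hu : JetB u C) : JetB u C' :=
  fun k h1 h2 => (hu k h1 h2).trans h

theorem JetB_const_add {u : B2 → ℝ} (hu : ContDiffAt ℝ ∞ u q0) (r : ℝ) {C : ℝ} (h : JetB u C) :
    JetB (fun b => r + u b) C := by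
  intro k h1 h2
  have e : (fun b => r + u b) = fun b => u b - (-r) := by funext b; ring
  rw [e, jet_sub_const h1 hu]
  exact h k h1 h2

theorem JetB_const_mul {u : B2 → ℝ} (hu : ContDiffAt ℝ ∞ u q0) (c : ℝ) {C : ℝ} (h : JetB u C) :
    JetB (fun b => c * u b) (|c| * C) := by
  intro k h1 h2
  have e : iteratedFDeriv ℝ k (fun b => c * u b) q0 = c • iteratedFDeriv ℝ k u q0 :=
    iteratedFDeriv_const_smul_apply' (a := c) (hu.of_le (by exact_mod_cast le_top))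
  rw [e, norm_smul, Real.norm_eq_abs]
  exact mul_le_mul_of_nonneg_left (h k h1 h2) (abs_nonneg _)

/-- gradient bound at a point from the normalized first jet -/
theorem grad_transport {f : B2 → ℝ} {p : B2} (hp : p ∈ Dom) (hf : ContDiffOn ℝ ∞ f Dom) {C : ℝ}
    (h : ‖iteratedFDeriv ℝ 1 (fun q => f (gp p q)) q0‖ ≤ C) (ξ : B2) :
    |fderiv ℝ f p ξ| ≤ 2 * C * Real.sqrt (D11 aS ξ ξ p).re := by
  have hr : 0 < rho p := hp
  set X := (gpL p hp).symm ξ with hX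
  have hξ : gpL p hp X = ξ := by simp [hX]
  have h1 : ContDiffAt ℝ ∞ f p := hf.contDiffAt (isOpen_Dom'.mem_nhds hp)
  have hd : DifferentiableAt ℝ f (gp p q0) := by
    rw [gp_q0 p hp]; exact h1.differentiableAt (by simp)
  have hg : HasFDerivAt (gp p) ((gpL p hp : B2 →L[ℂ] B2).restrictScalars ℝ) q0 := by
    rw [gp_fun_eq p hr]
    exact (((gpL p hp : B2 →L[ℂ] B2).restrictScalars ℝ).hasFDerivAt).add_const _
  have h2 : fderiv ℝ (fun q => f (gp p q)) q0 X = fderiv ℝ f p ξ := by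
    have h3 : HasFDerivAt (fun q => f (gp p q))
        ((fderiv ℝ f (gp p q0)).comp ((gpL p hp : B2 →L[ℂ] B2).restrictScalars ℝ)) q0 :=
      hd.hasFDerivAt.comp q0 hg
    rw [h3.fderiv, gp_q0 p hp]
    show fderiv ℝ f p (gpL p hp X) = _
    rw [hξ]
  have h3 : ‖fderiv ℝ (fun q => f (gp p q)) q0‖ ≤ C := by
    rw [← norm_iteratedFDeriv_one]; exact h
  have h4 : (D11 aS ξ ξ p).re = (D11 aS X X q0).re := by
    rw [← D11_aS_gp p hp, hξ]
  rw [← h2, h4]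
  have hC : 0 ≤ C := (norm_nonneg _).trans h3
  calc |fderiv ℝ (fun q => f (gp p q)) q0 X| = ‖fderiv ℝ (fun q => f (gp p q)) q0 X‖ := rfl
    _ ≤ ‖fderiv ℝ (fun q => f (gp p q)) q0‖ * ‖X‖ := ContinuousLinearMap.le_opNorm _ _
    _ ≤ C * (2 * Real.sqrt (D11 aS X X q0).re) := by
      gcongr
      exact norm_le_sqrt_aS X
    _ = 2 * C * Real.sqrt (D11 aS X X q0).re := by ring

end Crest.Agent.R245
end

-- ▼ part R245/BulgeMake0
section

/-! TASK BulgeMake: construction of a `Bulge`. -/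

set_option autoImplicit false

namespace Crest.Agent.R245

open Complex Filter Topology
open scoped ContDiff ComplexConjugate

/-- the cutoff function in `z` -/
theorem exists_chi : ∃ χ : ℂ → ℝ, ContDiff ℝ ∞ χ ∧ HasCompactSupport χ ∧
    (∀ z, 0 ≤ χ z ∧ χ z ≤ 1) ∧ (∀ z, ‖z‖ ≤ 3/16 → χ z = 1) ∧ (∀ z, 1/4 ≤ ‖z‖ → χ z = 0) := by
  let f : ContDiffBump (0 : ℂ) := ⟨3/16, 1/4, by norm_num, by norm_num⟩
  refine ⟨f, f.contDiff, f.hasCompactSupport, fun z => ⟨f.nonneg, f.le_one⟩, ?_, ?_⟩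
  · intro z hz
    exact f.one_of_mem_closedBall (by simpa [f] using hz)
  · intro z hz
    exact f.zero_of_le_dist (by simpa [f] using hz)

/-- `T = χ(z) ψ(a)` -/
noncomputable def TT (χ : ℂ → ℝ) (ψ : ℝ → ℝ) (b : B2) : ℝ := χ b.1 * ψ (aS b)

theorem TT_smooth {χ : ℂ → ℝ} {ψ : ℝ → ℝ} (hχ : ContDiff ℝ ∞ χ) (hψ : ContDiff ℝ ∞ ψ) :
    ContDiffOn ℝ ∞ (TT χ ψ) Dom :=
  ((hχ.comp contDiff_fst).contDiffOn).mul (hψ.comp_contDiffOn aS_smooth')

/-- the data entering the construction -/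
structure BD where
  (CW η τ Λ s κ a₁ M δ : ℝ)
  (χ : ℂ → ℝ) (ψ : ℝ → ℝ) (Φ : B2 → ℝ)
  (hτ0 : 0 < τ) (hτ1 : τ ≤ 1) (hCW : 0 < CW) (hη : 0 < η) (hη1 : η ≤ 1)
  (hs : s = τ * η) (hs0 : 0 < s) (hs4 : s ≤ 1/4) (hτCW : τ * CW ≤ 1/4)
  (hΛ : 1 ≤ Λ) (hδ0 : 0 < δ) (hδΛ : 4 * ((Λ - 1) * δ) ≤ 1/2) (hδs : 4 * δ ≤ s / 2)
  (hM4 : 4 ≤ M) (hκ0 : 0 ≤ κ) (ha1 : 2 ≤ a₁) (hM : a₁ + 2 * κ + 2 ≤ Real.log M)
  (χs : ContDiff ℝ ∞ χ) (χ01 : ∀ z, 0 ≤ χ z ∧ χ z ≤ 1) (χ1 : ∀ z, ‖z‖ ≤ 3/16 → χ z = 1)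
  (χ0 : ∀ z, 1/4 ≤ ‖z‖ → χ z = 0)
  (ψs : ContDiff ℝ ∞ ψ) (ψ0 : ∀ t, t ≤ 2 → ψ t = 0) (ψ1 : ∀ t, a₁ ≤ t → ψ t = t - κ)
  (ψd : ∀ t, 0 ≤ deriv ψ t ∧ deriv ψ t ≤ 1) (ψnn : ∀ t, 0 ≤ ψ t)
  (Jt : ∀ p ∈ Dom, JetB (fun q => TT χ ψ (gp p q) - (χ p.1 * deriv ψ (aS p)) * aS q) δ)
  (Φs : ContDiffOn ℝ ∞ Φ Dom)
  (Φ0 : ∀ p ∈ Dom, (1 / M ≤ rho p ∨ 1/8 ≤ ‖p.1‖) → Φ p = 0)
  (ΦJ : ∀ p ∈ Dom, JetB (fun q => Φ (gp p q)) CW)
  (ΦL : ∀ p ∈ Dom, ∀ ξ : B2, -(η / 2) * (D11 aS ξ ξ p).re ≤ (D11 Φ ξ ξ p).re)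
  (ΦG : ∀ p ∈ Dom, 0 ≤ aS p → Φ p ≤ CW * (1 + aS p))

namespace BD

variable (d : BD)

noncomputable def T (b : B2) : ℝ := TT d.χ d.ψ b
/-- the potential `A` -/
noncomputable def A (b : B2) : ℝ := aS b + (d.Λ - 1) * d.T b
/-- the weight `φ` -/
noncomputable def φ (b : B2) : ℝ := aS b - (1 - d.s) * d.T b + d.τ * d.Φ b
/-- the transition parameter -/
noncomputable def θ (p : B2) : ℝ := d.χ p.1 * deriv d.ψ (aS p)

theorem T_smooth : ContDiffOn ℝ ∞ d.T Dom := TT_smooth d.χs d.ψs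

theorem A_smooth : ContDiffOn ℝ ∞ d.A Dom :=
  aS_smooth'.add (contDiffOn_const.mul d.T_smooth)

theorem φ_smooth : ContDiffOn ℝ ∞ d.φ Dom :=
  (aS_smooth'.sub (contDiffOn_const.mul d.T_smooth)).add (contDiffOn_const.mul d.Φs)

theorem T_nonneg (b : B2) : 0 ≤ d.T b := mul_nonneg (d.χ01 _).1 (d.ψnn _)

theorem θ_mem (p : B2) : 0 ≤ d.θ p ∧ d.θ p ≤ 1 := by
  have h1 := d.χ01 p.1
  have h2 := d.ψd (aS p)
  refine ⟨mul_nonneg h1.1 h2.1, ?_⟩
  calc d.χ p.1 * deriv d.ψ (aS p) ≤ 1 * 1 := mul_le_mul h1.2 h2.2 h2.1 (by norm_num)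
    _ = 1 := by norm_num


theorem aS_ge {p : B2} (hp : p ∈ Dom) (h : rho p ≤ 1 / d.M) : d.a₁ + 2 * d.κ + 2 ≤ aS p := by
  have h0 : 0 < rho p := hp
  have h1 : Real.log (rho p) ≤ Real.log (1 / d.M) := Real.log_le_log h0 h
  rw [one_div, Real.log_inv] at h1
  have := d.hM
  unfold aS; linarith

theorem T_zero_of {b : B2} (hb : b ∈ Dom) (h : 1/4 ≤ ‖b.1‖ ∨ 1/4 ≤ rho b) : d.T b = 0 := by
  unfold T TT
  rcases h with h | h
  · rw [d.χ0 _ h, zero_mul]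
  · have h0 : 0 < rho b := hb
    have h1 : Real.log (1/4) ≤ Real.log (rho b) := Real.log_le_log (by norm_num) h
    have h2 : aS b ≤ 2 := by
      unfold aS
      have h3 : Real.log (1/4) = - (2 * Real.log 2) := by
        rw [one_div, Real.log_inv, show (4:ℝ) = 2 ^ 2 by norm_num, Real.log_pow]; push_cast; ring
      have h4 : Real.log 2 < 0.6931471808 := Real.log_two_lt_d9
      linarith
    rw [d.ψ0 _ h2, mul_zero]

theorem Φ_zero_of {b : B2} (hb : b ∈ Dom) (h : 1/4 ≤ ‖b.1‖ ∨ 1/4 ≤ rho b) : d.Φ b = 0 := by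
  apply d.Φ0 b hb
  rcases h with h | h
  · right; linarith
  · left
    have : 1 / d.M ≤ 1 / 4 := one_div_le_one_div_of_le (by norm_num) d.hM4
    linarith

/-- deep region: `T = a - κ` -/
theorem T_deep {b : B2} (h1 : d.a₁ ≤ aS b) (h2 : ‖b.1‖ ≤ 3/16) : d.T b = aS b - d.κ := by
  unfold T TT
  rw [d.χ1 _ h2, d.ψ1 _ h1, one_mul]

theorem T_deep_ev {p : B2} (hp : p ∈ Dom) (h1 : rho p ≤ 1 / d.M) (h2 : ‖p.1‖ ≤ 1/8) :
    d.T =ᶠ[𝓝 p] fun b => aS b - d.κ := by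
  have h3 := d.aS_ge hp h1
  have hκ := d.hκ0
  have hc : ContinuousAt aS p := (aS_smooth'.continuousOn).continuousAt (isOpen_Dom'.mem_nhds hp)
  have e1 : ∀ᶠ b in 𝓝 p, d.a₁ < aS b := hc.eventually_const_lt (by linarith)
  have e2 : ∀ᶠ b : B2 in 𝓝 p, ‖b.1‖ < 3/16 :=
    (continuous_fst.norm.continuousAt (x := p)).eventually_lt_const (by linarith)
  filter_upwards [e1, e2] with b hb1 hb2 using d.T_deep hb1.le hb2.le

/-- far from the wild region: `Φ = 0` near `p` -/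
theorem Φ_zero_ev {p : B2} (hp : p ∈ Dom) (h : 1 / d.M < rho p ∨ 1/8 < ‖p.1‖) :
    d.Φ =ᶠ[𝓝 p] fun _ => 0 := by
  have hD := isOpen_Dom'.mem_nhds hp
  rcases h with h | h
  · have e1 : ∀ᶠ b in 𝓝 p, 1 / d.M < rho b :=
      (rho_contDiff'.continuous.continuousAt).eventually_const_lt h
    filter_upwards [e1, hD] with b hb1 hb2 using d.Φ0 b hb2 (Or.inl hb1.le)
  · have e2 : ∀ᶠ b : B2 in 𝓝 p, 1/8 < ‖b.1‖ :=
      (continuous_fst.norm.continuousAt (x := p)).eventually_const_lt h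
    filter_upwards [e2, hD] with b hb1 hb2 using d.Φ0 b hb2 (Or.inr hb1.le)

/-- remainder `E = T ∘ gp p - θ a` -/
noncomputable def E (p : B2) (q : B2) : ℝ := d.T (gp p q) - d.θ p * aS q

theorem E_cd {p : B2} (hp : p ∈ Dom) : ContDiffAt ℝ ∞ (d.E p) q0 :=
  (contDiffAt_comp_gp hp d.T_smooth).sub (contDiffAt_const.mul aS_cd_q0)

theorem E_jet {p : B2} (hp : p ∈ Dom) : JetB (d.E p) d.δ := d.Jt p hp

theorem A_gp {p : B2} (hp : p ∈ Dom) : (fun q => d.A (gp p q)) =ᶠ[𝓝 q0]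
    fun q => aS p + ((1 + (d.Λ - 1) * d.θ p) * aS q + (d.Λ - 1) * d.E p q) := by
  filter_upwards [aS_gp_ev p hp] with q hq
  simp only [A, E]
  rw [hq]; ring

theorem φ_gp {p : B2} (hp : p ∈ Dom) : (fun q => d.φ (gp p q)) =ᶠ[𝓝 q0]
    fun q => aS p + ((1 - (1 - d.s) * d.θ p) * aS q + (-(1 - d.s)) * d.E p q)
      + d.τ * d.Φ (gp p q) := by
  filter_upwards [aS_gp_ev p hp] with q hq
  simp only [φ, E]
  rw [hq]; ring

theorem A_gp_deep {p : B2} (hp : p ∈ Dom) (h1 : rho p ≤ 1 / d.M) (h2 : ‖p.1‖ ≤ 1/8) :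
    (fun q => d.A (gp p q)) =ᶠ[𝓝 q0]
      fun q => d.Λ * aS q + (d.Λ * aS p - (d.Λ - 1) * d.κ) := by
  have h3 := (d.T_deep_ev hp h1 h2).comp_tendsto (tendsto_gp p hp)
  filter_upwards [aS_gp_ev p hp, h3] with q hq hq3
  simp only [Function.comp_apply] at hq3
  simp only [A]
  rw [hq3, hq]; ring

theorem φ_gp_deep {p : B2} (hp : p ∈ Dom) (h1 : rho p ≤ 1 / d.M) (h2 : ‖p.1‖ ≤ 1/8) :
    (fun q => d.φ (gp p q)) =ᶠ[𝓝 q0]
      fun q => d.τ * (d.η * aS q + d.Φ (gp p q)) + (d.s * aS p + (1 - d.s) * d.κ) := by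
  have h3 := (d.T_deep_ev hp h1 h2).comp_tendsto (tendsto_gp p hp)
  filter_upwards [aS_gp_ev p hp, h3] with q hq hq3
  simp only [Function.comp_apply] at hq3
  simp only [φ]
  rw [hq3, hq, d.hs]; ring

theorem ΦL_gp {p : B2} (hp : p ∈ Dom) (ξ : B2) :
    -(d.η / 2) * (D11 aS ξ ξ q0).re ≤ (D11 (fun q => d.Φ (gp p q)) ξ ξ q0).re :=
  levi_transport' hp (d.ΦL p hp) ξ

theorem Φ_cd {p : B2} (hp : p ∈ Dom) : ContDiffAt ℝ ∞ (fun q => d.Φ (gp p q)) q0 :=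
  contDiffAt_comp_gp hp d.Φs

theorem D11_A_gp {p : B2} (hp : p ∈ Dom) (ξ : B2) :
    (D11 (fun q => d.A (gp p q)) ξ ξ q0).re
      = (1 + (d.Λ - 1) * d.θ p) * (D11 aS ξ ξ q0).re
        + (d.Λ - 1) * (D11 (d.E p) ξ ξ q0).re := by
  have c1 : ContDiffAt ℝ ∞ (fun q => (1 + (d.Λ - 1) * d.θ p) * aS q) q0 :=
    contDiffAt_const.mul aS_cd_q0
  have c2 : ContDiffAt ℝ ∞ (fun q => (d.Λ - 1) * d.E p q) q0 :=
    contDiffAt_const.mul (d.E_cd hp)
  rw [D11_congr (d.A_gp hp), D11_const_add' (c1.add c2), D11_add c1 c2,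
    D11_const_mul aS_cd_q0, D11_const_mul (d.E_cd hp)]
  simp

theorem D11_φ_gp {p : B2} (hp : p ∈ Dom) (ξ : B2) :
    (D11 (fun q => d.φ (gp p q)) ξ ξ q0).re
      = (1 - (1 - d.s) * d.θ p) * (D11 aS ξ ξ q0).re
        - (1 - d.s) * (D11 (d.E p) ξ ξ q0).re + d.τ * (D11 (fun q => d.Φ (gp p q)) ξ ξ q0).re := by
  have c1 : ContDiffAt ℝ ∞ (fun q => (1 - (1 - d.s) * d.θ p) * aS q) q0 :=
    contDiffAt_const.mul aS_cd_q0
  have c2 : ContDiffAt ℝ ∞ (fun q => (-(1 - d.s)) * d.E p q) q0 :=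
    contDiffAt_const.mul (d.E_cd hp)
  have c3 : ContDiffAt ℝ ∞ (fun q => d.τ * d.Φ (gp p q)) q0 :=
    contDiffAt_const.mul (d.Φ_cd hp)
  have c4 : ContDiffAt ℝ ∞ (fun q => aS p + ((1 - (1 - d.s) * d.θ p) * aS q
      + (-(1 - d.s)) * d.E p q)) q0 := contDiffAt_const.add (c1.add c2)
  rw [D11_congr (d.φ_gp hp), D11_add c4 c3, D11_const_add' (c1.add c2), D11_add c1 c2,
    D11_const_mul aS_cd_q0, D11_const_mul (d.E_cd hp), D11_const_mul (d.Φ_cd hp)]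
  simp only [Complex.add_re, Complex.re_ofReal_mul]
  ring

theorem posA {p : B2} (hp : p ∈ Dom) (ξ : B2) :
    (1/2) * (D11 aS ξ ξ p).re ≤ (D11 d.A ξ ξ p).re := by
  apply levi_transport hp
  intro ξ
  rw [d.D11_A_gp hp]
  have h1 := levi_of_jet (d.E_cd hp) (d.E_jet hp) ξ
  have h2 := (d.θ_mem p).1
  have h3 := aS_q0_nonneg ξ
  have h4 := d.hδΛ
  have h5 : 0 ≤ d.Λ - 1 := by linarith [d.hΛ]
  have h6 : -(4 * d.δ * (D11 aS ξ ξ q0).re) ≤ (D11 (d.E p) ξ ξ q0).re := by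
    have := neg_abs_le (D11 (d.E p) ξ ξ q0).re
    linarith
  have h7 : (d.Λ - 1) * (-(4 * d.δ * (D11 aS ξ ξ q0).re))
      ≤ (d.Λ - 1) * (D11 (d.E p) ξ ξ q0).re := mul_le_mul_of_nonneg_left h6 h5
  have h8 : 0 ≤ (d.Λ - 1) * d.θ p * (D11 aS ξ ξ q0).re := by positivity
  have h9 : 4 * ((d.Λ - 1) * d.δ) * (D11 aS ξ ξ q0).re ≤ 1/2 * (D11 aS ξ ξ q0).re :=
    mul_le_mul_of_nonneg_right h4 h3
  nlinarith

theorem posφ {p : B2} (hp : p ∈ Dom) (ξ : B2) :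
    (d.s / 2) * (D11 aS ξ ξ p).re ≤ (D11 d.φ ξ ξ p).re := by
  apply levi_transport hp
  intro ξ
  have h3 := aS_q0_nonneg ξ
  by_cases hcase : rho p ≤ 1 / d.M ∧ ‖p.1‖ ≤ 1/8
  · have c1 : ContDiffAt ℝ ∞ (fun q => d.η * aS q) q0 := contDiffAt_const.mul aS_cd_q0
    have c2 : ContDiffAt ℝ ∞ (fun q => d.η * aS q + d.Φ (gp p q)) q0 := c1.add (d.Φ_cd hp)
    rw [D11_congr (d.φ_gp_deep hp hcase.1 hcase.2)]
    have e : (fun q => d.τ * (d.η * aS q + d.Φ (gp p q)) + (d.s * aS p + (1 - d.s) * d.κ))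
        = fun q => (d.s * aS p + (1 - d.s) * d.κ) + d.τ * (d.η * aS q + d.Φ (gp p q)) := by
      funext q; ring
    rw [e, D11_const_add' (contDiffAt_const.mul c2), D11_const_mul c2,
      D11_add c1 (d.Φ_cd hp), D11_const_mul aS_cd_q0]
    simp only [Complex.add_re, Complex.re_ofReal_mul]
    have h1 := d.ΦL_gp hp ξ
    rw [d.hs]
    have h2 := mul_le_mul_of_nonneg_left h1 d.hτ0.le
    nlinarith
  · have hΦ : (fun q => d.Φ (gp p q)) =ᶠ[𝓝 q0] fun _ => (0:ℝ) := by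
      have h : 1 / d.M < rho p ∨ 1/8 < ‖p.1‖ := by
        by_contra hcon
        push Not at hcon
        exact hcase hcon
      exact (d.Φ_zero_ev hp h).comp_tendsto (tendsto_gp p hp)
    rw [d.D11_φ_gp hp, D11_congr hΦ, D11_const]
    have h1 := levi_of_jet (d.E_cd hp) (d.E_jet hp) ξ
    have h2 := d.θ_mem p
    have h4 := d.hδs
    have h5 := d.hs0
    have h6 := d.hs4
    have h7 : (D11 (d.E p) ξ ξ q0).re ≤ 4 * d.δ * (D11 aS ξ ξ q0).re := (le_abs_self _).trans h1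
    have h8 : (1 - d.s) * (D11 (d.E p) ξ ξ q0).re ≤ 4 * d.δ * (D11 aS ξ ξ q0).re := by
      have h9 : (1 - d.s) * (D11 (d.E p) ξ ξ q0).re
          ≤ (1 - d.s) * (4 * d.δ * (D11 aS ξ ξ q0).re) :=
        mul_le_mul_of_nonneg_left h7 (by linarith)
      have h10 : 0 ≤ 4 * d.δ * (D11 aS ξ ξ q0).re := by
        have := d.hδ0; positivity
      nlinarith
    have h9 : d.s * (D11 aS ξ ξ q0).re ≤ (1 - (1 - d.s) * d.θ p) * (D11 aS ξ ξ q0).re := by
      apply mul_le_mul_of_nonneg_right _ h3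
      nlinarith [h2.1, h2.2]
    have h10 : 4 * d.δ * (D11 aS ξ ξ q0).re ≤ d.s / 2 * (D11 aS ξ ξ q0).re :=
      mul_le_mul_of_nonneg_right h4 h3
    simp only [Complex.zero_re, mul_zero, add_zero]
    nlinarith

theorem φ_le {b : B2} (hb : b ∈ Dom) : d.φ b ≤ aS b := by
  unfold φ
  have hT := d.T_nonneg b
  have hs4 := d.hs4
  by_cases h0 : d.Φ b = 0
  · rw [h0, mul_zero, add_zero]
    have : 0 ≤ (1 - d.s) * d.T b := mul_nonneg (by linarith) hT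
    linarith
  · have h1 : rho b < 1 / d.M := by
      by_contra h; push Not at h; exact h0 (d.Φ0 b hb (Or.inl h))
    have h2 : ‖b.1‖ < 1/8 := by
      by_contra h; push Not at h; exact h0 (d.Φ0 b hb (Or.inr h))
    have h3 := d.aS_ge hb h1.le
    have hκ := d.hκ0
    have ha := d.ha1
    have h4 : d.T b = aS b - d.κ := d.T_deep (by linarith) (by linarith)
    have h5 := d.ΦG b hb (by linarith)
    have h6 : d.τ * d.Φ b ≤ (1/4) * (1 + aS b) := by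
      calc d.τ * d.Φ b ≤ d.τ * (d.CW * (1 + aS b)) := mul_le_mul_of_nonneg_left h5 d.hτ0.le
        _ = (d.τ * d.CW) * (1 + aS b) := by ring
        _ ≤ (1/4) * (1 + aS b) := mul_le_mul_of_nonneg_right d.hτCW (by linarith)
    rw [h4]
    have h7 : (3/4) * (aS b - d.κ) ≤ (1 - d.s) * (aS b - d.κ) :=
      mul_le_mul_of_nonneg_right (by linarith) (by linarith)
    linarith

theorem le_A {b : B2} : aS b ≤ d.A b := by
  unfold A
  have := mul_nonneg (show 0 ≤ d.Λ - 1 by linarith [d.hΛ]) (d.T_nonneg b)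
  linarith

end BD

end Crest.Agent.R245
end

-- ▼ part R245/BulgeCurv
section

/-! Row 245: curvature of the bulge. -/

set_option autoImplicit false

namespace Crest.Agent.R245

open Complex Filter Topology
open scoped ContDiff ComplexConjugate

namespace BD

theorem hart_cd {A φ : B2 → ℝ} {y : B2 × ℂ} (hA : ContDiffAt ℝ ∞ A y.1)
    (hφ : ContDiffAt ℝ ∞ φ y.1) (hu : Real.exp (φ y.1) * ‖y.2‖ ^ 2 < 1) :
    ContDiffAt ℝ ∞ (hart A φ) y := by
  have h1 : ContDiffAt ℝ ∞ (fun x : B2 × ℂ => A x.1) y := hA.comp y contDiffAt_fst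
  have h2 : ContDiffAt ℝ ∞ (fun x : B2 × ℂ => φ x.1) y := hφ.comp y contDiffAt_fst
  have h3 : ContDiffAt ℝ ∞ (fun x : B2 × ℂ => ‖x.2‖ ^ 2) y := contDiffAt_snd.norm_sq ℝ
  have h4 : ContDiffAt ℝ ∞ (fun x : B2 × ℂ => 1 - Real.exp (φ x.1) * ‖x.2‖ ^ 2) y :=
    contDiffAt_const.sub (h2.exp.mul h3)
  exact h1.sub (h4.log (by linarith))

theorem dz_zero_dir' (u : B2 → ℂ) (p : B2) : dz (0 : B2) u p = 0 := by
  have := dz_vec_smul (0:ℂ) (0 : B2) u p
  simpa using this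

theorem hart_PD' {A φ : B2 → ℝ} {y : B2 × ℂ} (hA : ContDiffAt ℝ ∞ A y.1)
    (hφ : ContDiffAt ℝ ∞ φ y.1) (hu : Real.exp (φ y.1) * ‖y.2‖ ^ 2 < 1)
    (hApos : ∀ ξ, ξ ≠ 0 → 0 < (D11 A ξ ξ y.1).re) (hφnn : ∀ ξ, 0 ≤ (D11 φ ξ ξ y.1).re) :
    PD (hart A φ) y := by
  intro X hX
  have hu' : uu φ y < 1 := hu
  have hu0 : 0 ≤ uu φ y := by unfold uu; positivity
  have hyy : 0 ≤ yy φ y := by
    unfold yy
    apply div_nonneg hu0; linarith
  rw [hart_D11 A φ y hA hφ hu' X X]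
  set E : ℝ := Real.exp (φ y.1) / (1 - uu φ y) ^ 2 with hE
  have hEpos : 0 < E := by
    rw [hE]
    have : 0 < 1 - uu φ y := by linarith
    positivity
  have h5 : (((E : ℝ) : ℂ) * nuu φ y X * conj (nuu φ y X)).re
      = E * ‖nuu φ y X‖ ^ 2 := by
    rw [mul_assoc, Complex.mul_conj, Complex.normSq_eq_norm_sq, ← Complex.ofReal_mul,
      Complex.ofReal_re]
  rw [Complex.add_re, Complex.add_re, h5, Complex.re_ofReal_mul]
  have h4 := hφnn X.1
  have h8 : 0 ≤ yy φ y * (D11 φ X.1 X.1 y.1).re := mul_nonneg hyy h4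
  by_cases hX1 : X.1 = 0
  · have hX2 : X.2 ≠ 0 := fun h => hX (Prod.ext hX1 h)
    have hn : nuu φ y X = X.2 := by
      unfold nuu
      rw [hX1, dz_zero_dir']; simp
    rw [hn]
    have : 0 < ‖X.2‖ := norm_pos_iff.2 hX2
    have h6 : 0 < E * ‖X.2‖ ^ 2 := by positivity
    have h7 : (D11 A X.1 X.1 y.1).re = 0 := by
      rw [hX1]
      have := D11_smul_left hA (0:ℂ) (0:B2) (0:B2)
      simp only [smul_zero, zero_mul] at this
      rw [this, Complex.zero_re]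
    linarith
  · have h7 := hApos X.1 hX1
    have h9 : 0 ≤ E * ‖nuu φ y X‖ ^ 2 := by positivity
    linarith

theorem aS_pos {p : B2} (hp : p ∈ Dom) {ξ : B2} (hξ : ξ ≠ 0) : 0 < (D11 aS ξ ξ p).re := by
  have hr : 0 < rho p := hp
  set X := (gpL p hr).symm ξ with hX
  have hξ' : gpL p hr X = ξ := by simp [hX]
  have hX0 : X ≠ 0 := by
    intro h
    rw [h, map_zero] at hξ'
    exact hξ hξ'.symm
  rw [← hξ', D11_aS_gp p hp]
  have h1 := norm_sq_le_aS_bl X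
  have h2 : 0 < ‖X‖ := norm_pos_iff.2 hX0
  nlinarith [sq_nonneg ‖X‖, mul_pos h2 h2]

theorem aS_nonneg' {p : B2} (hp : p ∈ Dom) (ξ : B2) : 0 ≤ (D11 aS ξ ξ p).re := by
  have hr : 0 < rho p := hp
  have hξ' : gpL p hr ((gpL p hr).symm ξ) = ξ := by simp
  rw [← hξ', D11_aS_gp p hp]
  exact aS_q0_nonneg _

variable (d : BD)

theorem A_cd {p : B2} (hp : p ∈ Dom) : ContDiffAt ℝ ∞ d.A p :=
  d.A_smooth.contDiffAt (isOpen_Dom'.mem_nhds hp)

theorem φ_cd {p : B2} (hp : p ∈ Dom) : ContDiffAt ℝ ∞ d.φ p :=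
  d.φ_smooth.contDiffAt (isOpen_Dom'.mem_nhds hp)

theorem PD_hart {y : B2 × ℂ} (hy : y ∈ HartD d.φ) : PD (hart d.A d.φ) y := by
  refine hart_PD' (d.A_cd hy.1) (d.φ_cd hy.1) hy.2 ?_ ?_
  · intro ξ hξ
    have h1 := d.posA hy.1 ξ
    have h2 := aS_pos hy.1 hξ
    linarith
  · intro ξ
    have h1 := d.posφ hy.1 ξ
    have h2 := aS_nonneg' hy.1 ξ
    have h3 := d.hs0
    have : 0 ≤ d.s / 2 * (D11 aS ξ ξ y.1).re := by positivity
    linarith

/-- curvature statement with abstract inputs -/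
theorem curv {δ1 c1 B1 c2 B2' : ℝ} (hδ1 : (d.Λ - 1) * d.δ ≤ δ1) (hδ1' : d.δ ≤ δ1)
    (R1 : ∀ (A φ : B2 → ℝ) (θ : ℝ), 0 ≤ θ → θ ≤ 1 →
      ContDiffAt ℝ ∞ A q0 → ContDiffAt ℝ ∞ φ q0 →
      JetB (fun b => A b - (1 + (d.Λ - 1) * θ) * aS b) δ1 →
      JetB (fun b => φ b - (1 - (1 - d.s) * θ) * aS b) δ1 →
      ∀ ζ : ℂ, ζ ≠ 0 → Real.exp (φ q0) * ‖ζ‖ ^ 2 < 1 → KB (hart A φ) (q0, ζ) c1 B1)
    (R2 : ∀ (u : B2 → ℝ) (α β : ℝ), ContDiffAt ℝ ∞ u q0 → JetB u d.CW →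
        (∀ ξ, -(d.η / 2) * (D11 aS ξ ξ q0).re ≤ (D11 u ξ ξ q0).re) →
        ∀ ζ : ℂ, ζ ≠ 0 → Real.exp (d.τ * (d.η * aS q0 + u q0) + β) * ‖ζ‖ ^ 2 < 1 →
          KB (hart (fun b => d.Λ * aS b + α) (fun b => d.τ * (d.η * aS b + u b) + β))
            (q0, ζ) c2 B2')
    {y : B2 × ℂ} (hy : y ∈ HartD d.φ) :
    KB (hart d.A d.φ) y (min c1 c2) (max B1 B2') := by
  -- nonzero fibre coordinate
  have main : ∀ ζ : ℂ, ζ ≠ 0 → ((y.1, ζ) : B2 × ℂ) ∈ HartD d.φ →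
      KB (hart d.A d.φ) (y.1, ζ) (min c1 c2) (max B1 B2') := by
    intro ζ hζ hmem
    set p := y.1 with hpdef
    have hp : p ∈ Dom := hy.1
    have hcd : ContDiffAt ℝ ∞ (hart d.A d.φ) (p, ζ) := hart_cd (d.A_cd hp) (d.φ_cd hp) hmem.2
    have hpd : PD (hart d.A d.φ) (p, ζ) := d.PD_hart hmem
    have hval : d.φ (gp p q0) = d.φ p := by rw [gp_q0 p hp]
    by_cases hcase : rho p ≤ 1 / d.M ∧ ‖p.1‖ ≤ 1/8
    · -- wild region
      refine KB_mono hcd hpd (min_le_right _ _) (le_max_right _ _) ?_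
      rw [← KB_hart_gp d.A d.φ p hp ζ]
      have eA := d.A_gp_deep hp hcase.1 hcase.2
      have eφ := d.φ_gp_deep hp hcase.1 hcase.2
      have e : hart (fun q => d.A (gp p q)) (fun q => d.φ (gp p q)) =ᶠ[𝓝 ((q0, ζ) : B2 × ℂ)]
          hart (fun b => d.Λ * aS b + (d.Λ * aS p - (d.Λ - 1) * d.κ))
            (fun b => d.τ * (d.η * aS b + d.Φ (gp p b)) + (d.s * aS p + (1 - d.s) * d.κ)) := by
        have t : Tendsto (fun x : B2 × ℂ => x.1) (𝓝 (q0, ζ)) (𝓝 q0) := continuousAt_fst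
        filter_upwards [t.eventually eA, t.eventually eφ] with x hx1 hx2
        simp only [hart] at *
        rw [hx1, hx2]
      rw [KB_congr e]
      apply R2 _ _ _ (d.Φ_cd hp) (d.ΦJ p hp) (d.ΦL_gp hp) ζ hζ
      have h0 := eφ.self_of_nhds
      simp only at h0
      rw [← h0, hval]
      exact hmem.2
    · -- transition region
      refine KB_mono hcd hpd (min_le_left _ _) (le_max_left _ _) ?_
      rw [← KB_hart_gp d.A d.φ p hp ζ]
      have hΦ : (fun q => d.Φ (gp p q)) =ᶠ[𝓝 q0] fun _ => (0:ℝ) := by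
        have h : 1 / d.M < rho p ∨ 1/8 < ‖p.1‖ := by
          by_contra hcon
          push Not at hcon
          exact hcase hcon
        exact (d.Φ_zero_ev hp h).comp_tendsto (tendsto_gp p hp)
      have hs4 := d.hs4
      have hs0 := d.hs0
      have hδ0 := d.hδ0
      have hΛ1 : 0 ≤ d.Λ - 1 := by linarith [d.hΛ]
      apply R1 _ _ (d.θ p) (d.θ_mem p).1 (d.θ_mem p).2 (contDiffAt_comp_gp hp d.A_smooth)
        (contDiffAt_comp_gp hp d.φ_smooth)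
      · have e : (fun b => d.A (gp p b) - (1 + (d.Λ - 1) * d.θ p) * aS b) =ᶠ[𝓝 q0]
            fun b => aS p + (d.Λ - 1) * d.E p b := by
          filter_upwards [d.A_gp hp] with q hq
          rw [hq]; ring
        refine JetB_congr e (JetB_const_add (contDiffAt_const.mul (d.E_cd hp)) _
          (JetB_mono ?_ (JetB_const_mul (d.E_cd hp) _ (d.E_jet hp))))
        rw [abs_of_nonneg hΛ1]; exact hδ1
      · have e : (fun b => d.φ (gp p b) - (1 - (1 - d.s) * d.θ p) * aS b) =ᶠ[𝓝 q0]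
            fun b => aS p + (-(1 - d.s)) * d.E p b := by
          filter_upwards [d.φ_gp hp, hΦ] with q hq hq2
          rw [hq, hq2]; ring
        refine JetB_congr e (JetB_const_add (contDiffAt_const.mul (d.E_cd hp)) _
          (JetB_mono ?_ (JetB_const_mul (d.E_cd hp) _ (d.E_jet hp))))
        rw [abs_neg, abs_of_nonneg (by linarith)]
        nlinarith
      · exact hζ
      · rw [hval]; exact hmem.2
  by_cases hζ : y.2 = 0
  · have hcd : ContDiffAt ℝ ∞ (hart d.A d.φ) y := hart_cd (d.A_cd hy.1) (d.φ_cd hy.1) hy.2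
    refine KB_of_frequently hcd (d.PD_hart hy) ?_
    have t : Tendsto (fun ζ : ℂ => ((y.1, ζ) : B2 × ℂ)) (𝓝[≠] 0) (𝓝 y) := by
      have h1 : Tendsto (fun ζ : ℂ => ((y.1, ζ) : B2 × ℂ)) (𝓝 0) (𝓝 (y.1, 0)) :=
        (continuous_const.prodMk continuous_id).tendsto 0
      have h2 : ((y.1, 0) : B2 × ℂ) = y := by rw [← hζ]
      rw [h2] at h1
      exact h1.mono_left nhdsWithin_le_nhds
    refine t.frequently (Eventually.frequently ?_)
    have hev : ∀ᶠ ζ : ℂ in 𝓝 0, Real.exp (d.φ y.1) * ‖ζ‖ ^ 2 < 1 := by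
      have hc : Continuous (fun ζ : ℂ => Real.exp (d.φ y.1) * ‖ζ‖ ^ 2) := by fun_prop
      apply hc.continuousAt.eventually_lt_const
      simp
    filter_upwards [hev.filter_mono nhdsWithin_le_nhds, self_mem_nhdsWithin] with ζ h1 h2
    exact main ζ h2 ⟨hy.1, h1⟩
  · exact main y.2 hζ hy

/-- gradient bound -/
theorem gradφ : ∃ C, ∀ b ∈ Dom, ∀ ξ : B2, |fderiv ℝ d.φ b ξ| ≤ C * Real.sqrt (D11 aS ξ ξ b).re := by
  refine ⟨2 * (‖iteratedFDeriv ℝ 1 aS q0‖ + d.δ + d.τ * d.CW), fun p hp ξ => ?_⟩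
  refine grad_transport hp d.φ_smooth ?_ ξ
  have hs4 := d.hs4
  have hs0 := d.hs0
  have hδ0 := d.hδ0
  have hθ := d.θ_mem p
  have c1 : ContDiffAt ℝ ∞ (fun q => (1 - (1 - d.s) * d.θ p) * aS q) q0 :=
    contDiffAt_const.mul aS_cd_q0
  have c2 : ContDiffAt ℝ ∞ (fun q => (-(1 - d.s)) * d.E p q) q0 :=
    contDiffAt_const.mul (d.E_cd hp)
  have c3 : ContDiffAt ℝ ∞ (fun q => d.τ * d.Φ (gp p q)) q0 :=
    contDiffAt_const.mul (d.Φ_cd hp)
  have e : (fun q => d.φ (gp p q)) =ᶠ[𝓝 q0] fun q => (((1 - (1 - d.s) * d.θ p) * aS q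
      + (-(1 - d.s)) * d.E p q) + d.τ * d.Φ (gp p q)) - (-aS p) := by
    filter_upwards [d.φ_gp hp] with q hq
    rw [hq]; ring
  rw [(e.iteratedFDeriv ℝ 1).eq_of_nhds, jet_sub_const le_rfl ((c1.add c2).add c3)]
  have s1 : iteratedFDeriv ℝ 1 (fun q => ((1 - (1 - d.s) * d.θ p) * aS q
      + (-(1 - d.s)) * d.E p q) + d.τ * d.Φ (gp p q)) q0
      = iteratedFDeriv ℝ 1 (fun q => (1 - (1 - d.s) * d.θ p) * aS q
        + (-(1 - d.s)) * d.E p q) q0 + iteratedFDeriv ℝ 1 (fun q => d.τ * d.Φ (gp p q)) q0 :=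
    iteratedFDeriv_add_apply ((c1.add c2).of_le (by exact_mod_cast le_top))
      (c3.of_le (by exact_mod_cast le_top))
  have s2 : iteratedFDeriv ℝ 1 (fun q => (1 - (1 - d.s) * d.θ p) * aS q
        + (-(1 - d.s)) * d.E p q) q0
      = iteratedFDeriv ℝ 1 (fun q => (1 - (1 - d.s) * d.θ p) * aS q) q0
        + iteratedFDeriv ℝ 1 (fun q => (-(1 - d.s)) * d.E p q) q0 :=
    iteratedFDeriv_add_apply (c1.of_le (by exact_mod_cast le_top))
      (c2.of_le (by exact_mod_cast le_top))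
  have s3 : iteratedFDeriv ℝ 1 (fun q => (1 - (1 - d.s) * d.θ p) * aS q) q0
      = (1 - (1 - d.s) * d.θ p) • iteratedFDeriv ℝ 1 aS q0 :=
    iteratedFDeriv_const_smul_apply' (a := (1 - (1 - d.s) * d.θ p))
      (aS_cd_q0.of_le (by exact_mod_cast le_top))
  have b1 : ‖iteratedFDeriv ℝ 1 (fun q => (1 - (1 - d.s) * d.θ p) * aS q) q0‖
      ≤ ‖iteratedFDeriv ℝ 1 aS q0‖ := by
    rw [s3, norm_smul, Real.norm_eq_abs]
    have h1 : |1 - (1 - d.s) * d.θ p| ≤ 1 := by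
      rw [abs_le]; constructor <;> nlinarith [hθ.1, hθ.2]
    calc |1 - (1 - d.s) * d.θ p| * ‖iteratedFDeriv ℝ 1 aS q0‖
        ≤ 1 * ‖iteratedFDeriv ℝ 1 aS q0‖ := by gcongr
      _ = _ := one_mul _
  have b2 : ‖iteratedFDeriv ℝ 1 (fun q => (-(1 - d.s)) * d.E p q) q0‖ ≤ d.δ := by
    have := JetB_const_mul (d.E_cd hp) (-(1 - d.s)) (d.E_jet hp) 1 le_rfl (by norm_num)
    refine this.trans ?_
    rw [abs_neg, abs_of_nonneg (by linarith)]
    nlinarith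
  have b3 : ‖iteratedFDeriv ℝ 1 (fun q => d.τ * d.Φ (gp p q)) q0‖ ≤ d.τ * d.CW := by
    have := JetB_const_mul (d.Φ_cd hp) d.τ (d.ΦJ p hp) 1 le_rfl (by norm_num)
    refine this.trans ?_
    rw [abs_of_pos d.hτ0]
  rw [s1, s2]
  calc _ ≤ (‖iteratedFDeriv ℝ 1 (fun q => (1 - (1 - d.s) * d.θ p) * aS q) q0‖
        + ‖iteratedFDeriv ℝ 1 (fun q => (-(1 - d.s)) * d.E p q) q0‖)
        + ‖iteratedFDeriv ℝ 1 (fun q => d.τ * d.Φ (gp p q)) q0‖ :=
          (norm_add_le _ _).trans (add_le_add_left (norm_add_le _ _) _)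
    _ ≤ _ := by linarith

end BD

end Crest.Agent.R245
end

-- ▼ part R245/BulgeMake

/-! TASK BulgeMake: construction of a `Bulge`. -/

set_option autoImplicit false

namespace Crest.Agent.R245

open Complex Filter Topology
open scoped ContDiff ComplexConjugate

theorem exists_bulge : Nonempty Bulge := by
  obtain ⟨CW, η, τ₀, hCW, hη, hη1, hτ₀, hτ₀1, hW⟩ := wild_exists
  -- twist
  obtain ⟨τ, hτ0, hτ4, hττ₀, hτCW⟩ : ∃ τ : ℝ, 0 < τ ∧ τ ≤ 1/4 ∧ τ ≤ τ₀ ∧ τ * CW ≤ 1/4 := by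
    refine ⟨min τ₀ (min (1/4) (1 / (4 * CW))), ?_, ?_, min_le_left _ _, ?_⟩
    · exact lt_min hτ₀ (lt_min (by norm_num) (by positivity))
    · exact (min_le_right _ _).trans (min_le_left _ _)
    · have h : min τ₀ (min (1/4) (1 / (4 * CW))) ≤ 1 / (4 * CW) :=
        (min_le_right _ _).trans (min_le_right _ _)
      calc min τ₀ (min (1/4) (1 / (4 * CW))) * CW ≤ 1 / (4 * CW) * CW := by gcongr
        _ = 1/4 := by field_simp
  have hτ1 : τ ≤ 1 := by linarith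
  set s : ℝ := τ * η with hs
  have hs0 : 0 < s := mul_pos hτ0 hη
  have hs4 : s ≤ 1/4 := by
    calc τ * η ≤ τ * 1 := by gcongr
      _ ≤ 1/4 := by linarith
  -- curvature inputs
  obtain ⟨Λ, hΛ, hR2⟩ := curvR2 η CW hη hη1 hCW
  obtain ⟨c2, hc2, B2', hR2'⟩ := hR2 Λ le_rfl τ hτ0 hτ1
  obtain ⟨δ1, hδ1, c1, hc1, B1, hR1⟩ := curvR1 Λ s hΛ hs0 (by linarith)
  obtain ⟨χ, χs, χc, χ01, χ1, χ0⟩ := exists_chi
  have hΛ0 : 0 < Λ := by linarith
  -- jet size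
  obtain ⟨δ, hδ0, hδa, hδb, hδc⟩ : ∃ δ : ℝ, 0 < δ ∧ Λ * δ ≤ δ1 ∧ δ ≤ s / 8 ∧ Λ * δ ≤ 1/8 := by
    refine ⟨min (δ1 / Λ) (min (s / 8) (1 / (8 * Λ))), ?_, ?_, ?_, ?_⟩
    · exact lt_min (by positivity) (lt_min (by positivity) (by positivity))
    · calc Λ * min (δ1 / Λ) (min (s / 8) (1 / (8 * Λ))) ≤ Λ * (δ1 / Λ) := by
            gcongr; exact min_le_left _ _
        _ = δ1 := by field_simp
    · exact (min_le_right _ _).trans (min_le_left _ _)
    · calc Λ * min (δ1 / Λ) (min (s / 8) (1 / (8 * Λ))) ≤ Λ * (1 / (8 * Λ)) := by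
            gcongr; exact (min_le_right _ _).trans (min_le_right _ _)
        _ = 1/8 := by field_simp
  obtain ⟨ε₁, hε₁, A₀, hA₀, hJ⟩ := jet_transition χ χs χc χ01 δ hδ0
  obtain ⟨ψ, a₁, κ, ψs, ha01, ha0κ, hκa1, ψ0, ψ1, ψd, ψnn, ψle, ψk⟩ :=
    exists_psi ε₁ (max A₀ 2) hε₁
  have ha2 : 2 ≤ max A₀ 2 := le_max_right _ _
  set M : ℝ := Real.exp (a₁ + 2 * κ + 2) with hM
  have hM4 : 4 ≤ M := by
    have := Real.add_one_le_exp (a₁ + 2 * κ + 2)
    linarith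
  obtain ⟨Φ, Φs, Φ0, ΦJ, ΦL, ΦG, ΦV⟩ := hW M (by linarith)
  let d : BD :=
    { CW := CW, η := η, τ := τ, Λ := Λ, s := s, κ := κ, a₁ := a₁, M := M, δ := δ
      χ := χ, ψ := ψ, Φ := Φ
      hτ0 := hτ0, hτ1 := hτ1, hCW := hCW, hη := hη, hη1 := hη1, hs := hs, hs0 := hs0
      hs4 := hs4, hτCW := hτCW, hΛ := hΛ, hδ0 := hδ0
      hδΛ := by nlinarith
      hδs := by linarith
      hM4 := hM4, hκ0 := by linarith, ha1 := by linarith
      hM := by rw [hM, Real.log_exp]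
      χs := χs, χ01 := χ01, χ1 := χ1, χ0 := χ0
      ψs := ψs, ψ0 := fun t ht => ψ0 t (ht.trans ha2), ψ1 := ψ1, ψd := ψd, ψnn := ψnn
      Jt := hJ (max A₀ 2) ψ (le_max_left _ _) ψs ψ0 ψd ψk
      Φs := Φs, Φ0 := Φ0, ΦJ := ΦJ, ΦL := ΦL, ΦG := ΦG }
  have hd1 : (d.Λ - 1) * d.δ ≤ δ1 := by
    show (Λ - 1) * δ ≤ δ1
    nlinarith
  have hd2 : d.δ ≤ δ1 := by
    show δ ≤ δ1
    nlinarith
  refine ⟨
    { A := d.A
      φ := d.φ
      smoothA := d.A_smooth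
      smoothφ := d.φ_smooth
      outA := ?_
      outφ := ?_
      φ_le := fun b hb => d.φ_le hb
      le_A := fun b _ => d.le_A
      posA := ⟨1/2, by norm_num, fun b hb ξ => d.posA hb ξ⟩
      posφ := ⟨d.s / 2, by have := d.hs0; positivity, fun b hb ξ => d.posφ hb ξ⟩
      gradφ := d.gradφ
      curv := ⟨min c1 c2, lt_min hc1 hc2, max B1 B2', fun y hy => d.curv hd1 hd2 hR1 hR2' hy⟩
      vanish := ?_ }⟩
  · intro b hb h
    simp only [BD.A, d.T_zero_of hb h]; ring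
  · intro b hb h
    simp only [BD.φ, d.T_zero_of hb h, d.Φ_zero_of hb h]; ring
  · intro F hF C hFC
    have hMpos : 0 < M := by linarith
    refine ΦV τ (min (1/64) (1 / M)) hτ0 hττ₀ (lt_min (by norm_num) (by positivity)) F hF
      (C * Real.exp ((1 - s) * κ / 2)) ?_
    intro p hp hpV
    have hr : 0 < rho p := hp
    have hrp : rho p = p.2.im - ‖p.1‖ ^ 2 := rfl
    have h1 : p.2.im < 1/64 := hpV.trans_le (min_le_left _ _)
    have h2 : p.2.im < 1 / M := hpV.trans_le (min_le_right _ _)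
    have h3 : ‖p.1‖ < 1/8 := by
      have h4 : ‖p.1‖ ^ 2 < 1/64 := by linarith
      have h5 := norm_nonneg p.1
      nlinarith
    have h4 : rho p ≤ 1 / M := by nlinarith [sq_nonneg ‖p.1‖]
    have h5 : d.a₁ + 2 * d.κ + 2 ≤ aS p := d.aS_ge hp h4
    have h6 : d.T p = aS p - κ := by
      refine d.T_deep ?_ (by linarith)
      have := d.hκ0
      linarith
    have h7 := hFC p hp (by linarith)
    have h8 : d.φ p / 2 = (1 - s) * κ / 2 + τ / 2 * (Φ p + η * aS p) := by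
      show (aS p - (1 - s) * d.T p + τ * Φ p) / 2 = _
      rw [h6, hs]; ring
    rw [h8, Real.exp_add, ← mul_assoc] at h7
    exact h7

end Crest.Agent.R245
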