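import Crest.Agent.R245.Ops
import Crest.Agent.R245.OpsKB
import Mathlib
import Crest.Prelude.Def_KahlerDomain

-- ▼ part R245/MetricCurv
section

/-!
Row 245: curvature of a Kähler metric on an open subset of `ℂⁿ` (Prelude definitions) in terms of
Wirtinger derivatives of the Hermitian form.
-/

set_option autoImplicit false

namespace Crest.Agent.R245

open Complex Filter Topology
open scoped ContDiff ComplexConjugate
open Crest.GeometryTopology

namespace MC

variable {n : ℕ} {U : Set (Fin n → ℂ)}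


lemma fderiv_complex_smul (f : (Fin n → ℂ) → ℂ) (p : Fin n → ℂ) (c : ℂ) (X : Fin n → ℂ) :
    fderiv ℝ f p (c • X) =
      (c.re : ℂ) * fderiv ℝ f p X + (c.im : ℂ) * fderiv ℝ f p (Complex.I • X) := by
  have h : c • X = (c.re : ℝ) • X + (c.im : ℝ) • (Complex.I • X) := by
    ext i
    simp only [Pi.smul_apply, Pi.add_apply, smul_eq_mul, Complex.real_smul]
    conv_lhs => rw [← Complex.re_add_im c]
    ring
  rw [h, map_add, map_smul, map_smul, Complex.real_smul, Complex.real_smul]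

lemma dz_add_dir (X Y : Fin n → ℂ) (f : (Fin n → ℂ) → ℂ) (p : Fin n → ℂ) :
    dz (X + Y) f p = dz X f p + dz Y f p := by
  simp only [dz, smul_add, map_add]; ring

lemma dz_smul_dir (c : ℂ) (X : Fin n → ℂ) (f : (Fin n → ℂ) → ℂ) (p : Fin n → ℂ) :
    dz (c • X) f p = c * dz X f p := by
  have h1 := fderiv_complex_smul f p c X
  have h2 : fderiv ℝ f p (Complex.I • (c • X)) =
      ((Complex.I * c).re : ℂ) * fderiv ℝ f p X
        + ((Complex.I * c).im : ℂ) * fderiv ℝ f p (Complex.I • X) := by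
    rw [smul_smul]; exact fderiv_complex_smul f p (Complex.I * c) X
  simp only [dz, h1, h2]
  have e1 : ((Complex.I * c).re : ℂ) = - (c.im : ℂ) := by simp
  have e2 : ((Complex.I * c).im : ℂ) = (c.re : ℂ) := by simp
  rw [e1, e2]
  conv_rhs => rw [← Complex.re_add_im c]
  have hI := Complex.I_mul_I
  generalize fderiv ℝ f p X = a
  generalize fderiv ℝ f p (Complex.I • X) = b
  linear_combination ((c.im : ℂ) * b / 2) * hI

lemma dz_zero_dir (f : (Fin n → ℂ) → ℂ) (p : Fin n → ℂ) : dz 0 f p = 0 := by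
  simp [dz]

lemma dz_sum_dir {ι : Type*} (s : Finset ι) (X : ι → Fin n → ℂ) (f : (Fin n → ℂ) → ℂ)
    (p : Fin n → ℂ) : dz (∑ k ∈ s, X k) f p = ∑ k ∈ s, dz (X k) f p := by
  classical
  induction s using Finset.induction_on with
  | empty => simp [dz_zero_dir]
  | insert a s ha ih => rw [Finset.sum_insert ha, Finset.sum_insert ha, dz_add_dir, ih]

lemma eq_sum_smul_stdVec (X : Fin n → ℂ) : X = ∑ k, X k • stdVec k := by
  ext i
  simp [stdVec, Finset.sum_apply, Pi.single_apply]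

/-- `∂_X f = ∑ X_k ∂f/∂z_k`. -/
lemma dz_eq_sum (X : Fin n → ℂ) (f : (Fin n → ℂ) → ℂ) (p : Fin n → ℂ) :
    dz X f p = ∑ k, X k * wirtingerDeriv f k p := by
  conv_lhs => rw [eq_sum_smul_stdVec X]
  rw [dz_sum_dir]
  refine Finset.sum_congr rfl fun k _ => ?_
  rw [dz_smul_dir]; rfl

lemma fderiv_conj_comp (f : (Fin n → ℂ) → ℂ) (p X : Fin n → ℂ) :
    fderiv ℝ (fun q => conj (f q)) p X = conj (fderiv ℝ f p X) := by
  have h : (fun q => conj (f q)) = (Complex.conjCLE : ℂ ≃L[ℝ] ℂ) ∘ f := by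
    ext q; simp
  rw [h, ContinuousLinearEquiv.comp_fderiv]
  simp

/-- `∂̄_X (conj f) = conj (∂_X f)`. -/
lemma dzb_conj' (X : Fin n → ℂ) (f : (Fin n → ℂ) → ℂ) (p : Fin n → ℂ) :
    dzb X (fun q => conj (f q)) p = conj (dz X f p) := by
  simp only [dz, dzb, fderiv_conj_comp, map_div₀, map_sub, map_mul, Complex.conj_I]
  simp only [map_ofNat]
  ring

variable (g : HermitianMetricOn n U) {p : Fin n → ℂ}

lemma h_contDiffAt (hU : IsOpen U) (hp : p ∈ U) (i j : Fin n) : ContDiffAt ℝ ∞ (g.h i j) p :=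
  (g.smooth i j).contDiffAt (hU.mem_nhds hp)

lemma h_differentiableAt (hU : IsOpen U) (hp : p ∈ U) (i j : Fin n) :
    DifferentiableAt ℝ (g.h i j) p :=
  (h_contDiffAt g hU hp i j).differentiableAt (by simp)

lemma herm_contDiffAt (hU : IsOpen U) (hp : p ∈ U) (Y W : Fin n → ℂ) :
    ContDiffAt ℝ ∞ (fun q => g.herm q Y W) p := by
  unfold HermitianMetricOn.herm
  refine ContDiffAt.sum fun i _ => ContDiffAt.sum fun j _ => ?_
  exact ((h_contDiffAt g hU hp i j).mul contDiffAt_const).mul contDiffAt_const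

lemma herm_differentiableAt (hU : IsOpen U) (hp : p ∈ U) (Y W : Fin n → ℂ) :
    DifferentiableAt ℝ (fun q => g.herm q Y W) p :=
  (herm_contDiffAt g hU hp Y W).differentiableAt (by simp)

lemma fderiv_herm (hU : IsOpen U) (hp : p ∈ U) (X Y W : Fin n → ℂ) :
    fderiv ℝ (fun q => g.herm q Y W) p X =
      ∑ i, ∑ j, fderiv ℝ (g.h i j) p X * Y i * conj (W j) := by
  unfold HermitianMetricOn.herm
  have hd : ∀ i j, DifferentiableAt ℝ (fun q => g.h i j q * Y i * conj (W j)) p := fun i j =>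
    ((h_differentiableAt g hU hp i j).mul_const _).mul_const _
  rw [fderiv_fun_sum (fun i _ => DifferentiableAt.fun_sum fun j _ => hd i j)]
  simp only [sum_apply]
  refine Finset.sum_congr rfl fun i _ => ?_
  rw [fderiv_fun_sum (fun j _ => hd i j)]
  simp only [sum_apply]
  refine Finset.sum_congr rfl fun j _ => ?_
  rw [fderiv_mul_const ((h_differentiableAt g hU hp i j).mul_const _),
    fderiv_mul_const (h_differentiableAt g hU hp i j)]
  simp only [smul_apply, smul_eq_mul]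
  ring

lemma dz_herm (hU : IsOpen U) (hp : p ∈ U) (X Y W : Fin n → ℂ) :
    dz X (fun q => g.herm q Y W) p = ∑ i, ∑ j, dz X (g.h i j) p * Y i * conj (W j) := by
  simp only [dz, fderiv_herm g hU hp, Finset.mul_sum, ← Finset.sum_sub_distrib, Finset.sum_div]
  refine Finset.sum_congr rfl fun i _ => Finset.sum_congr rfl fun j _ => ?_
  ring

lemma dz_herm_symm (hU : IsOpen U) (hK : g.IsKahler) (hp : p ∈ U) (X Y W : Fin n → ℂ) :
    dz X (fun q => g.herm q Y W) p = dz Y (fun q => g.herm q X W) p := by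
  rw [dz_herm g hU hp, dz_herm g hU hp]
  simp only [dz_eq_sum, Finset.sum_mul]
  -- ∑ i, ∑ j, ∑ k
  have h1 : ∀ (A B : Fin n → ℂ),
      (∑ i, ∑ j, ∑ k, A k * wirtingerDeriv (g.h i j) k p * B i * conj (W j)) =
      ∑ i, ∑ k, ∑ j, A k * wirtingerDeriv (g.h i j) k p * B i * conj (W j) := by
    intro A B
    refine Finset.sum_congr rfl fun i _ => ?_
    rw [Finset.sum_comm]
  rw [h1, h1, Finset.sum_comm]
  refine Finset.sum_congr rfl fun k _ => Finset.sum_congr rfl fun i _ =>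
    Finset.sum_congr rfl fun j _ => ?_
  rw [hK p hp i j k]
  ring

lemma herm_conj (hp : p ∈ U) (Y W : Fin n → ℂ) : conj (g.herm p Y W) = g.herm p W Y := by
  unfold HermitianMetricOn.herm
  simp only [map_sum, map_mul, Complex.conj_conj]
  rw [Finset.sum_comm]
  refine Finset.sum_congr rfl fun j _ => Finset.sum_congr rfl fun i _ => ?_
  rw [g.hermitian p hp j i]
  ring

lemma dzb_herm (hU : IsOpen U) (hp : p ∈ U) (X Y W : Fin n → ℂ) :
    dzb X (fun q => g.herm q Y W) p = conj (dz X (fun q => g.herm q W Y) p) := by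
  have h : (fun q => g.herm q Y W) =ᶠ[𝓝 p] fun q => conj (g.herm q W Y) := by
    filter_upwards [hU.mem_nhds hp] with q hq
    rw [herm_conj g hq]
  rw [← dzb_conj']
  simp only [dzb, h.fderiv_eq]

lemma dRiem_eq (hU : IsOpen U) (hp : p ∈ U) (X Y Z : Fin n → ℂ) :
    g.dRiem p X Y Z = (fderiv ℝ (fun q => g.herm q Y Z) p X).re := by
  unfold HermitianMetricOn.dRiem HermitianMetricOn.riem
  have h : (fun q => (g.herm q Y Z).re) = (Complex.reCLM : ℂ →L[ℝ] ℝ) ∘ (fun q => g.herm q Y Z) := by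
    ext q; simp
  rw [h, fderiv_comp p Complex.reCLM.differentiableAt (herm_differentiableAt g hU hp Y Z)]
  simp

lemma koszul (hU : IsOpen U) (hK : g.IsKahler) (hp : p ∈ U) (X Y Z : Fin n → ℂ) :
    (g.dRiem p X Y Z + g.dRiem p Y X Z - g.dRiem p Z X Y) / 2 =
      (dz X (fun q => g.herm q Y Z) p).re := by
  rw [dRiem_eq g hU hp, dRiem_eq g hU hp, dRiem_eq g hU hp]
  have e : ∀ A B C : Fin n → ℂ, (fderiv ℝ (fun q => g.herm q B C) p A).re =
      (dz A (fun q => g.herm q B C) p).re + (dz A (fun q => g.herm q C B) p).re := by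
    intro A B C
    have h1 : fderiv ℝ (fun q => g.herm q B C) p A =
        dz A (fun q => g.herm q B C) p + dzb A (fun q => g.herm q B C) p := by
      simp only [dz, dzb]; ring
    rw [h1, dzb_herm g hU hp, Complex.add_re, Complex.conj_re]
  rw [e, e, e]
  rw [dz_herm_symm g hU hK hp Y X Z, dz_herm_symm g hU hK hp X Z Y,
    dz_herm_symm g hU hK hp Y Z X]
  ring

/-! ### Linearity of the Hermitian form -/

lemma herm_add_left (p X X' Y : Fin n → ℂ) :
    g.herm p (X + X') Y = g.herm p X Y + g.herm p X' Y := by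
  unfold HermitianMetricOn.herm
  simp only [← Finset.sum_add_distrib]
  refine Finset.sum_congr rfl fun i _ => Finset.sum_congr rfl fun j _ => ?_
  simp only [Pi.add_apply]; ring

lemma herm_sub_left (p X X' Y : Fin n → ℂ) :
    g.herm p (X - X') Y = g.herm p X Y - g.herm p X' Y := by
  unfold HermitianMetricOn.herm
  simp only [← Finset.sum_sub_distrib]
  refine Finset.sum_congr rfl fun i _ => Finset.sum_congr rfl fun j _ => ?_
  simp only [Pi.sub_apply]; ring


lemma herm_self_pos (hp : p ∈ U) {X : Fin n → ℂ} (hX : X ≠ 0) : 0 < (g.herm p X X).re :=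
  g.posDef p hp X hX

/-- non-degeneracy -/
lemma herm_nondeg (hp : p ∈ U) {V W : Fin n → ℂ} (h : ∀ Z, g.herm p V Z = g.herm p W Z) :
    V = W := by
  by_contra hne
  have h1 : V - W ≠ 0 := sub_ne_zero.2 hne
  have h2 := herm_self_pos g hp h1
  rw [herm_sub_left, h, sub_self] at h2
  simp at h2

/-- the coefficient matrix used by `raise` -/
noncomputable def coefM (q : Fin n → ℂ) : Matrix (Fin n) (Fin n) ℂ := Matrix.of fun i j => g.h j i q

lemma coefM_mulVec (q : Fin n → ℂ) (W : Fin n → ℂ) (i : Fin n) :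
    (coefM g q).mulVec W i = ∑ j, g.h j i q * W j := by
  simp [coefM, Matrix.mulVec, dotProduct]

lemma herm_eq_mulVec (q W Z : Fin n → ℂ) :
    g.herm q W Z = ∑ i, (coefM g q).mulVec W i * conj (Z i) := by
  unfold HermitianMetricOn.herm
  rw [Finset.sum_comm]
  refine Finset.sum_congr rfl fun j _ => ?_
  rw [coefM_mulVec, Finset.sum_mul]

lemma coefM_det_ne_zero (hp : p ∈ U) : (coefM g p).det ≠ 0 := by
  intro h0
  obtain ⟨v, hv, hv0⟩ := Matrix.exists_mulVec_eq_zero_iff.2 h0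
  have h1 := herm_self_pos g hp hv
  rw [herm_eq_mulVec, hv0] at h1
  simp at h1

lemma herm_stdVec (q W : Fin n → ℂ) (i : Fin n) :
    g.herm q W (stdVec i) = (coefM g q).mulVec W i := by
  rw [herm_eq_mulVec]
  rw [Finset.sum_eq_single i]
  · simp [stdVec]
  · intro b _ hb
    simp [stdVec, Pi.single_eq_of_ne hb]
  · intro h; exact absurd (Finset.mem_univ i) h

/-- an antilinear functional is determined by its values at the standard basis -/
lemma antilin_eq_sum {φ : (Fin n → ℂ) → ℂ} (hadd : ∀ Z Z', φ (Z + Z') = φ Z + φ Z')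
    (hsmul : ∀ (c : ℂ) Z, φ (c • Z) = conj c * φ Z) (Z : Fin n → ℂ) :
    φ Z = ∑ i, φ (stdVec i) * conj (Z i) := by
  have h0 : φ 0 = 0 := by
    have := hsmul 0 0
    simpa using this
  have hsum : ∀ (s : Finset (Fin n)) (X : Fin n → (Fin n → ℂ)),
      φ (∑ k ∈ s, X k) = ∑ k ∈ s, φ (X k) := by
    classical
    intro s X
    induction s using Finset.induction_on with
    | empty => simp [h0]
    | insert a s ha ih => rw [Finset.sum_insert ha, Finset.sum_insert ha, hadd, ih]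
  conv_lhs => rw [eq_sum_smul_stdVec Z]
  rw [hsum]
  refine Finset.sum_congr rfl fun i _ => ?_
  rw [hsmul, mul_comm]

lemma raise_spec (hp : p ∈ U) {φ : (Fin n → ℂ) → ℂ} {ℓ : (Fin n → ℂ) → ℝ}
    (hadd : ∀ Z Z', φ (Z + Z') = φ Z + φ Z')
    (hsmul : ∀ (c : ℂ) Z, φ (c • Z) = conj c * φ Z) (hℓ : ∀ Z, ℓ Z = (φ Z).re)
    (Z : Fin n → ℂ) : g.herm p (g.raise p ℓ) Z = φ Z := by
  have hc : ∀ i : Fin n, ((ℓ (stdVec i) : ℂ) + Complex.I * ℓ (Complex.I • stdVec i)) =
      φ (stdVec i) := by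
    intro i
    rw [hℓ, hℓ, hsmul]
    apply Complex.ext <;> simp
  have hM : (coefM g p).mulVec (g.raise p ℓ) = fun i => φ (stdVec i) := by
    have h1 : g.raise p ℓ = (coefM g p)⁻¹.mulVec (fun i => φ (stdVec i)) := by
      unfold HermitianMetricOn.raise
      simp only [hc]
      rfl
    rw [h1, Matrix.mulVec_mulVec, Matrix.mul_nonsing_inv _ (isUnit_iff_ne_zero.2
      (coefM_det_ne_zero g hp)), Matrix.one_mulVec]
  rw [herm_eq_mulVec, hM]
  exact (antilin_eq_sum hadd hsmul Z).symm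

lemma dz_herm_add_right (hU : IsOpen U) (hp : p ∈ U) (X Y Z Z' : Fin n → ℂ) :
    dz X (fun q => g.herm q Y (Z + Z')) p =
      dz X (fun q => g.herm q Y Z) p + dz X (fun q => g.herm q Y Z') p := by
  simp only [dz_herm g hU hp, ← Finset.sum_add_distrib]
  refine Finset.sum_congr rfl fun i _ => Finset.sum_congr rfl fun j _ => ?_
  simp only [Pi.add_apply, map_add]; ring

lemma dz_herm_smul_right (hU : IsOpen U) (hp : p ∈ U) (c : ℂ) (X Y Z : Fin n → ℂ) :
    dz X (fun q => g.herm q Y (c • Z)) p = conj c * dz X (fun q => g.herm q Y Z) p := by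
  simp only [dz_herm g hU hp, Finset.mul_sum]
  refine Finset.sum_congr rfl fun i _ => Finset.sum_congr rfl fun j _ => ?_
  simp only [Pi.smul_apply, smul_eq_mul, map_mul]; ring

/-- the Christoffel vector of a Kähler metric -/
theorem christoffel_spec (hU : IsOpen U) (hK : g.IsKahler) (hp : p ∈ U) (X Y W : Fin n → ℂ) :
    g.herm p (g.christoffel p X Y) W = dz X (fun q => g.herm q Y W) p := by
  unfold HermitianMetricOn.christoffel
  exact raise_spec g hp (φ := fun Z => dz X (fun q => g.herm q Y Z) p)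
    (fun Z Z' => dz_herm_add_right g hU hp X Y Z Z')
    (fun c Z => dz_herm_smul_right g hU hp c X Y Z)
    (fun Z => koszul g hU hK hp X Y Z) W

theorem christoffel_symm (hU : IsOpen U) (hK : g.IsKahler) (hp : p ∈ U) (X Y : Fin n → ℂ) :
    g.christoffel p X Y = g.christoffel p Y X := by
  apply herm_nondeg g hp
  intro Z
  rw [christoffel_spec g hU hK hp, christoffel_spec g hU hK hp, dz_herm_symm g hU hK hp]

/-! ### Smoothness of the Christoffel map -/

lemma contDiffAt_det {E : Type*} [NormedAddCommGroup E] [NormedSpace ℝ E] {k : WithTop ℕ∞}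
    {m : ℕ} {M : E → Matrix (Fin m) (Fin m) ℂ} {p : E}
    (h : ∀ i j, ContDiffAt ℝ k (fun q => M q i j) p) :
    ContDiffAt ℝ k (fun q => (M q).det) p := by
  simp only [Matrix.det_apply]
  refine ContDiffAt.sum fun σ _ => ?_
  refine ContDiffAt.const_smul _ ?_
  exact contDiffAt_prod fun i _ => h _ _

lemma contDiffAt_inv {E : Type*} [NormedAddCommGroup E] [NormedSpace ℝ E] {k : WithTop ℕ∞}
    {m : ℕ} {M : E → Matrix (Fin m) (Fin m) ℂ} {p : E}
    (h : ∀ i j, ContDiffAt ℝ k (fun q => M q i j) p) (hdet : (M p).det ≠ 0) (i j : Fin m) :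
    ContDiffAt ℝ k (fun q => (M q)⁻¹ i j) p := by
  have e : (fun q => (M q)⁻¹ i j) = fun q => ((M q).det)⁻¹ * (M q).adjugate i j := by
    ext q
    rw [Matrix.inv_def, Ring.inverse_eq_inv']
    simp [Matrix.smul_apply]
  rw [e]
  refine ((contDiffAt_det h).inv hdet).mul ?_
  simp only [Matrix.adjugate_apply]
  refine contDiffAt_det fun a b => ?_
  by_cases hab : a = j
  · subst hab
    simp only [Matrix.updateRow_self]
    exact contDiffAt_const
  · simp only [Matrix.updateRow_ne hab]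
    exact h a b

variable (g : HermitianMetricOn n U) {p : Fin n → ℂ}

lemma christoffel_eq (hU : IsOpen U) (hK : g.IsKahler) (hp : p ∈ U) (X Y : Fin n → ℂ) :
    g.christoffel p X Y =
      (coefM g p)⁻¹.mulVec (fun i => dz X (fun q => g.herm q Y (stdVec i)) p) := by
  have h1 : (coefM g p).mulVec (g.christoffel p X Y) =
      fun i => dz X (fun q => g.herm q Y (stdVec i)) p := by
    ext i
    rw [← herm_stdVec, christoffel_spec g hU hK hp]
  rw [← h1, Matrix.mulVec_mulVec, Matrix.nonsing_inv_mul _ (isUnit_iff_ne_zero.2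
      (coefM_det_ne_zero g hp)), Matrix.one_mulVec]

lemma christoffel_contDiffAt (hU : IsOpen U) (hK : g.IsKahler) (hp : p ∈ U) (X Y : Fin n → ℂ) :
    ContDiffAt ℝ ∞ (fun q => g.christoffel q X Y) p := by
  have h1 : (fun q => g.christoffel q X Y) =ᶠ[𝓝 p] fun q =>
      (coefM g q)⁻¹.mulVec (fun i => dz X (fun q' => g.herm q' Y (stdVec i)) q) := by
    filter_upwards [hU.mem_nhds hp] with q hq
    exact christoffel_eq g hU hK hq X Y
  refine ContDiffAt.congr_of_eventuallyEq ?_ h1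
  rw [contDiffAt_pi]
  intro i
  simp only [Matrix.mulVec, dotProduct]
  refine ContDiffAt.sum fun j _ => ?_
  refine ContDiffAt.mul ?_ ?_
  · exact contDiffAt_inv (fun a b => h_contDiffAt g hU hp b a) (coefM_det_ne_zero g hp) i j
  · exact contDiffAt_dz_inf X (herm_contDiffAt g hU hp Y (stdVec j))

lemma fderiv_herm_mul (hU : IsOpen U) (hp : p ∈ U) {G : (Fin n → ℂ) → (Fin n → ℂ)}
    (hG : DifferentiableAt ℝ G p) (X W : Fin n → ℂ) :
    fderiv ℝ (fun q => g.herm q (G q) W) p X =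
      fderiv ℝ (fun q => g.herm q (G p) W) p X + g.herm p (fderiv ℝ G p X) W := by
  rw [fderiv_herm g hU hp]
  have hGi : ∀ i, DifferentiableAt ℝ (fun q => G q i) p := fun i =>
    differentiableAt_pi.1 hG i
  have hGd : ∀ i, fderiv ℝ (fun q => G q i) p X = fderiv ℝ G p X i := by
    intro i
    rw [fderiv_apply hG i]
    rfl
  unfold HermitianMetricOn.herm
  have hd : ∀ i j, DifferentiableAt ℝ (fun q => g.h i j q * G q i * conj (W j)) p := fun i j =>
    ((h_differentiableAt g hU hp i j).mul (hGi i)).mul_const _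
  rw [fderiv_fun_sum (fun i _ => DifferentiableAt.fun_sum fun j _ => hd i j)]
  simp only [sum_apply]
  rw [← Finset.sum_add_distrib]
  refine Finset.sum_congr rfl fun i _ => ?_
  rw [fderiv_fun_sum (fun j _ => hd i j)]
  simp only [sum_apply]
  rw [← Finset.sum_add_distrib]
  refine Finset.sum_congr rfl fun j _ => ?_
  have hm : DifferentiableAt ℝ (fun q => g.h i j q * G q i) p :=
    (h_differentiableAt g hU hp i j).mul (hGi i)
  rw [fderiv_mul_const hm,
    fderiv_fun_mul (h_differentiableAt g hU hp i j) (hGi i)]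
  simp only [smul_apply, add_apply, smul_eq_mul, hGd]
  ring

lemma herm_curvature_aux (hU : IsOpen U) (hK : g.IsKahler) (hp : p ∈ U) (X Y Z W : Fin n → ℂ) :
    g.herm p (fderiv ℝ (fun q => g.christoffel q Y Z) p X
        + g.christoffel p X (g.christoffel p Y Z)) W =
      fderiv ℝ (dz Y (fun q => g.herm q Z W)) p X
        - g.herm p (g.christoffel p Y Z) (g.christoffel p X W) := by
  have h1 := fderiv_herm_mul g hU hp
    ((christoffel_contDiffAt g hU hK hp Y Z).differentiableAt (by simp)) X W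
  have h2 : (fun q => g.herm q (g.christoffel q Y Z) W) =ᶠ[𝓝 p] dz Y (fun q => g.herm q Z W) := by
    filter_upwards [hU.mem_nhds hp] with q hq
    exact christoffel_spec g hU hK hq Y Z W
  rw [h2.fderiv_eq] at h1
  have h3 : fderiv ℝ (fun q => g.herm q (g.christoffel p Y Z) W) p X =
      dz X (fun q => g.herm q (g.christoffel p Y Z) W) p
        + dzb X (fun q => g.herm q (g.christoffel p Y Z) W) p := by
    simp only [dz, dzb]; ring
  rw [h3, dzb_herm g hU hp, ← christoffel_spec g hU hK hp X (g.christoffel p Y Z) W,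
    ← christoffel_spec g hU hK hp X W (g.christoffel p Y Z), herm_conj g hp] at h1
  rw [herm_add_left]
  linear_combination -h1

/-- the curvature tensor of a Kähler metric -/
theorem herm_curvature (hU : IsOpen U) (hK : g.IsKahler) (hp : p ∈ U) (X Y Z W : Fin n → ℂ) :
    g.herm p (g.curvature p X Y Z) W =
      dzb X (dz Y (fun q => g.herm q Z W)) p - dzb Y (dz X (fun q => g.herm q Z W)) p
        - g.herm p (g.christoffel p Y Z) (g.christoffel p X W)
        + g.herm p (g.christoffel p X Z) (g.christoffel p Y W) := by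
  have e1 := herm_curvature_aux g hU hK hp X Y Z W
  have e2 := herm_curvature_aux g hU hK hp Y X Z W
  have e3 : g.curvature p X Y Z = (fderiv ℝ (fun q => g.christoffel q Y Z) p X
        + g.christoffel p X (g.christoffel p Y Z)) - (fderiv ℝ (fun q => g.christoffel q X Z) p Y
        + g.christoffel p Y (g.christoffel p X Z)) := by
    unfold HermitianMetricOn.curvature
    abel
  rw [e3, herm_sub_left, e1, e2]
  have hc : ContDiffAt ℝ ∞ (fun q => g.herm q Z W) p := herm_contDiffAt g hU hp Z W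
  have e4 : fderiv ℝ (dz Y (fun q => g.herm q Z W)) p X =
      dz X (dz Y (fun q => g.herm q Z W)) p + dzb X (dz Y (fun q => g.herm q Z W)) p := by
    rw [fderiv_eq_dz_add_dzb]
  have e5 : fderiv ℝ (dz X (fun q => g.herm q Z W)) p Y =
      dz Y (dz X (fun q => g.herm q Z W)) p + dzb Y (dz X (fun q => g.herm q Z W)) p := by
    rw [fderiv_eq_dz_add_dzb]
  rw [e4, e5, dz_comm (X := X) (Y := Y) (hc.of_le (by norm_cast))]
  ring

/-- the curvature numerator of a Kähler metric -/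
theorem riem_curvature (hU : IsOpen U) (hK : g.IsKahler) (hp : p ∈ U) (X Y : Fin n → ℂ) :
    g.riem p (g.curvature p X Y Y) X =
      (dzb X (dz Y (fun q => g.herm q Y X)) p - dzb Y (dz X (fun q => g.herm q Y X)) p
        - g.herm p (g.christoffel p Y Y) (g.christoffel p X X)
        + g.herm p (g.christoffel p X Y) (g.christoffel p X Y)).re := by
  unfold HermitianMetricOn.riem
  rw [herm_curvature g hU hK hp, christoffel_symm g hU hK hp Y X]

end MC

end Crest.Agent.R245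
end

-- ▼ part R245/Metric
section

/-! TASK Metric: the Kähler metric of a potential; its sectional curvature is `- negK / area`. -/

set_option autoImplicit false

namespace Crest.Agent.R245

open Complex Filter Topology
open scoped ContDiff ComplexConjugate
open Crest.GeometryTopology

namespace MC

variable {n : ℕ} {U : Set (Fin n → ℂ)}

/-- a ℂ-linear functional is determined by its values at the standard basis -/
lemma lin_eq_sum {φ : (Fin n → ℂ) → ℂ} (hadd : ∀ Z Z', φ (Z + Z') = φ Z + φ Z')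
    (hsmul : ∀ (c : ℂ) Z, φ (c • Z) = c * φ Z) (Z : Fin n → ℂ) :
    φ Z = ∑ i, φ (stdVec i) * Z i := by
  have h0 : φ 0 = 0 := by
    have := hsmul 0 0
    simpa using this
  have hsum : ∀ (s : Finset (Fin n)) (X : Fin n → (Fin n → ℂ)),
      φ (∑ k ∈ s, X k) = ∑ k ∈ s, φ (X k) := by
    classical
    intro s X
    induction s using Finset.induction_on with
    | empty => simp [h0]
    | insert a s ha ih => rw [Finset.sum_insert ha, Finset.sum_insert ha, hadd, ih]
  conv_lhs => rw [eq_sum_smul_stdVec Z]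
  rw [hsum]
  refine Finset.sum_congr rfl fun i _ => ?_
  rw [hsmul, mul_comm]

lemma D11_eq_sum {P : (Fin n → ℂ) → ℝ} {p : Fin n → ℂ} (hP : ContDiffAt ℝ ∞ P p)
    (X Y : Fin n → ℂ) :
    D11 P X Y p = ∑ i, ∑ j, D11 P (stdVec i) (stdVec j) p * X i * conj (Y j) := by
  rw [lin_eq_sum (φ := fun X => D11 P X Y p) (fun Z Z' => D11_add_left hP Z Z' Y)
    (fun c Z => D11_smul_left hP c Z Y) X]
  refine Finset.sum_congr rfl fun i _ => ?_
  rw [antilin_eq_sum (φ := fun Y => D11 P (stdVec i) Y p)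
    (fun Z Z' => D11_add_right hP (stdVec i) Z Z')
    (fun c Z => D11_smul_right hP c (stdVec i) Z) Y, Finset.sum_mul]
  refine Finset.sum_congr rfl fun j _ => ?_
  ring

lemma contDiffAt_ofReal {P : (Fin n → ℂ) → ℝ} {p : Fin n → ℂ} (hP : ContDiffAt ℝ ∞ P p) :
    ContDiffAt ℝ ∞ (fun q => (P q : ℂ)) p :=
  (Complex.ofRealCLM.contDiff (n := ∞)).contDiffAt.comp p hP

lemma contDiffAt_D11 {P : (Fin n → ℂ) → ℝ} {p : Fin n → ℂ} (hP : ContDiffAt ℝ ∞ P p)
    (X Y : Fin n → ℂ) : ContDiffAt ℝ ∞ (D11 P X Y) p := by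
  have : D11 P X Y = dz X (dzb Y (fun q => (P q : ℂ))) := by
    ext q; rfl
  rw [this]
  exact contDiffAt_dz_inf X (contDiffAt_dzb_inf Y (contDiffAt_ofReal hP))

/-- the Hermitian metric of a potential -/
noncomputable def potMetric (hU : IsOpen U) (P : (Fin n → ℂ) → ℝ)
    (hP : ContDiffOn ℝ ∞ P U) (hpd : ∀ p ∈ U, PD P p) : HermitianMetricOn n U where
  h i j p := D11 P (stdVec i) (stdVec j) p
  hermitian p hp i j := by
    rw [D11_conj (hP.contDiffAt (hU.mem_nhds hp))]
  posDef p hp X hX := by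
    rw [← D11_eq_sum (hP.contDiffAt (hU.mem_nhds hp))]
    exact hpd p hp X hX
  smooth i j := by
    intro p hp
    exact (contDiffAt_D11 (hP.contDiffAt (hU.mem_nhds hp)) _ _).contDiffWithinAt

variable (hU : IsOpen U) (P : (Fin n → ℂ) → ℝ)
    (hP : ContDiffOn ℝ ∞ P U) (hpd : ∀ p ∈ U, PD P p)

include hU hP hpd

lemma potMetric_herm {p : Fin n → ℂ} (hp : p ∈ U) (X Y : Fin n → ℂ) :
    (potMetric hU P hP hpd).herm p X Y = D11 P X Y p := by
  rw [D11_eq_sum (hP.contDiffAt (hU.mem_nhds hp))]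
  rfl

lemma potMetric_riem {p : Fin n → ℂ} (hp : p ∈ U) (X Y : Fin n → ℂ) :
    (potMetric hU P hP hpd).riem p X Y = (D11 P X Y p).re := by
  unfold HermitianMetricOn.riem
  rw [potMetric_herm hU P hP hpd hp]

lemma potMetric_isKahler : (potMetric hU P hP hpd).IsKahler := by
  intro p hp i j k
  have hc : ContDiffAt ℝ ∞ (dzb (stdVec j) (fun q => (P q : ℂ))) p :=
    contDiffAt_dzb_inf _ (contDiffAt_ofReal (hP.contDiffAt (hU.mem_nhds hp)))
  exact dz_comm (X := stdVec k) (Y := stdVec i) (hc.of_le (by norm_cast))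

lemma potMetric_isGam {p : Fin n → ℂ} (hp : p ∈ U) (X Y : Fin n → ℂ) :
    IsGam P p X Y ((potMetric hU P hP hpd).christoffel p X Y) := by
  intro Z
  rw [← potMetric_herm hU P hP hpd hp, christoffel_spec _ hU (potMetric_isKahler hU P hP hpd) hp]
  have : (fun q => (potMetric hU P hP hpd).herm q Y Z) =ᶠ[𝓝 p] dz Y (dzb Z (fun q => (P q : ℂ))) := by
    filter_upwards [hU.mem_nhds hp] with q hq
    rw [potMetric_herm hU P hP hpd hq]
    rfl
  exact dz_congr this

lemma potMetric_negK {p : Fin n → ℂ} (hp : p ∈ U) (X Y : Fin n → ℂ) :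
    (potMetric hU P hP hpd).riem p ((potMetric hU P hP hpd).curvature p X Y Y) X =
      - negK P p X Y ((potMetric hU P hP hpd).christoffel p X X)
        ((potMetric hU P hP hpd).christoffel p X Y)
        ((potMetric hU P hP hpd).christoffel p Y Y) := by
  set g := potMetric hU P hP hpd with hg
  have hPp : ContDiffAt ℝ ∞ P p := hP.contDiffAt (hU.mem_nhds hp)
  have hPc := contDiffAt_ofReal hPp
  have hK := potMetric_isKahler hU P hP hpd
  rw [riem_curvature g hU hK hp]
  rw [potMetric_herm hU P hP hpd hp, potMetric_herm hU P hP hpd hp]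
  have h1 : (fun q => g.herm q Y X) =ᶠ[𝓝 p] dz Y (dzb X (fun q => (P q : ℂ))) := by
    filter_upwards [hU.mem_nhds hp] with q hq
    rw [potMetric_herm hU P hP hpd hq]
    rfl
  -- first term
  have e1 : dzb X (dz Y (fun q => g.herm q Y X)) p = D22 P Y Y X X p := by
    rw [dzb_congr (dz_eventuallyEq h1)]
    unfold D22
    -- dzb X (dz Y (dz Y (dzb X P))) = dz Y (dz Y (dzb X (dzb X P)))
    have a1 : ContDiffAt ℝ ∞ (dz Y (dzb X (fun q => (P q : ℂ)))) p :=
      contDiffAt_dz_inf _ (contDiffAt_dzb_inf _ hPc)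
    rw [← dz_dzb_comm (X := Y) (Y := X) (a1.of_le (by norm_cast))]
    have a2 : dzb X (dz Y (dzb X (fun q => (P q : ℂ)))) =ᶠ[𝓝 p]
        dz Y (dzb X (dzb X (fun q => (P q : ℂ)))) := by
      filter_upwards [hU.mem_nhds hp] with q hq
      have hq1 : ContDiffAt ℝ ∞ (dzb X (fun q => (P q : ℂ))) q :=
        contDiffAt_dzb_inf _ (contDiffAt_ofReal (hP.contDiffAt (hU.mem_nhds hq)))
      exact (dz_dzb_comm (X := Y) (Y := X) (hq1.of_le (by norm_cast))).symm
    exact dz_congr a2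
  have e2 : dzb Y (dz X (fun q => g.herm q Y X)) p = D22 P X Y X Y p := by
    rw [dzb_congr (dz_eventuallyEq h1)]
    unfold D22
    -- dzb Y (dz X (dz Y (dzb X P))) = dz X (dz Y (dzb X (dzb Y P)))
    have a1 : ContDiffAt ℝ ∞ (dz Y (dzb X (fun q => (P q : ℂ)))) p :=
      contDiffAt_dz_inf _ (contDiffAt_dzb_inf _ hPc)
    rw [← dz_dzb_comm (X := X) (Y := Y) (a1.of_le (by norm_cast))]
    have a2 : dzb Y (dz Y (dzb X (fun q => (P q : ℂ)))) =ᶠ[𝓝 p]
        dz Y (dzb X (dzb Y (fun q => (P q : ℂ)))) := by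
      filter_upwards [hU.mem_nhds hp] with q hq
      have hq0 := contDiffAt_ofReal (hP.contDiffAt (hU.mem_nhds hq))
      have hq1 : ContDiffAt ℝ ∞ (dzb X (fun q => (P q : ℂ))) q :=
        contDiffAt_dzb_inf _ hq0
      rw [← dz_dzb_comm (X := Y) (Y := Y) (hq1.of_le (by norm_cast))]
      have a3 : dzb Y (dzb X (fun q => (P q : ℂ))) =ᶠ[𝓝 q] dzb X (dzb Y (fun q => (P q : ℂ))) := by
        filter_upwards [hU.mem_nhds hq] with r hr
        have hr0 := contDiffAt_ofReal (hP.contDiffAt (hU.mem_nhds hr))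
        exact dzb_comm (hr0.of_le (by norm_cast))
      exact dz_congr a3
    exact dz_congr a2
  rw [e1, e2]
  unfold negK
  have e3 : (D22 P Y Y X X p).re = (D22 P X X Y Y p).re := by
    rw [← D22_conj hPp X X Y Y, Complex.conj_re]
  have e4 : (D11 P (g.christoffel p Y Y) (g.christoffel p X X) p).re =
      (D11 P (g.christoffel p X X) (g.christoffel p Y Y) p).re := by
    rw [← D11_conj hPp (g.christoffel p X X) (g.christoffel p Y Y), Complex.conj_re]
  simp only [Complex.add_re, Complex.sub_re]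
  rw [e3, e4]
  ring

end MC

theorem metric_of_potential {U : Set V3} (hU : IsOpen U) (P : V3 → ℝ)
    (hP : ContDiffOn ℝ ∞ P U) (hpd : ∀ p ∈ U, PD P p) :
    ∃ g : HermitianMetricOn 3 U, g.IsKahler ∧
      (∀ p ∈ U, ∀ X Y, g.riem p X Y = (D11 P X Y p).re) ∧
      (∀ p ∈ U, ∀ c B, KB P p c B → ∀ X Y,
        g.riem p X X * g.riem p Y Y - g.riem p X Y ^ 2 ≠ 0 →
          -B ≤ g.sectional p X Y ∧ g.sectional p X Y ≤ -c) := by
  refine ⟨MC.potMetric hU P hP hpd, MC.potMetric_isKahler hU P hP hpd,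
    fun p hp X Y => MC.potMetric_riem hU P hP hpd hp X Y, ?_⟩
  intro p hp c B hKB X Y hne
  have hPp : ContDiffAt ℝ ∞ P p := hP.contDiffAt (hU.mem_nhds hp)
  have h1 := hKB X Y _ _ _ (MC.potMetric_isGam hU P hP hpd hp X X)
    (MC.potMetric_isGam hU P hP hpd hp X Y) (MC.potMetric_isGam hU P hP hpd hp Y Y)
  have harea : (MC.potMetric hU P hP hpd).riem p X X * (MC.potMetric hU P hP hpd).riem p Y Y
      - (MC.potMetric hU P hP hpd).riem p X Y ^ 2 = area P p X Y := by
    simp only [MC.potMetric_riem hU P hP hpd hp, area]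
  unfold HermitianMetricOn.sectional
  rw [harea] at hne ⊢
  have hpos : 0 < area P p X Y := lt_of_le_of_ne (area_nonneg hPp (hpd p hp) X Y) (Ne.symm hne)
  rw [MC.potMetric_negK hU P hP hpd hp, neg_div]
  constructor
  · rw [neg_le_neg_iff, div_le_iff₀ hpos]
    exact h1.2
  · rw [neg_le_neg_iff, le_div_iff₀ hpos]
    exact h1.1

end Crest.Agent.R245
end

-- ▼ part R245/Complete

/-!
Row 245, module [M]: completeness of a Hermitian metric from an exhaustion function with bounded gradient.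
-/

set_option autoImplicit false

open Crest.GeometryTopology MeasureTheory Set Filter Topology
open scoped ComplexConjugate ContDiff

namespace Crest.Agent.R245

variable {n : ℕ} {U : Set (Fin n → ℂ)}

/-! ### Elementary facts on `riem` -/


theorem riem_self_pos (g : HermitianMetricOn n U) {p : Fin n → ℂ} (hp : p ∈ U) {X : Fin n → ℂ}
    (hX : X ≠ 0) : 0 < g.riem p X X := g.posDef p hp X hX

theorem riem_zero (g : HermitianMetricOn n U) (p : Fin n → ℂ) : g.riem p 0 0 = 0 := by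
  simp [HermitianMetricOn.riem, HermitianMetricOn.herm]

theorem riem_self_nonneg (g : HermitianMetricOn n U) {p : Fin n → ℂ} (hp : p ∈ U) (X : Fin n → ℂ) :
    0 ≤ g.riem p X X := by
  by_cases hX : X = 0
  · subst hX; rw [riem_zero]
  · exact (riem_self_pos g hp hX).le

theorem riem_smul_self (g : HermitianMetricOn n U) (p X : Fin n → ℂ) (c : ℝ) :
    g.riem p (c • X) (c • X) = c ^ 2 * g.riem p X X := by
  unfold HermitianMetricOn.riem HermitianMetricOn.herm
  have : (∑ i, ∑ j, g.h i j p * (c • X) i * conj ((c • X) j)) =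
      ((c ^ 2 : ℝ) : ℂ) * ∑ i, ∑ j, g.h i j p * X i * conj (X j) := by
    rw [Finset.mul_sum]
    refine Finset.sum_congr rfl fun i _ => ?_
    rw [Finset.mul_sum]
    refine Finset.sum_congr rfl fun j _ => ?_
    simp only [Pi.smul_apply, Complex.real_smul, map_mul, Complex.conj_ofReal]
    push_cast
    ring
  rw [this, Complex.re_ofReal_mul]

theorem continuousOn_riem (g : HermitianMetricOn n U) :
    ContinuousOn (fun q : (Fin n → ℂ) × (Fin n → ℂ) => g.riem q.1 q.2 q.2) (U ×ˢ univ) := by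
  unfold HermitianMetricOn.riem HermitianMetricOn.herm
  refine Complex.continuous_re.comp_continuousOn ?_
  refine continuousOn_finsetSum _ fun i _ => continuousOn_finsetSum _ fun j _ => ?_
  have h1 : ContinuousOn (fun q : (Fin n → ℂ) × (Fin n → ℂ) => g.h i j q.1) (U ×ˢ univ) :=
    (g.smooth i j).continuousOn.comp continuousOn_fst (fun q hq => hq.1)
  refine (h1.mul ?_).mul ?_
  · exact ((continuous_apply i).comp continuous_snd).continuousOn
  · exact (Complex.continuous_conj.comp ((continuous_apply j).comp continuous_snd)).continuousOn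

/-- On a compact subset of `U` the metric dominates a multiple of the square of the sup norm. -/
theorem exists_lower_bound (g : HermitianMetricOn n U) {K : Set (Fin n → ℂ)} (hK : IsCompact K)
    (hKU : K ⊆ U) : ∃ c : ℝ, 0 < c ∧ ∀ p ∈ K, ∀ X : Fin n → ℂ, c * ‖X‖ ^ 2 ≤ g.riem p X X := by
  have hcomp : IsCompact (K ×ˢ Metric.sphere (0 : Fin n → ℂ) 1) :=
    hK.prod (isCompact_sphere _ _)
  have hcont : ContinuousOn (fun q : (Fin n → ℂ) × (Fin n → ℂ) => g.riem q.1 q.2 q.2)
      (K ×ˢ Metric.sphere (0 : Fin n → ℂ) 1) :=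
    (continuousOn_riem g).mono (fun q hq => ⟨hKU hq.1, mem_univ _⟩)
  rcases (K ×ˢ Metric.sphere (0 : Fin n → ℂ) 1).eq_empty_or_nonempty with he | hne
  · refine ⟨1, one_pos, fun p hp X => ?_⟩
    by_cases hX : X = 0
    · subst hX; rw [riem_zero]; simp
    · exfalso
      have : (p, (‖X‖⁻¹ : ℝ) • X) ∈ K ×ˢ Metric.sphere (0 : Fin n → ℂ) 1 := by
        refine ⟨hp, ?_⟩
        simp [norm_smul, norm_ne_zero_iff.2 hX]
      rw [he] at this
      exact this
  · obtain ⟨q0, hq0, hmin⟩ := hcomp.exists_isMinOn hne hcont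
    have hq0' : q0.2 ≠ 0 := by
      have := hq0.2
      intro h
      rw [h] at this
      simp at this
    refine ⟨g.riem q0.1 q0.2 q0.2, riem_self_pos g (hKU hq0.1) hq0', fun p hp X => ?_⟩
    by_cases hX : X = 0
    · subst hX; rw [riem_zero]; simp
    · have hXn : ‖X‖ ≠ 0 := norm_ne_zero_iff.2 hX
      have hmem : (p, (‖X‖⁻¹ : ℝ) • X) ∈ K ×ˢ Metric.sphere (0 : Fin n → ℂ) 1 := by
        refine ⟨hp, ?_⟩
        simp [norm_smul, hXn]
      have h1 := hmin hmem
      simp only [Set.mem_ofPred_eq] at h1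
      rw [riem_smul_self] at h1
      have h2 : (‖X‖⁻¹) ^ 2 * ‖X‖ ^ 2 = 1 := by
        rw [← mul_pow, inv_mul_cancel₀ hXn, one_pow]
      have h3 : 0 ≤ ‖X‖ ^ 2 := by positivity
      calc g.riem q0.1 q0.2 q0.2 * ‖X‖ ^ 2 ≤ ((‖X‖⁻¹) ^ 2 * g.riem p X X) * ‖X‖ ^ 2 :=
            mul_le_mul_of_nonneg_right h1 h3
        _ = g.riem p X X * ((‖X‖⁻¹) ^ 2 * ‖X‖ ^ 2) := by ring
        _ = g.riem p X X := by rw [h2, mul_one]

/-! ### Speeds of C¹ curves in `U` -/

/-- the Riemannian speed of a curve. -/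
noncomputable def speed (g : HermitianMetricOn n U) (γ : ℝ → (Fin n → ℂ)) (t : ℝ) : ℝ :=
  Real.sqrt (g.riem (γ t) (deriv γ t) (deriv γ t))

theorem speed_nonneg (g : HermitianMetricOn n U) (γ : ℝ → (Fin n → ℂ)) (t : ℝ) :
    0 ≤ speed g γ t := Real.sqrt_nonneg _

theorem length_eq (g : HermitianMetricOn n U) (γ : ℝ → (Fin n → ℂ)) :
    g.length γ = ∫ t in (0:ℝ)..1, speed g γ t := rfl

theorem continuousOn_riem_curve (g : HermitianMetricOn n U) {γ : ℝ → (Fin n → ℂ)}
    (hγ : ContDiff ℝ 1 γ) (hU : ∀ t ∈ Icc (0:ℝ) 1, γ t ∈ U) :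
    ContinuousOn (fun t => g.riem (γ t) (deriv γ t) (deriv γ t)) (Icc (0:ℝ) 1) := by
  have h1 : ContinuousOn (fun t => (γ t, deriv γ t)) (Icc (0:ℝ) 1) :=
    (hγ.continuous.prodMk (hγ.continuous_deriv le_rfl)).continuousOn
  have h2 : MapsTo (fun t => (γ t, deriv γ t)) (Icc (0:ℝ) 1) (U ×ˢ (univ : Set (Fin n → ℂ))) := by
    intro t ht
    exact Set.mk_mem_prod (hU t ht) (mem_univ _)
  have := ContinuousOn.comp (g := fun q : (Fin n → ℂ) × (Fin n → ℂ) => g.riem q.1 q.2 q.2)
      (continuousOn_riem g) h1 h2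
  exact this

theorem continuousOn_speed (g : HermitianMetricOn n U) {γ : ℝ → (Fin n → ℂ)}
    (hγ : ContDiff ℝ 1 γ) (hU : ∀ t ∈ Icc (0:ℝ) 1, γ t ∈ U) :
    ContinuousOn (speed g γ) (Icc 0 1) := by
  have h4 : ContinuousOn (fun t => Real.sqrt (g.riem (γ t) (deriv γ t) (deriv γ t)))
    (Icc (0:ℝ) 1) := (continuousOn_riem_curve g hγ hU).sqrt
  exact h4

theorem length_nonneg (g : HermitianMetricOn n U) (γ : ℝ → (Fin n → ℂ)) : 0 ≤ g.length γ := by
  rw [length_eq]
  exact intervalIntegral.integral_nonneg zero_le_one fun t _ => speed_nonneg g γ t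

theorem integral_speed_le (g : HermitianMetricOn n U) {γ : ℝ → (Fin n → ℂ)}
    (hγ : ContDiff ℝ 1 γ) (hU : ∀ t ∈ Icc (0:ℝ) 1, γ t ∈ U) {s : ℝ} (hs : s ∈ Icc (0:ℝ) 1) :
    ∫ t in (0:ℝ)..s, speed g γ t ≤ g.length γ := by
  have hc := continuousOn_speed g hγ hU
  have i1 : IntervalIntegrable (speed g γ) volume 0 s :=
    (hc.mono (by rw [uIcc_of_le hs.1]; exact Icc_subset_Icc_right hs.2)).intervalIntegrable
  have i2 : IntervalIntegrable (speed g γ) volume s 1 :=
    (hc.mono (by rw [uIcc_of_le hs.2]; exact Icc_subset_Icc_left hs.1)).intervalIntegrable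
  rw [length_eq, ← intervalIntegral.integral_add_adjacent_intervals i1 i2]
  have : 0 ≤ ∫ t in s..1, speed g γ t :=
    intervalIntegral.integral_nonneg hs.2 fun t _ => speed_nonneg g γ t
  linarith

/-- If the gradient of a real function is controlled by the metric then its variation along a
curve is controlled by the length. -/
theorem abs_sub_le_length (g : HermitianMetricOn n U) (hUo : IsOpen U) {ψ : (Fin n → ℂ) → ℝ}
    (hψ : ContDiffOn ℝ 1 ψ U) {C : ℝ} (hC0 : 0 ≤ C)
    (hC : ∀ p ∈ U, ∀ X : Fin n → ℂ, (fderiv ℝ ψ p X) ^ 2 ≤ C ^ 2 * g.riem p X X)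
    {γ : ℝ → (Fin n → ℂ)} (hγ : ContDiff ℝ 1 γ) (hU : ∀ t ∈ Icc (0:ℝ) 1, γ t ∈ U)
    {s : ℝ} (hs : s ∈ Icc (0:ℝ) 1) :
    |ψ (γ s) - ψ (γ 0)| ≤ C * g.length γ := by
  have hsub : Icc (0:ℝ) s ⊆ Icc 0 1 := Icc_subset_Icc_right hs.2
  have hder : ∀ t ∈ Icc (0:ℝ) s, HasDerivAt (fun t => ψ (γ t)) (fderiv ℝ ψ (γ t) (deriv γ t)) t := by
    intro t ht
    have h1 : DifferentiableAt ℝ ψ (γ t) :=
      (hψ.differentiableOn one_ne_zero).differentiableAt (hUo.mem_nhds (hU t (hsub ht)))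
    have h2 : HasDerivAt γ (deriv γ t) t := (hγ.differentiable one_ne_zero t).hasDerivAt
    exact h1.hasFDerivAt.comp_hasDerivAt t h2
  have hcont : ContinuousOn (fun t => fderiv ℝ ψ (γ t) (deriv γ t)) (Icc (0:ℝ) s) := by
    have h1 : ContinuousOn (fun t => fderiv ℝ ψ (γ t)) (Icc (0:ℝ) s) :=
      (hψ.continuousOn_fderiv_of_isOpen hUo le_rfl).comp hγ.continuous.continuousOn
        (fun t ht => hU t (hsub ht))
    exact h1.clm_apply (hγ.continuous_deriv le_rfl).continuousOn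
  have hint : IntervalIntegrable (fun t => fderiv ℝ ψ (γ t) (deriv γ t)) volume 0 s :=
    (hcont.mono (by rw [uIcc_of_le hs.1])).intervalIntegrable
  have hFTC : ∫ t in (0:ℝ)..s, fderiv ℝ ψ (γ t) (deriv γ t) = ψ (γ s) - ψ (γ 0) := by
    refine intervalIntegral.integral_eq_sub_of_hasDerivAt (f := fun t => ψ (γ t))
      (fun t ht => ?_) hint
    rw [uIcc_of_le hs.1] at ht
    exact hder t ht
  rw [← hFTC]
  have hsp : IntervalIntegrable (speed g γ) volume 0 s :=
    ((continuousOn_speed g hγ hU).mono (by rw [uIcc_of_le hs.1]; exact hsub)).intervalIntegrable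
  calc |∫ t in (0:ℝ)..s, fderiv ℝ ψ (γ t) (deriv γ t)|
      ≤ ∫ t in (0:ℝ)..s, |fderiv ℝ ψ (γ t) (deriv γ t)| :=
        intervalIntegral.abs_integral_le_integral_abs hs.1
    _ ≤ ∫ t in (0:ℝ)..s, C * speed g γ t := by
        refine intervalIntegral.integral_mono_on hs.1 hint.abs (hsp.const_mul C) fun t ht => ?_
        have h1 := hC (γ t) (hU t (hsub ht)) (deriv γ t)
        have h2 : |fderiv ℝ ψ (γ t) (deriv γ t)| ≤
            Real.sqrt (C ^ 2 * g.riem (γ t) (deriv γ t) (deriv γ t)) :=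
          Real.abs_le_sqrt h1
        rw [Real.sqrt_mul (sq_nonneg C), Real.sqrt_sq hC0] at h2
        exact h2
    _ = C * ∫ t in (0:ℝ)..s, speed g γ t := by
        rw [intervalIntegral.integral_const_mul]
    _ ≤ C * g.length γ := mul_le_mul_of_nonneg_left (integral_speed_le g hγ hU hs) hC0

/-- A curve staying in a compact subset of `U`: Euclidean displacement is controlled by length. -/
theorem norm_sub_le_length (g : HermitianMetricOn n U) {K : Set (Fin n → ℂ)}
    {c : ℝ} (hc : 0 < c) (hlow : ∀ p ∈ K, ∀ X : Fin n → ℂ, c ^ 2 * ‖X‖ ^ 2 ≤ g.riem p X X)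
    {γ : ℝ → (Fin n → ℂ)} (hγ : ContDiff ℝ 1 γ) (hU : ∀ t ∈ Icc (0:ℝ) 1, γ t ∈ U)
    (hK : ∀ t ∈ Icc (0:ℝ) 1, γ t ∈ K) :
    ‖γ 1 - γ 0‖ ≤ c⁻¹ * g.length γ := by
  have hcont : Continuous (deriv γ) := hγ.continuous_deriv le_rfl
  have hFTC : ∫ t in (0:ℝ)..1, deriv γ t = γ 1 - γ 0 :=
    intervalIntegral.integral_eq_sub_of_hasDerivAt
      (fun t _ => (hγ.differentiable one_ne_zero t).hasDerivAt) (hcont.intervalIntegrable _ _)
  have hsp : IntervalIntegrable (speed g γ) volume 0 1 :=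
    ((continuousOn_speed g hγ hU).mono (by rw [uIcc_of_le zero_le_one])).intervalIntegrable
  rw [← hFTC]
  calc ‖∫ t in (0:ℝ)..1, deriv γ t‖ ≤ ∫ t in (0:ℝ)..1, ‖deriv γ t‖ :=
        intervalIntegral.norm_integral_le_integral_norm zero_le_one
    _ ≤ ∫ t in (0:ℝ)..1, c⁻¹ * speed g γ t := by
        refine intervalIntegral.integral_mono_on zero_le_one
          (hcont.norm.intervalIntegrable _ _) (hsp.const_mul _) fun t ht => ?_
        have h1 := hlow (γ t) (hK t ht) (deriv γ t)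
        have h2 : c * ‖deriv γ t‖ ≤ speed g γ t := by
          unfold speed
          refine Real.le_sqrt_of_sq_le ?_
          rw [mul_pow]; exact h1
        calc ‖deriv γ t‖ = c⁻¹ * (c * ‖deriv γ t‖) := by
              rw [← mul_assoc, inv_mul_cancel₀ hc.ne', one_mul]
          _ ≤ c⁻¹ * speed g γ t := mul_le_mul_of_nonneg_left h2 (inv_nonneg.2 hc.le)
    _ = c⁻¹ * g.length γ := by
        rw [intervalIntegral.integral_const_mul, length_eq]

/-- C¹-path connectedness in the sense needed for `dist`. -/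
def C1Joined (U : Set (Fin n → ℂ)) : Prop :=
  ∀ p ∈ U, ∀ q ∈ U, ∃ γ : ℝ → (Fin n → ℂ), ContDiff ℝ 1 γ ∧ γ 0 = p ∧ γ 1 = q ∧
    ∀ t ∈ Icc (0:ℝ) 1, γ t ∈ U

/-- If `dist p q < ε` there is a curve of length `< ε`. -/
theorem exists_curve_lt (g : HermitianMetricOn n U) (hJ : C1Joined U) {p q : Fin n → ℂ}
    (hp : p ∈ U) (hq : q ∈ U) {ε : ℝ} (h : g.dist p q < ε) :
    ∃ γ : ℝ → (Fin n → ℂ), ContDiff ℝ 1 γ ∧ γ 0 = p ∧ γ 1 = q ∧
      (∀ t ∈ Icc (0:ℝ) 1, γ t ∈ U) ∧ g.length γ < ε := by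
  unfold HermitianMetricOn.dist at h
  obtain ⟨γ0, h0, h1, h2, h3⟩ := hJ p hp q hq
  have hne : {ℓ : ℝ | ∃ γ : ℝ → (Fin n → ℂ), ContDiff ℝ 1 γ ∧ γ 0 = p ∧ γ 1 = q ∧
    (∀ t ∈ Set.Icc (0:ℝ) 1, γ t ∈ U) ∧ g.length γ = ℓ}.Nonempty :=
    ⟨g.length γ0, γ0, h0, h1, h2, h3, rfl⟩
  obtain ⟨ℓ, ⟨γ, k0, k1, k2, k3, k4⟩, hℓ⟩ := exists_lt_of_csInf_lt hne h
  exact ⟨γ, k0, k1, k2, k3, by rw [k4]; exact hℓ⟩

/-- **Completeness criterion**: an exhaustion function whose gradient is bounded in the metric. -/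
theorem isComplete_of_exhaustion (g : HermitianMetricOn n U) (hUo : IsOpen U) (hJ : C1Joined U)
    {ψ : (Fin n → ℂ) → ℝ} (hψ : ContDiffOn ℝ 1 ψ U) {C : ℝ} (hC0 : 0 ≤ C)
    (hC : ∀ p ∈ U, ∀ X : Fin n → ℂ, (fderiv ℝ ψ p X) ^ 2 ≤ C ^ 2 * g.riem p X X)
    (hex : ∀ R : ℝ, ∃ K : Set (Fin n → ℂ), IsCompact K ∧ K ⊆ U ∧ ∀ p ∈ U, ψ p ≤ R → p ∈ K) :
    g.IsComplete := by
  intro u hu hCau
  have hC1 : 0 < C + 1 := by linarith
  have hδ : (0:ℝ) < 1 / (C + 1) := by positivity
  obtain ⟨N, hN⟩ := hCau (1 / (C + 1)) hδ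
  -- values of `ψ` are bounded along the sequence
  have hbd : ∀ m, N ≤ m → ψ (u m) ≤ ψ (u N) + 1 := by
    intro m hm
    obtain ⟨γ, k0, k1, k2, k3, k4⟩ := exists_curve_lt g hJ (hu N) (hu m) (hN N m le_rfl hm)
    have h1 := abs_sub_le_length g hUo hψ hC0 hC k0 k3 (right_mem_Icc.2 zero_le_one)
    rw [k1, k2] at h1
    have h2 : C * g.length γ ≤ 1 := by
      calc C * g.length γ ≤ (C + 1) * g.length γ :=
            mul_le_mul_of_nonneg_right (by linarith) (length_nonneg g γ)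
        _ ≤ (C + 1) * (1 / (C + 1)) := mul_le_mul_of_nonneg_left k4.le hC1.le
        _ = 1 := by field_simp
    have h3 := le_abs_self (ψ (u m) - ψ (u N))
    linarith
  set R0 : ℝ := ψ (u N) + 1 with hR0
  obtain ⟨K, hKc, hKU, hK⟩ := hex (R0 + 1)
  obtain ⟨c', hc'0, hc'⟩ := exists_lower_bound g hKc hKU
  set c : ℝ := Real.sqrt c' with hc
  have hcpos : 0 < c := Real.sqrt_pos.2 hc'0
  have hlow : ∀ p ∈ K, ∀ X : Fin n → ℂ, c ^ 2 * ‖X‖ ^ 2 ≤ g.riem p X X := by
    intro p hp X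
    rw [hc, Real.sq_sqrt hc'0.le]
    exact hc' p hp X
  -- Euclidean Cauchy
  have hcauchy : CauchySeq u := by
    rw [Metric.cauchySeq_iff']
    intro ε hε
    have hδ' : 0 < min (1 / (C + 1)) (c * ε) := lt_min hδ (mul_pos hcpos hε)
    obtain ⟨M, hM⟩ := hCau _ hδ'
    refine ⟨max M N, fun m hm => ?_⟩
    have hmM : M ≤ m := le_trans (le_max_left _ _) hm
    have hmN : N ≤ max M N := le_max_right _ _
    obtain ⟨γ, k0, k1, k2, k3, k4⟩ := exists_curve_lt g hJ (hu (max M N)) (hu m)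
      (hM (max M N) m (le_max_left _ _) hmM)
    have hstay : ∀ t ∈ Icc (0:ℝ) 1, γ t ∈ K := by
      intro t ht
      refine hK _ (k3 t ht) ?_
      have h1 := abs_sub_le_length g hUo hψ hC0 hC k0 k3 ht
      rw [k1] at h1
      have h2 : C * g.length γ ≤ 1 := by
        calc C * g.length γ ≤ (C + 1) * g.length γ :=
              mul_le_mul_of_nonneg_right (by linarith) (length_nonneg g γ)
          _ ≤ (C + 1) * (1 / (C + 1)) :=
              mul_le_mul_of_nonneg_left (k4.le.trans (min_le_left _ _)) hC1.le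
          _ = 1 := by field_simp
      have h3 := le_abs_self (ψ (γ t) - ψ (u (max M N)))
      have h4 := hbd _ hmN
      linarith
    have h5 := norm_sub_le_length g hcpos hlow k0 k3 hstay
    rw [k1, k2] at h5
    rw [dist_eq_norm]
    calc ‖u m - u (max M N)‖ ≤ c⁻¹ * g.length γ := h5
      _ < c⁻¹ * (c * ε) :=
          mul_lt_mul_of_pos_left (k4.trans_le (min_le_right _ _)) (inv_pos.2 hcpos)
      _ = ε := by rw [← mul_assoc, inv_mul_cancel₀ hcpos.ne', one_mul]
  obtain ⟨q, hq⟩ := cauchySeq_tendsto_of_complete hcauchy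
  refine ⟨q, hKU ?_, hq⟩
  refine hKc.isClosed.mem_of_tendsto hq ?_
  filter_upwards [eventually_ge_atTop N] with m hm
  exact hK _ (hu m) (by have := hbd m hm; linarith)



/-- If a `C¹` function `u ≥ 0` with compact sublevel sets in `U` satisfies
`|du| ≤ C √(1+u) |·|_g`, then `g` is complete.
(Proof: `√(1+u)` is `C/2`-Lipschitz for `g.dist`, so a Cauchy sequence stays in a compact set
`K = {u ≤ R}`; on the compact set `{u ≤ R+1}` the metric dominates a multiple of the Euclidean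
norm, so the sequence is Cauchy in `ℂⁿ`.) -/
theorem complete_of_proper {n : ℕ} {U : Set (Fin n → ℂ)} (hU : IsOpen U)
    (g : HermitianMetricOn n U) (u : (Fin n → ℂ) → ℝ) (hu : ContDiffOn ℝ 1 u U)
    (hu0 : ∀ p ∈ U, 0 ≤ u p) (C : ℝ)
    (hC : ∀ p ∈ U, ∀ X, |fderiv ℝ u p X| ≤ C * Real.sqrt (1 + u p) * Real.sqrt (g.riem p X X))
    (hprop : ∀ R, IsCompact {p ∈ U | u p ≤ R})
    (hconn : ∀ p ∈ U, ∀ q ∈ U, ∃ γ : ℝ → (Fin n → ℂ), ContDiff ℝ 1 γ ∧ γ 0 = p ∧ γ 1 = q ∧
      ∀ t, γ t ∈ U) :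
    g.IsComplete := by
  have hpos : ∀ p ∈ U, 0 < 1 + u p := fun p hp => by have := hu0 p hp; linarith
  have hψ : ContDiffOn ℝ 1 (fun p => Real.sqrt (1 + u p)) U :=
    (contDiffOn_const.add hu).sqrt (fun p hp => (hpos p hp).ne')
  refine isComplete_of_exhaustion g hU ?_ (ψ := fun p => Real.sqrt (1 + u p)) hψ
    (C := |C| / 2) (by positivity) ?_ ?_
  · intro p hp q hq
    obtain ⟨γ, h0, h1, h2, h3⟩ := hconn p hp q hq
    exact ⟨γ, h0, h1, h2, fun t _ => h3 t⟩
  · intro p hp X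
    have hd : DifferentiableAt ℝ u p :=
      (hu.differentiableOn one_ne_zero).differentiableAt (hU.mem_nhds hp)
    have hd1 : HasFDerivAt (fun p => 1 + u p) (fderiv ℝ u p) p := hd.hasFDerivAt.const_add 1
    have hd2 := (hd1.sqrt (hpos p hp).ne').fderiv
    rw [hd2]
    have hs : 0 < Real.sqrt (1 + u p) := Real.sqrt_pos.2 (hpos p hp)
    have hr := riem_self_nonneg g hp X
    have h1 : |fderiv ℝ u p X| ≤ |C| * Real.sqrt (1 + u p) * Real.sqrt (g.riem p X X) := by
      refine (hC p hp X).trans ?_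
      have := le_abs_self C
      gcongr
    have h2 : |((1 / (2 * Real.sqrt (1 + u p))) • fderiv ℝ u p) X| ≤
        |C| / 2 * Real.sqrt (g.riem p X X) := by
      rw [smul_apply, smul_eq_mul, abs_mul, abs_of_pos (by positivity)]
      calc 1 / (2 * Real.sqrt (1 + u p)) * |fderiv ℝ u p X|
          ≤ 1 / (2 * Real.sqrt (1 + u p)) *
            (|C| * Real.sqrt (1 + u p) * Real.sqrt (g.riem p X X)) := by gcongr
        _ = |C| / 2 * Real.sqrt (g.riem p X X) := by
            field_simp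
    calc (((1 / (2 * Real.sqrt (1 + u p))) • fderiv ℝ u p) X) ^ 2
        = |((1 / (2 * Real.sqrt (1 + u p))) • fderiv ℝ u p) X| ^ 2 := (sq_abs _).symm
      _ ≤ (|C| / 2 * Real.sqrt (g.riem p X X)) ^ 2 := by gcongr
      _ = (|C| / 2) ^ 2 * g.riem p X X := by rw [mul_pow, Real.sq_sqrt hr]
  · intro R
    refine ⟨{p ∈ U | u p ≤ R ^ 2}, hprop _, fun p hp => hp.1, fun p hp h => ⟨hp, ?_⟩⟩
    have h0 : 0 ≤ Real.sqrt (1 + u p) := Real.sqrt_nonneg _
    have h1 : Real.sqrt (1 + u p) ^ 2 ≤ R ^ 2 := by gcongr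
    rw [Real.sq_sqrt (hpos p hp).le] at h1
    linarith

end Crest.Agent.R245
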