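import Crest.Agent.R245.SiegelPot

/-! CurvR0: curvature of a small perturbation of complex hyperbolic 3-space at `p0`. (helper699) -/

set_option autoImplicit false

namespace Crest.Agent.R245

open Complex Filter Topology Sg
open scoped ContDiff ComplexConjugate

/-- `a3` itself: positive definite and gradient bound `|∂a3|² ≤ a3(X;X̄)` -/
theorem a3_pd : ∀ x : V3, 0 < rho3 x → PD a3 x := by
  intro x hx
  rw [a3_eq_aL]
  have key : ∀ X : V3, (s3 X X).re = normSq (X 0) + normSq (X 2) := by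
    intro X
    unfold s3
    rw [mul_conj, mul_conj]
    simp
  refine siegel3.pd hx (fun X => ?_) (fun X h1 h2 => ?_)
  · rw [key]; exact add_nonneg (normSq_nonneg _) (normSq_nonneg _)
  · rw [key] at h1
    have h0 : X 0 = 0 := normSq_eq_zero.1 (by linarith [normSq_nonneg (X 0), normSq_nonneg (X 2)])
    have h2' : X 2 = 0 := normSq_eq_zero.1 (by linarith [normSq_nonneg (X 0), normSq_nonneg (X 2)])
    unfold r3 at h2
    rw [h0, h2', zero_mul, zero_mul, sub_zero, sub_zero] at h2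
    have hI : (2 * I : ℂ) ≠ 0 := mul_ne_zero two_ne_zero I_ne_zero
    have h3 : X 1 = 0 := by
      rcases div_eq_zero_iff.1 h2 with h | h
      · exact h
      · exact absurd h hI
    funext i
    fin_cases i
    · exact h0
    · exact h3
    · exact h2'

theorem a3_grad : ∀ x : V3, 0 < rho3 x → ∀ X : V3,
    ‖dz X (fun q => (a3 q : ℂ)) x‖ ^ 2 ≤ (D11 a3 X X x).re := by
  intro x hx X
  rw [a3_eq_aL]
  refine siegel3.grad hx (fun X => ?_) X
  unfold s3
  rw [mul_conj, mul_conj]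
  simp only [add_re, ofReal_re]
  exact add_nonneg (normSq_nonneg _) (normSq_nonneg _)


section pert

variable {V : Type*} [NormedAddCommGroup V] [NormedSpace ℝ V] [NormedSpace ℂ V] [IsScalarTower ℝ ℂ V]
variable {ρ : V → ℝ} {r : V → V → ℂ} {s : V → V → ℂ}

set_option maxHeartbeats 1000000 in
/-- general perturbation theorem -/
theorem Sg.SiegelFn.curv_pert (h : SiegelFn ρ r s) {x : V} (hx : 0 < ρ x) (hpd : PD (aL ρ) x)
    (hs : ∀ X, 0 ≤ (s X X).re) (K : ℝ) (hK1 : 1 ≤ K)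
    (hK : ∀ X, ‖X‖ ≤ K * Real.sqrt (D11 (aL ρ) X X x).re) (P : V → ℝ) (hP : ContDiffAt ℝ ∞ P x)
    (hE : ∀ k : ℕ, 1 ≤ k → k ≤ 4 →
      ‖iteratedFDeriv ℝ k (fun x => P x - aL ρ x) x‖ ≤ 1 / (200 * K ^ 4)) :
    KB P x (1/2) 5 ∧ ∀ X, (1/2) * (D11 (aL ρ) X X x).re ≤ (D11 P X X x).re := by
  set a := aL ρ with ha
  have hA : ContDiffAt ℝ ∞ a x := h.contDiffAt_aL hx
  set E : V → ℝ := fun x => P x - a x with hEdef
  have hEc : ContDiffAt ℝ ∞ E x := hP.sub hA
  have hPE : P = fun q => a q + E q := by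
    funext q; simp [hEdef]
  set n : V → ℝ := fun X => Real.sqrt (D11 a X X x).re with hn
  have hn0 : ∀ X, 0 ≤ n X := fun X => Real.sqrt_nonneg _
  have hD0 : ∀ X, 0 ≤ (D11 a X X x).re := by
    intro X
    by_cases hX : X = 0
    · have h0 := D11_smul_left hA 0 X X
      rw [zero_smul, zero_mul] at h0
      rw [hX] at h0 ⊢
      rw [h0]; simp
    · exact (hpd X hX).le
  have hn2 : ∀ X, n X ^ 2 = (D11 a X X x).re := fun X => Real.sq_sqrt (hD0 X)
  have hcs : ∀ X Y, ‖D11 a X Y x‖ ≤ n X * n Y := by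
    intro X Y
    have h1 := D11_cs hA hpd X Y
    rw [← hn2 X, ← hn2 Y, ← mul_pow] at h1
    exact (sq_le_sq₀ (norm_nonneg _) (mul_nonneg (hn0 X) (hn0 Y))).1 h1
  set ε : ℝ := 1 / 200 with hε
  have hK0 : 0 < K := by linarith
  -- bounds for `E`
  have hEb : ∀ k : ℕ, 1 ≤ k → k ≤ 4 → ‖iteratedFDeriv ℝ k E x‖ * K ^ k ≤ ε := by
    intro k hk1 hk4
    have h1 := hE k hk1 hk4
    have h2 : K ^ k ≤ K ^ 4 := pow_le_pow_right₀ hK1 hk4
    calc ‖iteratedFDeriv ℝ k E x‖ * K ^ k ≤ 1 / (200 * K ^ 4) * K ^ 4 := by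
          apply mul_le_mul h1 h2 (by positivity) (by positivity)
      _ = ε := by rw [hε]; field_simp
  have hE11 : ∀ X Y, ‖D11 E X Y x‖ ≤ ε * (n X * n Y) := by
    intro X Y
    have h1 := D11_le hEc X Y
    have h2 := hEb 2 (by norm_num) (by norm_num)
    calc ‖D11 E X Y x‖ ≤ ‖iteratedFDeriv ℝ 2 E x‖ * ‖X‖ * ‖Y‖ := h1
      _ ≤ ‖iteratedFDeriv ℝ 2 E x‖ * (K * n X) * (K * n Y) := by
          gcongr
          · exact hK X
          · exact hK Y
      _ = (‖iteratedFDeriv ℝ 2 E x‖ * K ^ 2) * (n X * n Y) := by ring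
      _ ≤ ε * (n X * n Y) := by
          apply mul_le_mul_of_nonneg_right h2 (mul_nonneg (hn0 X) (hn0 Y))
  have hE21 : ∀ X Y Z, ‖D21 E X Y Z x‖ ≤ ε * (n X * n Y * n Z) := by
    intro X Y Z
    have h1 := D21_le hEc X Y Z
    have h2 := hEb 3 (by norm_num) (by norm_num)
    calc ‖D21 E X Y Z x‖ ≤ ‖iteratedFDeriv ℝ 3 E x‖ * ‖X‖ * ‖Y‖ * ‖Z‖ := h1
      _ ≤ ‖iteratedFDeriv ℝ 3 E x‖ * (K * n X) * (K * n Y) * (K * n Z) := by
          gcongr
          · exact hK X
          · exact hK Y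
          · exact hK Z
      _ = (‖iteratedFDeriv ℝ 3 E x‖ * K ^ 3) * (n X * n Y * n Z) := by ring
      _ ≤ ε * (n X * n Y * n Z) := by
          apply mul_le_mul_of_nonneg_right h2
          exact mul_nonneg (mul_nonneg (hn0 X) (hn0 Y)) (hn0 Z)
  have hE22 : ∀ X Y Z W, ‖D22 E X Y Z W x‖ ≤ ε * ((n X * n Y) * (n Z * n W)) := by
    intro X Y Z W
    have h1 := D22_le hEc X Y Z W
    have h2 := hEb 4 (by norm_num) (by norm_num)
    calc ‖D22 E X Y Z W x‖ ≤ ‖iteratedFDeriv ℝ 4 E x‖ * ‖X‖ * ‖Y‖ * ‖Z‖ * ‖W‖ := h1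
      _ ≤ ‖iteratedFDeriv ℝ 4 E x‖ * (K * n X) * (K * n Y) * (K * n Z) * (K * n W) := by
          gcongr
          · exact hK X
          · exact hK Y
          · exact hK Z
          · exact hK W
      _ = (‖iteratedFDeriv ℝ 4 E x‖ * K ^ 4) * ((n X * n Y) * (n Z * n W)) := by ring
      _ ≤ ε * ((n X * n Y) * (n Z * n W)) := by
          apply mul_le_mul_of_nonneg_right h2
          exact mul_nonneg (mul_nonneg (hn0 X) (hn0 Y)) (mul_nonneg (hn0 Z) (hn0 W))
  -- the forms of `P`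
  have hP11 : ∀ X Y, D11 P X Y x = D11 a X Y x + D11 E X Y x := by
    intro X Y; rw [hPE]; exact D11_add hA hEc X Y
  have hP21 : ∀ X Y Z, D21 P X Y Z x = D21 a X Y Z x + D21 E X Y Z x := by
    intro X Y Z; rw [hPE]; exact D21_add hA hEc X Y Z
  have hP22 : ∀ X Y Z W, D22 P X Y Z W x = D22 a X Y Z W x + D22 E X Y Z W x := by
    intro X Y Z W; rw [hPE]; exact D22_add hA hEc X Y Z W
  -- the gradient of `a`
  set g : V → ℂ := fun X => -(SiegelFn.inv ρ x * r X x) with hg
  have hg1 : ∀ X, ‖g X‖ ≤ n X := by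
    intro X
    have h1 := h.grad hx hs X
    rw [h.dz_aL hx] at h1
    have h2 : ‖g X‖ ^ 2 ≤ n X ^ 2 := by rw [hn2]; exact h1
    exact (sq_le_sq₀ (norm_nonneg _) (hn0 X)).1 h2
  have hG : ∀ X Y, SiegelFn.Gam ρ r x X Y = g Y • X + g X • Y := fun X Y => rfl
  -- forms applied to `Gam`
  have hGl : ∀ (Q : V → ℝ), ContDiffAt ℝ ∞ Q x → ∀ X Y Z,
      D11 Q (SiegelFn.Gam ρ r x X Y) Z x = g Y * D11 Q X Z x + g X * D11 Q Y Z x := by
    intro Q hQ X Y Z
    rw [hG, D11_add_left hQ, D11_smul_left hQ, D11_smul_left hQ]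
  have hGa : ∀ X Y Z, ‖D11 a (SiegelFn.Gam ρ r x X Y) Z x‖ ≤ 2 * (n X * n Y) * n Z := by
    intro X Y Z
    rw [hGl a hA]
    calc ‖g Y * D11 a X Z x + g X * D11 a Y Z x‖ ≤ ‖g Y‖ * ‖D11 a X Z x‖ + ‖g X‖ * ‖D11 a Y Z x‖ := by
          refine (norm_add_le _ _).trans ?_
          rw [norm_mul, norm_mul]
      _ ≤ n Y * (n X * n Z) + n X * (n Y * n Z) := by
          gcongr
          · exact hg1 Y
          · exact hcs X Z
          · exact hg1 X
          · exact hcs Y Z
      _ = 2 * (n X * n Y) * n Z := by ring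
  have hGE : ∀ X Y Z, ‖D11 E (SiegelFn.Gam ρ r x X Y) Z x‖ ≤ 2 * ε * ((n X * n Y) * n Z) := by
    intro X Y Z
    rw [hGl E hEc]
    calc ‖g Y * D11 E X Z x + g X * D11 E Y Z x‖ ≤ ‖g Y‖ * ‖D11 E X Z x‖ + ‖g X‖ * ‖D11 E Y Z x‖ := by
          refine (norm_add_le _ _).trans ?_
          rw [norm_mul, norm_mul]
      _ ≤ n Y * (ε * (n X * n Z)) + n X * (ε * (n Y * n Z)) := by
          gcongr
          · exact hg1 Y
          · exact hE11 X Z
          · exact hg1 X
          · exact hE11 Y Z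
      _ = 2 * ε * ((n X * n Y) * n Z) := by ring
  have hGE2 : ∀ X Y Z W, ‖D11 E (SiegelFn.Gam ρ r x X Y) (SiegelFn.Gam ρ r x Z W) x‖ ≤
      4 * ε * ((n X * n Y) * (n Z * n W)) := by
    intro X Y Z W
    have e1 : D11 E (SiegelFn.Gam ρ r x X Y) (SiegelFn.Gam ρ r x Z W) x =
        conj (g W) * D11 E (SiegelFn.Gam ρ r x X Y) Z x
          + conj (g Z) * D11 E (SiegelFn.Gam ρ r x X Y) W x := by
      rw [hG Z W, D11_add_right hEc, D11_smul_right hEc, D11_smul_right hEc]
    rw [e1]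
    calc ‖conj (g W) * D11 E (SiegelFn.Gam ρ r x X Y) Z x
          + conj (g Z) * D11 E (SiegelFn.Gam ρ r x X Y) W x‖
        ≤ ‖g W‖ * ‖D11 E (SiegelFn.Gam ρ r x X Y) Z x‖
          + ‖g Z‖ * ‖D11 E (SiegelFn.Gam ρ r x X Y) W x‖ := by
          refine (norm_add_le _ _).trans ?_
          rw [norm_mul, norm_mul, RCLike.norm_conj, RCLike.norm_conj]
      _ ≤ n W * (2 * ε * ((n X * n Y) * n Z)) + n Z * (2 * ε * ((n X * n Y) * n W)) := by
          gcongr
          · exact hg1 W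
          · exact hGE X Y Z
          · exact hg1 Z
          · exact hGE X Y W
      _ = 4 * ε * ((n X * n Y) * (n Z * n W)) := by ring
  -- the Christoffel vector of `P`
  have hγ : ∀ X Y Γ, IsGam P x X Y Γ →
      n (Γ - SiegelFn.Gam ρ r x X Y) ≤ 4 * ε * (n X * n Y) := by
    intro X Y Γ hΓ
    set G := SiegelFn.Gam ρ r x X Y with hGd
    set γ := Γ - G with hγd
    have hΓe : Γ = G + (1 : ℂ) • γ := by rw [hγd]; simp
    have h1 := hΓ γ
    rw [hP11, hP21] at h1
    have h2 : D11 a Γ γ x = D11 a G γ x + D11 a γ γ x := by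
      conv_lhs => rw [hΓe]
      rw [D11_add_left hA, D11_smul_left hA, one_mul]
    have h3 : D11 E Γ γ x = D11 E G γ x + D11 E γ γ x := by
      conv_lhs => rw [hΓe]
      rw [D11_add_left hEc, D11_smul_left hEc, one_mul]
    have h4 : D11 a G γ x = D21 a X Y γ x := h.isGam hx X Y γ
    have h5 : D11 a γ γ x = D21 E X Y γ x - D11 E G γ x - D11 E γ γ x := by
      rw [h2, h3, h4] at h1
      linear_combination h1
    have h6 : n γ ^ 2 ≤ ε * (n X * n Y * n γ) + 2 * ε * ((n X * n Y) * n γ) + ε * (n γ * n γ) := by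
      rw [hn2]
      calc (D11 a γ γ x).re ≤ ‖D11 a γ γ x‖ := re_le_norm _
        _ ≤ ‖D21 E X Y γ x‖ + ‖D11 E G γ x‖ + ‖D11 E γ γ x‖ := by
            rw [h5]
            refine (norm_sub_le _ _).trans ?_
            gcongr
            exact norm_sub_le _ _
        _ ≤ _ := by
            gcongr
            · exact hE21 X Y γ
            · exact hGE X Y γ
            · exact hE11 γ γ
    by_cases hz : n γ = 0
    · rw [hz]
      have := mul_nonneg (hn0 X) (hn0 Y)
      positivity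
    · have hpos : 0 < n γ := lt_of_le_of_ne (hn0 γ) (Ne.symm hz)
      have h7 : n γ ≤ 3 * ε * (n X * n Y) + ε * n γ := by
        have : n γ * n γ ≤ (3 * ε * (n X * n Y) + ε * n γ) * n γ := by nlinarith
        exact le_of_mul_le_mul_right this hpos
      have h8 := mul_nonneg (hn0 X) (hn0 Y)
      rw [hε] at h7 ⊢
      nlinarith
  -- the curvature tensor
  have hT : ∀ X Y Z W Γ Γ', IsGam P x X Y Γ → IsGam P x Z W Γ' →
      ‖(D22 P X Y Z W x - D11 P Γ Γ' x) - (D11 a X Z x * D11 a Y W x + D11 a X W x * D11 a Y Z x)‖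
        ≤ 30 * ε * ((n X * n Y) * (n Z * n W)) := by
    intro X Y Z W Γ Γ' hΓ hΓ'
    have hb := hγ X Y Γ hΓ
    have hb' := hγ Z W Γ' hΓ'
    have hT0 := h.D22_sub hx X Y Z W
    have hGE2' := hGE2 X Y Z W
    have hE22' := hE22 X Y Z W
    set G := SiegelFn.Gam ρ r x X Y with hGd
    set G' := SiegelFn.Gam ρ r x Z W with hGd'
    set γ := Γ - G with hγd
    set γ' := Γ' - G' with hγd'
    have hΓe : Γ = G + (1 : ℂ) • γ := by rw [hγd]; simp
    have hΓe' : Γ' = G' + (1 : ℂ) • γ' := by rw [hγd']; simp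
    have e1 : ∀ (Q : V → ℝ), ContDiffAt ℝ ∞ Q x → D11 Q Γ Γ' x =
        D11 Q G G' x + D11 Q G γ' x + D11 Q γ G' x + D11 Q γ γ' x := by
      intro Q hQ
      rw [hΓe, hΓe', D11_add_left hQ, D11_add_right hQ, D11_add_right hQ, D11_smul_left hQ,
        D11_smul_left hQ, D11_smul_right hQ, D11_smul_right hQ]
      simp only [map_one, one_mul]
      ring
    have e2 : (D22 P X Y Z W x - D11 P Γ Γ' x)
        - (D11 a X Z x * D11 a Y W x + D11 a X W x * D11 a Y Z x)
        = D22 E X Y Z W x - D11 a G γ' x - D11 a γ G' x - D11 a γ γ' x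
          - D11 E G G' x - D11 E G γ' x - D11 E γ G' x - D11 E γ γ' x := by
      rw [hP22, hP11, e1 a hA, e1 E hEc, ← hT0]
      ring
    rw [e2]
    set N := n X * n Y with hN
    set N' := n Z * n W with hN'
    have hN0 : 0 ≤ N := mul_nonneg (hn0 X) (hn0 Y)
    have hN0' : 0 ≤ N' := mul_nonneg (hn0 Z) (hn0 W)
    have hε0 : (0 : ℝ) ≤ ε := by rw [hε]; norm_num
    have b1 : ‖D11 a G γ' x‖ ≤ 8 * ε * (N * N') := by
      calc ‖D11 a G γ' x‖ ≤ 2 * N * n γ' := hGa X Y γ'
        _ ≤ 2 * N * (4 * ε * N') := by gcongr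
        _ = 8 * ε * (N * N') := by ring
    have b2 : ‖D11 a γ G' x‖ ≤ 8 * ε * (N * N') := by
      rw [← D11_conj hA, RCLike.norm_conj]
      calc ‖D11 a G' γ x‖ ≤ 2 * N' * n γ := hGa Z W γ
        _ ≤ 2 * N' * (4 * ε * N) := by gcongr
        _ = 8 * ε * (N * N') := by ring
    have b3 : ‖D11 a γ γ' x‖ ≤ ε * (N * N') := by
      calc ‖D11 a γ γ' x‖ ≤ n γ * n γ' := hcs γ γ'
        _ ≤ (4 * ε * N) * (4 * ε * N') := by
            apply mul_le_mul hb hb' (hn0 _) (by positivity)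
        _ = (16 * ε) * ε * (N * N') := by ring
        _ ≤ 1 * ε * (N * N') := by
            gcongr
            rw [hε]; norm_num
        _ = ε * (N * N') := by ring
    have b4 : ‖D11 E G γ' x‖ ≤ ε * (N * N') := by
      calc ‖D11 E G γ' x‖ ≤ 2 * ε * (N * n γ') := hGE X Y γ'
        _ ≤ 2 * ε * (N * (4 * ε * N')) := by gcongr
        _ = (8 * ε) * ε * (N * N') := by ring
        _ ≤ 1 * ε * (N * N') := by
            gcongr
            rw [hε]; norm_num
        _ = ε * (N * N') := by ring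
    have b5 : ‖D11 E γ G' x‖ ≤ ε * (N * N') := by
      rw [← D11_conj hEc, RCLike.norm_conj]
      calc ‖D11 E G' γ x‖ ≤ 2 * ε * (N' * n γ) := hGE Z W γ
        _ ≤ 2 * ε * (N' * (4 * ε * N)) := by gcongr
        _ = (8 * ε) * ε * (N * N') := by ring
        _ ≤ 1 * ε * (N * N') := by
            gcongr
            rw [hε]; norm_num
        _ = ε * (N * N') := by ring
    have b6 : ‖D11 E γ γ' x‖ ≤ ε * (N * N') := by
      calc ‖D11 E γ γ' x‖ ≤ ε * (n γ * n γ') := hE11 γ γ'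
        _ ≤ ε * ((4 * ε * N) * (4 * ε * N')) := by
            gcongr
        _ = (16 * ε * ε) * ε * (N * N') := by ring
        _ ≤ 1 * ε * (N * N') := by
            gcongr
            rw [hε]; norm_num
        _ = ε * (N * N') := by ring
    have hfin : ‖D22 E X Y Z W x - D11 a G γ' x - D11 a γ G' x - D11 a γ γ' x
          - D11 E G G' x - D11 E G γ' x - D11 E γ G' x - D11 E γ γ' x‖ ≤
        ‖D22 E X Y Z W x‖ + ‖D11 a G γ' x‖ + ‖D11 a γ G' x‖ + ‖D11 a γ γ' x‖
          + ‖D11 E G G' x‖ + ‖D11 E G γ' x‖ + ‖D11 E γ G' x‖ + ‖D11 E γ γ' x‖ := by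
      refine (norm_sub_le _ _).trans ?_
      gcongr
      refine (norm_sub_le _ _).trans ?_
      gcongr
      refine (norm_sub_le _ _).trans ?_
      gcongr
      refine (norm_sub_le _ _).trans ?_
      gcongr
      refine (norm_sub_le _ _).trans ?_
      gcongr
      refine (norm_sub_le _ _).trans ?_
      gcongr
      exact norm_sub_le _ _
    have hNN : 0 ≤ ε * (N * N') := by positivity
    linarith
  have hPX : ∀ X, (1 - ε) * n X ^ 2 ≤ (D11 P X X x).re ∧ (D11 P X X x).re ≤ (1 + ε) * n X ^ 2 := by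
    intro X
    have h1 := abs_le.1 ((abs_re_le_norm (D11 E X X x)).trans (hE11 X X))
    rw [hP11, add_re, ← hn2]
    constructor <;> nlinarith [h1.1, h1.2]
  refine ⟨?_, fun X => ?_⟩
  · apply KB_of_exists_shear hP
    intro X Y
    -- choose the shear
    obtain ⟨t, ht⟩ : ∃ t : ℝ, (D11 a X (Y + (t : ℂ) • X) x).re = 0 := by
      by_cases hX : X = 0
      · refine ⟨0, ?_⟩
        have h0 := D11_smul_left hA 0 X (Y + ((0 : ℝ) : ℂ) • X)
        rw [zero_smul, zero_mul] at h0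
        rw [hX] at h0 ⊢
        rw [h0]; simp
      · have hXp := hpd X hX
        refine ⟨- (D11 a X Y x).re / (D11 a X X x).re, ?_⟩
        rw [D11_add_right hA, D11_smul_right hA, conj_ofReal, add_re, re_ofReal_mul]
        field_simp
        ring
    refine ⟨t, ?_⟩
    set Y' := Y + (t : ℂ) • X with hY'
    intro Γxx Γxy Γyy hxx hxy hyy
    have hT1 := hT X Y' X Y' Γxy Γxy hxy hxy
    have hT2 := hT X X Y' Y' Γxx Γyy hxx hyy
    have hr1 := (abs_re_le_norm _).trans hT1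
    have hr2 := (abs_re_le_norm _).trans hT2
    set A := n X ^ 2 * n Y' ^ 2 with hAdef
    have hA0 : 0 ≤ A := by positivity
    have eA1 : (n X * n Y') * (n X * n Y') = A := by rw [hAdef]; ring
    have eA2 : (n X * n X) * (n Y' * n Y') = A := by rw [hAdef]; ring
    rw [eA1] at hr1
    rw [eA2] at hr2
    have him : (D11 a X Y' x).im ^ 2 ≤ A := by
      have h1 := D11_cs hA hpd X Y'
      rw [← normSq_eq_norm_sq, normSq_apply, ← hn2 X, ← hn2 Y'] at h1
      rw [hAdef]
      nlinarith [sq_nonneg (D11 a X Y' x).re]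
    have hnegK : |negK P x X Y' Γxx Γxy Γyy - (A + 3 * (D11 a X Y' x).im ^ 2)| ≤ 60 * ε * A := by
      have e : negK P x X Y' Γxx Γxy Γyy - (A + 3 * (D11 a X Y' x).im ^ 2) =
          ((D22 P X Y' X Y' x - D11 P Γxy Γxy x) -
            (D11 a X X x * D11 a Y' Y' x + D11 a X Y' x * D11 a Y' X x)).re -
          ((D22 P X X Y' Y' x - D11 P Γxx Γyy x) -
            (D11 a X Y' x * D11 a X Y' x + D11 a X Y' x * D11 a X Y' x)).re := by
        unfold negK
        simp only [sub_re, add_re, mul_re, D11_self_im hA, D11_symm_re hA X Y', D11_symm_im hA X Y',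
          ← hn2, ht]
        rw [hAdef]
        ring
      rw [e]
      refine (abs_sub _ _).trans ?_
      linarith
    have h1 := abs_le.1 hnegK
    have hX := hPX X
    have hY := hPX Y'
    have hXY : (D11 P X Y' x).re ^ 2 ≤ ε ^ 2 * A := by
      have h2 : |(D11 P X Y' x).re| ≤ ε * (n X * n Y') := by
        rw [hP11, add_re, ht, zero_add]
        exact (abs_re_le_norm _).trans (hE11 X Y')
      have h3 : (D11 P X Y' x).re ^ 2 ≤ (ε * (n X * n Y')) ^ 2 := sq_le_sq' (by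
        linarith [(abs_le.1 h2).1]) (abs_le.1 h2).2
      calc (D11 P X Y' x).re ^ 2 ≤ (ε * (n X * n Y')) ^ 2 := h3
        _ = ε ^ 2 * A := by rw [hAdef]; ring
    have hε0 : (0 : ℝ) < 1 - ε := by rw [hε]; norm_num
    have hup : area P x X Y' ≤ (1 + ε) ^ 2 * A := by
      unfold area
      have h2 : (D11 P X X x).re * (D11 P Y' Y' x).re ≤
          ((1 + ε) * n X ^ 2) * ((1 + ε) * n Y' ^ 2) := by
        apply mul_le_mul hX.2 hY.2
        · exact le_trans (by positivity) hY.1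
        · rw [hε]; positivity
      have h3 : ((1 + ε) * n X ^ 2) * ((1 + ε) * n Y' ^ 2) = (1 + ε) ^ 2 * A := by
        rw [hAdef]; ring
      nlinarith [sq_nonneg (D11 P X Y' x).re]
    have hlo : ((1 - ε) ^ 2 - ε ^ 2) * A ≤ area P x X Y' := by
      unfold area
      have h2 : ((1 - ε) * n X ^ 2) * ((1 - ε) * n Y' ^ 2) ≤
          (D11 P X X x).re * (D11 P Y' Y' x).re := by
        apply mul_le_mul hX.1 hY.1 (by positivity)
        exact le_trans (by positivity) hX.1
      have h3 : ((1 - ε) * n X ^ 2) * ((1 - ε) * n Y' ^ 2) = (1 - ε) ^ 2 * A := by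
        rw [hAdef]; ring
      nlinarith
    have him0 := sq_nonneg (D11 a X Y' x).im
    have hup' : area P x X Y' ≤ 1.02 * A := by
      refine hup.trans (mul_le_mul_of_nonneg_right ?_ hA0)
      rw [hε]; norm_num
    have hlo' : 0.98 * A ≤ area P x X Y' := by
      refine le_trans (mul_le_mul_of_nonneg_right ?_ hA0) hlo
      rw [hε]; norm_num
    have h1' : 60 * ε * A = 0.3 * A := by rw [hε]; ring
    rw [h1'] at h1
    obtain ⟨h1a, h1b⟩ := h1
    constructor
    · linarith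
    · linarith
  · have h1 := (hPX X).1
    have h2 := hn2 X
    have h3 : (1 / 2 : ℝ) * n X ^ 2 ≤ (1 - ε) * n X ^ 2 :=
      mul_le_mul_of_nonneg_right (by rw [hε]; norm_num) (sq_nonneg _)
    rw [← h2]
    exact h3.trans h1

end pert

theorem p0_rho3 : rho3 p0 = 1 := by
  unfold rho3 p0
  simp

theorem curvR0 : ∃ δ > 0, ∀ (P : V3 → ℝ), ContDiffAt ℝ ∞ P p0 →
    (∀ k : ℕ, 1 ≤ k → k ≤ 4 → ‖iteratedFDeriv ℝ k (fun x => P x - a3 x) p0‖ ≤ δ) →
      KB P p0 (1/2) 5 ∧ ∀ X, (1/2) * (D11 a3 X X p0).re ≤ (D11 P X X p0).re := by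
  refine ⟨1 / (200 * 2 ^ 4), by norm_num, fun P hP hE => ?_⟩
  have hp : 0 < rho3 p0 := by rw [p0_rho3]; norm_num
  have hpd := a3_pd p0 hp
  rw [a3_eq_aL] at hpd ⊢
  refine siegel3.curv_pert hp hpd (fun X => ?_) 2 (by norm_num) (fun X => ?_) P hP hE
  · unfold s3
    rw [mul_conj, mul_conj]
    simp only [add_re, ofReal_re]
    exact add_nonneg (normSq_nonneg _) (normSq_nonneg _)
  · have e : (D11 (aL rho3) X X p0).re = normSq (X 0) + normSq (X 2) + normSq (X 1) / 4 := by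
      rw [siegel3.D11_eq hp]
      unfold SiegelFn.inv r3 s3
      rw [p0_rho3]
      have h0 : p0 0 = 0 := rfl
      have h2 : p0 2 = 0 := rfl
      rw [h0, h2]
      simp only [inv_one, ofReal_one, one_pow, one_mul, map_zero, mul_zero, sub_zero, add_re,
        map_div₀, map_mul, conj_I]
      rw [mul_conj, mul_conj]
      have : X 1 / (2 * I) * (conj (X 1) / (conj 2 * -I)) = ((normSq (X 1) / 4 : ℝ) : ℂ) := by
        have hI : I ≠ 0 := I_ne_zero
        rw [div_mul_div_comm, mul_conj]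
        have : (2 * I) * (conj 2 * -I) = (4 : ℂ) := by
          have h2 : (conj (2 : ℂ)) = 2 := map_ofNat (starRingEnd ℂ) 2
          rw [h2]
          linear_combination (-4 : ℂ) * I_sq
        rw [this]
        push_cast
        rfl
      rw [this]
      simp only [ofReal_re]
      ring
    rw [e]
    have hsq : ∀ i : Fin 3, normSq (X i) ≤ 4 * (normSq (X 0) + normSq (X 2) + normSq (X 1) / 4) := by
      intro i
      have h0 := normSq_nonneg (X 0)
      have h1 := normSq_nonneg (X 1)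
      have h2 := normSq_nonneg (X 2)
      fin_cases i
      · show normSq (X 0) ≤ _; linarith
      · show normSq (X 1) ≤ _; linarith
      · show normSq (X 2) ≤ _; linarith
    set S := normSq (X 0) + normSq (X 2) + normSq (X 1) / 4 with hS
    have hS0 : 0 ≤ S := by
      have h0 := normSq_nonneg (X 0)
      have h1 := normSq_nonneg (X 1)
      have h2 := normSq_nonneg (X 2)
      rw [hS]; positivity
    rw [pi_norm_le_iff_of_nonneg (by positivity)]
    intro i
    have h1 : ‖X i‖ ^ 2 ≤ (2 * Real.sqrt S) ^ 2 := by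
      rw [mul_pow, Real.sq_sqrt hS0, ← normSq_eq_norm_sq]
      linarith [hsq i]
    exact (sq_le_sq₀ (norm_nonneg _) (by positivity)).1 h1

end Crest.Agent.R245
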