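import Mathlib
import Crest.Agent.R245.BasePert
import Crest.Agent.R245.CurvNum

-- ▼ part R245/CurvAux
section

set_option autoImplicit false

namespace Crest.Agent.R245

open Complex Filter Topology
open scoped ContDiff ComplexConjugate

/-- Hermitian forms, `ℂ`-linear in the first variable. -/
structure Herm {V : Type*} [AddCommGroup V] [Module ℂ V] (S : V → V → ℂ) : Prop where
  add_left : ∀ x x' y, S (x + x') y = S x y + S x' y
  smul_left : ∀ (c : ℂ) (x y : V), S (c • x) y = c * S x y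
  conj_symm : ∀ x y, conj (S x y) = S y x

namespace Herm

variable {V : Type*} [AddCommGroup V] [Module ℂ V] {S T E : V → V → ℂ}

theorem add_right (hS : Herm S) (x y y' : V) : S x (y + y') = S x y + S x y' := by
  rw [← hS.conj_symm (y + y') x, hS.add_left, map_add, hS.conj_symm, hS.conj_symm]

theorem smul_right (hS : Herm S) (c : ℂ) (x y : V) : S x (c • y) = conj c * S x y := by
  rw [← hS.conj_symm (c • y) x, hS.smul_left, map_mul, hS.conj_symm]

theorem zero_left (hS : Herm S) (y : V) : S 0 y = 0 := by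
  have := hS.smul_left 0 0 y
  simpa using this


theorem im_self (hS : Herm S) (x : V) : (S x x).im = 0 := by
  have := congrArg Complex.im (hS.conj_symm x x)
  simp at this; linarith

theorem self_eq (hS : Herm S) (x : V) : S x x = ((S x x).re : ℂ) := by
  apply Complex.ext <;> simp [hS.im_self]



theorem add (hS : Herm S) (hT : Herm T) : Herm (fun x y => S x y + T x y) where
  add_left x x' y := by rw [hS.add_left, hT.add_left]; ring
  smul_left c x y := by rw [hS.smul_left, hT.smul_left]; ring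
  conj_symm x y := by rw [map_add, hS.conj_symm, hT.conj_symm]

theorem const_mul (hS : Herm S) (r : ℝ) : Herm (fun x y => (r : ℂ) * S x y) where
  add_left x x' y := by rw [hS.add_left]; ring
  smul_left c x y := by rw [hS.smul_left]; ring
  conj_symm x y := by rw [map_mul, hS.conj_symm, Complex.conj_ofReal]

/-- expansion of the diagonal -/
theorem self_add_smul (hS : Herm S) (x y : V) (c : ℂ) :
    (S (y + c • x) (y + c • x)).re = (S y y).re + 2 * (c * S x y).re + ‖c‖ ^ 2 * (S x x).re := by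
  rw [hS.add_left, hS.add_right, hS.add_right, hS.smul_left, hS.smul_left, hS.smul_right,
    hS.smul_right, ← hS.conj_symm x y, hS.self_eq x]
  simp only [Complex.add_re, Complex.mul_re, Complex.conj_re, Complex.conj_im,
    Complex.ofReal_re, Complex.ofReal_im, Complex.mul_im, Complex.sq_norm,
    Complex.normSq_apply]
  ring

/-- the squared area of the real parallelogram -/
def ar (S : V → V → ℂ) (x y : V) : ℝ := (S x x).re * (S y y).re - (S x y).re ^ 2

theorem ar_add_smul (hS : Herm S) (x y : V) (r : ℝ) : ar S x (y + (r : ℂ) • x) = ar S x y := by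
  unfold ar
  rw [hS.self_add_smul, hS.add_right, hS.smul_right, hS.self_eq x]
  simp only [Complex.add_re, Complex.mul_re, Complex.conj_ofReal,
    Complex.ofReal_re, Complex.ofReal_im, Complex.norm_real, Real.norm_eq_abs, sq_abs]
  ring

theorem im_add_smul (hS : Herm S) (x y : V) (r : ℝ) : (S x (y + (r : ℂ) • x)).im = (S x y).im := by
  rw [hS.add_right, hS.smul_right, hS.self_eq x]
  simp

theorem re_add_smul (hS : Herm S) (x y : V) (r : ℝ) :
    (S x (y + (r : ℂ) • x)).re = (S x y).re + r * (S x x).re := by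
  rw [hS.add_right, hS.smul_right, hS.self_eq x]
  simp

/-- Cauchy-Schwarz -/
theorem cs (hS : Herm S) (h0 : ∀ x, 0 ≤ (S x x).re) (x y : V) :
    (S x y).re ^ 2 + (S x y).im ^ 2 ≤ (S x x).re * (S y y).re := by
  rcases (h0 x).eq_or_lt with h | h
  · -- degenerate
    have key : ∀ t : ℝ, 0 ≤ (S y y).re + 2 * (t * ((S x y).re ^ 2 + (S x y).im ^ 2)) := by
      intro t
      have := h0 (y + ((t : ℂ) * conj (S x y)) • x)
      rw [hS.self_add_smul, ← h] at this
      simp only [Complex.mul_re, Complex.ofReal_re, Complex.ofReal_im, Complex.conj_re,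
        Complex.conj_im, Complex.mul_im] at this
      nlinarith [this]
    by_contra hc
    push Not at hc
    rw [← h, zero_mul] at hc
    have h1 := key (-((S y y).re + 1) / (2 * ((S x y).re ^ 2 + (S x y).im ^ 2)))
    have h2 : 2 * (-((S y y).re + 1) / (2 * ((S x y).re ^ 2 + (S x y).im ^ 2)) *
      ((S x y).re ^ 2 + (S x y).im ^ 2)) = -((S y y).re + 1) := by field_simp
    rw [h2] at h1
    linarith
  · have := h0 (y + (-(conj (S x y)) / ((S x x).re : ℂ)) • x)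
    rw [hS.self_add_smul] at this
    have e1 : (-(conj (S x y)) / ((S x x).re : ℂ) * S x y).re
        = -((S x y).re ^ 2 + (S x y).im ^ 2) / (S x x).re := by
      rw [div_mul_eq_mul_div, neg_mul, ← Complex.normSq_eq_conj_mul_self, Complex.normSq_apply,
        ← Complex.ofReal_neg, ← Complex.ofReal_div, Complex.ofReal_re]
      ring
    have e2 : ‖-(conj (S x y)) / ((S x x).re : ℂ)‖ ^ 2
        = ((S x y).re ^ 2 + (S x y).im ^ 2) / (S x x).re ^ 2 := by
      rw [norm_div, norm_neg, div_pow, RCLike.norm_conj, Complex.sq_norm, Complex.normSq_apply,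
        Complex.norm_real, Real.norm_eq_abs, sq_abs]
      ring
    rw [e1, e2] at this
    have e3 : (S y y).re + 2 * (-((S x y).re ^ 2 + (S x y).im ^ 2) / (S x x).re)
      + ((S x y).re ^ 2 + (S x y).im ^ 2) / (S x x).re ^ 2 * (S x x).re
      = ((S x x).re * (S y y).re - ((S x y).re ^ 2 + (S x y).im ^ 2)) / (S x x).re := by
      field_simp; ring
    rw [e3] at this
    have := (div_nonneg_iff.1 this)
    rcases this with h' | h'
    · linarith [h'.1]
    · linarith [h'.2]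

theorem im_sq_le (hS : Herm S) (h0 : ∀ x, 0 ≤ (S x x).re) (x y : V) :
    (S x y).im ^ 2 ≤ ar S x y := by
  have := hS.cs h0 x y
  unfold ar; linarith

theorem ar_nonneg (hS : Herm S) (h0 : ∀ x, 0 ≤ (S x x).re) (x y : V) : 0 ≤ ar S x y :=
  le_trans (sq_nonneg _) (hS.im_sq_le h0 x y)

/-- the existence of `r` with `Re T (x, y + r x) = 0` -/
theorem exists_orth (hT : Herm T) (hpd : ∀ x, x ≠ 0 → 0 < (T x x).re) (x y : V) :
    ∃ r : ℝ, (T x (y + (r : ℂ) • x)).re = 0 := by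
  by_cases hx : x = 0
  · exact ⟨0, by subst hx; simp [hT.zero_left]⟩
  · refine ⟨-(T x y).re / (T x x).re, ?_⟩
    rw [hT.re_add_smul]
    have := hpd x hx
    field_simp; ring

/-- alternating forms are controlled by the area -/
theorem abs_im_le (hT : Herm T) (hpd : ∀ x, x ≠ 0 → 0 < (T x x).re) (hE : Herm E) {e : ℝ}
    
    (h : ∀ x y, ‖E x y‖ ≤ e * Real.sqrt (T x x).re * Real.sqrt (T y y).re) (x y : V) :
    |(E x y).im| ≤ e * Real.sqrt (ar T x y) := by
  obtain ⟨r, hr⟩ := hT.exists_orth hpd x y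
  rw [← hE.im_add_smul x y r, ← hT.ar_add_smul x y r]
  set y' := y + (r : ℂ) • x
  have h1 := (Complex.abs_im_le_norm (E x y')).trans (h x y')
  have h0 : ∀ x, 0 ≤ (T x x).re := fun x => by
    by_cases hx : x = 0
    · simp [hx, hT.zero_left]
    · exact (hpd x hx).le
  unfold ar
  rw [hr, zero_pow two_ne_zero, sub_zero, Real.sqrt_mul (h0 x)]
  linarith

/-- monotonicity of the area -/
theorem ar_mono (hS : Herm S) (hT : Herm T) (hpd : ∀ x, x ≠ 0 → 0 < (T x x).re) {l : ℝ}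
    (hl : 0 ≤ l) (h : ∀ x, l * (T x x).re ≤ (S x x).re) (x y : V) :
    l ^ 2 * ar T x y ≤ ar S x y := by
  have hT0 : ∀ x, 0 ≤ (T x x).re := fun x => by
    by_cases hx : x = 0
    · simp [hx, hT.zero_left]
    · exact (hpd x hx).le
  have hS0 : ∀ x, 0 ≤ (S x x).re := fun x => le_trans (mul_nonneg hl (hT0 x)) (h x)
  -- D = S - l T is nonnegative
  have hD : Herm (fun x y => S x y + ((-l : ℝ) : ℂ) * T x y) := hS.add (hT.const_mul (-l))
  have hD0 : ∀ x, 0 ≤ (S x x + ((-l : ℝ) : ℂ) * T x x).re := by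
    intro x
    have := h x
    simp only [Complex.add_re, Complex.re_ofReal_mul]
    linarith
  obtain ⟨r, hr⟩ := hT.exists_orth hpd x y
  rw [← hS.ar_add_smul x y r, ← hT.ar_add_smul x y r]
  set y' := y + (r : ℂ) • x
  have h1 := hD.cs hD0 x y'
  simp only [Complex.add_re, Complex.add_im, Complex.re_ofReal_mul, Complex.im_ofReal_mul, hr] at h1
  unfold ar
  rw [hr]
  have a1 := h x
  have a2 := h y'
  have b1 := hT0 x
  have b2 := hT0 y'
  nlinarith [mul_nonneg (sub_nonneg.2 a1) (mul_nonneg hl b2), mul_nonneg (sub_nonneg.2 a2)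
    (mul_nonneg hl b1), sq_nonneg ((S x y').im + -l * (T x y').im)]

/-- upper bound of the area -/
theorem ar_mono' (hS : Herm S) (hS0 : ∀ x, 0 ≤ (S x x).re) (hT : Herm T)
    (hpd : ∀ x, x ≠ 0 → 0 < (T x x).re) {l : ℝ}
    (hl : 0 ≤ l) (h : ∀ x, (S x x).re ≤ l * (T x x).re) (x y : V) :
    ar S x y ≤ l ^ 2 * ar T x y := by
  have hT0 : ∀ x, 0 ≤ (T x x).re := fun x => by
    by_cases hx : x = 0
    · simp [hx, hT.zero_left]
    · exact (hpd x hx).le
  obtain ⟨r, hr⟩ := hT.exists_orth hpd x y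
  rw [← hS.ar_add_smul x y r, ← hT.ar_add_smul x y r]
  set y' := y + (r : ℂ) • x
  unfold ar
  rw [hr]
  have a1 := h x
  have a2 := h y'
  have := mul_le_mul a1 a2 (hS0 y') (mul_nonneg hl (hT0 x))
  nlinarith [sq_nonneg (S x y').re]

/-- representation of conjugate linear functionals -/
theorem exists_rep [FiniteDimensional ℂ V] (hS : Herm S) (hpd : ∀ x, x ≠ 0 → 0 < (S x x).re)
    (f : V → ℂ) (hfa : ∀ x y, f (x + y) = f x + f y)
    (hfs : ∀ (c : ℂ) (x : V), f (c • x) = conj c * f x) : ∃ v, ∀ w, S v w = f w := by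
  classical
  let Ψ : V →ₗ[ℝ] Module.Dual ℂ V :=
    { toFun := fun v =>
        { toFun := fun w => S w v
          map_add' := fun w w' => hS.add_left w w' v
          map_smul' := fun c w => by simp [hS.smul_left] }
      map_add' := fun v v' => by
        ext w; simp [hS.add_right]
      map_smul' := fun r v => by
        ext w
        have : (r • v : V) = (r : ℂ) • v := by simp
        simp only [LinearMap.coe_mk, AddHom.coe_mk, RingHom.id_apply, LinearMap.smul_apply, this,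
          hS.smul_right, Complex.conj_ofReal, Complex.real_smul] }
  have hinj : Function.Injective Ψ := by
    rw [← LinearMap.ker_eq_bot, LinearMap.ker_eq_bot']
    intro v hv
    by_contra hne
    have h1 := hpd v hne
    have h2 : (Ψ v) v = 0 := by rw [hv]; rfl
    have h3 : S v v = 0 := h2
    rw [h3] at h1
    simp at h1
  have _ : FiniteDimensional ℝ V := FiniteDimensional.complexToReal V
  have _ : FiniteDimensional ℝ (Module.Dual ℂ V) :=
    Module.Finite.trans ℂ (Module.Dual ℂ V)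
  have hfr : Module.finrank ℝ V = Module.finrank ℝ (Module.Dual ℂ V) := by
    rw [← Module.finrank_mul_finrank ℝ ℂ V, ← Module.finrank_mul_finrank ℝ ℂ (Module.Dual ℂ V),
      Subspace.dual_finrank_eq]
  have hsurj := (LinearMap.injective_iff_surjective_of_finrank_eq_finrank hfr).1 hinj
  let F : Module.Dual ℂ V :=
    { toFun := fun w => conj (f w)
      map_add' := fun w w' => by simp [hfa]
      map_smul' := fun c w => by simp [hfs] }
  obtain ⟨v, hv⟩ := hsurj F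
  refine ⟨v, fun w => ?_⟩
  have h1 : (Ψ v) w = F w := by rw [hv]
  have h2 : S w v = conj (f w) := h1
  rw [← hS.conj_symm w v, h2, Complex.conj_conj]

/-- the curvature type form -/
def ck (S : V → V → ℂ) (x y : V) : ℝ :=
  (S x x).re * (S y y).re - (S x y).re ^ 2 + 3 * (S x y).im ^ 2

theorem ck_eq (S : V → V → ℂ) (x y : V) : ck S x y = ar S x y + 3 * (S x y).im ^ 2 := rfl

theorem ck_add_smul (hS : Herm S) (x y : V) (r : ℝ) : ck S x (y + (r : ℂ) • x) = ck S x y := by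
  rw [ck_eq, ck_eq, hS.ar_add_smul, hS.im_add_smul]

theorem nonneg_of_pd (hT : Herm T) (hpd : ∀ x, x ≠ 0 → 0 < (T x x).re) (x : V) :
    0 ≤ (T x x).re := by
  by_cases hx : x = 0
  · simp [hx, hT.zero_left]
  · exact (hpd x hx).le

/-- perturbation of `ck` -/
theorem ck_pert (hT : Herm T) (hpd : ∀ x, x ≠ 0 → 0 < (T x x).re) (hS : Herm S) {σ e : ℝ} (hσ : 0 ≤ σ) (he : 0 ≤ e)
    (hST : ∀ x y, S x y = (σ : ℂ) * T x y + E x y)
    (h : ∀ x y, ‖E x y‖ ≤ e * Real.sqrt (T x x).re * Real.sqrt (T y y).re) (x y : V) :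
    |ck S x y - σ ^ 2 * ck T x y| ≤ (8 * σ * e + 5 * e ^ 2) * ar T x y := by
  obtain ⟨r, hr⟩ := hT.exists_orth hpd x y
  rw [← hS.ck_add_smul x y r, ← hT.ar_add_smul x y r, ← hT.ck_add_smul x y r]
  set y' := y + (r : ℂ) • x
  have h0 := hT.nonneg_of_pd hpd
  set p := Real.sqrt (T x x).re with hp
  set t := Real.sqrt (T y' y').re with ht
  have hp0 : 0 ≤ p := Real.sqrt_nonneg _
  have ht0 : 0 ≤ t := Real.sqrt_nonneg _
  have hp2 : (T x x).re = p ^ 2 := (Real.sq_sqrt (h0 x)).symm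
  have ht2 : (T y' y').re = t ^ 2 := (Real.sq_sqrt (h0 y')).symm
  have a1 : |(E x x).re| ≤ e * p * p := (Complex.abs_re_le_norm _).trans (h x x)
  have a2 : |(E y' y').re| ≤ e * t * t := (Complex.abs_re_le_norm _).trans (h y' y')
  have a3 : |(E x y').re| ≤ e * p * t := (Complex.abs_re_le_norm _).trans (h x y')
  have a4 : |(E x y').im| ≤ e * p * t := (Complex.abs_im_le_norm _).trans (h x y')
  have a5 : |(T x y').im| ≤ p * t := by
    have := hT.cs h0 x y'
    apply abs_le_of_sq_le_sq _ (by positivity)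
    rw [hp2, ht2] at this
    nlinarith [sq_nonneg (T x y').re]
  unfold ck ar
  rw [hST, hST, hST]
  simp only [Complex.add_re, Complex.add_im, Complex.re_ofReal_mul, Complex.im_ofReal_mul, hr, hp2,
    ht2]
  set e1 := (E x x).re
  set e2 := (E y' y').re
  set e3 := (E x y').re
  set e4 := (E x y').im
  set I := (T x y').im
  have hid : (σ * p ^ 2 + e1) * (σ * t ^ 2 + e2) - (σ * 0 + e3) ^ 2 + 3 * (σ * I + e4) ^ 2
      - σ ^ 2 * (p ^ 2 * t ^ 2 - 0 ^ 2 + 3 * I ^ 2)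
      = σ * p ^ 2 * e2 + σ * t ^ 2 * e1 + e1 * e2 - e3 ^ 2 + 6 * σ * (I * e4) + 3 * e4 ^ 2 := by
    ring
  rw [hid]
  have b1 : |σ * p ^ 2 * e2| ≤ σ * e * (p ^ 2 * t ^ 2) := by
    rw [abs_mul, abs_of_nonneg (by positivity : 0 ≤ σ * p ^ 2)]
    calc σ * p ^ 2 * |e2| ≤ σ * p ^ 2 * (e * t * t) := by gcongr
      _ = _ := by ring
  have b2 : |σ * t ^ 2 * e1| ≤ σ * e * (p ^ 2 * t ^ 2) := by
    rw [abs_mul, abs_of_nonneg (by positivity : 0 ≤ σ * t ^ 2)]
    calc σ * t ^ 2 * |e1| ≤ σ * t ^ 2 * (e * p * p) := by gcongr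
      _ = _ := by ring
  have b3 : |e1 * e2| ≤ e ^ 2 * (p ^ 2 * t ^ 2) := by
    rw [abs_mul]
    calc |e1| * |e2| ≤ (e * p * p) * (e * t * t) := by gcongr
      _ = _ := by ring
  have b4 : |e3 ^ 2| ≤ e ^ 2 * (p ^ 2 * t ^ 2) := by
    rw [abs_pow]
    calc |e3| ^ 2 ≤ (e * p * t) ^ 2 := by gcongr
      _ = _ := by ring
  have b5 : |6 * σ * (I * e4)| ≤ 6 * σ * e * (p ^ 2 * t ^ 2) := by
    rw [abs_mul, abs_mul I, abs_of_nonneg (by positivity : 0 ≤ 6 * σ)]
    calc 6 * σ * (|I| * |e4|) ≤ 6 * σ * ((p * t) * (e * p * t)) := by gcongr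
      _ = _ := by ring
  have b6 : |3 * e4 ^ 2| ≤ 3 * e ^ 2 * (p ^ 2 * t ^ 2) := by
    rw [abs_mul, abs_pow, abs_of_nonneg (by norm_num : (0:ℝ) ≤ 3)]
    calc 3 * |e4| ^ 2 ≤ 3 * (e * p * t) ^ 2 := by gcongr
      _ = _ := by ring
  have e0 : p ^ 2 * t ^ 2 - 0 ^ 2 = p ^ 2 * t ^ 2 := by ring
  rw [e0]
  rw [abs_le] at b1 b2 b3 b4 b5 b6 ⊢
  constructor <;> linarith [b1.1, b1.2, b2.1, b2.2, b3.1, b3.2, b4.1, b4.2, b5.1, b5.2, b6.1, b6.2]

/-- lower bound for the total area -/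
theorem gram_lower (hS : Herm S) (h0 : ∀ x, 0 ≤ (S x x).re) (x y u : V) (α β : ℂ)
    (hu : u = conj α • y - conj β • x) :
    (1 / 2) * ar S x y + (1 / 2) * (S u u).re + (α * conj β).im ^ 2 ≤
      ar S x y + (S u u).re - 2 * (α * conj β).im * (S x y).im + (α * conj β).im ^ 2 := by
  have h1 := hS.im_sq_le h0 x y
  have h2 := h0 (β • x + (-α) • y)
  have h3 : (S (β • x + (-α) • y) (β • x + (-α) • y)).re
      = (S u u).re - 4 * (α * conj β).im * (S x y).im := by
    have hu' : u = (conj α) • y + (-(conj β)) • x := by rw [hu, neg_smul, sub_eq_add_neg]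
    rw [hu']
    simp only [hS.add_left, hS.add_right, hS.smul_left, hS.smul_right, Complex.add_re,
      map_neg, Complex.conj_conj]
    rw [← hS.conj_symm x y, hS.self_eq x, hS.self_eq y]
    simp only [Complex.mul_re, Complex.mul_im, Complex.conj_re, Complex.conj_im,
      Complex.ofReal_re, Complex.ofReal_im, Complex.neg_re, Complex.neg_im]
    ring
  rw [h3] at h2
  nlinarith

theorem gram_upper (hS : Herm S) (h0 : ∀ x, 0 ≤ (S x x).re) (x y u : V) (q : ℝ) :
    ar S x y + (S u u).re - 2 * q * (S x y).im + q ^ 2 ≤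
      2 * (ar S x y + (S u u).re + q ^ 2) := by
  have h1 := hS.im_sq_le h0 x y
  have h2 := h0 u
  nlinarith [sq_nonneg (q + (S x y).im)]

end Herm

end Crest.Agent.R245
end

-- ▼ part R245/CurvBase
section

set_option autoImplicit false

namespace Crest.Agent.R245

open Complex Filter Topology
open scoped ContDiff ComplexConjugate

section Gen

variable {V : Type*} [NormedAddCommGroup V] [NormedSpace ℝ V] [NormedSpace ℂ V] [IsScalarTower ℝ ℂ V]
variable {P : V → ℝ} {p : V}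

theorem herm_D11 (hP : ContDiffAt ℝ ∞ P p) : Herm (fun X Y => D11 P X Y p) where
  add_left x x' y := D11_add_left hP x x' y
  smul_left c x y := D11_smul_left hP c x y
  conj_symm x y := D11_conj hP x y


theorem exists_isGam [FiniteDimensional ℂ V] (hP : ContDiffAt ℝ ∞ P p) (hpd : PD P p) (X Y : V) :
    ∃ Γ, IsGam P p X Y Γ :=
  (herm_D11 hP).exists_rep hpd (fun Z => D21 P X Y Z p) (fun Z Z' => D21_add_3 hP X Y Z Z')
    (fun c Z => D21_smul_3 hP c X Y Z)

theorem exists_kappa [FiniteDimensional ℂ V] {Q : V → ℝ} (hP : ContDiffAt ℝ ∞ P p)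
    (hpd : PD P p) (hQ : ContDiffAt ℝ ∞ Q p) :
    ∃ κ : V → V, ∀ v w, D11 P (κ v) w p = D11 Q v w p := by
  choose κ hκ using fun v => (herm_D11 hP).exists_rep hpd (fun w => D11 Q v w p)
    (fun w w' => D11_add_right hQ v w w') (fun c w => D11_smul_right hQ c v w)
  exact ⟨κ, hκ⟩

end Gen


/-- the model form at `q0` -/
theorem om_eq (ξ : B2) : (D11 aS ξ ξ q0).re = ‖ξ.1‖ ^ 2 + (1 / 4) * ‖ξ.2‖ ^ 2 := by
  rw [aS_D11_q0]
  simp only [Complex.add_re, Complex.mul_re, Complex.conj_re, Complex.conj_im, Complex.sq_norm,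
    Complex.normSq_apply]
  norm_num

theorem om_pd (ξ : B2) (hξ : ξ ≠ 0) : 0 < (D11 aS ξ ξ q0).re := by
  rw [om_eq]
  by_contra h
  push Not at h
  have h1 : ‖ξ.1‖ = 0 := by nlinarith [sq_nonneg ‖ξ.1‖, sq_nonneg ‖ξ.2‖]
  have h2 : ‖ξ.2‖ = 0 := by nlinarith [sq_nonneg ‖ξ.1‖, sq_nonneg ‖ξ.2‖]
  exact hξ (Prod.ext (norm_eq_zero.1 h1) (norm_eq_zero.1 h2))

theorem om_nonneg (ξ : B2) : 0 ≤ (D11 aS ξ ξ q0).re := by
  rw [om_eq]; positivity

theorem norm_le_om (ξ : B2) : ‖ξ‖ ≤ 2 * Real.sqrt (D11 aS ξ ξ q0).re := by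
  rw [om_eq]
  have h1 : ‖ξ.1‖ ≤ 2 * Real.sqrt (‖ξ.1‖ ^ 2 + (1 / 4) * ‖ξ.2‖ ^ 2) := by
    have : ‖ξ.1‖ ≤ Real.sqrt (‖ξ.1‖ ^ 2 + (1 / 4) * ‖ξ.2‖ ^ 2) := by
      apply Real.le_sqrt_of_sq_le
      nlinarith [sq_nonneg ‖ξ.2‖]
    have := Real.sqrt_nonneg (‖ξ.1‖ ^ 2 + (1 / 4) * ‖ξ.2‖ ^ 2)
    linarith
  have h2 : ‖ξ.2‖ ≤ 2 * Real.sqrt (‖ξ.1‖ ^ 2 + (1 / 4) * ‖ξ.2‖ ^ 2) := by
    have : ‖ξ.2‖ / 2 ≤ Real.sqrt (‖ξ.1‖ ^ 2 + (1 / 4) * ‖ξ.2‖ ^ 2) := by
      apply Real.le_sqrt_of_sq_le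
      nlinarith [sq_nonneg ‖ξ.1‖]
    linarith
  rw [Prod.norm_def]
  exact max_le h1 h2

theorem aS_at : ContDiffAt ℝ ∞ aS q0 := aS_contDiffAt q0_mem

theorem herm_aS : Herm (fun X Y => D11 aS X Y q0) := herm_D11 aS_at

theorem jet_D11_le {E : B2 → ℝ} {e : ℝ} (hE : ContDiffAt ℝ ∞ E q0) (h : JetB E e) (ξ η : B2) :
    ‖D11 E ξ η q0‖ ≤ (4 * e) * Real.sqrt (D11 aS ξ ξ q0).re * Real.sqrt (D11 aS η η q0).re := by
  have h1 := D11_le hE ξ η
  have h2 := h 2 (by norm_num) (by norm_num)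
  have h3 := norm_le_om ξ
  have h4 := norm_le_om η
  have he : 0 ≤ e := le_trans (norm_nonneg _) h2
  calc ‖D11 E ξ η q0‖ ≤ ‖iteratedFDeriv ℝ 2 E q0‖ * ‖ξ‖ * ‖η‖ := h1
    _ ≤ e * (2 * Real.sqrt (D11 aS ξ ξ q0).re) * (2 * Real.sqrt (D11 aS η η q0).re) := by gcongr
    _ = _ := by ring

theorem jetB_add_smul {E F : B2 → ℝ} {e f y : ℝ} (hE : ContDiffAt ℝ ∞ E q0)
    (hF : ContDiffAt ℝ ∞ F q0) (h : JetB E e) (h' : JetB F f) (hy : 0 ≤ y) :
    JetB (fun b => E b + y * F b) (e + y * f) := by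
  intro k hk1 hk4
  have hE' : ContDiffAt ℝ k E q0 := hE.of_le (by exact_mod_cast le_top)
  have hF' : ContDiffAt ℝ k F q0 := hF.of_le (by exact_mod_cast le_top)
  have e1 : (fun b => E b + y * F b) = E + y • F := by
    funext b; simp
  rw [e1, iteratedFDeriv_add_apply (f := E) (g := y • F) hE' (hF'.const_smul y),
    iteratedFDeriv_const_smul_apply hF']
  calc ‖iteratedFDeriv ℝ k E q0 + y • iteratedFDeriv ℝ k F q0‖
      ≤ ‖iteratedFDeriv ℝ k E q0‖ + ‖y • iteratedFDeriv ℝ k F q0‖ := norm_add_le _ _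
    _ = ‖iteratedFDeriv ℝ k E q0‖ + y * ‖iteratedFDeriv ℝ k F q0‖ := by
        rw [norm_smul, Real.norm_eq_abs, abs_of_nonneg hy]
    _ ≤ e + y * f := by
        have h1 := h k hk1 hk4
        have h2 := h' k hk1 hk4
        gcongr

theorem Hpot_split (g s y : ℝ) (EA Eφ : B2 → ℝ) :
    Hpot (fun b => g * aS b + EA b) (fun b => s * aS b + Eφ b) y
      = fun b => (g + y * s) * aS b + (EA b + y * Eφ b) := by
  funext b; simp only [Hpot]; ring

theorem D11_split {E : B2 → ℝ} (hE : ContDiffAt ℝ ∞ E q0) (g : ℝ) (X Y : B2) :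
    D11 (fun b => g * aS b + E b) X Y q0 = (g : ℂ) * D11 aS X Y q0 + D11 E X Y q0 := by
  rw [D11_add (P := fun b => g * aS b) (Q := E) (contDiffAt_const.mul aS_at) hE X Y,
    D11_const_mul aS_at g X Y]

end Crest.Agent.R245
end

-- ▼ part R245/CurvM
section

set_option autoImplicit false

namespace Crest.Agent.R245

open Complex Filter Topology
open scoped ContDiff ComplexConjugate

namespace Herm

variable {V : Type*} [AddCommGroup V] [Module ℂ V]

/-- the form `H(κ v; κ w)` is Hermitian -/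
theorem kap {φ H : V → V → ℂ} (hφ : Herm φ) (hH : Herm H) {κ : V → V}
    (hκ : ∀ v w, H (κ v) w = φ v w) : Herm (fun v w => H (κ v) (κ w)) where
  add_left x x' y := by simp only [hκ, hφ.add_left]
  smul_left c x y := by simp only [hκ, hφ.smul_left]
  conj_symm x y := hH.conj_symm _ _

/-- estimate of `H(κ v; κ w)` -/
theorem kap_est {om φ H E F : V → V → ℂ} (hom : Herm om) (hpd : ∀ x, x ≠ 0 → 0 < (om x x).re)
    (hφ : Herm φ) (hH : Herm H) {σ D e f : ℝ} (hD : 0 < D) (hσ : 0 ≤ σ) (he : 0 ≤ e) (hf : 0 ≤ f)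
    (hfD : f < D)
    (hφE : ∀ v w, φ v w = (σ : ℂ) * om v w + E v w)
    (hHF : ∀ v w, H v w = (D : ℂ) * om v w + F v w)
    (hE : ∀ v w, ‖E v w‖ ≤ e * Real.sqrt (om v v).re * Real.sqrt (om w w).re)
    (hF : ∀ v w, ‖F v w‖ ≤ f * Real.sqrt (om v v).re * Real.sqrt (om w w).re)
    {κ : V → V} (hκ : ∀ v w, H (κ v) w = φ v w) (v w : V) :
    ‖H (κ v) (κ w) - ((σ ^ 2 / D : ℝ) : ℂ) * om v w‖ ≤
      (σ / D * e + (σ + e) * ((e + σ / D * f) / (D - f))) *
        Real.sqrt (om v v).re * Real.sqrt (om w w).re := by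
  have h0 := hom.nonneg_of_pd hpd
  set z : V := κ w + ((-(σ / D) : ℝ) : ℂ) • w with hz
  have hκw : κ w = ((σ / D : ℝ) : ℂ) • w + z := by
    rw [hz, Complex.ofReal_neg, neg_smul]; abel
  -- H z x
  have hHz : ∀ x, H z x = E w x - ((σ / D : ℝ) : ℂ) * F w x := by
    intro x
    rw [hz, hH.add_left, hH.smul_left, hκ, hφE, hHF]
    push_cast
    have hDc : (D : ℂ) ≠ 0 := by exact_mod_cast hD.ne'
    field_simp
    ring
  have hHz' : ‖H z z‖ ≤ (e + σ / D * f) * Real.sqrt (om w w).re * Real.sqrt (om z z).re := by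
    rw [hHz]
    calc ‖E w z - ((σ / D : ℝ) : ℂ) * F w z‖ ≤ ‖E w z‖ + ‖((σ / D : ℝ) : ℂ) * F w z‖ :=
          norm_sub_le _ _
      _ = ‖E w z‖ + σ / D * ‖F w z‖ := by
          rw [norm_mul, Complex.norm_real, Real.norm_eq_abs, abs_of_nonneg (by positivity)]
      _ ≤ e * Real.sqrt (om w w).re * Real.sqrt (om z z).re
          + σ / D * (f * Real.sqrt (om w w).re * Real.sqrt (om z z).re) := by
          gcongr
          · exact hE w z
          · exact hF w z
      _ = _ := by ring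
  have hDf : 0 < D - f := by linarith
  have hNz : Real.sqrt (om z z).re ≤ (e + σ / D * f) / (D - f) * Real.sqrt (om w w).re := by
    rcases (Real.sqrt_nonneg (om z z).re).eq_or_lt with h | h
    · rw [← h]; positivity
    · have h1 : (D - f) * (Real.sqrt (om z z).re * Real.sqrt (om z z).re) ≤ (H z z).re := by
        have h2 := hF z z
        have h3 := (abs_le.1 ((Complex.abs_re_le_norm (F z z)).trans h2)).1
        have h4 : (H z z).re = D * (om z z).re + (F z z).re := by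
          rw [hHF]; simp
        rw [h4]
        have h5 : Real.sqrt (om z z).re * Real.sqrt (om z z).re = (om z z).re :=
          Real.mul_self_sqrt (h0 z)
        rw [mul_assoc, h5] at h3
        rw [h5]; linarith
      have h2 := (h1.trans (Complex.re_le_norm _)).trans hHz'
      have h3 : (D - f) * Real.sqrt (om z z).re ≤ (e + σ / D * f) * Real.sqrt (om w w).re := by
        have : ((D - f) * Real.sqrt (om z z).re) * Real.sqrt (om z z).re
            ≤ ((e + σ / D * f) * Real.sqrt (om w w).re) * Real.sqrt (om z z).re := by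
          linarith
        exact le_of_mul_le_mul_right this h
      rw [div_mul_eq_mul_div, le_div_iff₀ hDf]
      linarith
  have hφn : ∀ a b, ‖φ a b‖ ≤ (σ + e) * Real.sqrt (om a a).re * Real.sqrt (om b b).re := by
    intro a b
    have hn : ‖om a b‖ ≤ Real.sqrt (om a a).re * Real.sqrt (om b b).re := by
      rw [← Real.sqrt_mul (h0 a)]
      apply Real.le_sqrt_of_sq_le
      rw [Complex.sq_norm, Complex.normSq_apply]
      have := hom.cs h0 a b
      nlinarith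
    rw [hφE]
    calc ‖(σ : ℂ) * om a b + E a b‖ ≤ ‖(σ : ℂ) * om a b‖ + ‖E a b‖ := norm_add_le _ _
      _ = σ * ‖om a b‖ + ‖E a b‖ := by
          rw [norm_mul, Complex.norm_real, Real.norm_eq_abs, abs_of_nonneg hσ]
      _ ≤ σ * (Real.sqrt (om a a).re * Real.sqrt (om b b).re)
          + e * Real.sqrt (om a a).re * Real.sqrt (om b b).re := by
          gcongr
          exact hE a b
      _ = _ := by ring
  have hmain : H (κ v) (κ w) - ((σ ^ 2 / D : ℝ) : ℂ) * om v w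
      = ((σ / D : ℝ) : ℂ) * E v w + φ v z := by
    rw [hκ, hκw, hφ.add_right, hφ.smul_right, Complex.conj_ofReal, hφE v w]
    push_cast
    ring
  rw [hmain]
  calc ‖((σ / D : ℝ) : ℂ) * E v w + φ v z‖ ≤ ‖((σ / D : ℝ) : ℂ) * E v w‖ + ‖φ v z‖ :=
        norm_add_le _ _
    _ = σ / D * ‖E v w‖ + ‖φ v z‖ := by
        rw [norm_mul, Complex.norm_real, Real.norm_eq_abs, abs_of_nonneg (by positivity)]
    _ ≤ σ / D * (e * Real.sqrt (om v v).re * Real.sqrt (om w w).re)
        + (σ + e) * Real.sqrt (om v v).re *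
          ((e + σ / D * f) / (D - f) * Real.sqrt (om w w).re) := by
        gcongr
        · exact hE v w
        · exact (hφn v z).trans (by gcongr)
    _ = _ := by ring

/-- the estimate used in the transition region -/
theorem m_est {om φ H E F : V → V → ℂ} (hom : Herm om) (hpd : ∀ x, x ≠ 0 → 0 < (om x x).re)
    (hφ : Herm φ) (hH : Herm H) {g σ y s δ : ℝ}
    (hs : 0 < s) (hsσ : s ≤ σ) (hσ : σ ≤ 1) (hg : 1 ≤ g) (hy : 0 ≤ y) (hδ0 : 0 ≤ δ)
    (hδ : 8 * δ ≤ s)
    (hφE : ∀ v w, φ v w = (σ : ℂ) * om v w + E v w)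
    (hHF : ∀ v w, H v w = ((g + y * σ : ℝ) : ℂ) * om v w + F v w)
    (hE : ∀ v w, ‖E v w‖ ≤ (4 * δ) * Real.sqrt (om v v).re * Real.sqrt (om w w).re)
    (hF : ∀ v w, ‖F v w‖ ≤ (4 * (δ * (1 + y))) * Real.sqrt (om v v).re * Real.sqrt (om w w).re)
    {κ : V → V} (hκ : ∀ v w, H (κ v) w = φ v w) (v w : V) :
    ‖((1 + 2 * y) * φ v w - y * (1 + y) * H (κ v) (κ w))
        - (((1 + 2 * y) * σ - y * (1 + y) * σ ^ 2 / (g + y * σ) : ℝ) : ℂ) * om v w‖ ≤
      (44 / s ^ 2 * δ * (1 + y)) * Real.sqrt (om v v).re * Real.sqrt (om w w).re := by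
  have hσ0 : 0 < σ := lt_of_lt_of_le hs hsσ
  have hs1 : s ≤ 1 := hsσ.trans hσ
  set Y := 1 + y with hY
  have hY1 : 1 ≤ Y := by linarith
  set D := g + y * σ with hD
  have hDs : s * Y ≤ D := by
    rw [hD, hY]
    have h1 : s ≤ g := hs1.trans hg
    have h2 : s * y ≤ y * σ := by nlinarith
    linarith
  have hsY : 0 < s * Y := by positivity
  have hD0 : 0 < D := lt_of_lt_of_le hsY hDs
  have hf : 4 * (δ * Y) ≤ D / 2 := by
    have : 8 * δ * Y ≤ s * Y := by gcongr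
    linarith
  have hest := kap_est hom hpd hφ hH (σ := σ) (D := D) (e := 4 * δ) (f := 4 * (δ * Y)) hD0 hσ0.le
    (by positivity) (by positivity) (by linarith) hφE hHF hE hF hκ v w
  set N1 := Real.sqrt (om v v).re
  set N2 := Real.sqrt (om w w).re
  have hN1 : 0 ≤ N1 := Real.sqrt_nonneg _
  have hN2 : 0 ≤ N2 := Real.sqrt_nonneg _
  -- constants
  have hK0 : σ / D ≤ 1 / (s * Y) := by
    rw [div_le_div_iff₀ hD0 hsY]
    nlinarith
  have hc1 : σ / D * (4 * δ) ≤ 4 * δ / (s * Y) := by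
    calc σ / D * (4 * δ) ≤ 1 / (s * Y) * (4 * δ) := by gcongr
      _ = _ := by ring
  have hc2 : 4 * δ + σ / D * (4 * (δ * Y)) ≤ 8 * δ / s := by
    have : σ / D * (4 * (δ * Y)) ≤ 1 / (s * Y) * (4 * (δ * Y)) := by gcongr
    have e : 1 / (s * Y) * (4 * (δ * Y)) = 4 * δ / s := by field_simp
    have e2 : 4 * δ ≤ 4 * δ / s := by
      rw [le_div_iff₀ hs]; nlinarith
    have e3 : 8 * δ / s = 4 * δ / s + 4 * δ / s := by ring
    linarith
  have hc3 : (4 * δ + σ / D * (4 * (δ * Y))) / (D - 4 * (δ * Y)) ≤ 16 * δ / (s ^ 2 * Y) := by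
    have h1 : s * Y / 2 ≤ D - 4 * (δ * Y) := by linarith
    calc (4 * δ + σ / D * (4 * (δ * Y))) / (D - 4 * (δ * Y)) ≤ (8 * δ / s) / (s * Y / 2) := by
          apply div_le_div₀ (by positivity) hc2 (by positivity) h1
      _ = _ := by field_simp; ring
  have hc4 : σ / D * (4 * δ) + (σ + 4 * δ) * ((4 * δ + σ / D * (4 * (δ * Y))) / (D - 4 * (δ * Y)))
      ≤ 36 * δ / (s ^ 2 * Y) := by
    have h1 : σ + 4 * δ ≤ 2 := by linarith
    have h2 : (σ + 4 * δ) * ((4 * δ + σ / D * (4 * (δ * Y))) / (D - 4 * (δ * Y)))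
        ≤ 2 * (16 * δ / (s ^ 2 * Y)) := by
      apply mul_le_mul h1 hc3 _ (by norm_num)
      apply div_nonneg (by positivity)
      linarith
    have h3 : 4 * δ / (s * Y) ≤ 4 * δ / (s ^ 2 * Y) := by
      apply div_le_div_of_nonneg_left (by positivity) (by positivity)
      apply mul_le_mul_of_nonneg_right _ (by positivity)
      nlinarith
    have h4 : 36 * δ / (s ^ 2 * Y) = 4 * δ / (s ^ 2 * Y) + 2 * (16 * δ / (s ^ 2 * Y)) := by ring
    linarith
  have hest' : ‖H (κ v) (κ w) - ((σ ^ 2 / D : ℝ) : ℂ) * om v w‖ ≤ 36 * δ / (s ^ 2 * Y) * N1 * N2 :=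
    hest.trans (by gcongr)
  have hid : ((1 + 2 * y) * φ v w - y * Y * H (κ v) (κ w))
        - (((1 + 2 * y) * σ - y * Y * σ ^ 2 / D : ℝ) : ℂ) * om v w
      = ((1 + 2 * y : ℝ) : ℂ) * E v w
        - ((y * Y : ℝ) : ℂ) * (H (κ v) (κ w) - ((σ ^ 2 / D : ℝ) : ℂ) * om v w) := by
    rw [hφE v w]
    push_cast
    ring
  have hcast : ((1 + (y : ℂ))) = ((Y : ℝ) : ℂ) := by rw [hY]; push_cast; ring
  rw [hcast, hid]
  calc ‖((1 + 2 * y : ℝ) : ℂ) * E v w
        - ((y * Y : ℝ) : ℂ) * (H (κ v) (κ w) - ((σ ^ 2 / D : ℝ) : ℂ) * om v w)‖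
      ≤ ‖((1 + 2 * y : ℝ) : ℂ) * E v w‖
        + ‖((y * Y : ℝ) : ℂ) * (H (κ v) (κ w) - ((σ ^ 2 / D : ℝ) : ℂ) * om v w)‖ :=
        norm_sub_le _ _
    _ = (1 + 2 * y) * ‖E v w‖
        + y * Y * ‖H (κ v) (κ w) - ((σ ^ 2 / D : ℝ) : ℂ) * om v w‖ := by
        rw [norm_mul, norm_mul, Complex.norm_real, Complex.norm_real, Real.norm_eq_abs,
          Real.norm_eq_abs, abs_of_nonneg (by positivity), abs_of_nonneg (by positivity)]
    _ ≤ (2 * Y) * (4 * δ * N1 * N2) + Y * Y * (36 * δ / (s ^ 2 * Y) * N1 * N2) := by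
        gcongr
        · linarith
        · exact hE v w
        · linarith
    _ = (8 * δ * Y + 36 * δ / s ^ 2 * Y) * N1 * N2 := by
        have : Y ≠ 0 := by positivity
        field_simp
        ring
    _ ≤ (44 / s ^ 2 * δ * Y) * N1 * N2 := by
        have h1 : 8 * δ * Y ≤ 8 / s ^ 2 * δ * Y := by
          have : 8 ≤ 8 / s ^ 2 := by
            rw [le_div_iff₀ (by positivity)]
            nlinarith
          gcongr
        have h2 : 44 / s ^ 2 * δ * Y = 8 / s ^ 2 * δ * Y + 36 * δ / s ^ 2 * Y := by ring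
        gcongr
        linarith

end Herm

end Crest.Agent.R245
end

-- ▼ part R245/CurvT

/-! Abstract version of the curvature estimates in the transition region (row 245). -/

set_option autoImplicit false

namespace Crest.Agent.R245

open Complex Filter Topology
open scoped ContDiff ComplexConjugate

namespace Herm

variable {V : Type*} [AddCommGroup V] [Module ℂ V]

/-- lower and upper bounds of `H = D om + F` -/
theorem H_bounds {om H F : V → V → ℂ} (om0 : ∀ x, 0 ≤ (om x x).re) {D f U : ℝ}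
    (hf : f ≤ D / 2) (hU : D + f ≤ U)
    (hHF : ∀ v w, H v w = (D : ℂ) * om v w + F v w)
    (hF : ∀ v w, ‖F v w‖ ≤ f * Real.sqrt (om v v).re * Real.sqrt (om w w).re) (v : V) :
    D / 2 * (om v v).re ≤ (H v v).re ∧ (H v v).re ≤ U * (om v v).re := by
  have h1 := (Complex.abs_re_le_norm (F v v)).trans (hF v v)
  rw [mul_assoc, Real.mul_self_sqrt (om0 v)] at h1
  have h2 : (H v v).re = D * (om v v).re + (F v v).re := by rw [hHF]; simp
  have h3 := abs_le.1 h1
  have h4 : f * (om v v).re ≤ D / 2 * (om v v).re := mul_le_mul_of_nonneg_right hf (om0 v)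
  have h5 : (D + f) * (om v v).re ≤ U * (om v v).re := mul_le_mul_of_nonneg_right hU (om0 v)
  rw [h2]
  constructor
  · linarith [h3.1]
  · linarith [h3.2]

/-- norm bound of `φ = σ om + E` -/
theorem phi_norm {om φ E : V → V → ℂ} (hom : Herm om) (om0 : ∀ x, 0 ≤ (om x x).re)
    {σ e M : ℝ} (hσ : 0 ≤ σ) (hM : σ + e ≤ M)
    (hφE : ∀ v w, φ v w = (σ : ℂ) * om v w + E v w)
    (hE : ∀ v w, ‖E v w‖ ≤ e * Real.sqrt (om v v).re * Real.sqrt (om w w).re) (a b : V) :
    ‖φ a b‖ ≤ M * Real.sqrt (om a a).re * Real.sqrt (om b b).re := by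
  have hn : ‖om a b‖ ≤ Real.sqrt (om a a).re * Real.sqrt (om b b).re := by
    rw [← Real.sqrt_mul (om0 a)]
    apply Real.le_sqrt_of_sq_le
    rw [Complex.sq_norm, Complex.normSq_apply]
    have := hom.cs om0 a b
    linarith
  rw [hφE]
  calc ‖(σ : ℂ) * om a b + E a b‖ ≤ ‖(σ : ℂ) * om a b‖ + ‖E a b‖ := norm_add_le _ _
    _ = σ * ‖om a b‖ + ‖E a b‖ := by
        rw [norm_mul, Complex.norm_real, Real.norm_eq_abs, abs_of_nonneg hσ]
    _ ≤ σ * (Real.sqrt (om a a).re * Real.sqrt (om b b).re)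
        + e * Real.sqrt (om a a).re * Real.sqrt (om b b).re := by
        gcongr
        exact hE a b
    _ = (σ + e) * (Real.sqrt (om a a).re * Real.sqrt (om b b).re) := by ring
    _ ≤ M * (Real.sqrt (om a a).re * Real.sqrt (om b b).re) := by gcongr
    _ = _ := by ring

/-- two-sided bound of the total area. `S = W |u|² + q² + W² a` -/
theorem area_bounds {om H : V → V → ℂ} (hom : Herm om) (hpd : ∀ x, x ≠ 0 → 0 < (om x x).re)
    (hH : Herm H) (H0 : ∀ x, 0 ≤ (H x x).re) {W l s Λ : ℝ} (hs : 0 < s) (hs1 : s ≤ 1)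
    (hΛ : 1 ≤ Λ) (hW : 1 ≤ W) (hl : s * W / 2 ≤ l)
    (hlow : ∀ v, l * (om v v).re ≤ (H v v).re)
    (hup : ∀ v, (H v v).re ≤ 2 * Λ * W * (om v v).re)
    (x y u : V) (α β : ℂ) (hu : u = conj α • y - conj β • x) :
    s ^ 2 / 8 * (W * (om u u).re + (α * conj β).im ^ 2 + W ^ 2 * ar om x y) ≤
      ar H x y + (H u u).re - 2 * (α * conj β).im * (H x y).im + (α * conj β).im ^ 2 ∧
    ar H x y + (H u u).re - 2 * (α * conj β).im * (H x y).im + (α * conj β).im ^ 2 ≤
      8 * Λ ^ 2 * (W * (om u u).re + (α * conj β).im ^ 2 + W ^ 2 * ar om x y) := by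
  have om0 := hom.nonneg_of_pd hpd
  have ha0 : 0 ≤ ar om x y := hom.ar_nonneg om0 x y
  have hU0 := om0 u
  have hg1 := gram_lower hH H0 x y u α β hu
  have hg2 := gram_upper hH H0 x y u (α * conj β).im
  generalize (α * conj β).im = q at *
  have hl0 : 0 ≤ l := le_trans (by positivity) hl
  have harL := hH.ar_mono hom hpd hl0 hlow x y
  have harU := hH.ar_mono' H0 hom hpd (by positivity) hup x y
  have h1 := hlow u
  have h2 := hup u
  have hs2 : s ^ 2 ≤ 1 := by nlinarith only [hs, hs1]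
  generalize ar om x y = a at *
  generalize (om u u).re = U at *
  generalize (H u u).re = HU at *
  constructor
  · refine le_trans ?_ hg1
    have e1 : (s * W / 2) ^ 2 * a ≤ l ^ 2 * a := by gcongr
    have e2 : s * W / 2 * U ≤ l * U := by gcongr
    have e3 : s ^ 2 / 8 * (W * U) ≤ s / 4 * (W * U) := by
      apply mul_le_mul_of_nonneg_right _ (by positivity)
      nlinarith only [hs, hs1]
    have e4 : s ^ 2 / 8 * q ^ 2 ≤ 1 * q ^ 2 := by
      apply mul_le_mul_of_nonneg_right _ (by positivity)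
      linarith
    have e5 : s ^ 2 / 8 * (W ^ 2 * a) = (1 / 2) * ((s * W / 2) ^ 2 * a) := by ring
    linarith
  · refine le_trans hg2 ?_
    have e3 : Λ ≤ Λ ^ 2 := by nlinarith only [hΛ]
    have e4 : 2 * (2 * Λ * W * U) ≤ 8 * Λ ^ 2 * (W * U) := by
      have h3 : Λ * (W * U) ≤ Λ ^ 2 * (W * U) := by gcongr
      have h0 : 0 ≤ Λ ^ 2 * (W * U) := by positivity
      linarith
    have e5 : 2 * q ^ 2 ≤ 8 * Λ ^ 2 * q ^ 2 := by
      have h3 : 1 * q ^ 2 ≤ Λ ^ 2 * q ^ 2 := by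
        apply mul_le_mul_of_nonneg_right _ (sq_nonneg q)
        nlinarith only [hΛ]
      have h0 : 0 ≤ q ^ 2 := sq_nonneg q
      linarith
    have e6 : 2 * ((2 * Λ * W) ^ 2 * a) = 8 * Λ ^ 2 * (W ^ 2 * a) := by ring
    linarith

/-- curvature bounds, abstract form -/
theorem curv_bounds {om φ H E F : V → V → ℂ} (hom : Herm om)
    (hpd : ∀ x, x ≠ 0 → 0 < (om x x).re)
    (hφ : Herm φ) (hH : Herm H) {g σ y s δ C c Λ : ℝ} (hΛ : g ≤ Λ)
    (hs : 0 < s) (hsσ : s ≤ σ) (hσ : σ ≤ 1) (hg : 1 ≤ g) (hy : 0 ≤ y) (hδ0 : 0 ≤ δ)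
    (hδ : 8 * δ ≤ s) (hC44 : 44 / s ^ 2 ≤ C) (hC112 : 112 ≤ C)
    (hc : c = 3 / (4 * Λ * (1 + 3 * Λ / s) ^ 2)) (hc0 : 0 < c) (hc1 : c ≤ 1)
    (hδC : C * δ ≤ c * s ^ 2 / 32)
    (hφE : ∀ v w, φ v w = (σ : ℂ) * om v w + E v w)
    (hHF : ∀ v w, H v w = ((g + y * σ : ℝ) : ℂ) * om v w + F v w)
    (hE : ∀ v w, ‖E v w‖ ≤ (4 * δ) * Real.sqrt (om v v).re * Real.sqrt (om w w).re)
    (hF : ∀ v w, ‖F v w‖ ≤ (4 * (δ * (1 + y))) * Real.sqrt (om v v).re * Real.sqrt (om w w).re)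
    {κ : V → V} (hκ : ∀ v w, H (κ v) w = φ v w) (m : V → V → ℂ)
    (hm : ∀ v w, m v w = (1 + 2 * y) * φ v w - y * (1 + y) * H (κ v) (κ w))
    (x z u : V) (q KH X : ℝ)
    (hKH : |KH - (g + y * σ) * ck om x z| ≤ C * δ * (1 + y) * ar om x z)
    (hX : |X| ≤ C * δ * (1 + y) * Real.sqrt (ar om x z) * Real.sqrt (om u u).re) :
    (c * s ^ 2 / 4) * ((1 + y) * (om u u).re + q ^ 2 + (1 + y) ^ 2 * ar om x z) ≤
      (m u u).re + 4 * q ^ 2 + 4 * q * (m x z).im + y * (1 + y) * ck φ x z + KH + X ∧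
    (m u u).re + 4 * q ^ 2 + 4 * q * (m x z).im + y * (1 + y) * ck φ x z + KH + X ≤
      (20 * Λ) * ((1 + y) * (om u u).re + q ^ 2 + (1 + y) ^ 2 * ar om x z) := by
  have om0 := hom.nonneg_of_pd hpd
  have ha0 : 0 ≤ ar om x z := hom.ar_nonneg om0 x z
  have hs1 : s ≤ 1 := hsσ.trans hσ
  have hσ0 : 0 < σ := lt_of_lt_of_le hs hsσ
  have hCpos : 0 < C := by linarith
  have hΛ1 : 1 ≤ Λ := hg.trans hΛ
  have hy1 : (0:ℝ) ≤ 1 + y := by linarith
  have hmest : ∀ v w, ‖m v w - (((1 + 2 * y) * σ - y * (1 + y) * σ ^ 2 / (g + y * σ) : ℝ) : ℂ)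
      * om v w‖ ≤ (44 / s ^ 2 * δ * (1 + y)) * Real.sqrt (om v v).re * Real.sqrt (om w w).re := by
    intro v w
    rw [hm]
    exact m_est hom hpd hφ hH hs hsσ hσ hg hy hδ0 hδ hφE hHF hE hF hκ v w
  have Hm : Herm m := by
    have h1 := (hφ.const_mul (1 + 2 * y)).add ((kap hφ hH hκ).const_mul (-(y * (1 + y))))
    have e : m = fun v w =>
        ((1 + 2 * y : ℝ) : ℂ) * φ v w + ((-(y * (1 + y)) : ℝ) : ℂ) * H (κ v) (κ w) := by
      funext v w
      rw [hm]
      push_cast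
      ring
    rw [e]; exact h1
  obtain ⟨hm1, hm2, hm3⟩ := m0_bounds hs hsσ hσ hg hΛ hy
  have hmsq := m0_sq hs hsσ hσ hg hΛ hy
  rw [← hc] at hmsq
  generalize (1 + 2 * y) * σ - y * (1 + y) * σ ^ 2 / (g + y * σ) = m0 at *
  have h44 : 44 / s ^ 2 * δ * (1 + y) ≤ C * δ * (1 + y) := by gcongr
  have hM : |(m u u).re - m0 * (Real.sqrt (om u u).re) ^ 2| ≤
      C * δ * (1 + y) * (Real.sqrt (om u u).re) ^ 2 := by
    have h1 := (Complex.abs_re_le_norm _).trans (hmest u u)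
    have h2 : (m u u - (m0 : ℂ) * om u u).re = (m u u).re - m0 * (Real.sqrt (om u u).re) ^ 2 := by
      rw [Complex.sub_re, Complex.re_ofReal_mul, Real.sq_sqrt (om0 u)]
    rw [h2, mul_assoc, ← sq] at h1
    exact h1.trans (by gcongr)
  have hMi : |(m x z).im - m0 * (om x z).im| ≤ C * δ * (1 + y) * Real.sqrt (ar om x z) := by
    have HE : Herm (fun v w => m v w + ((-m0 : ℝ) : ℂ) * om v w) := Hm.add (hom.const_mul (-m0))
    have h1 := Herm.abs_im_le hom hpd HE (e := 44 / s ^ 2 * δ * (1 + y)) (by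
      intro v w
      have := hmest v w
      have e : m v w + ((-m0 : ℝ) : ℂ) * om v w = m v w - (m0 : ℂ) * om v w := by
        push_cast; ring
      rw [e]; exact this) x z
    have h2 : (m x z + ((-m0 : ℝ) : ℂ) * om x z).im = (m x z).im - m0 * (om x z).im := by
      rw [Complex.add_im, Complex.im_ofReal_mul]; ring
    rw [h2] at h1
    exact h1.trans (by gcongr)
  have hKφ : |ck φ x z - σ ^ 2 * ((Real.sqrt (ar om x z)) ^ 2 + 3 * (om x z).im ^ 2)| ≤
      C * δ * (Real.sqrt (ar om x z)) ^ 2 := by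
    have h1 := ck_pert hom hpd hφ hσ0.le (by positivity : 0 ≤ 4 * δ) hφE hE x z
    rw [Real.sq_sqrt ha0, ← ck_eq]
    refine h1.trans ?_
    apply mul_le_mul_of_nonneg_right _ ha0
    have h4 : 8 * σ * (4 * δ) ≤ 32 * δ := by nlinarith only [hσ, hδ0]
    have h5 : 5 * (4 * δ) ^ 2 ≤ 80 * δ := by nlinarith only [hδ0, hδ, hs1]
    have h6 : 112 * δ ≤ C * δ := by gcongr
    linarith
  have hKH' : |KH - (g + y * σ) * ((Real.sqrt (ar om x z)) ^ 2 + 3 * (om x z).im ^ 2)| ≤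
      C * δ * (1 + y) * (Real.sqrt (ar om x z)) ^ 2 := by
    rw [Real.sq_sqrt ha0, ← ck_eq]; exact hKH
  have hI : (om x z).im ^ 2 ≤ (Real.sqrt (ar om x z)) ^ 2 := by
    rw [Real.sq_sqrt ha0]; exact hom.im_sq_le om0 x z
  have hr0 : 0 ≤ Real.sqrt (ar om x z) := Real.sqrt_nonneg _
  have hv0 : 0 ≤ Real.sqrt (om u u).re := Real.sqrt_nonneg _
  have er : ar om x z = (Real.sqrt (ar om x z)) ^ 2 := (Real.sq_sqrt ha0).symm
  have ev : (om u u).re = (Real.sqrt (om u u).re) ^ 2 := (Real.sq_sqrt (om0 u)).symm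
  have hT1 : s ^ 2 * (1 + y) ^ 2 ≤ y * (1 + y) * σ ^ 2 + (g + y * σ) := by
    have e1 : s ^ 2 ≤ σ ^ 2 := by gcongr
    have e2 : s ^ 2 * (1 + y) ^ 2 ≤ σ ^ 2 * (1 + y) ^ 2 := by gcongr
    have e3 : σ ^ 2 ≤ 1 := by nlinarith only [hσ0, hσ]
    have e4 : y * σ ^ 2 ≤ y * σ := by
      apply mul_le_mul_of_nonneg_left _ hy
      nlinarith only [hσ0, hσ]
    have e5 : σ ^ 2 * (1 + y) ^ 2 = y * (1 + y) * σ ^ 2 + y * σ ^ 2 + σ ^ 2 := by ring
    linarith
  have hCδ1 : C * δ ≤ 1 := by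
    have h1 : s ^ 2 ≤ 1 := by nlinarith only [hs, hs1]
    have : c * s ^ 2 ≤ 1 * 1 := by gcongr
    linarith
  have hDΛ : g + y * σ ≤ Λ * (1 + y) := by nlinarith only [hΛ, hσ, hy, hΛ1]
  have hσ2 : σ ^ 2 ≤ 1 := by nlinarith only [hσ0, hσ]
  have hm1' : s * (1 + y) ≤ m0 := le_trans (by gcongr) hm1
  have hm0 : 0 ≤ m0 := le_trans (by positivity) hm1
  have hm2' : m0 ≤ 2 * (1 + y) := by nlinarith only [hm2, hσ, hy]
  constructor
  · have := final_lower (C := C) (δ := δ) (c := c) (s := s) (Y := 1 + y) (y := y) (m := m0)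
      (g := g) (σ := σ) (r := Real.sqrt (ar om x z)) (v := Real.sqrt (om u u).re)
      (I := (om x z).im) (q := q) (by linarith) hc0 hc1 hs hs1 hδ0 hδC hy rfl hm1' rfl hT1 hmsq
      hr0 hv0 hI hM hMi hKφ hKH' hX
    rw [← er, ← ev] at this
    exact this
  · have := final_upper (d := C * δ) (L := Λ) (Y := 1 + y) (y := y) (m := m0)
      (g := g) (σ := σ) (r := Real.sqrt (ar om x z)) (v := Real.sqrt (om u u).re)
      (I := (om x z).im) (q := q)
      (by positivity) hCδ1 hΛ1 hDΛ (by positivity) hσ2 hy rfl hm0 hm2'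
      hr0 hv0 hI hM hMi hKφ hKH' hX
    rw [← er, ← ev] at this
    exact this

end Herm

end Crest.Agent.R245
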