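import Crest.Agent.R245.Ops
import Crest.Agent.R245.DiffeoU
import Crest.Agent.R245.Hol
import Crest.Agent.R245.Defs2
import Crest.Agent.R245.CurvR0
import Crest.Agent.R245.Profile
import Crest.Agent.R245.Complete_Mg
import Crest.Agent.R245.BulgeMake

-- ▼ part R245/GradA
section

/-! R245 (helper676): the forms of `aS = -log rho` at every point of `Dom`. -/

set_option autoImplicit false

namespace Crest.Agent.R245.Grad

open Complex Filter Topology
open scoped ContDiff ComplexConjugate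

theorem rho_hasFDerivAt (b : B2) : HasFDerivAt rho
    ((imCLM.comp (ContinuousLinearMap.snd ℝ ℂ ℂ)) -
      (2 : ℝ) • ((innerSL ℝ b.1).comp (ContinuousLinearMap.fst ℝ ℂ ℂ))) b := by
  unfold rho
  have h1 : HasFDerivAt (fun b : B2 => b.2.im) (imCLM.comp (ContinuousLinearMap.snd ℝ ℂ ℂ)) b :=
    imCLM.hasFDerivAt.comp b (ContinuousLinearMap.snd ℝ ℂ ℂ).hasFDerivAt
  have h2 : HasFDerivAt (fun b : B2 => ‖b.1‖ ^ 2)
      ((2 : ℝ) • ((innerSL ℝ b.1).comp (ContinuousLinearMap.fst ℝ ℂ ℂ))) b := by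
    have h3 : HasFDerivAt (fun b : B2 => b.1) (ContinuousLinearMap.fst ℝ ℂ ℂ) b :=
      (ContinuousLinearMap.fst ℝ ℂ ℂ).hasFDerivAt
    have := h3.norm_sq
    refine this.congr_fderiv ?_
    ext v
    · simp; ring
    · simp
  exact h1.sub h2

theorem fderiv_rho (b X : B2) : fderiv ℝ rho b X = X.2.im - 2 * (conj b.1 * X.1).re := by
  rw [(rho_hasFDerivAt b).fderiv]
  simp [Complex.inner, mul_comm]

theorem rho_contDiff : ContDiff ℝ ∞ rho := by
  unfold rho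
  exact (imCLM.contDiff.comp contDiff_snd).sub (contDiff_fst.norm_sq ℝ)

theorem dz_rho (b X : B2) :
    dz X (fun q => (rho q : ℂ)) b = (-I * X.2 - 2 * conj b.1 * X.1) / 2 := by
  unfold dz
  rw [fderiv_ofReal_apply (rho_hasFDerivAt b).differentiableAt,
    fderiv_ofReal_apply (rho_hasFDerivAt b).differentiableAt, fderiv_rho, fderiv_rho]
  apply Complex.ext <;> simp <;> ring

theorem dzb_rho (b X : B2) :
    dzb X (fun q => (rho q : ℂ)) b = (I * conj X.2 - 2 * b.1 * conj X.1) / 2 := by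
  rw [dzb_ofReal, dz_rho]
  simp only [map_div₀, map_sub, map_mul, map_neg, conj_I, conj_conj, map_ofNat]
  ring

theorem D11_rho (b X Y : B2) : D11 rho X Y b = - (X.1 * conj Y.1) := by
  unfold D11
  have h : dzb Y (fun q => (rho q : ℂ)) = fun q : B2 =>
      (I * conj Y.2 - 2 * q.1 * conj Y.1) / 2 := by
    ext q; exact dzb_rho q Y
  rw [h]
  have h1 : HasFDerivAt (𝕜 := ℂ) (fun q : B2 => (I * conj Y.2 - 2 * q.1 * conj Y.1) / 2)
      ((-conj Y.1) • (ContinuousLinearMap.fst ℂ ℂ ℂ)) b := by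
    have h2 : HasFDerivAt (𝕜 := ℂ) (fun q : B2 => q.1) (ContinuousLinearMap.fst ℂ ℂ ℂ) b :=
      (ContinuousLinearMap.fst ℂ ℂ ℂ).hasFDerivAt
    have h3 := (h2.const_smul (-conj Y.1)).add_const (I * conj Y.2 / 2)
    refine h3.congr_of_eventuallyEq (Filter.Eventually.of_forall fun q => ?_)
    simp only [Pi.smul_apply, smul_eq_mul]
    ring
  rw [dz_hol h1.differentiableAt, h1.fderiv]
  simp
  ring

theorem rho_pos {b : B2} (hb : b ∈ Dom) : 0 < rho b := hb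

theorem isOpen_Dom' : IsOpen Dom := by
  have : Dom = rho ⁻¹' Set.Ioi 0 := rfl
  rw [this]
  exact isOpen_Ioi.preimage rho_contDiff.continuous

theorem aS_contDiffAt' {b : B2} (hb : b ∈ Dom) : ContDiffAt ℝ ∞ aS b := by
  unfold aS
  exact (rho_contDiff.contDiffAt.log (ne_of_gt hb)).neg

theorem fderiv_aS {b : B2} (hb : b ∈ Dom) (X : B2) :
    fderiv ℝ aS b X = - (rho b)⁻¹ * fderiv ℝ rho b X := by
  have h := ((rho_hasFDerivAt b).log (ne_of_gt hb)).neg
  have h2 : aS = -fun x => Real.log (rho x) := by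
    ext x; rfl
  rw [h2, h.fderiv, (rho_hasFDerivAt b).fderiv]
  simp

theorem dz_aS {b : B2} (hb : b ∈ Dom) (X : B2) :
    dz X (fun q => (aS q : ℂ)) b = - ((rho b : ℂ))⁻¹ * dz X (fun q => (rho q : ℂ)) b := by
  have hd : DifferentiableAt ℝ aS b := (aS_contDiffAt' hb).differentiableAt (by simp)
  unfold dz
  rw [fderiv_ofReal_apply hd, fderiv_ofReal_apply hd, fderiv_aS hb, fderiv_aS hb,
    fderiv_ofReal_apply (rho_hasFDerivAt b).differentiableAt,
    fderiv_ofReal_apply (rho_hasFDerivAt b).differentiableAt]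
  push_cast
  ring

theorem dzb_aS {b : B2} (hb : b ∈ Dom) (X : B2) :
    dzb X (fun q => (aS q : ℂ)) b = - ((rho b : ℂ))⁻¹ * dzb X (fun q => (rho q : ℂ)) b := by
  rw [dzb_ofReal, dz_aS hb, dzb_ofReal]
  simp only [map_mul, map_neg, map_inv₀, conj_ofReal]

theorem D11_aS {b : B2} (hb : b ∈ Dom) (X Y : B2) :
    D11 aS X Y b = (dz X (fun q => (rho q : ℂ)) b) * conj (dz Y (fun q => (rho q : ℂ)) b)
        / (rho b : ℂ) ^ 2 + X.1 * conj Y.1 / (rho b : ℂ) := by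
  unfold D11
  have h : dzb Y (fun q => (aS q : ℂ)) =ᶠ[𝓝 b] fun q : B2 =>
      (((fun r : ℝ => - r⁻¹) (rho q) : ℝ) : ℂ) * dzb Y (fun q => (rho q : ℂ)) q := by
    filter_upwards [isOpen_Dom'.mem_nhds hb] with q hq
    rw [dzb_aS hq]
    push_cast; ring
  rw [dz_congr h]
  have hrho0 : rho b ≠ 0 := ne_of_gt hb
  have hdr : DifferentiableAt ℝ rho b := (rho_hasFDerivAt b).differentiableAt
  have hinv : HasDerivAt (fun r : ℝ => - r⁻¹) (((rho b) ^ 2)⁻¹) (rho b) := by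
    have := (hasDerivAt_inv hrho0).neg
    refine this.congr_deriv ?_
    ring
  have hd1 : DifferentiableAt ℝ (fun q => (((fun r : ℝ => - r⁻¹) (rho q) : ℝ) : ℂ)) b :=
    differentiableAt_ofReal (hinv.comp_hasFDerivAt b (rho_hasFDerivAt b)).differentiableAt
  have hd2 : DifferentiableAt ℝ (dzb Y (fun q => (rho q : ℂ))) b :=
    (contDiffAt_dzb_inf Y (contDiffAt_ofReal rho_contDiff.contDiffAt)).differentiableAt (by simp)
  rw [dz_mul hd1 hd2, dz_comp_real _ _ hinv.differentiableAt hdr, hinv.deriv]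
  have h3 : dz X (dzb Y (fun q => (rho q : ℂ))) b = - (X.1 * conj Y.1) := D11_rho b X Y
  rw [h3, dzb_ofReal]
  push_cast
  have hc : (rho b : ℂ) ≠ 0 := by exact_mod_cast hrho0
  field_simp

theorem D11_aS_self {b : B2} (hb : b ∈ Dom) (X : B2) :
    (D11 aS X X b).re = ‖dz X (fun q => (rho q : ℂ)) b‖ ^ 2 / (rho b) ^ 2 +
      ‖X.1‖ ^ 2 / rho b := by
  rw [D11_aS hb, mul_conj, mul_conj, normSq_eq_norm_sq, normSq_eq_norm_sq]
  have : (((‖dz X (fun q => (rho q : ℂ)) b‖ ^ 2 : ℝ) : ℂ) / (rho b : ℂ) ^ 2 +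
      ((‖X.1‖ ^ 2 : ℝ) : ℂ) / (rho b : ℂ)) =
      ((‖dz X (fun q => (rho q : ℂ)) b‖ ^ 2 / (rho b) ^ 2 + ‖X.1‖ ^ 2 / rho b : ℝ) : ℂ) := by
    push_cast; ring
  rw [this, ofReal_re]

theorem D11_aS_nonneg {b : B2} (hb : b ∈ Dom) (X : B2) : 0 ≤ (D11 aS X X b).re := by
  rw [D11_aS_self hb]
  have := rho_pos hb
  positivity

/-- `|∂ρ(X)| ≤ ρ |X|_ω` -/
theorem norm_dz_rho_le {b : B2} (hb : b ∈ Dom) (X : B2) :
    ‖dz X (fun q => (rho q : ℂ)) b‖ ≤ rho b * Real.sqrt (D11 aS X X b).re := by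
  have hr := rho_pos hb
  rw [D11_aS_self hb]
  have h1 : ‖dz X (fun q => (rho q : ℂ)) b‖ = rho b * Real.sqrt
      (‖dz X (fun q => (rho q : ℂ)) b‖ ^ 2 / (rho b) ^ 2) := by
    rw [Real.sqrt_div (by positivity), Real.sqrt_sq (norm_nonneg _), Real.sqrt_sq hr.le]
    field_simp
  conv_lhs => rw [h1]
  refine mul_le_mul_of_nonneg_left (Real.sqrt_le_sqrt ?_) hr.le
  have : 0 ≤ ‖X.1‖ ^ 2 / rho b := by positivity
  linarith

/-- `|X₁| ≤ √ρ |X|_ω` -/
theorem norm_fst_le {b : B2} (hb : b ∈ Dom) (X : B2) :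
    ‖X.1‖ ≤ Real.sqrt (rho b) * Real.sqrt (D11 aS X X b).re := by
  have hr := rho_pos hb
  rw [D11_aS_self hb, ← Real.sqrt_mul hr.le]
  have h1 : ‖X.1‖ = Real.sqrt (‖X.1‖ ^ 2) := (Real.sqrt_sq (norm_nonneg _)).symm
  conv_lhs => rw [h1]
  refine Real.sqrt_le_sqrt ?_
  have h2 : rho b * (‖X.1‖ ^ 2 / rho b) = ‖X.1‖ ^ 2 := by field_simp
  have h3 : 0 ≤ rho b * (‖dz X (fun q => (rho q : ℂ)) b‖ ^ 2 / (rho b) ^ 2) := by positivity
  rw [mul_add, h2]
  linarith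

/-- `|∂a(X)| ≤ |X|_ω` -/
theorem norm_dz_aS_le {b : B2} (hb : b ∈ Dom) (X : B2) :
    ‖dz X (fun q => (aS q : ℂ)) b‖ ≤ Real.sqrt (D11 aS X X b).re := by
  have hr := rho_pos hb
  rw [dz_aS hb, norm_mul, norm_neg, norm_inv, Complex.norm_real, Real.norm_of_nonneg hr.le]
  have := norm_dz_rho_le hb X
  rw [inv_mul_le_iff₀ hr]
  exact this

/-- for a real function `|dz X f| ≤ ` bound from bounds of `df`. -/
theorem norm_dz_le_of_fderiv {V : Type*} [NormedAddCommGroup V] [NormedSpace ℝ V]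
    [NormedSpace ℂ V] [IsScalarTower ℝ ℂ V] {f : V → ℝ} {p : V} (hf : DifferentiableAt ℝ f p)
    {X : V} {K : ℝ} (h1 : |fderiv ℝ f p X| ≤ K) (h2 : |fderiv ℝ f p (I • X)| ≤ K) :
    ‖dz X (fun q => (f q : ℂ)) p‖ ≤ K := by
  unfold dz
  rw [fderiv_ofReal_apply hf, fderiv_ofReal_apply hf, norm_div]
  have h3 : ‖((fderiv ℝ f p X : ℝ) : ℂ) - I * ((fderiv ℝ f p (I • X) : ℝ) : ℂ)‖ ≤ K + K := by
    refine (norm_sub_le _ _).trans ?_
    rw [norm_mul, norm_I, one_mul, Complex.norm_real, Complex.norm_real]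
    exact add_le_add h1 h2
  have h4 : ‖(2 : ℂ)‖ = 2 := by simp
  rw [h4]
  linarith

/-- real differential through `dz` -/
theorem fderiv_eq_two_re {V : Type*} [NormedAddCommGroup V] [NormedSpace ℝ V]
    [NormedSpace ℂ V] [IsScalarTower ℝ ℂ V] {f : V → ℝ} {p : V} (hf : DifferentiableAt ℝ f p)
    (X : V) : fderiv ℝ f p X = 2 * (dz X (fun q => (f q : ℂ)) p).re := by
  unfold dz
  rw [fderiv_ofReal_apply hf, fderiv_ofReal_apply hf]
  simp
  ring

end Crest.Agent.R245.Grad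
end

-- ▼ part R245/Gradient
section

/-! TASK Gradient (helper676): the gradient of the proper function `u0` is bounded for the metric. -/

set_option autoImplicit false

namespace Crest.Agent.R245

open Complex Filter Topology
open scoped ContDiff ComplexConjugate

namespace Grad

/-- rescaling factor -/
noncomputable def Ef (φ : B2 → ℝ) (b : B2) : ℝ := Real.exp ((φ b - aS b) / 2)

/-- `w`-coordinate of `gk k (Smap φ y)` -/
noncomputable def sK (φ : B2 → ℝ) (k : ℤ) (y : B2 × ℂ) : ℂ :=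
  y.1.2 + 2 * I * k * y.1.1 + I * k ^ 2 + 2 * I * conj (cS k) * ((Ef φ y.1 : ℂ) * y.2)
      + I * ((‖cS k‖ ^ 2 : ℝ) : ℂ)

/-- `u0` in the `k`-th chart. -/
noncomputable def Fch (φ : B2 → ℝ) (k : ℤ) (y : B2 × ℂ) : ℝ :=
  Real.log (‖sK φ k y + I‖ ^ 2) + aS y.1 - Real.log (1 - uu φ y)

theorem norm_cS_le (k : ℤ) : ‖cS k‖ ≤ 1 := by
  unfold cS
  split_ifs with h1 h2
  · rw [Complex.norm_real, Real.norm_eq_abs, abs_div, abs_one]
    have : (1 : ℝ) ≤ |(k : ℝ)| := by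
      rw [← Int.cast_abs]; exact_mod_cast Int.one_le_abs (by omega)
    exact (div_le_one (by linarith)).mpr this
  · rw [norm_mul, norm_I, one_mul, Complex.norm_real, Real.norm_eq_abs, abs_div, abs_one]
    have : (1 : ℝ) ≤ |((-k : ℤ) : ℝ)| := by
      rw [← Int.cast_abs]; exact_mod_cast Int.one_le_abs (by omega)
    exact (div_le_one (by linarith)).mpr this
  · simp

theorem exp_neg_aS {b : B2} (hb : b ∈ Dom) : Real.exp (-aS b) = rho b := by
  unfold aS; rw [neg_neg, Real.exp_log hb]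

theorem Ef_sq {φ : B2 → ℝ} {b : B2} (hb : b ∈ Dom) :
    Ef φ b ^ 2 = rho b * Real.exp (φ b) := by
  unfold Ef
  rw [← Real.exp_nat_mul, ← exp_neg_aS hb, ← Real.exp_add]
  congr 1; push_cast; ring

theorem Ef_pos (φ : B2 → ℝ) (b : B2) : 0 < Ef φ b := Real.exp_pos _

theorem gk_Smap_one (φ : B2 → ℝ) (k : ℤ) (y : B2 × ℂ) : gk k (Smap φ y) 1 = sK φ k y := by
  simp [gk, Smap, sK, Ef]

theorem rho3_gk_Smap {φ : B2 → ℝ} (k : ℤ) {y : B2 × ℂ} (hy : y.1 ∈ Dom) :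
    rho3 (gk k (Smap φ y)) = rho y.1 * (1 - uu φ y) := by
  rw [rho3_gk]
  simp only [Smap]
  have h : ‖((Real.exp ((φ y.1 - aS y.1) / 2) : ℝ) : ℂ) * y.2‖ ^ 2 = Ef φ y.1 ^ 2 * ‖y.2‖ ^ 2 := by
    rw [norm_mul, mul_pow, Complex.norm_real, Real.norm_of_nonneg (Real.exp_pos _).le]; rfl
  rw [h, Ef_sq hy]
  unfold uu
  ring

theorem d3_gk_Smap {φ : B2 → ℝ} (k : ℤ) {y : B2 × ℂ} (hy : y.1 ∈ Dom) (hu : uu φ y < 1)
    (hs : sK φ k y + I ≠ 0) : d3 (gk k (Smap φ y)) = Fch φ k y := by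
  unfold d3 Fch
  rw [rho3_gk_Smap k hy, gk_Smap_one]
  have h1 : 0 < rho y.1 := hy
  have h2 : 0 < 1 - uu φ y := by linarith
  rw [Real.log_div (by positivity) (by positivity), Real.log_mul h1.ne' h2.ne']
  unfold aS
  ring

/-- facts about `s` -/
theorem sK_im {φ : B2 → ℝ} (k : ℤ) {y : B2 × ℂ} (hy : y.1 ∈ Dom) :
    (sK φ k y).im = rho y.1 * (1 - uu φ y) + ‖y.1.1 + k‖ ^ 2 + ‖(Ef φ y.1 : ℂ) * y.2 + cS k‖ ^ 2 := by
  have h := rho3_gk_Smap (φ := φ) k hy
  unfold rho3 at h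
  rw [gk_Smap_one] at h
  have h0 : gk k (Smap φ y) 0 = y.1.1 + k := by simp [gk, Smap]
  have h2 : gk k (Smap φ y) 2 = (Ef φ y.1 : ℂ) * y.2 + cS k := by simp [gk, Smap, Ef]
  rw [h0, h2] at h
  linarith

theorem uu_nonneg (φ : B2 → ℝ) (y : B2 × ℂ) : 0 ≤ uu φ y := by
  unfold uu; positivity

section Facts

variable {φ : B2 → ℝ} {k : ℤ} {y : B2 × ℂ}

theorem sK_facts (hy : y.1 ∈ Dom) (hu : uu φ y < 1) :
    1 ≤ ‖sK φ k y + I‖ ∧ rho y.1 ≤ 2 * ‖sK φ k y + I‖ ∧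
      ‖y.1.1 + k‖ ^ 2 ≤ ‖sK φ k y + I‖ := by
  have h1 : 0 < rho y.1 := hy
  have h2 : 0 < 1 - uu φ y := by linarith
  have h3 := sK_im (φ := φ) k hy
  have h4 : 0 < rho y.1 * (1 - uu φ y) := by positivity
  have h5 : (sK φ k y + I).im ≤ ‖sK φ k y + I‖ := (le_abs_self _).trans (abs_im_le_norm _)
  have h6 : (sK φ k y + I).im = (sK φ k y).im + 1 := by simp
  rw [h6] at h5
  have h7 : ‖(Ef φ y.1 : ℂ) * y.2‖ ^ 2 = rho y.1 * uu φ y := by
    rw [norm_mul, mul_pow, Complex.norm_real, Real.norm_of_nonneg (Ef_pos _ _).le, Ef_sq hy]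
    unfold uu; ring
  have h8 : ‖(Ef φ y.1 : ℂ) * y.2‖ ^ 2 ≤ 2 * ‖(Ef φ y.1 : ℂ) * y.2 + cS k‖ ^ 2 + 2 := by
    have a1 : ‖(Ef φ y.1 : ℂ) * y.2‖ ≤ ‖(Ef φ y.1 : ℂ) * y.2 + cS k‖ + 1 := by
      have a2 : (Ef φ y.1 : ℂ) * y.2 = ((Ef φ y.1 : ℂ) * y.2 + cS k) - cS k := by ring
      conv_lhs => rw [a2]
      exact (norm_sub_le _ _).trans (by linarith [norm_cS_le k])
    have a3 := norm_nonneg ((Ef φ y.1 : ℂ) * y.2)
    have a4 := norm_nonneg ((Ef φ y.1 : ℂ) * y.2 + cS k)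
    nlinarith [sq_nonneg (‖(Ef φ y.1 : ℂ) * y.2 + cS k‖ - 1)]
  have h9 := sq_nonneg ‖y.1.1 + k‖
  have h10 := sq_nonneg ‖(Ef φ y.1 : ℂ) * y.2 + cS k‖
  refine ⟨by linarith, ?_, by linarith⟩
  have h11 : rho y.1 = rho y.1 * (1 - uu φ y) + ‖(Ef φ y.1 : ℂ) * y.2‖ ^ 2 := by rw [h7]; ring
  linarith

theorem sK_ne (hy : y.1 ∈ Dom) (hu : uu φ y < 1) : sK φ k y + I ≠ 0 := by
  intro h
  have := (sK_facts (k := k) hy hu).1
  rw [h] at this
  simp at this
  linarith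

/-- real derivative of `sK` -/
theorem sK_hasFDerivAt (hφ : DifferentiableAt ℝ φ y.1) (hy : y.1 ∈ Dom) :
    ∃ s' : (B2 × ℂ) →L[ℝ] ℂ, HasFDerivAt (sK φ k) s' y ∧ ∀ Y : B2 × ℂ, s' Y =
      Y.1.2 + 2 * I * k * Y.1.1 + 2 * I * conj (cS k) * ((Ef φ y.1 : ℂ) * Y.2 +
        ((Ef φ y.1 * ((fderiv ℝ φ y.1 Y.1 - fderiv ℝ aS y.1 Y.1) / 2) : ℝ) : ℂ) * y.2) := by
  have ha : DifferentiableAt ℝ aS y.1 := (aS_contDiffAt' hy).differentiableAt (by simp)
  have hfst : HasFDerivAt (fun y : B2 × ℂ => y.1) (ContinuousLinearMap.fst ℝ B2 ℂ) y :=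
    (ContinuousLinearMap.fst ℝ B2 ℂ).hasFDerivAt
  have hsnd : HasFDerivAt (fun y : B2 × ℂ => y.2) (ContinuousLinearMap.snd ℝ B2 ℂ) y :=
    (ContinuousLinearMap.snd ℝ B2 ℂ).hasFDerivAt
  have h11 : HasFDerivAt (fun y : B2 × ℂ => y.1.1)
      ((ContinuousLinearMap.fst ℝ ℂ ℂ).comp (ContinuousLinearMap.fst ℝ B2 ℂ)) y :=
    ((ContinuousLinearMap.fst ℝ ℂ ℂ).comp (ContinuousLinearMap.fst ℝ B2 ℂ)).hasFDerivAt
  have h12 : HasFDerivAt (fun y : B2 × ℂ => y.1.2)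
      ((ContinuousLinearMap.snd ℝ ℂ ℂ).comp (ContinuousLinearMap.fst ℝ B2 ℂ)) y :=
    ((ContinuousLinearMap.snd ℝ ℂ ℂ).comp (ContinuousLinearMap.fst ℝ B2 ℂ)).hasFDerivAt
  have hφ1 : HasFDerivAt (fun y : B2 × ℂ => φ y.1)
      ((fderiv ℝ φ y.1).comp (ContinuousLinearMap.fst ℝ B2 ℂ)) y :=
    hφ.hasFDerivAt.comp y hfst
  have ha1 : HasFDerivAt (fun y : B2 × ℂ => aS y.1)
      ((fderiv ℝ aS y.1).comp (ContinuousLinearMap.fst ℝ B2 ℂ)) y :=
    ha.hasFDerivAt.comp y hfst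
  have hE : HasFDerivAt (fun y : B2 × ℂ => Ef φ y.1)
      (Ef φ y.1 • ((2 : ℝ)⁻¹ • ((fderiv ℝ φ y.1).comp (ContinuousLinearMap.fst ℝ B2 ℂ) -
        (fderiv ℝ aS y.1).comp (ContinuousLinearMap.fst ℝ B2 ℂ)))) y := by
    unfold Ef
    have h := ((hφ1.sub ha1).const_smul (2 : ℝ)⁻¹)
    have h' : HasFDerivAt (fun y : B2 × ℂ => (φ y.1 - aS y.1) / 2)
      ((2 : ℝ)⁻¹ • ((fderiv ℝ φ y.1).comp (ContinuousLinearMap.fst ℝ B2 ℂ) -
        (fderiv ℝ aS y.1).comp (ContinuousLinearMap.fst ℝ B2 ℂ))) y := by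
      refine h.congr_of_eventuallyEq (Filter.Eventually.of_forall fun q => ?_)
      simp only [Pi.smul_apply, Pi.sub_apply, smul_eq_mul]; ring
    exact h'.exp
  have hEc : HasFDerivAt (fun y : B2 × ℂ => (Ef φ y.1 : ℂ)) (ofRealCLM.comp
      (Ef φ y.1 • ((2 : ℝ)⁻¹ • ((fderiv ℝ φ y.1).comp (ContinuousLinearMap.fst ℝ B2 ℂ) -
        (fderiv ℝ aS y.1).comp (ContinuousLinearMap.fst ℝ B2 ℂ))))) y :=
    ofRealCLM.hasFDerivAt.comp y hE
  have h := (((h12.add (h11.const_mul (2 * I * k))).add_const (I * k ^ 2)).add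
    ((hEc.mul hsnd).const_mul (2 * I * conj (cS k)))).add_const (I * ((‖cS k‖ ^ 2 : ℝ) : ℂ))
  refine ⟨_, h.congr_of_eventuallyEq (Filter.Eventually.of_forall fun q => ?_), fun Y => ?_⟩
  · simp only [sK, Pi.add_apply, Pi.mul_apply]
  · simp
    ring

/-- chart estimate -/
theorem Fch_grad (A : B2 → ℝ) {c Cφ : ℝ} (hc : 0 < c) (hC : 0 ≤ Cφ)
    (hA : ContDiffAt ℝ ∞ A y.1) (hφ : ContDiffAt ℝ ∞ φ y.1) (hy : y.1 ∈ Dom) (hu : uu φ y < 1)
    (posA : ∀ ξ : B2, c * (D11 aS ξ ξ y.1).re ≤ (D11 A ξ ξ y.1).re)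
    (posφ : ∀ ξ : B2, 0 ≤ (D11 φ ξ ξ y.1).re)
    (gradφ : ∀ ξ : B2, |fderiv ℝ φ y.1 ξ| ≤ Cφ * Real.sqrt (D11 aS ξ ξ y.1).re)
    (Y : B2 × ℂ) :
    DifferentiableAt ℝ (Fch φ k) y ∧ |fderiv ℝ (Fch φ k) y Y| ≤
      ((2 * (8 + 4 * (2 * Cφ + 1)) + 2) / Real.sqrt c + 10) *
        Real.sqrt (D11 (hart A φ) Y Y y).re := by
  obtain ⟨hs1, hs2, hs3⟩ := sK_facts (k := k) hy hu
  obtain ⟨s', hs', hs'v⟩ := sK_hasFDerivAt (k := k) (hφ.differentiableAt (by simp)) hy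
  have hφd : DifferentiableAt ℝ φ y.1 := hφ.differentiableAt (by simp)
  have had : DifferentiableAt ℝ aS y.1 := (aS_contDiffAt' hy).differentiableAt (by simp)
  have hrho : 0 < rho y.1 := hy
  have h1u : 0 < 1 - uu φ y := by linarith
  have hu0 := uu_nonneg φ y
  set S := ‖sK φ k y + I‖ with hS
  set P := Real.sqrt (D11 (hart A φ) Y Y y).re with hP
  set W := Real.sqrt (D11 aS Y.1 Y.1 y.1).re with hW
  have hWsq : W ^ 2 = (D11 aS Y.1 Y.1 y.1).re := Real.sq_sqrt (D11_aS_nonneg hy _)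
  have hW0 : 0 ≤ W := Real.sqrt_nonneg _
  have hP0 : 0 ≤ P := Real.sqrt_nonneg _
  set ν := nuu φ y Y with hν
  -- the metric
  have hD : (D11 (hart A φ) Y Y y).re = (D11 A Y.1 Y.1 y.1).re + yy φ y * (D11 φ Y.1 Y.1 y.1).re
      + Real.exp (φ y.1) / (1 - uu φ y) ^ 2 * ‖ν‖ ^ 2 := by
    rw [hart_D11 A φ y hA hφ hu, mul_assoc, mul_conj, normSq_eq_norm_sq, ← ofReal_mul]
    simp only [add_re, ofReal_re, re_ofReal_mul, hν]
  have hyy : 0 ≤ yy φ y := by unfold yy; positivity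
  have hDnn : 0 ≤ (D11 (hart A φ) Y Y y).re := by
    rw [hD]
    have h1 := posA Y.1
    have h2 := posφ Y.1
    have h3 := D11_aS_nonneg hy Y.1
    have h4 : 0 ≤ c * (D11 aS Y.1 Y.1 y.1).re := by positivity
    have h5 : 0 ≤ Real.exp (φ y.1) / (1 - uu φ y) ^ 2 * ‖ν‖ ^ 2 := by positivity
    have h6 : 0 ≤ yy φ y * (D11 φ Y.1 Y.1 y.1).re := by positivity
    linarith
  have hPsq : P ^ 2 = (D11 (hart A φ) Y Y y).re := Real.sq_sqrt hDnn
  have hWP : Real.sqrt c * W ≤ P := by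
    rw [hW, hP, ← Real.sqrt_mul hc.le]
    refine Real.sqrt_le_sqrt ?_
    rw [hD]
    have h5 : 0 ≤ Real.exp (φ y.1) / (1 - uu φ y) ^ 2 * ‖ν‖ ^ 2 := by positivity
    have h6 : 0 ≤ yy φ y * (D11 φ Y.1 Y.1 y.1).re := mul_nonneg hyy (posφ Y.1)
    linarith [posA Y.1]
  have hνP : Real.exp (φ y.1 / 2) * ‖ν‖ ≤ (1 - uu φ y) * P := by
    have h1 : (Real.exp (φ y.1 / 2) * ‖ν‖) ^ 2 ≤ ((1 - uu φ y) * P) ^ 2 := by
      rw [mul_pow, mul_pow, hPsq, hD, ← Real.exp_nat_mul]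
      have e : ((2 : ℕ) : ℝ) * (φ y.1 / 2) = φ y.1 := by push_cast; ring
      rw [e]
      have h6 : 0 ≤ yy φ y * (D11 φ Y.1 Y.1 y.1).re := mul_nonneg hyy (posφ Y.1)
      have h7 : 0 ≤ (D11 A Y.1 Y.1 y.1).re :=
        (mul_nonneg hc.le (D11_aS_nonneg hy Y.1)).trans (posA Y.1)
      have h8 : (1 - uu φ y) ^ 2 * (Real.exp (φ y.1) / (1 - uu φ y) ^ 2 * ‖ν‖ ^ 2) =
          Real.exp (φ y.1) * ‖ν‖ ^ 2 := by field_simp
      rw [mul_add, h8]
      have : 0 ≤ (1 - uu φ y) ^ 2 * ((D11 A Y.1 Y.1 y.1).re + yy φ y * (D11 φ Y.1 Y.1 y.1).re) :=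
        by positivity
      linarith
    exact (pow_le_pow_iff_left₀ (by positivity) (by positivity) two_ne_zero).mp h1
  -- sizes
  have hζ : Real.exp (φ y.1 / 2) * ‖y.2‖ ≤ 1 := by
    have h1 : (Real.exp (φ y.1 / 2) * ‖y.2‖) ^ 2 ≤ 1 ^ 2 := by
      rw [mul_pow, ← Real.exp_nat_mul]
      have e : ((2 : ℕ) : ℝ) * (φ y.1 / 2) = φ y.1 := by push_cast; ring
      rw [e]
      unfold uu at hu
      linarith
    exact (pow_le_pow_iff_left₀ (by positivity) (by norm_num) two_ne_zero).mp h1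
  have hE : Ef φ y.1 = Real.sqrt (rho y.1) * Real.exp (φ y.1 / 2) := by
    have h1 : Ef φ y.1 ^ 2 = (Real.sqrt (rho y.1) * Real.exp (φ y.1 / 2)) ^ 2 := by
      rw [Ef_sq hy, mul_pow, Real.sq_sqrt hrho.le, ← Real.exp_nat_mul]
      congr 1; push_cast; ring
    exact (pow_left_inj₀ (Ef_pos _ _).le (by positivity) two_ne_zero).mp h1
  have hsr0 := Real.sqrt_nonneg (rho y.1)
  have hsrsq : Real.sqrt (rho y.1) ^ 2 = rho y.1 := Real.sq_sqrt hrho.le
  have hsrS : Real.sqrt (rho y.1) ≤ 2 * S := by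
    have : Real.sqrt (rho y.1) ^ 2 ≤ (2 * S) ^ 2 := by
      rw [hsrsq]; nlinarith
    exact (pow_le_pow_iff_left₀ hsr0 (by linarith) two_ne_zero).mp this
  have hbk : ‖y.1.1 + k‖ * Real.sqrt (rho y.1) ≤ 2 * S := by
    have h1 : (‖y.1.1 + k‖ * Real.sqrt (rho y.1)) ^ 2 ≤ (2 * S) ^ 2 := by
      rw [mul_pow, hsrsq]
      have := sq_nonneg ‖y.1.1 + k‖
      nlinarith
    exact (pow_le_pow_iff_left₀ (by positivity) (by linarith) two_ne_zero).mp h1
  -- gradient bounds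
  have hWI : Real.sqrt (D11 aS (I • Y.1) (I • Y.1) y.1).re = W := by
    rw [hW, D11_aS_self hy, D11_aS_self hy, dz_vec_smul, norm_mul, norm_I, one_mul]
    simp
  have hdzφ : ‖dz Y.1 (fun b => (φ b : ℂ)) y.1‖ ≤ Cφ * W := by
    refine norm_dz_le_of_fderiv hφd (gradφ Y.1) ?_
    have := gradφ (I • Y.1)
    rwa [hWI] at this
  have hda : |fderiv ℝ aS y.1 Y.1| ≤ 2 * W := by
    rw [fderiv_eq_two_re had, abs_mul, abs_two]
    have h1 := norm_dz_aS_le hy Y.1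
    have h2 := abs_re_le_norm (dz Y.1 (fun q => (aS q : ℂ)) y.1)
    linarith
  have hdφ := gradφ Y.1
  -- derivative of s
  have hs'n : ‖s' Y‖ ≤ S * ((8 + 4 * (2 * Cφ + 1)) * W + 4 * P) := by
    rw [hs'v]
    have e1 : Y.1.2 + 2 * I * k * Y.1.1 = 2 * I * dz Y.1 (fun q => (rho q : ℂ)) y.1 +
        2 * I * conj (y.1.1 + k) * Y.1.1 := by
      rw [dz_rho, map_add]
      have : conj (k : ℂ) = (k : ℂ) := by
        rw [show (k : ℂ) = ((k : ℝ) : ℂ) by push_cast; rfl, conj_ofReal]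
      rw [this]
      ring_nf
      rw [I_sq]; ring
    have n1 : ‖Y.1.2 + 2 * I * k * Y.1.1‖ ≤ 8 * S * W := by
      rw [e1]
      refine (norm_add_le _ _).trans ?_
      simp only [norm_mul, norm_I, Complex.norm_ofNat, mul_one, RCLike.norm_conj]
      have a1 := norm_dz_rho_le hy Y.1
      have a2 := norm_fst_le hy Y.1
      have a3 : ‖y.1.1 + k‖ * ‖Y.1.1‖ ≤ ‖y.1.1 + k‖ * (Real.sqrt (rho y.1) * W) :=
        mul_le_mul_of_nonneg_left a2 (norm_nonneg _)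
      have a4 : ‖y.1.1 + k‖ * (Real.sqrt (rho y.1) * W) ≤ 2 * S * W := by
        rw [← mul_assoc]; exact mul_le_mul_of_nonneg_right hbk hW0
      have a5 : rho y.1 * W ≤ 2 * S * W := mul_le_mul_of_nonneg_right hs2 hW0
      have a6 : 2 * ‖y.1.1 + k‖ * ‖Y.1.1‖ = 2 * (‖y.1.1 + k‖ * ‖Y.1.1‖) := by ring
      rw [a6]
      linarith
    have e2 : (Ef φ y.1 : ℂ) * Y.2 +
        ((Ef φ y.1 * ((fderiv ℝ φ y.1 Y.1 - fderiv ℝ aS y.1 Y.1) / 2) : ℝ) : ℂ) * y.2 =
        (Ef φ y.1 : ℂ) * ν + (Ef φ y.1 : ℂ) * y.2 *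
          ((((fderiv ℝ φ y.1 Y.1 - fderiv ℝ aS y.1 Y.1) / 2 : ℝ) : ℂ) -
            dz Y.1 (fun b => (φ b : ℂ)) y.1) := by
      rw [hν]; unfold nuu; push_cast; ring
    have n2 : ‖(Ef φ y.1 : ℂ) * ν‖ ≤ 2 * S * P := by
      rw [norm_mul, Complex.norm_real, Real.norm_of_nonneg (Ef_pos _ _).le, hE, mul_assoc]
      have a1 : Real.exp (φ y.1 / 2) * ‖ν‖ ≤ P := hνP.trans (by nlinarith)
      calc Real.sqrt (rho y.1) * (Real.exp (φ y.1 / 2) * ‖ν‖) ≤ (2 * S) * P :=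
            mul_le_mul hsrS a1 (by positivity) (by linarith)
        _ = 2 * S * P := by ring
    have n3 : ‖(Ef φ y.1 : ℂ) * y.2‖ ≤ 2 * S := by
      rw [norm_mul, Complex.norm_real, Real.norm_of_nonneg (Ef_pos _ _).le, hE, mul_assoc]
      calc Real.sqrt (rho y.1) * (Real.exp (φ y.1 / 2) * ‖y.2‖) ≤ (2 * S) * 1 :=
            mul_le_mul hsrS hζ (by positivity) (by linarith)
        _ = 2 * S := by ring
    have n4 : ‖(((fderiv ℝ φ y.1 Y.1 - fderiv ℝ aS y.1 Y.1) / 2 : ℝ) : ℂ) -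
            dz Y.1 (fun b => (φ b : ℂ)) y.1‖ ≤ (2 * Cφ + 1) * W := by
      refine (norm_sub_le _ _).trans ?_
      rw [Complex.norm_real, Real.norm_eq_abs, abs_div, abs_two]
      have a1 : |fderiv ℝ φ y.1 Y.1 - fderiv ℝ aS y.1 Y.1| ≤ Cφ * W + 2 * W :=
        (abs_sub _ _).trans (add_le_add hdφ hda)
      have : 0 ≤ Cφ * W := by positivity
      linarith
    have n5 : ‖(Ef φ y.1 : ℂ) * Y.2 +
        ((Ef φ y.1 * ((fderiv ℝ φ y.1 Y.1 - fderiv ℝ aS y.1 Y.1) / 2) : ℝ) : ℂ) * y.2‖ ≤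
        2 * S * P + 2 * S * ((2 * Cφ + 1) * W) := by
      rw [e2]
      refine (norm_add_le _ _).trans (add_le_add n2 ?_)
      rw [norm_mul]
      exact mul_le_mul n3 n4 (norm_nonneg _) (by linarith)
    refine (norm_add_le _ _).trans ?_
    have n6 : ‖2 * I * conj (cS k) * ((Ef φ y.1 : ℂ) * Y.2 +
        ((Ef φ y.1 * ((fderiv ℝ φ y.1 Y.1 - fderiv ℝ aS y.1 Y.1) / 2) : ℝ) : ℂ) * y.2)‖ ≤
        2 * (2 * S * P + 2 * S * ((2 * Cφ + 1) * W)) := by
      rw [norm_mul]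
      have : ‖2 * I * conj (cS k)‖ ≤ 2 := by
        simp only [norm_mul, norm_I, Complex.norm_ofNat, mul_one, RCLike.norm_conj]
        linarith [norm_cS_le k]
      exact mul_le_mul this n5 (norm_nonneg _) (by norm_num)
    calc _ ≤ 8 * S * W + 2 * (2 * S * P + 2 * S * ((2 * Cφ + 1) * W)) := add_le_add n1 n6
      _ = S * ((8 + 4 * (2 * Cφ + 1)) * W + 4 * P) := by ring
  -- derivative of Fch
  have hS0 : 0 < S := by linarith
  have d1 : HasFDerivAt (fun y => Real.log (‖sK φ k y + I‖ ^ 2))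
      ((S ^ 2)⁻¹ • ((2 : ℝ) • (innerSL ℝ (sK φ k y + I)).comp s')) y := by
    have h := (hs'.add_const I).norm_sq
    have h2 := h.log (by positivity)
    refine h2.congr_fderiv ?_
    rw [two_smul, two_smul]
  have d2 : HasFDerivAt (fun y : B2 × ℂ => aS y.1)
      ((fderiv ℝ aS y.1).comp (ContinuousLinearMap.fst ℝ B2 ℂ)) y :=
    had.hasFDerivAt.comp y (ContinuousLinearMap.fst ℝ B2 ℂ).hasFDerivAt
  have d3' : HasFDerivAt (fun y : B2 × ℂ => φ y.1)
      ((fderiv ℝ φ y.1).comp (ContinuousLinearMap.fst ℝ B2 ℂ)) y :=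
    hφd.hasFDerivAt.comp y (ContinuousLinearMap.fst ℝ B2 ℂ).hasFDerivAt
  have d4 : HasFDerivAt (uu φ) (Real.exp (φ y.1) • ((2 : ℝ) • (innerSL ℝ y.2).comp
      (ContinuousLinearMap.snd ℝ B2 ℂ)) + (‖y.2‖ ^ 2) • (Real.exp (φ y.1) •
        ((fderiv ℝ φ y.1).comp (ContinuousLinearMap.fst ℝ B2 ℂ)))) y := by
    unfold uu
    have h := (ContinuousLinearMap.snd ℝ B2 ℂ).hasFDerivAt (x := y) |>.norm_sq
    have h2 := d3'.exp.mul h
    refine h2.congr_fderiv ?_
    rw [two_smul, two_smul]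
    rfl
  have d5 : HasFDerivAt (fun y => Real.log (1 - uu φ y)) _ y :=
    ((d4.const_sub 1).log h1u.ne')
  have dF : HasFDerivAt (Fch φ k) _ y := (d1.add d2).sub d5
  refine ⟨dF.differentiableAt, ?_⟩
  rw [dF.fderiv]
  have hinner : ∀ a b : ℂ, innerSL ℝ a b = (conj a * b).re := by
    intro a b
    simp [Complex.inner]
    ring
  have huuY : Real.exp (φ y.1) * (2 * (conj y.2 * Y.2).re) + ‖y.2‖ ^ 2 * (Real.exp (φ y.1) *
      fderiv ℝ φ y.1 Y.1) = 2 * Real.exp (φ y.1) * (conj y.2 * ν).re := by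
    rw [fderiv_eq_two_re hφd, hν]
    unfold nuu
    have h0 : conj y.2 * y.2 = ((‖y.2‖ ^ 2 : ℝ) : ℂ) := by
      rw [mul_comm, mul_conj, normSq_eq_norm_sq]
    have h1 : conj y.2 * (y.2 * dz Y.1 (fun b => (φ b : ℂ)) y.1 + Y.2) =
        ((‖y.2‖ ^ 2 : ℝ) : ℂ) * dz Y.1 (fun b => (φ b : ℂ)) y.1 + conj y.2 * Y.2 := by
      rw [← h0]; ring
    rw [h1, add_re, re_ofReal_mul]
    ring
  have hval : (((S ^ 2)⁻¹ • ((2 : ℝ) • (innerSL ℝ (sK φ k y + I)).comp s') +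
      (fderiv ℝ aS y.1).comp (ContinuousLinearMap.fst ℝ B2 ℂ)) - ((1 - uu φ y)⁻¹ •
        -(Real.exp (φ y.1) • ((2 : ℝ) • (innerSL ℝ y.2).comp
      (ContinuousLinearMap.snd ℝ B2 ℂ)) + (‖y.2‖ ^ 2) • (Real.exp (φ y.1) •
        ((fderiv ℝ φ y.1).comp (ContinuousLinearMap.fst ℝ B2 ℂ)))))) Y =
      (S ^ 2)⁻¹ * (2 * (conj (sK φ k y + I) * s' Y).re) + fderiv ℝ aS y.1 Y.1 +
        (1 - uu φ y)⁻¹ * (2 * Real.exp (φ y.1) * (conj y.2 * ν).re) := by
    rw [← huuY, ← hinner, ← hinner]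
    simp only [sub_apply, add_apply, smul_apply, neg_apply, ContinuousLinearMap.comp_apply,
      ContinuousLinearMap.coe_fst', ContinuousLinearMap.coe_snd', smul_eq_mul]
    ring
  rw [hval]
  have b1 : |(S ^ 2)⁻¹ * (2 * (conj (sK φ k y + I) * s' Y).re)| ≤
      2 * ((8 + 4 * (2 * Cφ + 1)) * W + 4 * P) := by
    rw [abs_mul, abs_inv, abs_of_nonneg (sq_nonneg S), abs_mul, abs_two]
    have a1 : |(conj (sK φ k y + I) * s' Y).re| ≤ S * ‖s' Y‖ := by
      refine (abs_re_le_norm _).trans ?_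
      rw [norm_mul, RCLike.norm_conj]
    rw [inv_mul_le_iff₀ (by positivity)]
    calc 2 * |(conj (sK φ k y + I) * s' Y).re| ≤ 2 * (S * ‖s' Y‖) := by linarith
      _ ≤ 2 * (S * (S * ((8 + 4 * (2 * Cφ + 1)) * W + 4 * P))) := by
          have := mul_le_mul_of_nonneg_left hs'n hS0.le
          linarith
      _ = S ^ 2 * (2 * ((8 + 4 * (2 * Cφ + 1)) * W + 4 * P)) := by ring
  have b2 : |(1 - uu φ y)⁻¹ * (2 * Real.exp (φ y.1) * (conj y.2 * ν).re)| ≤ 2 * P := by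
    rw [abs_mul, abs_inv, abs_of_pos h1u, inv_mul_le_iff₀ h1u, abs_mul, abs_mul, abs_two,
      abs_of_pos (Real.exp_pos _)]
    have a1 : |(conj y.2 * ν).re| ≤ ‖y.2‖ * ‖ν‖ := by
      refine (abs_re_le_norm _).trans ?_
      rw [norm_mul, RCLike.norm_conj]
    have a2 : Real.exp (φ y.1) = Real.exp (φ y.1 / 2) * Real.exp (φ y.1 / 2) := by
      rw [← Real.exp_add]; congr 1; ring
    calc 2 * Real.exp (φ y.1) * |(conj y.2 * ν).re| ≤ 2 * Real.exp (φ y.1) * (‖y.2‖ * ‖ν‖) :=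
          mul_le_mul_of_nonneg_left a1 (by positivity)
      _ = 2 * ((Real.exp (φ y.1 / 2) * ‖y.2‖) * (Real.exp (φ y.1 / 2) * ‖ν‖)) := by
          rw [a2]; ring
      _ ≤ 2 * (1 * ((1 - uu φ y) * P)) := by
          have := mul_le_mul hζ hνP (by positivity) (by norm_num)
          linarith
      _ = (1 - uu φ y) * (2 * P) := by ring
  have hsc : 0 < Real.sqrt c := Real.sqrt_pos.mpr hc
  have hWle : W ≤ P / Real.sqrt c := by
    rw [le_div_iff₀ hsc]; linarith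
  have e3 := abs_add_le ((S ^ 2)⁻¹ * (2 * (conj (sK φ k y + I) * s' Y).re) + fderiv ℝ aS y.1 Y.1)
    ((1 - uu φ y)⁻¹ * (2 * Real.exp (φ y.1) * (conj y.2 * ν).re))
  have e4 := abs_add_le ((S ^ 2)⁻¹ * (2 * (conj (sK φ k y + I) * s' Y).re)) (fderiv ℝ aS y.1 Y.1)
  have e5 : (2 * (8 + 4 * (2 * Cφ + 1)) + 2) * W ≤
      (2 * (8 + 4 * (2 * Cφ + 1)) + 2) * (P / Real.sqrt c) :=
    mul_le_mul_of_nonneg_left hWle (by positivity)
  have e6 : ((2 * (8 + 4 * (2 * Cφ + 1)) + 2) / Real.sqrt c + 10) * P =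
      (2 * (8 + 4 * (2 * Cφ + 1)) + 2) * (P / Real.sqrt c) + 10 * P := by ring
  rw [e6]
  linarith

end Facts

theorem norm_sub_kk_ge {z : ℂ} {k m : ℤ} (hm : m = round z.re) (hk : |z.re - k| < 3/4)
    (hkm : m ≠ k) : 1/4 ≤ ‖z - k‖ ∧ 1/4 ≤ ‖z - m‖ := by
  have h1 : |z.re - m| ≤ 1/2 := by rw [hm]; exact abs_sub_round _
  have h2 : (1 : ℝ) ≤ |(m : ℝ) - k| := by
    have : (1 : ℤ) ≤ |m - k| := Int.one_le_abs (sub_ne_zero.mpr hkm)
    calc (1 : ℝ) ≤ ((|m - k| : ℤ) : ℝ) := by exact_mod_cast this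
      _ = |(m : ℝ) - k| := by push_cast; rfl
  have h3 : |(m : ℝ) - k| ≤ |z.re - k| + |z.re - m| := by
    have e : (m : ℝ) - k = (z.re - k) - (z.re - m) := by ring
    rw [e]; exact abs_sub _ _
  have e1 : |z.re - k| ≤ ‖z - k‖ := by
    have := abs_re_le_norm (z - k); simpa using this
  have e2 : |z.re - m| ≤ ‖z - m‖ := by
    have := abs_re_le_norm (z - m); simpa using this
  constructor <;> linarith

theorem Smap_eq_self {φ : B2 → ℝ} {y : B2 × ℂ} (h : φ y.1 = aS y.1) : Smap φ y = y := by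
  unfold Smap
  rw [h, sub_self, zero_div, Real.exp_zero]
  simp

theorem u0_local (b : Bulge) {x : V3} (hx : x ∈ Udom b.φ) :
    u0 b.φ =ᶠ[𝓝 x] fun x' => Fch b.φ (kk x) (gki (kk x) x') := by
  have hc : ContinuousAt (fun x' : V3 => |(x' 0).re - kk x|) x :=
    ((Complex.continuous_re.comp (continuous_apply 0)).sub continuous_const).abs.continuousAt
  have h0 : |(x 0).re - kk x| < 3/4 := lt_of_le_of_lt (abs_sub_round _) (by norm_num)
  filter_upwards [(isOpen_Udom b).mem_nhds hx, hc.eventually (gt_mem_nhds h0)] with x' hx' hk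
  have key : u0 b.φ x' = d3 (gk (kk x) (Smap b.φ (gki (kk x) x'))) ∧
      gki (kk x) x' ∈ HartD b.φ := by
    by_cases hkk : kk x' = kk x
    · refine ⟨?_, ?_⟩
      · unfold u0 psi1; rw [hkk]
      · have : gki (kk x') x' ∈ HartD b.φ := hx'
        rwa [hkk] at this
    · obtain ⟨g1, g2⟩ := norm_sub_kk_ge (z := x' 0) (k := kk x) (m := kk x') rfl hk hkk
      have m1 : gki (kk x') x' ∈ HartD b.φ := hx'
      have m2 : 0 < rho3 x' := (mem_HartD_iff_std b (kk x') x' g2).mp m1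
      have m3 : gki (kk x) x' ∈ HartD b.φ := (mem_HartD_iff_std b (kk x) x' g1).mpr m2
      refine ⟨?_, m3⟩
      have f1 : b.φ (gki (kk x') x').1 = aS (gki (kk x') x').1 := by
        refine b.outφ _ m1.1 (Or.inl ?_)
        simpa [gki] using g2
      have f2 : b.φ (gki (kk x) x').1 = aS (gki (kk x) x').1 := by
        refine b.outφ _ m3.1 (Or.inl ?_)
        simpa [gki] using g1
      unfold u0 psi1
      rw [Smap_eq_self f1, Smap_eq_self f2, gk_gki, gk_gki]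
  rw [key.1]
  exact d3_gk_Smap (kk x) key.2.1 key.2.2 (sK_ne key.2.1 key.2.2)

end Grad

theorem u0_grad (b : Bulge) : ∃ C : ℝ, 0 < C ∧ ∀ x ∈ Udom b.φ, ∀ X : V3,
    |fderiv ℝ (u0 b.φ) x X| ≤ C * Real.sqrt (D11 (Ppot b.A b.φ) X X x).re := by
  obtain ⟨c, hc, hposA⟩ := b.posA
  obtain ⟨c', hc', hposφ⟩ := b.posφ
  obtain ⟨Cφ, hgrad⟩ := b.gradφ
  refine ⟨(2 * (8 + 4 * (2 * |Cφ| + 1)) + 2) / Real.sqrt c + 10, by positivity, ?_⟩
  intro x hx X
  have hy : gki (kk x) x ∈ HartD b.φ := hx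
  obtain ⟨L, y₀, hL⟩ := gki_affine (kk x)
  have hopen : IsOpen Dom := Grad.isOpen_Dom'
  have hA : ContDiffAt ℝ ∞ b.A (gki (kk x) x).1 := b.smoothA.contDiffAt (hopen.mem_nhds hy.1)
  have hφ : ContDiffAt ℝ ∞ b.φ (gki (kk x) x).1 := b.smoothφ.contDiffAt (hopen.mem_nhds hy.1)
  have hD : D11 (Ppot b.A b.φ) X X x = D11 (hart b.A b.φ) (L X) (L X) (gki (kk x) x) := by
    rw [D11_congr (Ppot_local b hx)]
    have e : (fun x' => hart b.A b.φ (gki (kk x) x')) = fun x' => hart b.A b.φ (L x' + y₀) := by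
      ext x'; rw [hL]
    rw [e, hL]
    have hh : ContDiffAt ℝ ∞ (hart b.A b.φ) (L x + y₀) := by
      rw [← hL]; exact hart_contDiffAt b hy
    exact D11_comp_affine (L : V3 →L[ℂ] (B2 × ℂ)) y₀ hh X X
  have hest := Grad.Fch_grad (k := kk x) b.A hc (abs_nonneg Cφ) hA hφ hy.1 hy.2
    (hposA _ hy.1)
    (fun ξ => (mul_nonneg hc'.le (Grad.D11_aS_nonneg hy.1 ξ)).trans (hposφ _ hy.1 ξ))
    (fun ξ => (hgrad _ hy.1 ξ).trans
      (mul_le_mul_of_nonneg_right (le_abs_self _) (Real.sqrt_nonneg _))) (L X)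
  have hfd : fderiv ℝ (u0 b.φ) x X = fderiv ℝ (Grad.Fch b.φ (kk x)) (gki (kk x) x) (L X) := by
    rw [(Grad.u0_local b hx).fderiv_eq]
    have e : (fun x' => Grad.Fch b.φ (kk x) (gki (kk x) x')) =
        fun x' => Grad.Fch b.φ (kk x) (L x' + y₀) := by
      ext x'; rw [hL]
    have h1 : HasFDerivAt (fun x' => L x' + y₀) ((L : V3 →L[ℂ] (B2 × ℂ)).restrictScalars ℝ) x :=
      ((L : V3 →L[ℂ] (B2 × ℂ)).hasFDerivAt.restrictScalars ℝ).add_const y₀
    have h2 : HasFDerivAt (Grad.Fch b.φ (kk x)) (fderiv ℝ (Grad.Fch b.φ (kk x)) (L x + y₀)) (L x + y₀) := by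
      rw [← hL]; exact hest.1.hasFDerivAt
    have h3 : HasFDerivAt (fun x' => Grad.Fch b.φ (kk x) (L x' + y₀))
        ((fderiv ℝ (Grad.Fch b.φ (kk x)) (L x + y₀)).comp
          ((L : V3 →L[ℂ] (B2 × ℂ)).restrictScalars ℝ)) x :=
      HasFDerivAt.comp (g := Grad.Fch b.φ (kk x)) x h2 h1
    rw [e, h3.fderiv, hL]
    rfl
  rw [hfd, hD]
  exact hest.2

end Crest.Agent.R245
end

-- ▼ part R245/Liouville
section

/-! TASK Liouville: bounded holomorphic functions on `U` are constant. -/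

set_option autoImplicit false

namespace Crest.Agent.R245

open Complex Filter Topology Metric Set
open scoped ContDiff ComplexConjugate

/-- the direction of the fibre coordinate of chart `k` -/
noncomputable def dirk (k : ℤ) : V3 := ![0, 2 * I * conj (cS k), 1]

theorem gk_line (k : ℤ) (b : B2) (t : ℂ) : gk k (b, t) = gk k (b, 0) + t • dirk k := by
  ext i
  fin_cases i
  · simp [gk, dirk]
  · simp [gk, dirk]; ring
  · simp [gk, dirk]; ring

theorem gk_zero_mem (b : Bulge) (k : ℤ) {p : B2} (hp : p ∈ Dom) : gk k (p, 0) ∈ Udom b.φ := by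
  apply std_subset
  rw [rho3_gk]
  have : 0 < rho p := hp
  simpa using this

theorem kk_gk (k : ℤ) (y : B2 × ℂ) (h : ‖y.1.1‖ < 1 / 4) : kk (gk k y) = k := by
  have h1 : |y.1.1.re| < 1 / 4 := lt_of_le_of_lt (Complex.abs_re_le_norm _) h
  have h2 : (gk k y 0).re = y.1.1.re + k := by simp [gk]
  rw [kk, h2, round_add_intCast]
  have : round y.1.1.re = 0 := by
    rw [round_eq_zero_iff, mem_Ico]
    rw [abs_lt] at h1
    constructor <;> linarith
  rw [this, zero_add]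

theorem gk_mem_of_lt (b : Bulge) (k : ℤ) {p : B2} (hp : p ∈ Dom) (hz : ‖p.1‖ < 1 / 4) {t : ℂ}
    (ht : Real.exp (b.φ p) * ‖t‖ ^ 2 < 1) : gk k (p, t) ∈ Udom b.φ := by
  show gki (kk (gk k (p, t))) (gk k (p, t)) ∈ HartD b.φ
  rw [kk_gk k (p, t) hz, gki_gk]
  exact ⟨hp, ht⟩

theorem differentiable_gk_zero (k : ℤ) : Differentiable ℂ (fun p : B2 => gk k (p, 0)) := by
  rw [differentiable_pi]
  intro i
  fin_cases i
  · simp [gk]
  · simp [gk]
  · simp [gk]

/-- vanishing of the fibre derivative on the slice `ζ = c_k` -/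
theorem slice_vanish (b : Bulge) {f : V3 → ℂ} (hf : DifferentiableOn ℂ f (Udom b.φ))
    (hb : Bornology.IsBounded (f '' Udom b.φ)) (k : ℤ) {p : B2} (hp : p ∈ Dom) :
    fderiv ℂ f (gk k (p, 0)) (dirk k) = 0 := by
  obtain ⟨M, hM⟩ := hb.exists_norm_le
  have hM' : ∀ q ∈ Udom b.φ, ‖f q‖ ≤ M := fun q hq => hM _ (mem_image_of_mem f hq)
  have hUo := isOpen_Udom b
  refine b.vanish (fun p => fderiv ℂ f (gk k (p, 0)) (dirk k)) ?_ (2 * M) ?_ p hp
  · exact (Hol.differentiableOn_fderiv_apply hUo hf (dirk k)).comp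
      (differentiable_gk_zero k).differentiableOn (fun q hq => gk_zero_mem b k hq)
  · intro q hq hz
    have hmem := gk_zero_mem b k hq
    rw [Hol.fderiv_apply_eq_deriv ((hf _ hmem).differentiableAt (hUo.mem_nhds hmem))]
    set r : ℝ := Real.exp (-(b.φ q) / 2) / 2 with hr
    have hrpos : 0 < r := by positivity
    have hin : ∀ t : ℂ, ‖t‖ ≤ r → gk k (q, 0) + t • dirk k ∈ Udom b.φ := by
      intro t ht
      rw [← gk_line]
      apply gk_mem_of_lt b k hq hz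
      calc Real.exp (b.φ q) * ‖t‖ ^ 2 ≤ Real.exp (b.φ q) * r ^ 2 := by gcongr
        _ = 1 / 4 := by
            rw [hr, div_pow, ← Real.exp_nat_mul]
            push_cast
            rw [show (2 : ℝ) * (-(b.φ q) / 2) = -(b.φ q) by ring, ← mul_div_assoc, ← Real.exp_add]
            simp
            norm_num
        _ < 1 := by norm_num
    have h1 : ‖deriv (fun t : ℂ => f (gk k (q, 0) + t • dirk k)) 0‖ ≤ M / r := by
      apply Complex.norm_deriv_le_of_forall_mem_sphere_norm_le hrpos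
      · apply DifferentiableOn.diffContOnCl
        apply (Hol.differentiableOn_line hUo hf _ _).mono
        intro t ht
        apply hin
        simpa using closure_ball_subset_closedBall ht
      · intro t ht
        apply hM'
        apply hin
        rw [mem_sphere_zero_iff_norm] at ht
        exact ht.le
    refine h1.trans (le_of_eq ?_)
    rw [hr]
    have : Real.exp (-(b.φ q) / 2) = (Real.exp (b.φ q / 2))⁻¹ := by
      rw [← Real.exp_neg]; congr 1; ring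
    rw [this]
    field_simp

theorem slice_vanish' (b : Bulge) {f : V3 → ℂ} (hf : DifferentiableOn ℂ f (Udom b.φ))
    (hb : Bornology.IsBounded (f '' Udom b.φ)) (k : ℤ) {x : V3} (hx : 0 < rho3 x)
    (h2 : x 2 = cS k) : fderiv ℂ f x (dirk k) = 0 := by
  have h3 : (gki k x).2 = 0 := by simp [gki, h2]
  have h4 : gk k ((gki k x).1, 0) = x := by
    have := gk_gki k x
    rw [← h3]; exact this
  have h5 : (gki k x).1 ∈ Dom := by
    have := rho3_gk k ((gki k x).1, 0)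
    rw [h4] at this
    show 0 < rho (gki k x).1
    have h6 : rho3 x = rho (gki k x).1 := by simpa using this
    rw [← h6]; exact hx
  have := slice_vanish b hf hb k h5
  rwa [h4] at this

theorem isOpen_std : IsOpen {x : V3 | 0 < rho3 x} := by
  apply isOpen_lt continuous_const
  unfold rho3
  fun_prop

/-- two points of the standard domain over the same `x 0`, in the `(w,ζ)`-direction -/
theorem dir_zero (b : Bulge) {f : V3 → ℂ} (hf : DifferentiableOn ℂ f (Udom b.φ))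
    (hb : Bornology.IsBounded (f '' Udom b.φ)) {x : V3} (hx : 0 < rho3 x) :
    fderiv ℂ f x ![0, 1, 0] = 0 ∧ fderiv ℂ f x ![0, 0, 1] = 0 := by
  have hUo := isOpen_Udom b
  set R2 : ℝ := (x 1).im - ‖x 0‖ ^ 2 with hR2
  have hR2pos : 0 < R2 := by
    have : 0 < (x 1).im - ‖x 0‖ ^ 2 - ‖x 2‖ ^ 2 := hx
    have h2 : 0 ≤ ‖x 2‖ ^ 2 := by positivity
    rw [hR2]; linarith
  set R : ℝ := Real.sqrt R2 with hR
  have hRpos : 0 < R := Real.sqrt_pos.2 hR2pos
  have hRsq : R ^ 2 = R2 := Real.sq_sqrt hR2pos.le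
  let P : ℂ → V3 := fun ζ => ![x 0, x 1, ζ]
  have hP : ∀ ζ : ℂ, ‖ζ‖ < R → 0 < rho3 (P ζ) := by
    intro ζ hζ
    have : ‖ζ‖ ^ 2 < R ^ 2 := by gcongr
    show 0 < (x 1).im - ‖x 0‖ ^ 2 - ‖ζ‖ ^ 2
    rw [hRsq, hR2] at this
    linarith
  have hPd : Differentiable ℂ P := by
    rw [differentiable_pi]
    intro i
    fin_cases i
    · simp [P]
    · simp [P]
    · simp [P]
  have hin : MapsTo P (ball 0 R) (Udom b.φ) := by
    intro ζ hζ
    exact std_subset b (hP ζ (by simpa using hζ))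
  have hd : ∀ v : V3, DifferentiableOn ℂ (fun ζ => fderiv ℂ f (P ζ) v) (ball 0 R) := fun v =>
    (Hol.differentiableOn_fderiv_apply hUo hf v).comp hPd.differentiableOn hin
  -- the two combinations
  have hcomb : ∀ (s : ℂ) (c : ℕ → ℂ), Tendsto c atTop (𝓝 0) → (∀ n, c n ≠ 0) →
      (∀ n, ‖c n‖ < R → fderiv ℂ f (P (c n)) ![0, 0, 1]
        + s * c n * fderiv ℂ f (P (c n)) ![0, 1, 0] = 0) →
      ∀ ζ ∈ ball (0 : ℂ) R, fderiv ℂ f (P ζ) ![0, 0, 1]
        + s * ζ * fderiv ℂ f (P ζ) ![0, 1, 0] = 0 := by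
    intro s c hc hc0 hz ζ hζ
    have hg : DifferentiableOn ℂ (fun ζ => fderiv ℂ f (P ζ) ![0, 0, 1]
        + s * ζ * fderiv ℂ f (P ζ) ![0, 1, 0]) (ball 0 R) := by
      apply (hd _).add
      exact (by fun_prop : DifferentiableOn ℂ (fun ζ : ℂ => s * ζ) (ball 0 R)).mul (hd _)
    have han := hg.analyticOnNhd isOpen_ball
    have hfreq : ∃ᶠ ζ in 𝓝[≠] (0 : ℂ), fderiv ℂ f (P ζ) ![0, 0, 1]
        + s * ζ * fderiv ℂ f (P ζ) ![0, 1, 0] = 0 := by
      have htend : Tendsto c atTop (𝓝[≠] 0) := tendsto_nhdsWithin_iff.2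
        ⟨hc, Filter.Eventually.of_forall fun n => hc0 n⟩
      apply htend.frequently
      apply Eventually.frequently
      have : ∀ᶠ n in atTop, ‖c n‖ < R := by
        have := hc.norm
        rw [norm_zero] at this
        exact this.eventually_lt_const hRpos
      filter_upwards [this] with n hn
      exact hz n hn
    exact han.eqOn_zero_of_preconnected_of_frequently_eq_zero
      (convex_ball 0 R).isPreconnected (mem_ball_self hRpos) hfreq hζ
  have hdirk : ∀ k : ℤ, (dirk k : V3) = (2 * I * conj (cS k)) • ![0, 1, 0] + ![0, 0, 1] := by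
    intro k
    ext i
    fin_cases i
    · simp [dirk]
    · simp [dirk]
    · simp [dirk]
  have hsl : ∀ k : ℤ, ‖cS k‖ < R → fderiv ℂ f (P (cS k)) ![0, 0, 1]
      + 2 * I * conj (cS k) * fderiv ℂ f (P (cS k)) ![0, 1, 0] = 0 := by
    intro k hk
    have := slice_vanish' b hf hb k (hP _ hk) rfl
    rw [hdirk, map_add, map_smul, smul_eq_mul] at this
    rw [add_comm]; exact this
  have hreal : ∀ ζ ∈ ball (0 : ℂ) R, fderiv ℂ f (P ζ) ![0, 0, 1]
        + (2 * I) * ζ * fderiv ℂ f (P ζ) ![0, 1, 0] = 0 := by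
    apply hcomb (2 * I) (fun n : ℕ => cS ((n : ℤ) + 1))
    · have : (fun n : ℕ => cS ((n : ℤ) + 1)) = fun n : ℕ => (((1 / ((n : ℝ) + 1) : ℝ)) : ℂ) := by
        funext n
        have hpos : (0 : ℤ) < (n : ℤ) + 1 := by positivity
        simp [cS, hpos]
      rw [this]
      have h1 := tendsto_one_div_add_atTop_nhds_zero_nat (𝕜 := ℝ)
      have := (Complex.continuous_ofReal.tendsto 0).comp h1
      simpa [Function.comp_def] using this
    · intro n
      have hpos : (0 : ℤ) < (n : ℤ) + 1 := by positivity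
      have h0 : ((n : ℂ) + 1) ≠ 0 := by exact_mod_cast Nat.succ_ne_zero n
      simp [cS, hpos, h0]
    · intro n hn
      have := hsl _ hn
      have hpos : (0 : ℤ) < (n : ℤ) + 1 := by positivity
      have hc : conj (cS ((n : ℤ) + 1)) = cS ((n : ℤ) + 1) := by
        simp [cS, hpos]
      rwa [hc] at this
  have himag : ∀ ζ ∈ ball (0 : ℂ) R, fderiv ℂ f (P ζ) ![0, 0, 1]
        + (-(2 * I)) * ζ * fderiv ℂ f (P ζ) ![0, 1, 0] = 0 := by
    apply hcomb (-(2 * I)) (fun n : ℕ => cS (-((n : ℤ) + 1)))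
    · have : (fun n : ℕ => cS (-((n : ℤ) + 1))) =
          fun n : ℕ => I * (((1 / ((n : ℝ) + 1) : ℝ)) : ℂ) := by
        funext n
        have hneg : ¬ (0 : ℤ) < -((n : ℤ) + 1) := by
          have : (0 : ℤ) ≤ n := by positivity
          omega
        have hneg2 : -((n : ℤ) + 1) < 0 := by
          have : (0 : ℤ) ≤ n := by positivity
          omega
        rw [cS, if_neg hneg, if_pos hneg2]
        simp
      rw [this]
      have h1 := tendsto_one_div_add_atTop_nhds_zero_nat (𝕜 := ℝ)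
      have := ((Complex.continuous_ofReal.tendsto 0).comp h1).const_mul I
      simpa [Function.comp_def] using this
    · intro n
      have hneg : ¬ (0 : ℤ) < -((n : ℤ) + 1) := by
        have : (0 : ℤ) ≤ n := by positivity
        omega
      have hneg2 : -((n : ℤ) + 1) < 0 := by
        have : (0 : ℤ) ≤ n := by positivity
        omega
      have h0 : ((n : ℂ) + 1) ≠ 0 := by exact_mod_cast Nat.succ_ne_zero n
      rw [cS, if_neg hneg, if_pos hneg2]
      simp [h0]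
    · intro n hn
      have := hsl _ hn
      have hneg : ¬ (0 : ℤ) < -((n : ℤ) + 1) := by
        have : (0 : ℤ) ≤ n := by positivity
        omega
      have hneg2 : -((n : ℤ) + 1) < 0 := by
        have : (0 : ℤ) ≤ n := by positivity
        omega
      have hc : conj (cS (-((n : ℤ) + 1))) = - cS (-((n : ℤ) + 1)) := by
        rw [cS, if_neg hneg, if_pos hneg2, map_mul, conj_I, conj_ofReal]
        ring
      rw [hc] at this
      linear_combination this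
  have hboth : ∀ ζ ∈ ball (0 : ℂ) R, fderiv ℂ f (P ζ) ![0, 0, 1] = 0 ∧
      (ζ ≠ 0 → fderiv ℂ f (P ζ) ![0, 1, 0] = 0) := by
    intro ζ hζ
    have h1 := hreal ζ hζ
    have h2 := himag ζ hζ
    constructor
    · linear_combination (1 / 2 : ℂ) * h1 + (1 / 2 : ℂ) * h2
    · intro hne
      have h3 : (4 * I * ζ) * fderiv ℂ f (P ζ) ![0, 1, 0] = 0 := by
        linear_combination h1 - h2
      have h4 : (4 * I * ζ) ≠ 0 := by simp [hne]
      exact (mul_eq_zero.1 h3).resolve_left h4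
  have hw : ∀ ζ ∈ ball (0 : ℂ) R, fderiv ℂ f (P ζ) ![0, 1, 0] = 0 := by
    intro ζ hζ
    have han := (hd ![0, 1, 0]).analyticOnNhd isOpen_ball
    have hfreq : ∃ᶠ ζ in 𝓝[≠] (0 : ℂ), fderiv ℂ f (P ζ) ![0, 1, 0] = 0 := by
      apply Eventually.frequently
      have h1 : ∀ᶠ ζ in 𝓝[≠] (0 : ℂ), ζ ∈ ball (0 : ℂ) R :=
        mem_nhdsWithin_of_mem_nhds (ball_mem_nhds 0 hRpos)
      filter_upwards [h1, self_mem_nhdsWithin] with ζ hζ1 hζ2
      exact (hboth ζ hζ1).2 hζ2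
    exact han.eqOn_zero_of_preconnected_of_frequently_eq_zero
      (convex_ball 0 R).isPreconnected (mem_ball_self hRpos) hfreq hζ
  have hPx : P (x 2) = x := by
    ext i
    fin_cases i <;> simp [P]
  have hx2 : x 2 ∈ ball (0 : ℂ) R := by
    rw [mem_ball_zero_iff]
    apply lt_of_pow_lt_pow_left₀ 2 hRpos.le
    rw [hRsq, hR2]
    have : 0 < (x 1).im - ‖x 0‖ ^ 2 - ‖x 2‖ ^ 2 := hx
    linarith
  have h1 := hw _ hx2
  have h2 := (hboth _ hx2).1
  rw [hPx] at h1 h2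
  exact ⟨h1, h2⟩

theorem liouville_U (b : Bulge) (f : V3 → ℂ) (hf : DifferentiableOn ℂ f (Udom b.φ))
    (hb : Bornology.IsBounded (f '' Udom b.φ)) :
    ∀ p ∈ Udom b.φ, ∀ q ∈ Udom b.φ, f p = f q := by
  have hUo := isOpen_Udom b
  obtain ⟨M, hM⟩ := hb.exists_norm_le
  have hM' : ∀ q ∈ Udom b.φ, ‖f q‖ ≤ M := fun q hq => hM _ (mem_image_of_mem f hq)
  -- constancy on the fibres of `x 0`
  have hfib : ∀ (z : ℂ) (w w' ζ ζ' : ℂ), ‖z‖ ^ 2 + ‖ζ‖ ^ 2 < w.im → ‖z‖ ^ 2 + ‖ζ'‖ ^ 2 < w'.im →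
      f ![z, w, ζ] = f ![z, w', ζ'] := by
    intro z w w' ζ ζ' h1 h2
    set Q : ℂ × ℂ → V3 := fun y => ![z, y.1, y.2] with hQ
    set W : Set (ℂ × ℂ) := {y | ‖z‖ ^ 2 + ‖y.2‖ ^ 2 < y.1.im} with hW
    have hWo : IsOpen W := by
      rw [hW]
      exact isOpen_lt (by fun_prop) (by fun_prop)
    have hWc : Convex ℝ W := by
      intro y hy y' hy' s t hs ht hst
      have h3 : ‖(s • y + t • y').2‖ ≤ s * ‖y.2‖ + t * ‖y'.2‖ := by
        calc ‖(s • y + t • y').2‖ = ‖s • y.2 + t • y'.2‖ := by simp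
          _ ≤ ‖s • y.2‖ + ‖t • y'.2‖ := norm_add_le _ _
          _ = s * ‖y.2‖ + t * ‖y'.2‖ := by
              rw [norm_smul, norm_smul, Real.norm_of_nonneg hs, Real.norm_of_nonneg ht]
      have h4 : ‖(s • y + t • y').2‖ ^ 2 ≤ s * ‖y.2‖ ^ 2 + t * ‖y'.2‖ ^ 2 := by
        calc ‖(s • y + t • y').2‖ ^ 2 ≤ (s * ‖y.2‖ + t * ‖y'.2‖) ^ 2 := by gcongr
          _ ≤ s * ‖y.2‖ ^ 2 + t * ‖y'.2‖ ^ 2 := by
              have ht' : t = 1 - s := by linarith
              subst ht'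
              nlinarith [mul_nonneg hs ht, sq_nonneg (‖y.2‖ - ‖y'.2‖)]
      have h5 : ((s • y + t • y').1).im = s * y.1.im + t * y'.1.im := by simp
      have h6 : ‖z‖ ^ 2 + ‖y.2‖ ^ 2 < y.1.im := hy
      have h7 : ‖z‖ ^ 2 + ‖y'.2‖ ^ 2 < y'.1.im := hy'
      show ‖z‖ ^ 2 + ‖(s • y + t • y').2‖ ^ 2 < ((s • y + t • y').1).im
      rw [h5]
      have h8 : s * (‖z‖ ^ 2 + ‖y.2‖ ^ 2) + t * (‖z‖ ^ 2 + ‖y'.2‖ ^ 2)
          < s * y.1.im + t * y'.1.im := by
        rcases eq_or_lt_of_le hs with hs0 | hs0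
        · have : t = 1 := by linarith
          subst this
          rw [← hs0]; linarith
        · have a1 : s * (‖z‖ ^ 2 + ‖y.2‖ ^ 2) < s * y.1.im := by gcongr
          have a2 : t * (‖z‖ ^ 2 + ‖y'.2‖ ^ 2) ≤ t * y'.1.im := by gcongr
          linarith
      have h9 : s * (‖z‖ ^ 2 + ‖y.2‖ ^ 2) + t * (‖z‖ ^ 2 + ‖y'.2‖ ^ 2)
          = ‖z‖ ^ 2 + (s * ‖y.2‖ ^ 2 + t * ‖y'.2‖ ^ 2) := by
        have ht' : t = 1 - s := by linarith
        subst ht'; ring
      linarith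
    have hrho : ∀ y ∈ W, 0 < rho3 (Q y) := by
      intro y hy
      have h6 : ‖z‖ ^ 2 + ‖y.2‖ ^ 2 < y.1.im := hy
      show 0 < y.1.im - ‖z‖ ^ 2 - ‖y.2‖ ^ 2
      linarith
    -- derivative of `f ∘ Q`
    let L : ℂ × ℂ →L[ℂ] V3 :=
      (ContinuousLinearMap.fst ℂ ℂ ℂ).smulRight (![0, 1, 0] : V3)
        + (ContinuousLinearMap.snd ℂ ℂ ℂ).smulRight (![0, 0, 1] : V3)
    have hQL : ∀ y, Q y = ![z, 0, 0] + L y := by
      intro y
      ext i
      fin_cases i <;> simp [Q, L]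
    have hQd : ∀ y, HasFDerivAt Q L y := by
      intro y
      have : Q = fun y => ![z, 0, 0] + L y := funext hQL
      rw [this]
      exact L.hasFDerivAt.const_add _
    have hder : ∀ y ∈ W, HasFDerivAt (fun y => f (Q y)) (0 : ℂ × ℂ →L[ℂ] ℂ) y := by
      intro y hy
      have hx := hrho y hy
      have hU := std_subset b hx
      have hfd := ((hf _ hU).differentiableAt (hUo.mem_nhds hU)).hasFDerivAt
      have h10 := hfd.comp y (hQd y)
      obtain ⟨e1, e2⟩ := dir_zero b hf hb hx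
      have h11 : (fderiv ℂ f (Q y)).comp L = 0 := by
        apply ContinuousLinearMap.ext
        intro v
        have hLv : L v = v.1 • (![0, 1, 0] : V3) + v.2 • (![0, 0, 1] : V3) := rfl
        rw [ContinuousLinearMap.comp_apply, hLv, map_add, map_smul, map_smul, e1, e2]
        simp
      rw [h11] at h10
      exact h10
    have hconst := hWc.is_const_of_fderivWithin_eq_zero (𝕜 := ℂ) (f := fun y => f (Q y))
      (fun y hy => (hder y hy).differentiableAt.differentiableWithinAt)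
      (fun y hy => by
        rw [fderivWithin_of_isOpen hWo hy]
        exact (hder y hy).fderiv)
      (show (w, ζ) ∈ W from h1) (show (w', ζ') ∈ W from h2)
    exact hconst
  have him : ∀ r : ℝ, ((r : ℂ) * I).im = r := fun r => by simp
  -- the entire function
  set g : ℂ → ℂ := fun z => f ![z, ((‖z‖ ^ 2 + 1 : ℝ) : ℂ) * I, 0] with hg
  have hgeq : ∀ (z w ζ : ℂ), ‖z‖ ^ 2 + ‖ζ‖ ^ 2 < w.im → f ![z, w, ζ] = g z := by
    intro z w ζ h
    apply hfib z w _ ζ 0 h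
    rw [him]; simp
  have hgd : Differentiable ℂ g := by
    intro z₀
    have hev : g =ᶠ[𝓝 z₀] fun z => f ![z, ((‖z₀‖ ^ 2 + 1 : ℝ) : ℂ) * I, 0] := by
      have : ∀ᶠ z in 𝓝 z₀, ‖z‖ ^ 2 < ‖z₀‖ ^ 2 + 1 := by
        have hc : Continuous fun z : ℂ => ‖z‖ ^ 2 := by fun_prop
        exact hc.continuousAt.eventually_lt_const (by linarith)
      filter_upwards [this] with z hz
      symm
      apply hgeq
      rw [him]
      simpa using hz
    apply DifferentiableAt.congr_of_eventuallyEq _ hev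
    have hmem : (![z₀, ((‖z₀‖ ^ 2 + 1 : ℝ) : ℂ) * I, 0] : V3) ∈ Udom b.φ := by
      apply std_subset
      show 0 < (((‖z₀‖ ^ 2 + 1 : ℝ) : ℂ) * I).im - ‖z₀‖ ^ 2 - ‖(0 : ℂ)‖ ^ 2
      rw [him]; simp
    have hfd : DifferentiableAt ℂ f ![z₀, ((‖z₀‖ ^ 2 + 1 : ℝ) : ℂ) * I, 0] :=
      (hf _ hmem).differentiableAt (hUo.mem_nhds hmem)
    have hline : DifferentiableAt ℂ
        (fun z : ℂ => (![z, ((‖z₀‖ ^ 2 + 1 : ℝ) : ℂ) * I, 0] : V3)) z₀ := by
      rw [differentiableAt_pi]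
      intro i
      fin_cases i <;> simp
    exact hfd.comp z₀ hline
  have hgb : Bornology.IsBounded (range g) := by
    rw [isBounded_iff_forall_norm_le]
    refine ⟨M, ?_⟩
    rintro _ ⟨z, rfl⟩
    apply hM'
    apply std_subset
    show 0 < (((‖z‖ ^ 2 + 1 : ℝ) : ℂ) * I).im - ‖z‖ ^ 2 - ‖(0 : ℂ)‖ ^ 2
    rw [him]; simp
  have hgc : ∀ z, g z = g 0 := fun z => hgd.apply_eq_apply_of_bounded hgb z 0
  have hp0 : (![0, I, 0] : V3) ∈ Udom b.φ := by
    apply std_subset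
    simp [rho3]
  have hall : ∀ p ∈ Udom b.φ, f p = g 0 := by
    intro p hp
    refine Hol.eqOn_of_preconnected hUo (isConnected_U b).isPreconnected hf
      (differentiableOn_const _) hp0 ?_ hp
    have : {x : V3 | 0 < rho3 x} ∈ 𝓝 (![0, I, 0] : V3) := by
      apply isOpen_std.mem_nhds
      simp [rho3]
    filter_upwards [this] with x hx
    have hxe : x = ![x 0, x 1, x 2] := by
      ext i
      fin_cases i <;> simp
    rw [hxe, hgeq _ _ _ _, hgc]
    have : 0 < (x 1).im - ‖x 0‖ ^ 2 - ‖x 2‖ ^ 2 := hx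
    linarith
  intro p hp q hq
  rw [hall p hp, hall q hq]

end Crest.Agent.R245
end

-- ▼ part R245/Aut3
section

/-! Row 245: affine automorphisms of `{rho3 > 0}` moving `p0` to `x` (helper707). -/

set_option autoImplicit false

namespace Crest.Agent.R245

open Complex Filter Topology
open scoped ContDiff ComplexConjugate

/-! ### the affine automorphisms of `{rho3 > 0}` -/

/-- linear part of the automorphism moving `p0` to `x` -/
noncomputable def Lx3 (x : V3) : V3 →ₗ[ℂ] V3 where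
  toFun q := ![(Real.sqrt (rho3 x) : ℂ) * q 0,
    2 * I * conj (x 0) * (Real.sqrt (rho3 x) : ℂ) * q 0
      + 2 * I * conj (x 2) * (Real.sqrt (rho3 x) : ℂ) * q 2 + (rho3 x : ℂ) * q 1,
    (Real.sqrt (rho3 x) : ℂ) * q 2]
  map_add' q r := by
    ext i; fin_cases i <;> simp <;> ring
  map_smul' c q := by
    ext i; fin_cases i <;> simp <;> ring

/-- its inverse -/
noncomputable def Lx3i (x : V3) : V3 →ₗ[ℂ] V3 where
  toFun q := ![(Real.sqrt (rho3 x) : ℂ)⁻¹ * q 0,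
    (rho3 x : ℂ)⁻¹ * (q 1 - 2 * I * conj (x 0) * q 0 - 2 * I * conj (x 2) * q 2),
    (Real.sqrt (rho3 x) : ℂ)⁻¹ * q 2]
  map_add' q r := by
    ext i; fin_cases i <;> simp <;> ring
  map_smul' c q := by
    ext i; fin_cases i <;> simp <;> ring

noncomputable def Lxe (x : V3) (hx : 0 < rho3 x) : V3 ≃L[ℂ] V3 :=
  LinearEquiv.toContinuousLinearEquiv
    { Lx3 x with
      invFun := Lx3i x
      left_inv := fun q => by
        have h1 : (Real.sqrt (rho3 x) : ℂ) ≠ 0 := by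
          exact_mod_cast (Real.sqrt_pos.2 hx).ne'
        have h2 : (rho3 x : ℂ) ≠ 0 := by exact_mod_cast hx.ne'
        ext i; fin_cases i <;> simp [Lx3, Lx3i] <;> field_simp <;> ring
      right_inv := fun q => by
        have h1 : (Real.sqrt (rho3 x) : ℂ) ≠ 0 := by
          exact_mod_cast (Real.sqrt_pos.2 hx).ne'
        have h2 : (rho3 x : ℂ) ≠ 0 := by exact_mod_cast hx.ne'
        ext i; fin_cases i <;> simp [Lx3, Lx3i] <;> field_simp <;> ring }

/-- translation part -/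
noncomputable def tx3 (x : V3) : V3 :=
  ![x 0, ((x 1).re : ℂ) + I * ((‖x 0‖ ^ 2 + ‖x 2‖ ^ 2 : ℝ) : ℂ), x 2]

lemma Lxe_apply (x : V3) (hx : 0 < rho3 x) (q : V3) : Lxe x hx q = Lx3 x q := rfl

lemma norm_sq_eq (z : ℂ) : ‖z‖ ^ 2 = z.re ^ 2 + z.im ^ 2 := by
  rw [Complex.sq_norm, Complex.normSq_apply]; ring

lemma rho3_gx (x : V3) (hx : 0 < rho3 x) (q : V3) :
    rho3 (Lxe x hx q + tx3 x) = rho3 x * rho3 q := by
  rw [Lxe_apply]
  have h1 : (Real.sqrt (rho3 x)) ^ 2 = rho3 x := Real.sq_sqrt hx.le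
  have e0 : (Lx3 x q + tx3 x) 0 = (Real.sqrt (rho3 x) : ℂ) * q 0 + x 0 := by
    simp [Lx3, tx3]
  have e1 : (Lx3 x q + tx3 x) 1 = (2 * I * conj (x 0) * (Real.sqrt (rho3 x) : ℂ) * q 0
      + 2 * I * conj (x 2) * (Real.sqrt (rho3 x) : ℂ) * q 2 + (rho3 x : ℂ) * q 1)
      + (((x 1).re : ℂ) + I * ((‖x 0‖ ^ 2 + ‖x 2‖ ^ 2 : ℝ) : ℂ)) := by
    simp [Lx3, tx3]
  have e2 : (Lx3 x q + tx3 x) 2 = (Real.sqrt (rho3 x) : ℂ) * q 2 + x 2 := by
    simp [Lx3, tx3]
  set s := Real.sqrt (rho3 x) with hs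
  set r := rho3 x with hr
  unfold rho3
  rw [e0, e1, e2]
  simp only [norm_sq_eq, Complex.add_re, Complex.add_im, Complex.mul_re, Complex.mul_im,
    Complex.ofReal_re, Complex.ofReal_im, Complex.I_re, Complex.I_im, Complex.conj_re,
    Complex.conj_im]
  norm_num
  rw [← h1]
  ring

lemma gx_p0 (x : V3) (hx : 0 < rho3 x) : Lxe x hx p0 + tx3 x = x := by
  rw [Lxe_apply]
  ext i
  fin_cases i
  · simp [Lx3, tx3, p0]
  · simp [Lx3, tx3, p0]
    apply Complex.ext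
    · simp [← Complex.ofReal_pow]
    · simp [rho3, ← Complex.ofReal_pow]
  · simp [Lx3, tx3, p0]

lemma rho3_p0 : rho3 p0 = 1 := by simp [rho3, p0]

lemma rho3_contDiff : ContDiff ℝ ∞ rho3 := by
  have h : ∀ i : Fin 3, ContDiff ℝ ∞ (fun x : V3 => x i) := fun i => contDiff_apply ℝ ℂ i
  have h1 : ContDiff ℝ ∞ (fun x : V3 => (x 1).im) := Complex.imCLM.contDiff.comp (h 1)
  have h2 : ∀ i : Fin 3, ContDiff ℝ ∞ (fun x : V3 => ‖x i‖ ^ 2) := fun i => (h i).norm_sq ℂ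
  exact (h1.sub (h2 0)).sub (h2 2)

lemma a3_p0 : a3 p0 = 0 := by simp [a3, rho3_p0]

lemma a3_contDiffAt {x : V3} (hx : 0 < rho3 x) : ContDiffAt ℝ ∞ a3 x := by
  unfold a3
  exact (rho3_contDiff.contDiffAt.log hx.ne').neg

lemma a3_gx (x : V3) (hx : 0 < rho3 x) (q : V3) (hq : 0 < rho3 q) :
    a3 (Lxe x hx q + tx3 x) = a3 x + a3 q := by
  unfold a3
  rw [rho3_gx, Real.log_mul hx.ne' hq.ne']; ring

end Crest.Agent.R245
end

-- ▼ part R245/Cusp
section

/-! TASK Cusp: the modification `β ∘ P` in the cusp. -/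

set_option autoImplicit false

namespace Crest.Agent.R245

open Complex Filter Topology
open scoped ContDiff ComplexConjugate

/-- profile function -/
theorem exists_beta0 (ε₂ : ℝ) (hε : 0 < ε₂) (_hε1 : ε₂ ≤ 1) : ∃ β : ℝ → ℝ, ContDiff ℝ ∞ β ∧
    (∀ t, -1 ≤ t → β t = t) ∧ (∀ t, 0 < deriv β t ∧ deriv β t ≤ 1) ∧
    (∀ t, 1 / (1 + |t|) ≤ deriv β t) ∧ Tendsto (deriv β) atBot (𝓝 0) ∧
    (∀ k : ℕ, 2 ≤ k → k ≤ 4 → ∀ t, |iteratedDeriv k β t| ≤ ε₂ * deriv β t) :=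
  exists_beta0' ε₂ hε

/-- the jets of `(β(a+t) - β(a))/β'(a) - t` at `t = 0`. -/
lemma beta_shift_jet {β : ℝ → ℝ} (hβ : ContDiff ℝ ∞ β) {ε : ℝ} (hε : 0 ≤ ε)
    (hd : ∀ t, 0 < deriv β t)
    (hk : ∀ k : ℕ, 2 ≤ k → k ≤ 4 → ∀ t, |iteratedDeriv k β t| ≤ ε * deriv β t) (a : ℝ)
    (i : ℕ) (hi : i ≤ 4) :
    |iteratedDeriv i (fun t => (deriv β a)⁻¹ * (β (a + t) - β a) - t) 0| ≤ ε := by
  have hr := hd a
  set r := deriv β a with hrdef
  have hs : ContDiff ℝ ∞ (fun t => β (a + t)) := hβ.comp (contDiff_const.add contDiff_id)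
  rcases i with _ | _ | j
  · simp [hε]
  · have h1 : HasDerivAt (fun t => r⁻¹ * (β (a + t) - β a) - t) (r⁻¹ * deriv β (a + 0) - 1) 0 := by
      have h2 : HasDerivAt (fun t : ℝ => a + t) 1 0 := by
        simpa using (hasDerivAt_id (0:ℝ)).const_add a
      have h3 : HasDerivAt β (deriv β (a + 0)) (a + 0) :=
        (hβ.differentiable (by simp)).differentiableAt.hasDerivAt
      have h4 := (h3.comp (0:ℝ) h2).sub_const (β a)
      rw [mul_one] at h4
      exact (h4.const_mul r⁻¹).sub (hasDerivAt_id (0:ℝ))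
    rw [zero_add, iteratedDeriv_one, h1.deriv, add_zero, ← hrdef, inv_mul_cancel₀ hr.ne', sub_self,
      abs_zero]
    exact hε
  · have e : (fun t => r⁻¹ * (β (a + t) - β a) - t)
        = (fun t => r⁻¹ * β (a + t)) - (fun t => r⁻¹ * β a + t) := by
      ext t; simp; ring
    have e2 : iteratedDeriv (j + 1 + 1) (fun t : ℝ => r⁻¹ * β a + t) 0 = 0 := by
      rw [iteratedDeriv_succ']
      have : deriv (fun t : ℝ => r⁻¹ * β a + t) = fun _ => (1:ℝ) := by
        ext t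
        exact ((hasDerivAt_id t).const_add _).deriv
      rw [this, iteratedDeriv_const]
      simp
    have c1 : ContDiffAt ℝ ((j + 1 + 1 : ℕ) : ℕ∞ω) (fun t => r⁻¹ * β (a + t)) 0 :=
      (contDiff_const.mul (hs.of_le (by exact_mod_cast le_top))).contDiffAt
    have c2 : ContDiffAt ℝ ((j + 1 + 1 : ℕ) : ℕ∞ω) (fun t : ℝ => r⁻¹ * β a + t) 0 :=
      (contDiff_const.add contDiff_fun_id).contDiffAt
    rw [e, iteratedDeriv_sub c1 c2, e2, sub_zero,
      iteratedDeriv_const_mul_field, iteratedDeriv_comp_const_add]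
    simp only [add_zero]
    rw [abs_mul, abs_of_pos (inv_pos.2 hr), inv_mul_le_iff₀ hr, mul_comm]
    exact hk (j + 1 + 1) (by omega) hi a

theorem isOpen_rho3_cusp : IsOpen {x : V3 | 0 < rho3 x} :=
  isOpen_lt continuous_const rho3_contDiff.continuous

/-- jets of a composition with `a3` at `p0`. -/
lemma comp_a3_jet (D : ℝ) (hD : ∀ i, 1 ≤ i → i ≤ 4 → ‖iteratedFDeriv ℝ i a3 p0‖ ≤ D ^ i)
    {f : ℝ → ℝ} (hf : ContDiff ℝ ∞ f) {ε : ℝ}
    (hfi : ∀ i, i ≤ 4 → |iteratedDeriv i f 0| ≤ ε) (k : ℕ) (hk4 : k ≤ 4) :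
    ‖iteratedFDeriv ℝ k (fun q => f (a3 q)) p0‖ ≤ Nat.factorial k * ε * D ^ k := by
  have hp : p0 ∈ {x : V3 | 0 < rho3 x} := by
    simp only [Set.mem_ofPred_eq, rho3_p0]; norm_num
  have h := norm_iteratedFDerivWithin_comp_le (𝕜 := ℝ) (g := f) (f := a3) (n := k)
    (s := {x : V3 | 0 < rho3 x}) (t := Set.univ) (x := p0) (N := ∞) hf.contDiffOn
    (fun x hx => (a3_contDiffAt hx).contDiffWithinAt) (by exact_mod_cast le_top)
    uniqueDiffOn_univ isOpen_rho3_cusp.uniqueDiffOn (fun _ _ => Set.mem_univ _) hp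
    (C := ε) (D := D) (fun i hi => by
      rw [iteratedFDerivWithin_univ, a3_p0, norm_iteratedFDeriv_eq_norm_iteratedDeriv]
      exact hfi i (hi.trans hk4))
    (fun i h1 hi => by
      rw [iteratedFDerivWithin_of_isOpen i isOpen_rho3_cusp hp]
      exact hD i h1 (hi.trans hk4))
  rwa [iteratedFDerivWithin_of_isOpen k isOpen_rho3_cusp hp] at h

theorem exists_beta : ∃ β : ℝ → ℝ, ContDiff ℝ ∞ β ∧
    (∀ t, -1 ≤ t → β t = t) ∧ (∀ t, 0 < deriv β t ∧ deriv β t ≤ 1) ∧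
    (∀ t, 1 / (1 + |t|) ≤ deriv β t) ∧ Tendsto (deriv β) atBot (𝓝 0) ∧
    (∀ x : V3, 0 < rho3 x → KB (fun q => β (a3 q)) x (1 / (2 * deriv β (a3 x)))
        (5 / deriv β (a3 x)) ∧
      ∀ X, (1/2) * deriv β (a3 x) * (D11 a3 X X x).re ≤ (D11 (fun q => β (a3 q)) X X x).re) := by
  obtain ⟨δ, hδ, hcurv⟩ := curvR0
  have hp : 0 < rho3 p0 := by rw [rho3_p0]; norm_num
  -- a bound for the jets of `a3` at `p0`
  set D : ℝ := 1 + ∑ i ∈ Finset.range 5, ‖iteratedFDeriv ℝ i a3 p0‖ with hDdef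
  have hD1 : 1 ≤ D := by
    have : 0 ≤ ∑ i ∈ Finset.range 5, ‖iteratedFDeriv ℝ i a3 p0‖ :=
      Finset.sum_nonneg fun _ _ => norm_nonneg _
    linarith
  have hDi : ∀ i, 1 ≤ i → i ≤ 4 → ‖iteratedFDeriv ℝ i a3 p0‖ ≤ D ^ i := by
    intro i h1 h4
    have h2 : ‖iteratedFDeriv ℝ i a3 p0‖ ≤ D := by
      have := Finset.single_le_sum (f := fun i => ‖iteratedFDeriv ℝ i a3 p0‖)
        (fun _ _ => norm_nonneg _) (Finset.mem_range.2 (by omega : i < 5))
      linarith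
    exact h2.trans (le_self_pow₀ hD1 (by omega))
  have hD0 : 0 < D := by linarith
  set ε : ℝ := min 1 (δ / (24 * D ^ 4)) with hεdef
  have hε0 : 0 < ε := lt_min one_pos (by positivity)
  have hε1 : ε ≤ 1 := min_le_left _ _
  have hεδ : 24 * ε * D ^ 4 ≤ δ := by
    have : ε ≤ δ / (24 * D ^ 4) := min_le_right _ _
    rw [le_div_iff₀ (by positivity)] at this
    linarith
  obtain ⟨β, hβs, hβ1, hβd, hβlow, hβlim, hβk⟩ := exists_beta0 ε hε0 hε1
  refine ⟨β, hβs, hβ1, hβd, hβlow, hβlim, fun x hx => ?_⟩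
  set a := a3 x with ha
  have hr : 0 < deriv β a := (hβd a).1
  set r := deriv β a with hrdef
  set P : V3 → ℝ := fun q => r⁻¹ * (β (a + a3 q) - β a) with hPdef
  have hP : ContDiffAt ℝ ∞ P p0 := by
    have h1 : ContDiff ℝ ∞ (fun t => r⁻¹ * (β (a + t) - β a)) :=
      contDiff_const.mul ((hβs.comp (contDiff_const.add contDiff_id)).sub contDiff_const)
    exact h1.contDiffAt.comp p0 (a3_contDiffAt hp)
  have hjet : ∀ k : ℕ, 1 ≤ k → k ≤ 4 →
      ‖iteratedFDeriv ℝ k (fun x => P x - a3 x) p0‖ ≤ δ := by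
    intro k h1 h4
    have hfs : ContDiff ℝ ∞ (fun t => r⁻¹ * (β (a + t) - β a) - t) :=
      (contDiff_const.mul ((hβs.comp (contDiff_const.add contDiff_id)).sub contDiff_const)).sub
        contDiff_id
    have h := comp_a3_jet D hDi hfs (ε := ε)
      (fun i hi => beta_shift_jet hβs hε0.le (fun t => (hβd t).1) hβk a i hi) k h4
    have hk24 : ((Nat.factorial k : ℕ) : ℝ) ≤ 24 := by
      have : Nat.factorial k ≤ Nat.factorial 4 := Nat.factorial_le h4
      have h24 : Nat.factorial 4 = 24 := rfl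
      rw [h24] at this
      exact_mod_cast this
    have hDk : D ^ k ≤ D ^ 4 := pow_le_pow_right₀ hD1 h4
    calc ‖iteratedFDeriv ℝ k (fun x => P x - a3 x) p0‖ ≤ Nat.factorial k * ε * D ^ k := h
      _ ≤ 24 * ε * D ^ 4 := by gcongr
      _ ≤ δ := hεδ
  obtain ⟨hKB, hlow⟩ := hcurv P hP hjet
  -- the composition with the automorphism
  have hcomp : (fun q => (fun y => β (a3 y)) (Lxe x hx q + tx3 x)) =ᶠ[𝓝 p0]
      fun q => r * P q + β a := by
    filter_upwards [isOpen_rho3_cusp.mem_nhds hp] with q hq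
    simp only [hPdef]
    rw [a3_gx x hx q hq, ← ha]
    field_simp
    ring
  have hcomp2 : (fun q => a3 (Lxe x hx q + tx3 x)) =ᶠ[𝓝 p0] fun q => a3 q + a := by
    filter_upwards [isOpen_rho3_cusp.mem_nhds hp] with q hq
    rw [a3_gx x hx q hq, ← ha]
    ring
  have hrP : ContDiffAt ℝ ∞ (fun q => r * P q) p0 := contDiffAt_const.mul hP
  constructor
  · have h1 : KB (fun q => r * P q + β a) p0 (1 / 2 / r) (5 / r) :=
      (KB_add_const hrP (β a)).2 (KB_const_mul hP hr hKB)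
    have h2 := (KB_congr hcomp _ _).2 h1
    have h3 := (KB_comp_affineEquiv (p := p0) (Lxe x hx) (tx3 x) (fun y => β (a3 y))
      (1 / 2 / r) (5 / r)).1 h2
    rw [gx_p0] at h3
    have h4 : 1 / (2 * r) = 1 / 2 / r := by field_simp
    rw [h4]
    exact h3
  · intro X
    set X' := (Lxe x hx).symm X with hX'
    have hLX : Lxe x hx X' = X := (Lxe x hx).apply_symm_apply X
    have hcdβ : ContDiffAt ℝ ∞ (fun y => β (a3 y)) x :=
      hβs.contDiffAt.comp x (a3_contDiffAt hx)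
    have e1 : D11 (fun q => (fun y => β (a3 y)) (Lxe x hx q + tx3 x)) X' X' p0
        = D11 (fun q => β (a3 q)) X X x := by
      have := D11_comp_affine (p := p0) (Lxe x hx : V3 →L[ℂ] V3) (tx3 x)
        (f := fun y => β (a3 y)) (by
          simp only [ContinuousLinearEquiv.coe_coe]
          rw [gx_p0 x hx]; exact hcdβ) X' X'
      simp only [ContinuousLinearEquiv.coe_coe] at this
      rw [this, hLX, gx_p0 x hx]
    have e2 : D11 (fun q => a3 (Lxe x hx q + tx3 x)) X' X' p0 = D11 a3 X X x := by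
      have := D11_comp_affine (p := p0) (Lxe x hx : V3 →L[ℂ] V3) (tx3 x)
        (f := a3) (by
          simp only [ContinuousLinearEquiv.coe_coe]
          rw [gx_p0 x hx]; exact a3_contDiffAt hx) X' X'
      simp only [ContinuousLinearEquiv.coe_coe] at this
      rw [this, hLX, gx_p0 x hx]
    have e3 : D11 (fun q => r * P q + β a) X' X' p0 = r * D11 P X' X' p0 := by
      rw [D11_add hrP contDiffAt_const, D11_const, add_zero, D11_const_mul hP]
    have e4 : D11 (fun q => a3 q + a) X' X' p0 = D11 a3 X' X' p0 := by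
      rw [D11_add (a3_contDiffAt hp) contDiffAt_const, D11_const, add_zero]
    rw [← e1, D11_congr hcomp, e3, ← e2, D11_congr hcomp2, e4]
    have h5 := hlow X'
    rw [Complex.re_ofReal_mul]
    nlinarith [mul_le_mul_of_nonneg_left h5 hr.le]

end Crest.Agent.R245
end

-- ▼ part R245/Final

/-! Final assembly for row 245. -/

set_option autoImplicit false

namespace Crest.Agent.R245

open Complex Filter Topology
open scoped ContDiff ComplexConjugate
open Crest.GeometryTopology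

theorem s0378 :
    ∃ U : Set (Fin 3 → ℂ), IsOpen U ∧ IsConnected U ∧ ContractibleSpace U ∧
      ∃ g : Crest.GeometryTopology.HermitianMetricOn 3 U, g.IsKahler ∧ g.IsComplete ∧
        (∃ A B : ℝ, 0 < A ∧ A ≤ B ∧ ∀ p ∈ U, ∀ X Y : (Fin 3 → ℂ),
          g.riem p X X * g.riem p Y Y - g.riem p X Y ^ 2 ≠ 0 →
            -B ≤ g.sectional p X Y ∧ g.sectional p X Y ≤ -A) ∧
        ∀ F : (Fin 3 → ℂ) → (Fin 3 → ℂ), DifferentiableOn ℂ F U → Bornology.IsBounded (F '' U) →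
          ∃ p ∈ U, (fderiv ℂ F p).det = 0 := by
  obtain ⟨b⟩ := exists_bulge
  have hopen := isOpen_Udom b
  obtain ⟨g, hK, hr, hs⟩ := metric_of_potential hopen (Ppot b.A b.φ) (Ppot_contDiffOn b)
    (fun p hp => Ppot_PD b hp)
  obtain ⟨c, hc, B, hB⟩ := Ppot_KB b
  refine ⟨Udom b.φ, hopen, isConnected_U b, contractible_U b, g, hK, ?_, ?_, ?_⟩
  · obtain ⟨C, hC, hg⟩ := u0_grad b
    refine complete_of_proper hopen g (u0 b.φ) ((u0_contDiffOn b).of_le (by simp))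
      (fun p hp => u0_nonneg b hp) C ?_ (u0_proper b) (curves_U b)
    intro p hp X
    rw [hr p hp X X]
    have h1 := hg p hp X
    have h2 := u0_nonneg b hp
    have h3 : 1 ≤ Real.sqrt (1 + u0 b.φ p) := by
      rw [Real.one_le_sqrt]; linarith
    calc |fderiv ℝ (u0 b.φ) p X| ≤ C * Real.sqrt (D11 (Ppot b.A b.φ) X X p).re := h1
      _ = C * 1 * Real.sqrt (D11 (Ppot b.A b.φ) X X p).re := by ring
      _ ≤ C * Real.sqrt (1 + u0 b.φ p) * Real.sqrt (D11 (Ppot b.A b.φ) X X p).re := by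
        gcongr
  · refine ⟨c, max B c, hc, le_max_right _ _, fun p hp X Y hXY => ?_⟩
    have := hs p hp c B (hB p hp) X Y hXY
    exact ⟨le_trans (neg_le_neg (le_max_left _ _)) this.1, this.2⟩
  · intro F hF hb
    obtain ⟨p, hp⟩ := (isConnected_U b).nonempty
    refine ⟨p, hp, ?_⟩
    have hconst : ∀ q ∈ Udom b.φ, F q = F p := by
      intro q hq
      funext i
      have := liouville_U b (fun x => F x i)
        ((differentiableOn_pi.1 hF) i) (by
          have h2 : (fun x => F x i) '' Udom b.φ = (fun v : V3 => v i) '' (F '' Udom b.φ) := by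
            rw [Set.image_image]
          rw [h2]
          exact (LipschitzWith.eval i).isBounded_image hb) q hq p hp
      exact this
    have hev : F =ᶠ[𝓝 p] fun _ => F p := by
      filter_upwards [hopen.mem_nhds hp] with q hq using hconst q hq
    have : fderiv ℂ F p = 0 := by
      rw [hev.fderiv_eq]; simp
    rw [this]
    simp [ContinuousLinearMap.det]


/-- strict Cauchy–Schwarz for the real part of a positive definite `D11`. -/
theorem area_ne_zero_of_PD {P : V3 → ℝ} {p : V3} (hP : ContDiffAt ℝ ∞ P p) (hpd : PD P p)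
    {X Y : V3} (hind : ∀ a b : ℂ, a • X + b • Y = 0 → a = 0) (hY : Y ≠ 0) :
    (D11 P X X p).re * (D11 P Y Y p).re - (D11 P X Y p).re ^ 2 ≠ 0 := by
  intro h0
  have hYY := hpd Y hY
  set a : ℝ := (D11 P X X p).re with ha
  set d : ℝ := (D11 P Y Y p).re with hd
  set r : ℝ := (D11 P X Y p).re with hr
  have hsym : (D11 P Y X p).re = r := by
    rw [← D11_conj hP X Y, Complex.conj_re]
  set Z : V3 := (d : ℂ) • X + ((-r : ℝ) : ℂ) • Y with hZ
  have hZ0 : Z ≠ 0 := by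
    intro hz
    have := hind _ _ hz
    have h2 : d = 0 := by exact_mod_cast this
    linarith
  have hZZ := hpd Z hZ0
  have hexp : D11 P Z Z p = (d : ℂ) * ((d : ℂ) * D11 P X X p) +
      ((-r : ℝ) : ℂ) * ((d : ℂ) * D11 P X Y p) + ((d : ℂ) * (((-r : ℝ) : ℂ) * D11 P Y X p) +
      ((-r : ℝ) : ℂ) * (((-r : ℝ) : ℂ) * D11 P Y Y p)) := by
    rw [hZ, D11_add_left hP, D11_smul_left hP, D11_smul_left hP, D11_add_right hP,
      D11_add_right hP, D11_smul_right hP, D11_smul_right hP, D11_smul_right hP,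
      D11_smul_right hP, Complex.conj_ofReal, Complex.conj_ofReal]
    ring
  have hre : (D11 P Z Z p).re = d * (a * d - r ^ 2) := by
    rw [hexp]
    simp only [Complex.add_re, Complex.re_ofReal_mul, hsym, ← ha, ← hd, ← hr]
    ring
  rw [hre, h0] at hZZ
  simp at hZZ

theorem s0379 :
    ∃ m : ℕ, 2 ≤ m ∧ ∃ U : Set (Fin m → ℂ), IsOpen U ∧
      (∃ Φ Ψ : (Fin m → ℂ) → (Fin m → ℂ), ContDiff ℝ ∞ Φ ∧ ContDiffOn ℝ ∞ Ψ U ∧
        Set.range Φ = U ∧ ∀ x, Ψ (Φ x) = x) ∧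
      ∃ g : Crest.GeometryTopology.HermitianMetricOn m U, g.IsKahler ∧ g.IsComplete ∧
        (∀ p ∈ U, ∀ X Y : (Fin m → ℂ), g.riem p X X * g.riem p Y Y - g.riem p X Y ^ 2 ≠ 0 →
          g.sectional p X Y ≤ -1) ∧
        (∀ B : ℝ, ∃ p ∈ U, ∃ X Y : (Fin m → ℂ),
          g.riem p X X * g.riem p Y Y - g.riem p X Y ^ 2 ≠ 0 ∧ g.sectional p X Y < B) ∧
        ∀ f : (Fin m → ℂ) → ℂ, DifferentiableOn ℂ f U → Bornology.IsBounded (f '' U) →
          ∀ p ∈ U, ∀ q ∈ U, f p = f q := by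
  obtain ⟨b⟩ := exists_bulge
  obtain ⟨β, hβs, hβ1, hβd, hβlow, hβlim, hβK⟩ := exists_beta
  have hopen := isOpen_Udom b
  obtain ⟨c, hc, B, hB⟩ := Ppot_KB b
  set P : V3 → ℝ := Ppot b.A b.φ with hPdef
  have hPs : ContDiffOn ℝ ∞ P (Udom b.φ) := Ppot_contDiffOn b
  -- lower curvature constant
  set c₀ : ℝ := min c (1/2) with hc₀
  have hc₀pos : 0 < c₀ := lt_min hc (by norm_num)
  -- the potential
  set Q : V3 → ℝ := fun x => β (P x) with hQ
  have hQs : ContDiffOn ℝ ∞ Q (Udom b.φ) := hβs.comp_contDiffOn hPs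
  have hQat : ∀ p ∈ Udom b.φ, ContDiffAt ℝ ∞ Q p := fun p hp => hQs.contDiffAt (hopen.mem_nhds hp)
  have hPat : ∀ p ∈ Udom b.φ, ContDiffAt ℝ ∞ P p := fun p hp => hPs.contDiffAt (hopen.mem_nhds hp)
  -- local dichotomy
  have hdich : ∀ p ∈ Udom b.φ, (Q =ᶠ[𝓝 p] P) ∨ (P p < 0 ∧ 0 < rho3 p ∧ P =ᶠ[𝓝 p] a3 ∧
      Q =ᶠ[𝓝 p] fun q => β (a3 q)) := by
    intro p hp
    rcases lt_or_ge (P p) 0 with h | h
    · right
      obtain ⟨h1, h2⟩ := Ppot_neg b hp h
      refine ⟨h, h1, h2, ?_⟩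
      filter_upwards [h2] with q hq
      simp only [hQ]; rw [← hq]
    · left
      have : ∀ᶠ q in 𝓝 p, -1 < P q :=
        (hPat p hp).continuousAt.eventually_const_lt (by linarith)
      filter_upwards [this] with q hq
      simp only [hQ]; exact hβ1 _ hq.le
  have hQlow : ∀ p ∈ Udom b.φ, ∀ X, (1 / (2 * (1 + u0 b.φ p))) * (D11 P X X p).re
      ≤ (D11 Q X X p).re := by
    intro p hp X
    have hu := u0_nonneg b hp
    rcases hdich p hp with h | ⟨h0, h1, h2, h3⟩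
    · rw [D11_congr h]
      have hn : 0 ≤ (D11 P X X p).re := by
        by_cases hX : X = 0
        · subst hX
          have := D11_smul_left (hPat p hp) 0 (0 : V3) (0 : V3)
          simp at this; simp [this]
        · exact (Ppot_PD b hp X hX).le
      have : 1 / (2 * (1 + u0 b.φ p)) ≤ 1 := by
        rw [div_le_one (by positivity)]; linarith
      nlinarith
    · rw [D11_congr h3, D11_congr h2]
      have h4 := (hβK p h1).2 X
      have hn : 0 ≤ (D11 a3 X X p).re := by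
        have := a3_grad p h1 X
        exact le_trans (by positivity) this
      refine le_trans ?_ h4
      have h5 : 1 / (2 * (1 + u0 b.φ p)) ≤ (1/2) * deriv β (a3 p) := by
        have h6 := hβlow (a3 p)
        have h7 : |a3 p| ≤ u0 b.φ p := by
          have h8 := neg_Ppot_le_u0 b hp
          have h9 : P p = a3 p := h2.self_of_nhds
          rw [← h9, abs_of_neg h0]; exact h8
        have h10 : 1 / (1 + u0 b.φ p) ≤ 1 / (1 + |a3 p|) := by
          apply one_div_le_one_div_of_le (by positivity); linarith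
        have h11 : 1 / (2 * (1 + u0 b.φ p)) = (1/2) * (1 / (1 + u0 b.φ p)) := by
          field_simp
        rw [h11]; linarith
      nlinarith
  have hQpd : ∀ p ∈ Udom b.φ, PD Q p := by
    intro p hp X hX
    have h1 := hQlow p hp X
    have h2 := Ppot_PD b hp X hX
    have hu := u0_nonneg b hp
    have : 0 < (1 / (2 * (1 + u0 b.φ p))) * (D11 P X X p).re := by
      apply mul_pos _ h2; positivity
    linarith
  -- scaled potential
  set R : V3 → ℝ := fun x => c₀ * Q x with hR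
  have hRs : ContDiffOn ℝ ∞ R (Udom b.φ) := contDiffOn_const.mul hQs
  have hRpd : ∀ p ∈ Udom b.φ, PD R p := fun p hp => PD_const_mul (hQat p hp) hc₀pos (hQpd p hp)
  obtain ⟨g, hK, hr, hs⟩ := metric_of_potential hopen R hRs hRpd
  have hKBQ : ∀ p ∈ Udom b.φ, ∃ B', KB Q p c₀ B' := by
    intro p hp
    rcases hdich p hp with h | ⟨h0, h1, h2, h3⟩
    · refine ⟨B, ?_⟩
      rw [KB_congr h]
      exact KB_mono (hPat p hp) (Ppot_PD b hp) (min_le_left _ _) le_rfl (hB p hp)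
    · refine ⟨5 / deriv β (a3 p), ?_⟩
      have h4 := (hβK p h1).1
      rw [← KB_congr h3] at h4
      refine KB_mono (hQat p hp) (hQpd p hp) ?_ le_rfl h4
      have h5 := hβd (a3 p)
      refine le_trans (min_le_right _ _) ?_
      rw [div_le_div_iff₀ (by norm_num) (by linarith [h5.1])]
      linarith [h5.2]
  refine ⟨3, by norm_num, Udom b.φ, hopen, diffeo b, g, hK, ?_, ?_, ?_, liouville_U b⟩
  · obtain ⟨C, hC, hg⟩ := u0_grad b
    refine complete_of_proper hopen g (u0 b.φ) ((u0_contDiffOn b).of_le (by simp))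
      (fun p hp => u0_nonneg b hp) (C * Real.sqrt (2 / c₀)) ?_ (u0_proper b) (curves_U b)
    intro p hp X
    rw [hr p hp X X]
    have h1 := hg p hp X
    have h2 := u0_nonneg b hp
    have h3 := hQlow p hp X
    have h4 : D11 R X X p = c₀ * D11 Q X X p := D11_const_mul (hQat p hp) c₀ X X
    have h5 : (D11 R X X p).re = c₀ * (D11 Q X X p).re := by rw [h4]; simp
    have h6 : (D11 P X X p).re ≤ 2 / c₀ * (1 + u0 b.φ p) * (D11 R X X p).re := by
      rw [h5]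
      have h7 : (D11 P X X p).re = 2 * (1 + u0 b.φ p) *
          ((1 / (2 * (1 + u0 b.φ p))) * (D11 P X X p).re) := by field_simp
      have h8 : 2 / c₀ * (1 + u0 b.φ p) * (c₀ * (D11 Q X X p).re)
          = 2 * (1 + u0 b.φ p) * (D11 Q X X p).re := by field_simp
      rw [h7, h8]
      apply mul_le_mul_of_nonneg_left h3 (by positivity)
    calc |fderiv ℝ (u0 b.φ) p X| ≤ C * Real.sqrt (D11 P X X p).re := h1
      _ ≤ C * Real.sqrt (2 / c₀ * (1 + u0 b.φ p) * (D11 R X X p).re) := by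
        gcongr
      _ = C * Real.sqrt (2 / c₀) * Real.sqrt (1 + u0 b.φ p) * Real.sqrt (D11 R X X p).re := by
        rw [Real.sqrt_mul (by positivity), Real.sqrt_mul (by positivity)]; ring
  · intro p hp X Y hXY
    obtain ⟨B', hB'⟩ := hKBQ p hp
    have h1 := KB_const_mul (hQat p hp) hc₀pos hB'
    have h2 := (hs p hp _ _ h1 X Y hXY).2
    rwa [div_self hc₀pos.ne'] at h2
  · intro B₁
    -- go deep into the cusp
    have hlim := hβlim
    have hM : ∃ t : ℝ, 1 < t ∧ deriv β (-Real.log t) < 1 / (2 * c₀ * (|B₁| + 1)) := by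
      have h1 : Tendsto (fun t : ℝ => -Real.log t) atTop atBot :=
        tendsto_neg_atTop_atBot.comp Real.tendsto_log_atTop
      have h2 := (hβlim.comp h1).eventually_lt_const
        (show (0:ℝ) < 1 / (2 * c₀ * (|B₁| + 1)) by positivity)
      obtain ⟨t, ht1, ht2⟩ := (h2.and (eventually_gt_atTop 1)).exists
      exact ⟨t, ht2, ht1⟩
    obtain ⟨t, ht1, ht2⟩ := hM
    obtain ⟨hmem, hval⟩ := Ppot_cusp b t ht1
    set x : V3 := ![0, (t : ℂ) * I, 0] with hx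
    have hneg : P x < 0 := by
      rw [hPdef, hval]; have := Real.log_pos ht1; linarith
    obtain ⟨h1, h2⟩ := Ppot_neg b hmem hneg
    have h3 : Q =ᶠ[𝓝 x] fun q => β (a3 q) := by
      filter_upwards [h2] with q hq
      simp only [hQ]; rw [← hq]
    have h9 : P x = a3 x := h2.self_of_nhds
    have h4 := (hβK x h1).1
    rw [← KB_congr h3] at h4
    have h5 := KB_const_mul (hQat x hmem) hc₀pos h4
    -- choose two independent vectors
    have hX0 : (Pi.single 0 1 : V3) ≠ 0 := by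
      intro h; have := congrFun h 0; simp at this
    have hY0 : (Pi.single 1 1 : V3) ≠ 0 := by
      intro h; have := congrFun h 1; simp at this
    have hRat : ContDiffAt ℝ ∞ R x := hRs.contDiffAt (hopen.mem_nhds hmem)
    have hndg : g.riem x (Pi.single 0 1 : V3) (Pi.single 0 1 : V3) *
        g.riem x (Pi.single 1 1 : V3) (Pi.single 1 1 : V3) -
        g.riem x (Pi.single 0 1 : V3) (Pi.single 1 1 : V3) ^ 2 ≠ 0 := by
      rw [hr x hmem, hr x hmem, hr x hmem]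
      exact area_ne_zero_of_PD hRat (hRpd x hmem) (fun a b hab => by
        have h0 := congrFun hab 0
        simpa using h0) hY0
    refine ⟨x, hmem, (Pi.single 0 1 : V3), (Pi.single 1 1 : V3), hndg, ?_⟩
    have h6 := (hs x hmem _ _ h5 _ _ hndg).2
    have h7 : a3 x = -Real.log t := by rw [← h9]; exact hval
    rw [h7] at h6
    have h8 := (hβd (-Real.log t)).1
    have h10 : |B₁| + 1 < 1 / (2 * deriv β (-Real.log t)) / c₀ := by
      rw [div_div, lt_div_iff₀ (by positivity)]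
      rw [lt_div_iff₀ (by positivity)] at ht2
      nlinarith
    have h11 := neg_abs_le B₁
    linarith

end Crest.Agent.R245
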