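import Crest.Agent.R245.CurvR0
import Crest.Agent.R245.LemmaH
import Crest.Agent.R245.BasePert

/-! TASK GlobalU: the domain `U = Udom b.φ` and the potential `Ppot b.A b.φ`. (helper899) -/

set_option autoImplicit false

namespace Crest.Agent.R245

open Complex Filter Topology
open scoped ContDiff ComplexConjugate

theorem GU.conj_mul_self_eq (c : ℂ) : conj c * c = ((‖c‖ ^ 2 : ℝ) : ℂ) := by
  rw [mul_comm, Complex.mul_conj, Complex.normSq_eq_norm_sq]

theorem gki_gk (k : ℤ) (y : B2 × ℂ) : gki k (gk k y) = y := by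
  obtain ⟨⟨z, w⟩, ζ⟩ := y
  have h := GU.conj_mul_self_eq (cS k)
  simp only [gki, gk, Matrix.cons_val_zero, Matrix.cons_val_one, Matrix.cons_val]
  refine Prod.ext (Prod.ext ?_ ?_) ?_
  · simp
  · simp only
    linear_combination (-2 * I) * h
  · simp

theorem gk_gki (k : ℤ) (x : V3) : gk k (gki k x) = x := by
  have h := GU.conj_mul_self_eq (cS k)
  funext i
  fin_cases i
  · simp [gk, gki]
  · simp only [gk, gki]
    simp
    push_cast at h
    linear_combination (-2 * I) * h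
  · simp [gk, gki]

/-- the linear part of `gki k` -/
noncomputable def gkiLin (k : ℤ) : V3 ≃ₗ[ℂ] (B2 × ℂ) where
  toFun x := ((x 0, x 1 - 2 * I * k * x 0 - 2 * I * conj (cS k) * x 2), x 2)
  invFun y := ![y.1.1, y.1.2 + 2 * I * k * y.1.1 + 2 * I * conj (cS k) * y.2, y.2]
  map_add' x y := by
    refine Prod.ext (Prod.ext ?_ ?_) ?_
    · simp
    · simp only [Pi.add_apply, Prod.snd_add, Prod.fst_add]; ring
    · simp
  map_smul' c x := by
    refine Prod.ext (Prod.ext ?_ ?_) ?_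
    · simp
    · simp only [Pi.smul_apply, smul_eq_mul, RingHom.id_apply, Prod.smul_snd, Prod.smul_fst]; ring
    · simp
  left_inv x := by
    funext i
    fin_cases i
    · simp
    · simp
      ring
    · simp
  right_inv y := by
    refine Prod.ext (Prod.ext ?_ ?_) ?_
    · simp
    · simp
      ring
    · simp

/-- `gki k` is a complex affine isomorphism -/
theorem gki_affine (k : ℤ) : ∃ (L : V3 ≃L[ℂ] (B2 × ℂ)) (y₀ : B2 × ℂ), ∀ x, gki k x = L x + y₀ := by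
  refine ⟨(gkiLin k).toContinuousLinearEquiv,
    ((-(k : ℂ), I * k ^ 2 + I * ((‖cS k‖ ^ 2 : ℝ) : ℂ)), -cS k), fun x => ?_⟩
  have : (gkiLin k).toContinuousLinearEquiv x
      = ((x 0, x 1 - 2 * I * k * x 0 - 2 * I * conj (cS k) * x 2), x 2) := rfl
  rw [this]
  refine Prod.ext (Prod.ext ?_ ?_) ?_
  · simp [gki, sub_eq_add_neg]
  · simp only [gki, Prod.fst_add, Prod.snd_add]; ring
  · simp [gki, sub_eq_add_neg]

theorem continuous_gki (k : ℤ) : Continuous (gki k) := by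
  obtain ⟨L, y₀, h⟩ := gki_affine k
  have : gki k = fun x => L x + y₀ := funext h
  rw [this]
  fun_prop

theorem GU.contDiff_gki (k : ℤ) : ContDiff ℝ ∞ (gki k) := by
  obtain ⟨L, y₀, h⟩ := gki_affine k
  have : gki k = fun x => L x + y₀ := funext h
  rw [this]
  exact ((L : V3 →L[ℂ] (B2 × ℂ)).restrictScalars ℝ).contDiff.add contDiff_const

theorem GU.norm_add_sq_c (a c : ℂ) : ‖a + c‖ ^ 2 = ‖a‖ ^ 2 + 2 * (conj c * a).re + ‖c‖ ^ 2 := by
  rw [← Complex.normSq_eq_norm_sq, ← Complex.normSq_eq_norm_sq, ← Complex.normSq_eq_norm_sq,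
    Complex.normSq_apply, Complex.normSq_apply, Complex.normSq_apply]
  simp
  ring

/-- the Heisenberg translations preserve `rho3` -/
theorem rho3_gk (k : ℤ) (y : B2 × ℂ) : rho3 (gk k y) = rho y.1 - ‖y.2‖ ^ 2 := by
  obtain ⟨⟨z, w⟩, ζ⟩ := y
  have h1 := GU.norm_add_sq_c z (k : ℂ)
  have h2 := GU.norm_add_sq_c ζ (cS k)
  simp only [rho3, rho, gk, Matrix.cons_val_zero, Matrix.cons_val_one, Matrix.cons_val]
  rw [h1, h2]
  have h3 : ((k : ℂ)).re = (k : ℝ) := by simp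
  have h4 : ((k : ℂ)).im = 0 := by simp
  have h5 : ‖(k : ℂ)‖ ^ 2 = (k : ℝ) ^ 2 := by
    rw [Complex.norm_intCast, sq_abs]
  have h6 : (((‖cS k‖ ^ 2 : ℝ) : ℂ)).re = ‖cS k‖ ^ 2 := Complex.ofReal_re _
  have h7 : ((k : ℂ) ^ 2).re = (k : ℝ) ^ 2 := by
    rw [show ((k : ℂ) ^ 2) = (((k : ℝ) ^ 2 : ℝ) : ℂ) by push_cast; ring]
    exact Complex.ofReal_re _
  rw [h5]
  simp only [add_im, mul_im, mul_re, I_re, I_im, h3, h4, h6, h7, Complex.conj_re, Complex.conj_im]
  simp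
  ring

theorem rho3_eq (k : ℤ) (x : V3) : rho3 x = rho (gki k x).1 - ‖(gki k x).2‖ ^ 2 := by
  conv_lhs => rw [← gk_gki k x]
  exact rho3_gk k _

theorem GU.exp_aS {b : B2} (hb : b ∈ Dom) : Real.exp (aS b) = (rho b)⁻¹ := by
  unfold aS
  rw [Real.exp_neg, Real.exp_log hb]

/-- general form of the standard part -/
theorem mem_HartD_iff_of_eq (b : Bulge) (k : ℤ) (x : V3)
    (h : (gki k x).1 ∈ Dom → b.φ (gki k x).1 = aS (gki k x).1) :
    gki k x ∈ HartD b.φ ↔ 0 < rho3 x := by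
  rw [rho3_eq k x]
  set y := gki k x with hy
  constructor
  · rintro ⟨h1, h2⟩
    rw [h h1, GU.exp_aS h1] at h2
    have h3 : 0 < rho y.1 := h1
    have h4 : (rho y.1)⁻¹ * ‖y.2‖ ^ 2 * rho y.1 < 1 * rho y.1 := by
      exact mul_lt_mul_of_pos_right h2 h3
    have h5 : (rho y.1)⁻¹ * ‖y.2‖ ^ 2 * rho y.1 = ‖y.2‖ ^ 2 := by
      field_simp
    rw [h5] at h4
    linarith
  · intro h1
    have h2 : y.1 ∈ Dom := by
      have : 0 ≤ ‖y.2‖ ^ 2 := by positivity
      show 0 < rho y.1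
      linarith
    refine ⟨h2, ?_⟩
    rw [h h2, GU.exp_aS h2]
    have h3 : 0 < rho y.1 := h2
    rw [inv_mul_eq_div, div_lt_one h3]
    linarith

theorem hart_eq_of_eq (b : Bulge) (k : ℤ) (x : V3)
    (h : (gki k x).1 ∈ Dom → b.φ (gki k x).1 = aS (gki k x).1)
    (h' : (gki k x).1 ∈ Dom → b.A (gki k x).1 = aS (gki k x).1) (hx : 0 < rho3 x) :
    hart b.A b.φ (gki k x) = a3 x := by
  have hm := ((mem_HartD_iff_of_eq b k x h).2 hx).1
  unfold hart a3
  rw [h hm, h' hm, GU.exp_aS hm, rho3_eq k x]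
  have h3 : 0 < rho (gki k x).1 := hm
  have h4 : 0 < rho (gki k x).1 - ‖(gki k x).2‖ ^ 2 := by rw [← rho3_eq]; exact hx
  have h5 : 1 - (rho (gki k x).1)⁻¹ * ‖(gki k x).2‖ ^ 2
      = (rho (gki k x).1 - ‖(gki k x).2‖ ^ 2) / rho (gki k x).1 := by
    field_simp
  rw [h5, Real.log_div h4.ne' h3.ne']
  unfold aS
  ring

/-- standard part: where `φ = aS`, `HartD φ` is `{rho - |ζ|² > 0}` and `hart = -log rho3` -/
theorem mem_HartD_iff_std (b : Bulge) (k : ℤ) (x : V3) (h : 1/4 ≤ ‖x 0 - k‖) :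
    gki k x ∈ HartD b.φ ↔ 0 < rho3 x :=
  mem_HartD_iff_of_eq b k x fun hm => b.outφ _ hm (Or.inl h)

theorem hart_eq_std (b : Bulge) (k : ℤ) (x : V3) (h : 1/4 ≤ ‖x 0 - k‖) (hx : 0 < rho3 x) :
    hart b.A b.φ (gki k x) = a3 x :=
  hart_eq_of_eq b k x (fun hm => b.outφ _ hm (Or.inl h)) (fun hm => b.outA _ hm (Or.inl h)) hx

/-- `{rho3 > 0} ⊆ U` -/
theorem std_subset (b : Bulge) {x : V3} (hx : 0 < rho3 x) : x ∈ Udom b.φ := by
  show gki (kk x) x ∈ HartD b.φ
  rw [rho3_eq (kk x) x] at hx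
  set y := gki (kk x) x with hy
  have h2 : y.1 ∈ Dom := by
    have : 0 ≤ ‖y.2‖ ^ 2 := by positivity
    show 0 < rho y.1
    linarith
  refine ⟨h2, ?_⟩
  have h3 : 0 < rho y.1 := h2
  have h4 : Real.exp (b.φ y.1) ≤ (rho y.1)⁻¹ := by
    rw [← GU.exp_aS h2]
    exact Real.exp_le_exp.2 (b.φ_le _ h2)
  calc Real.exp (b.φ y.1) * ‖y.2‖ ^ 2 ≤ (rho y.1)⁻¹ * ‖y.2‖ ^ 2 := by gcongr
    _ < 1 := by
      rw [inv_mul_eq_div, div_lt_one h3]; linarith

theorem GU.abs_re_sub_kk (x : V3) : |(x 0).re - (kk x : ℝ)| ≤ 1 / 2 := by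
  unfold kk; exact abs_sub_round _

theorem GU.abs_re_le_norm_sub (x : V3) (k : ℤ) : |(x 0).re - (k : ℝ)| ≤ ‖x 0 - k‖ := by
  have := Complex.abs_re_le_norm (x 0 - k)
  simpa using this

/-- near `x`, either the chart index is `kk x`, or both charts are in the standard part. -/
theorem kk_near (x : V3) : ∀ᶠ x' in 𝓝 x, kk x' = kk x ∨
    (1/4 ≤ ‖x' 0 - (kk x : ℂ)‖ ∧ 1/4 ≤ ‖x' 0 - (kk x' : ℂ)‖ ∧ 1/4 ≤ ‖x 0 - (kk x : ℂ)‖) := by
  have hc : Continuous fun x' : V3 => x' 0 := continuous_apply 0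
  have h1 : ∀ᶠ x' in 𝓝 x, ‖x' 0 - x 0‖ < 1/8 := by
    have := hc.continuousAt (x := x)
    have h2 := Metric.tendsto_nhds.1 this (1/8) (by norm_num)
    filter_upwards [h2] with x' hx'
    rwa [dist_eq_norm] at hx'
  filter_upwards [h1] with x' hx'
  by_cases hk : kk x' = kk x
  · exact Or.inl hk
  right
  have hre : |(x' 0).re - (x 0).re| ≤ 1/8 := by
    have := Complex.abs_re_le_norm (x' 0 - x 0)
    rw [Complex.sub_re] at this
    linarith
  have e1 := GU.abs_re_sub_kk x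
  have e2 := GU.abs_re_sub_kk x'
  -- the two integers differ by at least one
  have hint : (1 : ℝ) ≤ |((kk x' : ℤ) : ℝ) - (kk x : ℤ)| := by
    have h3 : kk x' - kk x ≠ 0 := sub_ne_zero.2 hk
    have h4 : (1 : ℤ) ≤ |kk x' - kk x| := Int.one_le_abs h3
    have h5 : ((1 : ℤ) : ℝ) ≤ ((|kk x' - kk x| : ℤ) : ℝ) := by exact_mod_cast h4
    simpa using h5
  have f1 := abs_le.1 hre
  have f2 := abs_le.1 e1
  have f3 := abs_le.1 e2
  have g1 := GU.abs_re_le_norm_sub x' (kk x)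
  have g2 := GU.abs_re_le_norm_sub x' (kk x')
  have g3 := GU.abs_re_le_norm_sub x (kk x)
  rcases le_abs.1 hint with h6 | h6
  · refine ⟨le_trans ?_ g1, le_trans ?_ g2, le_trans ?_ g3⟩
    · rw [le_abs]; left; linarith [f3.1]
    · rw [le_abs]; right; linarith [f1.2, f2.2]
    · rw [le_abs]; left; linarith [f1.2, f3.1]
  · refine ⟨le_trans ?_ g1, le_trans ?_ g2, le_trans ?_ g3⟩
    · rw [le_abs]; right; linarith [f3.2]
    · rw [le_abs]; left; linarith [f1.1, f2.1]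
    · rw [le_abs]; right; linarith [f1.1, f3.2]

/-- locally one may use a fixed chart -/
theorem Udom_local (b : Bulge) (x : V3) :
    ∀ᶠ x' in 𝓝 x, (x' ∈ Udom b.φ ↔ gki (kk x) x' ∈ HartD b.φ) := by
  filter_upwards [kk_near x] with x' hx'
  rcases hx' with h | ⟨h1, h2, -⟩
  · show gki (kk x') x' ∈ HartD b.φ ↔ _
    rw [h]
  · show gki (kk x') x' ∈ HartD b.φ ↔ _
    rw [mem_HartD_iff_std b _ _ h1, mem_HartD_iff_std b _ _ h2]

theorem GU.continuous_rho3 : Continuous rho3 := by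
  unfold rho3
  fun_prop

theorem Ppot_local (b : Bulge) {x : V3} (hx : x ∈ Udom b.φ) :
    Ppot b.A b.φ =ᶠ[𝓝 x] fun x' => hart b.A b.φ (gki (kk x) x') := by
  by_cases h0 : 1/4 ≤ ‖x 0 - (kk x : ℂ)‖
  · have h1 : 0 < rho3 x := (mem_HartD_iff_std b _ _ h0).1 hx
    have h2 : ∀ᶠ x' in 𝓝 x, 0 < rho3 x' := GU.continuous_rho3.continuousAt.eventually_const_lt h1
    filter_upwards [kk_near x, h2] with x' hx' hr
    rcases hx' with h | ⟨h3, h4, -⟩
    · unfold Ppot; rw [h]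
    · unfold Ppot
      rw [hart_eq_std b _ _ h3 hr, hart_eq_std b _ _ h4 hr]
  · filter_upwards [kk_near x] with x' hx'
    rcases hx' with h | ⟨-, -, h5⟩
    · unfold Ppot; rw [h]
    · exact absurd h5 h0

theorem isOpen_HartD (b : Bulge) : IsOpen (HartD b.φ) := by
  have h1 : IsOpen {y : B2 × ℂ | y.1 ∈ Dom} := isOpen_Dom.preimage continuous_fst
  have hc : ContinuousOn (fun y : B2 × ℂ => Real.exp (b.φ y.1) * ‖y.2‖ ^ 2) {y | y.1 ∈ Dom} := by
    have h2 : ContinuousOn (fun y : B2 × ℂ => b.φ y.1) {y | y.1 ∈ Dom} :=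
      b.smoothφ.continuousOn.comp continuousOn_fst (fun y hy => hy)
    exact (Real.continuous_exp.comp_continuousOn h2).mul (by fun_prop)
  have := hc.isOpen_inter_preimage h1 (isOpen_Iio (a := (1:ℝ)))
  exact this

theorem isOpen_Udom (b : Bulge) : IsOpen (Udom b.φ) := by
  rw [isOpen_iff_mem_nhds]
  intro x hx
  have h1 : ∀ᶠ x' in 𝓝 x, gki (kk x) x' ∈ HartD b.φ :=
    (continuous_gki (kk x)).continuousAt.eventually_mem ((isOpen_HartD b).mem_nhds hx)
  filter_upwards [Udom_local b x, h1] with x' h2 h3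
  exact h2.2 h3

theorem hart_contDiffAt (b : Bulge) {y : B2 × ℂ} (hy : y ∈ HartD b.φ) :
    ContDiffAt ℝ ∞ (hart b.A b.φ) y := by
  have hA : ContDiffAt ℝ ∞ b.A y.1 := b.smoothA.contDiffAt (isOpen_Dom.mem_nhds hy.1)
  have hφ : ContDiffAt ℝ ∞ b.φ y.1 := b.smoothφ.contDiffAt (isOpen_Dom.mem_nhds hy.1)
  have hA' : ContDiffAt ℝ ∞ (fun y : B2 × ℂ => b.A y.1) y := hA.comp y contDiffAt_fst
  have hφ' : ContDiffAt ℝ ∞ (fun y : B2 × ℂ => b.φ y.1) y := hφ.comp y contDiffAt_fst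
  have hn : ContDiffAt ℝ ∞ (fun y : B2 × ℂ => ‖y.2‖ ^ 2) y := by
    have h1 : ContDiff ℝ ∞ (fun ζ : ℂ => ‖ζ‖ ^ 2) := contDiff_norm_sq ℝ
    exact h1.contDiffAt.comp y contDiffAt_snd
  unfold hart
  refine hA'.sub (ContDiffAt.log (contDiffAt_const.sub (hφ'.exp.mul hn)) ?_)
  have := hy.2
  linarith

theorem Ppot_contDiffAt (b : Bulge) {x : V3} (hx : x ∈ Udom b.φ) :
    ContDiffAt ℝ ∞ (Ppot b.A b.φ) x := by
  have h1 : ContDiffAt ℝ ∞ (fun x' => hart b.A b.φ (gki (kk x) x')) x :=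
    (hart_contDiffAt b hx).comp x (GU.contDiff_gki (kk x)).contDiffAt
  exact h1.congr_of_eventuallyEq (Ppot_local b hx)

theorem Ppot_contDiffOn (b : Bulge) : ContDiffOn ℝ ∞ (Ppot b.A b.φ) (Udom b.φ) :=
  fun _ hx => (Ppot_contDiffAt b hx).contDiffWithinAt

/-! ### the Levi form of `aS` at a general point -/

theorem GU.dz_fst (X p : B2) : dz X (fun q : B2 => q.1) p = X.1 := by
  rw [dz_hol differentiableAt_fst, fderiv_fst]; rfl

theorem GU.dzb_fst (X p : B2) : dzb X (fun q : B2 => q.1) p = 0 := dzb_hol differentiableAt_fst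

theorem GU.dz_snd (X p : B2) : dz X (fun q : B2 => q.2) p = X.2 := by
  rw [dz_hol differentiableAt_snd, fderiv_snd]; rfl

theorem GU.dzb_snd (X p : B2) : dzb X (fun q : B2 => q.2) p = 0 := dzb_hol differentiableAt_snd

theorem GU.differentiable_conj_fst : Differentiable ℝ (fun q : B2 => conj q.1) :=
  Complex.conjCLE.differentiable.comp differentiable_fst

theorem GU.differentiable_conj_snd : Differentiable ℝ (fun q : B2 => conj q.2) :=
  Complex.conjCLE.differentiable.comp differentiable_snd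

/-- `∂_X ρ` -/
noncomputable def drho (X q : B2) : ℂ := -(I / 2) * X.2 - conj q.1 * X.1

theorem GU.ofReal_rho (q : B2) :
    ((rho q : ℝ) : ℂ) = -(I / 2) * (q.2 - conj q.2) - q.1 * conj q.1 := by
  rw [Complex.mul_conj, Complex.normSq_eq_norm_sq]
  unfold rho
  apply Complex.ext
  · simp
    ring
  · simp

theorem dz_rho (X q : B2) : dz X (fun q : B2 => ((rho q : ℝ) : ℂ)) q = drho X q := by
  have h : (fun q : B2 => ((rho q : ℝ) : ℂ))
      = fun q => -(I / 2) * (q.2 - conj q.2) - q.1 * conj q.1 := funext GU.ofReal_rho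
  have d1 : DifferentiableAt ℝ (fun q : B2 => q.1) q := differentiableAt_fst
  have d2 : DifferentiableAt ℝ (fun q : B2 => q.2) q := differentiableAt_snd
  have d3 := GU.differentiable_conj_fst q
  have d4 := GU.differentiable_conj_snd q
  have d5 : DifferentiableAt ℝ (fun q : B2 => q.2 - conj q.2) q := d2.sub d4
  have d6 : DifferentiableAt ℝ (fun q : B2 => -(I / 2) * (q.2 - conj q.2)) q := d5.const_mul _
  have d7 : DifferentiableAt ℝ (fun q : B2 => q.1 * conj q.1) q := d1.mul d3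
  rw [h, dz_sub d6 d7, dz_const_mul _ d5,
    dz_sub d2 d4, dz_mul d1 d3, dz_conj, dz_conj, GU.dz_fst, GU.dz_snd, GU.dzb_fst, GU.dzb_snd]
  unfold drho
  simp
  ring


theorem GU.differentiable_rho : Differentiable ℝ rho := by
  have : Differentiable ℝ (fun q : B2 => q.2.im - ‖q.1‖ ^ 2) := by
    have h1 : Differentiable ℝ (fun q : B2 => q.2.im) :=
      Complex.imCLM.differentiable.comp differentiable_snd
    have h2 : Differentiable ℝ (fun q : B2 => ‖q.1‖ ^ 2) := by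
      have : ContDiff ℝ 1 (fun ζ : ℂ => ‖ζ‖ ^ 2) := contDiff_norm_sq ℝ
      exact (this.differentiable (by norm_num)).comp differentiable_fst
    exact h1.sub h2
  exact this

theorem dz_aS {p : B2} (hp : p ∈ Dom) (X : B2) :
    dz X (fun q : B2 => ((aS q : ℝ) : ℂ)) p = -((rho p)⁻¹ : ℝ) * drho X p := by
  have h0 : rho p ≠ 0 := ne_of_gt hp
  have hd : DifferentiableAt ℝ (fun t : ℝ => -Real.log t) (rho p) :=
    (Real.differentiableAt_log h0).neg
  have := dz_comp_real (X := X) (fun t : ℝ => -Real.log t) rho hd (GU.differentiable_rho p)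
  rw [dz_rho] at this
  unfold aS
  rw [this]
  congr 1
  rw [deriv.fun_neg, Real.deriv_log]
  push_cast
  ring

theorem dzb_aS {p : B2} (hp : p ∈ Dom) (X : B2) :
    dzb X (fun q : B2 => ((aS q : ℝ) : ℂ)) p = -((rho p)⁻¹ : ℝ) * conj (drho X p) := by
  rw [dzb_ofReal, dz_aS hp, map_mul, map_neg, Complex.conj_ofReal]

theorem D11_aS {p : B2} (hp : p ∈ Dom) (X Y : B2) :
    D11 aS X Y p = ((rho p)⁻¹ : ℝ) * (X.1 * conj Y.1)
      + (((rho p)⁻¹ ^ 2 : ℝ) : ℂ) * (drho X p * conj (drho Y p)) := by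
  have h0 : rho p ≠ 0 := ne_of_gt hp
  have hev : dzb Y (fun q : B2 => ((aS q : ℝ) : ℂ)) =ᶠ[𝓝 p]
      fun q => ((-(rho q)⁻¹ : ℝ) : ℂ) * ((I / 2) * conj Y.2 - q.1 * conj Y.1) := by
    filter_upwards [isOpen_Dom.mem_nhds hp] with q hq
    rw [dzb_aS hq]
    unfold drho
    have hc2 : conj (2 : ℂ) = 2 := map_ofNat (starRingEnd ℂ) 2
    simp only [map_sub, map_mul, map_neg, map_div₀, Complex.conj_I, Complex.conj_conj, hc2]
    push_cast
    ring
  unfold D11
  rw [dz_congr hev]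
  have d1 : DifferentiableAt ℝ (fun q : B2 => q.1) p := differentiableAt_fst
  have hd : DifferentiableAt ℝ (fun t : ℝ => -t⁻¹) (rho p) :=
    (differentiableAt_inv h0).neg
  have e1 := dz_comp_real (X := X) (fun t : ℝ => -t⁻¹) rho hd (GU.differentiable_rho p)
  have hd2 : DifferentiableAt ℝ (fun q : B2 => ((-(rho q)⁻¹ : ℝ) : ℂ)) p := by
    have : DifferentiableAt ℝ (fun q : B2 => -(rho q)⁻¹) p :=
      ((GU.differentiable_rho p).inv h0).neg
    exact Complex.ofRealCLM.differentiableAt.comp p this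
  have hd3 : DifferentiableAt ℝ (fun q : B2 => (I / 2) * conj Y.2 - q.1 * conj Y.1) p :=
    (differentiableAt_const _).sub (d1.mul_const _)
  rw [dz_mul hd2 hd3]
  rw [e1, dz_rho]
  have e2 : dz X (fun q : B2 => (I / 2) * conj Y.2 - q.1 * conj Y.1) p = - (X.1 * conj Y.1) := by
    have e3 : (fun q : B2 => (I / 2) * conj Y.2 - q.1 * conj Y.1)
        = fun q : B2 => (I / 2) * conj Y.2 - conj Y.1 * q.1 := by
      funext q; ring
    rw [e3, dz_sub (differentiableAt_const _) (d1.const_mul _), dz_const, dz_const_mul _ d1,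
      GU.dz_fst]
    ring
  rw [e2]
  have e4 : deriv (fun t : ℝ => -t⁻¹) (rho p) = (rho p)⁻¹ ^ 2 := by
    rw [deriv.fun_neg, deriv_inv]
    simp
  rw [e4]
  unfold drho
  have hc2 : conj (2 : ℂ) = 2 := map_ofNat (starRingEnd ℂ) 2
  simp only [map_sub, map_mul, map_neg, map_div₀, Complex.conj_I, Complex.conj_conj, hc2]
  push_cast
  ring

theorem D11_aS_re {p : B2} (hp : p ∈ Dom) (X : B2) :
    (D11 aS X X p).re = (rho p)⁻¹ * ‖X.1‖ ^ 2 + (rho p)⁻¹ ^ 2 * ‖drho X p‖ ^ 2 := by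
  rw [D11_aS hp, Complex.mul_conj, Complex.mul_conj, Complex.normSq_eq_norm_sq,
    Complex.normSq_eq_norm_sq, ← Complex.ofReal_mul, ← Complex.ofReal_mul, ← Complex.ofReal_add,
    Complex.ofReal_re]

theorem D11_aS_nonneg {p : B2} (hp : p ∈ Dom) (X : B2) : 0 ≤ (D11 aS X X p).re := by
  rw [D11_aS_re hp]
  have : 0 < rho p := hp
  positivity

theorem D11_aS_pos {p : B2} (hp : p ∈ Dom) {X : B2} (hX : X ≠ 0) : 0 < (D11 aS X X p).re := by
  rw [D11_aS_re hp]
  have h0 : 0 < rho p := hp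
  by_cases h1 : X.1 = 0
  · have h2 : X.2 ≠ 0 := by
      intro h2
      exact hX (Prod.ext h1 h2)
    have h3 : drho X p ≠ 0 := by
      unfold drho
      rw [h1]
      simp [h2]
    have : 0 < ‖drho X p‖ := norm_pos_iff.2 h3
    positivity
  · have : 0 < ‖X.1‖ := norm_pos_iff.2 h1
    positivity


theorem GU.dz_zero_dir (u : B2 → ℂ) (p : B2) : dz (0 : B2) u p = 0 := by
  unfold dz; simp

theorem hart_PD (b : Bulge) {y : B2 × ℂ} (hy : y ∈ HartD b.φ) : PD (hart b.A b.φ) y := by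
  intro X hX
  have hA : ContDiffAt ℝ ∞ b.A y.1 := b.smoothA.contDiffAt (isOpen_Dom.mem_nhds hy.1)
  have hφ : ContDiffAt ℝ ∞ b.φ y.1 := b.smoothφ.contDiffAt (isOpen_Dom.mem_nhds hy.1)
  have hu : uu b.φ y < 1 := hy.2
  have hu0 : 0 ≤ uu b.φ y := by unfold uu; positivity
  have hyy : 0 ≤ yy b.φ y := by
    unfold yy
    apply div_nonneg hu0; linarith
  rw [hart_D11 b.A b.φ y hA hφ hu X X]
  obtain ⟨c, hc, hcA⟩ := b.posA
  obtain ⟨c', hc', hcφ⟩ := b.posφ
  have h1 := hcA y.1 hy.1 X.1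
  have h2 := hcφ y.1 hy.1 X.1
  have h3 := D11_aS_nonneg hy.1 X.1
  have h4 : 0 ≤ (D11 b.φ X.1 X.1 y.1).re := le_trans (by positivity) h2
  set E : ℝ := Real.exp (b.φ y.1) / (1 - uu b.φ y) ^ 2 with hE
  have hEpos : 0 < E := by
    rw [hE]
    have : 0 < 1 - uu b.φ y := by linarith
    positivity
  have h5 : (((E : ℝ) : ℂ) * nuu b.φ y X * conj (nuu b.φ y X)).re
      = E * ‖nuu b.φ y X‖ ^ 2 := by
    rw [mul_assoc, Complex.mul_conj, Complex.normSq_eq_norm_sq, ← Complex.ofReal_mul,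
      Complex.ofReal_re]
  rw [Complex.add_re, Complex.add_re, h5, Complex.re_ofReal_mul]
  by_cases hX1 : X.1 = 0
  · have hX2 : X.2 ≠ 0 := fun h => hX (Prod.ext hX1 h)
    have hn : nuu b.φ y X = X.2 := by
      unfold nuu
      rw [hX1, GU.dz_zero_dir]; simp
    rw [hn]
    have : 0 < ‖X.2‖ := norm_pos_iff.2 hX2
    have h6 : 0 < E * ‖X.2‖ ^ 2 := by positivity
    have h7 : 0 ≤ (D11 b.A X.1 X.1 y.1).re := le_trans (by positivity) h1
    have h8 : 0 ≤ yy b.φ y * (D11 b.φ X.1 X.1 y.1).re := mul_nonneg hyy h4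
    linarith
  · have h6 : 0 < (D11 aS X.1 X.1 y.1).re := D11_aS_pos hy.1 hX1
    have h7 : 0 < c * (D11 aS X.1 X.1 y.1).re := mul_pos hc h6
    have h8 : 0 ≤ yy b.φ y * (D11 b.φ X.1 X.1 y.1).re := mul_nonneg hyy h4
    have h9 : 0 ≤ E * ‖nuu b.φ y X‖ ^ 2 := by positivity
    linarith

theorem Ppot_PD (b : Bulge) {x : V3} (hx : x ∈ Udom b.φ) : PD (Ppot b.A b.φ) x := by
  obtain ⟨L, y₀, h⟩ := gki_affine (kk x)
  rw [PD_congr (Ppot_local b hx)]
  have h1 : (fun x' => hart b.A b.φ (gki (kk x) x')) = fun x' => hart b.A b.φ (L x' + y₀) := by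
    funext x'; rw [h]
  rw [h1, PD_comp_affineEquiv L y₀, ← h]
  exact hart_PD b hx

theorem Ppot_KB (b : Bulge) : ∃ c > 0, ∃ B : ℝ, ∀ x ∈ Udom b.φ, KB (Ppot b.A b.φ) x c B := by
  obtain ⟨c, hc, B, hB⟩ := b.curv
  refine ⟨c, hc, B, fun x hx => ?_⟩
  obtain ⟨L, y₀, h⟩ := gki_affine (kk x)
  rw [KB_congr (Ppot_local b hx)]
  have h1 : (fun x' => hart b.A b.φ (gki (kk x) x')) = fun x' => hart b.A b.φ (L x' + y₀) := by
    funext x'; rw [h]
  rw [h1, KB_comp_affineEquiv L y₀, ← h]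
  exact hB _ hx

theorem GU.continuous_rho : Continuous rho := GU.differentiable_rho.continuous

/-- where the potential is negative we are in the standard part -/
theorem Ppot_neg (b : Bulge) {x : V3} (hx : x ∈ Udom b.φ) (h : Ppot b.A b.φ x < 0) :
    0 < rho3 x ∧ Ppot b.A b.φ =ᶠ[𝓝 x] a3 := by
  set y := gki (kk x) x with hy
  have hmem : y ∈ HartD b.φ := hx
  have h0 : b.A y.1 - Real.log (1 - Real.exp (b.φ y.1) * ‖y.2‖ ^ 2) < 0 := h
  have h1 : Real.log (1 - Real.exp (b.φ y.1) * ‖y.2‖ ^ 2) ≤ 0 := by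
    apply Real.log_nonpos
    · linarith [hmem.2]
    · have : 0 ≤ Real.exp (b.φ y.1) * ‖y.2‖ ^ 2 := by positivity
      linarith
  have h2 := b.le_A y.1 hmem.1
  have h3 : aS y.1 < 0 := by linarith
  have h4 : 1 < rho y.1 := by
    by_contra hc
    push Not at hc
    have : Real.log (rho y.1) ≤ 0 := Real.log_nonpos (le_of_lt hmem.1) hc
    unfold aS at h3
    linarith
  have hr : 0 < rho3 x :=
    (mem_HartD_iff_of_eq b (kk x) x (fun hm => b.outφ _ hm (Or.inr (by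
      show 1/4 ≤ rho y.1
      linarith)))).1 hx
  refine ⟨hr, ?_⟩
  have hc : Continuous fun x' => rho (gki (kk x) x').1 :=
    GU.continuous_rho.comp (continuous_fst.comp (continuous_gki _))
  have h5 : ∀ᶠ x' in 𝓝 x, 1 < rho (gki (kk x) x').1 :=
    hc.continuousAt.eventually_const_lt h4
  have h6 : ∀ᶠ x' in 𝓝 x, 0 < rho3 x' := GU.continuous_rho3.continuousAt.eventually_const_lt hr
  filter_upwards [Ppot_local b hx, h5, h6] with x' e1 e2 e3
  rw [e1]
  refine hart_eq_of_eq b (kk x) x' (fun hm => b.outφ _ hm (Or.inr ?_))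
    (fun hm => b.outA _ hm (Or.inr ?_)) e3
  · linarith
  · linarith

/-- `a3 (t i e_1) = - log t`: all real values are attained by the potential far in the cusp -/
theorem Ppot_cusp (b : Bulge) (t : ℝ) (ht : 1 < t) :
    (![0, (t : ℂ) * I, 0] : V3) ∈ Udom b.φ ∧ Ppot b.A b.φ ![0, (t : ℂ) * I, 0] = - Real.log t := by
  have hk : kk (![0, (t : ℂ) * I, 0] : V3) = 0 := by
    unfold kk; simp
  have hg : gki 0 (![0, (t : ℂ) * I, 0] : V3) = ((0, (t : ℂ) * I), 0) := by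
    unfold gki cS
    simp
  have hrho : rho ((0, (t : ℂ) * I) : B2) = t := by
    unfold rho; simp
  have hD : ((0, (t : ℂ) * I) : B2) ∈ Dom := by
    show 0 < rho _
    rw [hrho]; linarith
  constructor
  · show gki (kk _) _ ∈ HartD b.φ
    rw [hk, hg]
    refine ⟨hD, ?_⟩
    simp
  · unfold Ppot
    rw [hk, hg]
    unfold hart
    simp only [norm_zero]
    rw [b.outA _ hD (Or.inr (by rw [hrho]; linarith))]
    unfold aS
    rw [hrho]
    simp

end Crest.Agent.R245
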