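import Crest.Agent.R245.Shear

/-! Closed formulas for the potential `-log ρ`, `ρ` a "Siegel" height function. (helper699) -/

set_option autoImplicit false

namespace Crest.Agent.R245.Sg

open Complex Filter Topology
open scoped ContDiff ComplexConjugate

/-- `ρ` has `∂_X ρ = r X`, `∂_X r Y = 0`, `∂̄_X r Y = - s Y X` with constant hermitian `s`. -/
structure SiegelFn {V : Type*} [NormedAddCommGroup V] [NormedSpace ℝ V] [NormedSpace ℂ V]
    (ρ : V → ℝ) (r : V → V → ℂ) (s : V → V → ℂ) : Prop where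
  smooth : ContDiff ℝ ∞ ρ
  rsmooth : ∀ Y, ContDiff ℝ ∞ (r Y)
  h1 : ∀ X q, dz X (fun q => (ρ q : ℂ)) q = r X q
  h2 : ∀ X Y q, dz X (r Y) q = 0
  h3 : ∀ X Y q, dzb X (r Y) q = - s Y X
  herm : ∀ X Y, conj (s X Y) = s Y X

/-- the potential `-log ρ` -/
noncomputable def aL {V : Type*} (ρ : V → ℝ) (q : V) : ℝ := - Real.log (ρ q)

namespace SiegelFn

variable {V : Type*} [NormedAddCommGroup V] [NormedSpace ℝ V] [NormedSpace ℂ V] [IsScalarTower ℝ ℂ V]
variable {ρ : V → ℝ} {r : V → V → ℂ} {s : V → V → ℂ}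

/-- `1/ρ` as a complex valued function -/
noncomputable def inv (ρ : V → ℝ) (q : V) : ℂ := (((ρ q)⁻¹ : ℝ) : ℂ)

section
variable (h : SiegelFn ρ r s)
include h

omit [IsScalarTower ℝ ℂ V] in
theorem contDiffAt_aL {x : V} (hx : 0 < ρ x) : ContDiffAt ℝ ∞ (aL ρ) x := by
  unfold aL
  exact (h.smooth.contDiffAt.log hx.ne').neg

omit [IsScalarTower ℝ ℂ V] in
theorem contDiffAt_inv {x : V} (hx : 0 < ρ x) : ContDiffAt ℝ ∞ (inv ρ) x := by
  unfold inv
  exact Complex.ofRealCLM.contDiff.contDiffAt.comp x (h.smooth.contDiffAt.inv hx.ne')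

omit [IsScalarTower ℝ ℂ V] in
theorem diff_inv {x : V} (hx : 0 < ρ x) : DifferentiableAt ℝ (inv ρ) x :=
  (h.contDiffAt_inv hx).differentiableAt (by simp)

omit [IsScalarTower ℝ ℂ V] in
theorem diff_r (Y x : V) : DifferentiableAt ℝ (r Y) x :=
  (h.rsmooth Y).contDiffAt.differentiableAt (by simp)

omit [IsScalarTower ℝ ℂ V] in
theorem diff_rb (Y x : V) : DifferentiableAt ℝ (fun q => conj (r Y q)) x := by
  have := (Complex.conjCLE : ℂ ≃L[ℝ] ℂ).differentiableAt.comp x (h.diff_r Y x)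
  exact this

omit [IsScalarTower ℝ ℂ V] in
theorem eventually_pos {x : V} (hx : 0 < ρ x) : ∀ᶠ q in 𝓝 x, 0 < ρ q :=
  h.smooth.continuous.continuousAt.eventually (lt_mem_nhds hx)

theorem dz_inv {x : V} (hx : 0 < ρ x) (X : V) : dz X (inv ρ) x = - (inv ρ x) ^ 2 * r X x := by
  have h1 : DifferentiableAt ℝ (fun t : ℝ => t⁻¹) (ρ x) := differentiableAt_inv hx.ne'
  have h2 := dz_comp_real (X := X) (fun t : ℝ => t⁻¹) ρ h1
    (h.smooth.contDiffAt.differentiableAt (by simp))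
  have h3 : (inv ρ) = fun q => (((fun t : ℝ => t⁻¹) (ρ q) : ℝ) : ℂ) := rfl
  rw [h3, h2, h.h1]
  simp only [deriv_inv]
  push_cast
  rw [inv_pow]

theorem dzb_inv {x : V} (hx : 0 < ρ x) (X : V) :
    dzb X (inv ρ) x = - (inv ρ x) ^ 2 * conj (r X x) := by
  have h3 : (inv ρ) = fun q => (((ρ q)⁻¹ : ℝ) : ℂ) := rfl
  rw [h3, dzb_ofReal, ← h3, h.dz_inv hx, map_mul, map_neg, map_pow]
  simp [inv]

theorem dz_rb (X Y x : V) : dz X (fun q => conj (r Y q)) x = - s X Y := by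
  rw [dz_conj, h.h3, map_neg, h.herm]

theorem dzb_rb (X Y x : V) : dzb X (fun q => conj (r Y q)) x = 0 := by
  rw [dzb_conj, h.h2, map_zero]

theorem dzb_aL {x : V} (hx : 0 < ρ x) (X : V) :
    dzb X (fun q => (aL ρ q : ℂ)) x = - (inv ρ x * conj (r X x)) := by
  have h1 : DifferentiableAt ℝ (fun t : ℝ => - Real.log t) (ρ x) :=
    (Real.differentiableAt_log hx.ne').neg
  have h2 := dzb_comp_real (X := X) (fun t : ℝ => - Real.log t) ρ h1
    (h.smooth.contDiffAt.differentiableAt (by simp))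
  have h3 : (fun q => (aL ρ q : ℂ)) = fun q => (((fun t : ℝ => - Real.log t) (ρ q) : ℝ) : ℂ) := rfl
  rw [h3, h2, dzb_ofReal, h.h1]
  have h4 : deriv (fun t : ℝ => - Real.log t) (ρ x) = - (ρ x)⁻¹ := by
    rw [deriv.fun_neg, Real.deriv_log]
  rw [h4]
  unfold inv
  push_cast
  ring

theorem dz_aL {x : V} (hx : 0 < ρ x) (X : V) :
    dz X (fun q => (aL ρ q : ℂ)) x = - (inv ρ x * r X x) := by
  have h1 := dzb_ofReal X (aL ρ) x
  rw [h.dzb_aL hx] at h1
  have h2 := congrArg conj h1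
  rw [conj_conj] at h2
  rw [← h2, map_neg, map_mul, conj_conj]
  simp [inv]

/-- the metric -/
theorem D11_eq {x : V} (hx : 0 < ρ x) (X Y : V) :
    D11 (aL ρ) X Y x = (inv ρ x) ^ 2 * r X x * conj (r Y x) + inv ρ x * s X Y := by
  unfold D11
  have e : dzb Y (fun q => (aL ρ q : ℂ)) =ᶠ[𝓝 x] fun q => (-1 : ℂ) * (inv ρ q * conj (r Y q)) := by
    filter_upwards [h.eventually_pos hx] with q hq
    rw [h.dzb_aL hq]; ring
  rw [dz_congr e, dz_const_mul (-1 : ℂ) ((h.diff_inv hx).fun_mul (h.diff_rb Y x)),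
    dz_mul (h.diff_inv hx) (h.diff_rb Y x), h.dz_inv hx, h.dz_rb]
  ring

theorem D21_eq {x : V} (hx : 0 < ρ x) (X Y Z : V) :
    D21 (aL ρ) X Y Z x = - 2 * (inv ρ x) ^ 3 * r X x * r Y x * conj (r Z x)
      - (inv ρ x) ^ 2 * (r Y x * s X Z + r X x * s Y Z) := by
  have e : dz Y (dzb Z (fun q => (aL ρ q : ℂ))) =ᶠ[𝓝 x]
      fun q => (inv ρ q * inv ρ q) * (r Y q * conj (r Z q)) + s Y Z * inv ρ q := by
    filter_upwards [h.eventually_pos hx] with q hq
    have := h.D11_eq hq Y Z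
    unfold D11 at this
    rw [this]; ring
  have hi := h.diff_inv hx
  have hY := h.diff_r Y x
  have hZ := h.diff_rb Z x
  unfold D21
  rw [dz_congr e, dz_add ((hi.fun_mul hi).fun_mul (hY.fun_mul hZ)) (hi.const_mul _),
    dz_mul (hi.fun_mul hi) (hY.fun_mul hZ), dz_mul hi hi, dz_mul hY hZ, dz_const_mul _ hi,
    h.dz_inv hx, h.dz_rb, h.h2]
  ring

theorem D22_eq {x : V} (hx : 0 < ρ x) (X Y Z W : V) :
    D22 (aL ρ) X Y Z W x = 6 * (inv ρ x) ^ 4 * r X x * r Y x * conj (r Z x) * conj (r W x)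
      + 2 * (inv ρ x) ^ 3 * (s X Z * r Y x * conj (r W x) + s X W * r Y x * conj (r Z x)
        + s Y Z * r X x * conj (r W x) + s Y W * r X x * conj (r Z x))
      + (inv ρ x) ^ 2 * (s X Z * s Y W + s X W * s Y Z) := by
  have e1 : ∀ q, 0 < ρ q → dzb Z (dzb W (fun q => (aL ρ q : ℂ))) q =
      (inv ρ q * inv ρ q) * (conj (r Z q) * conj (r W q)) := by
    intro q hq
    have e : dzb W (fun q => (aL ρ q : ℂ)) =ᶠ[𝓝 q]
        fun q => (-1 : ℂ) * (inv ρ q * conj (r W q)) := by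
      filter_upwards [h.eventually_pos hq] with q' hq'
      rw [h.dzb_aL hq']; ring
    rw [dzb_congr e, dzb_const_mul (-1 : ℂ) ((h.diff_inv hq).fun_mul (h.diff_rb W q)),
      dzb_mul (h.diff_inv hq) (h.diff_rb W q), h.dzb_inv hq, h.dzb_rb]
    ring
  have e2 : ∀ q, 0 < ρ q → dz Y (dzb Z (dzb W (fun q => (aL ρ q : ℂ)))) q =
      (-2 : ℂ) * (inv ρ q * inv ρ q * inv ρ q * (r Y q * (conj (r Z q) * conj (r W q))))
      + ((- s Y Z) * ((inv ρ q * inv ρ q) * conj (r W q))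
        + (- s Y W) * ((inv ρ q * inv ρ q) * conj (r Z q))) := by
    intro q hq
    have e : dzb Z (dzb W (fun q => (aL ρ q : ℂ))) =ᶠ[𝓝 q]
        fun q => (inv ρ q * inv ρ q) * (conj (r Z q) * conj (r W q)) := by
      filter_upwards [h.eventually_pos hq] with q' hq'
      exact e1 q' hq'
    have hi := h.diff_inv hq
    have hZ := h.diff_rb Z q
    have hW := h.diff_rb W q
    rw [dz_congr e, dz_mul (hi.fun_mul hi) (hZ.fun_mul hW), dz_mul hi hi, dz_mul hZ hW,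
      h.dz_inv hq, h.dz_rb, h.dz_rb]
    ring
  have e3 : dz Y (dzb Z (dzb W (fun q => (aL ρ q : ℂ)))) =ᶠ[𝓝 x] fun q =>
      (-2 : ℂ) * (inv ρ q * inv ρ q * inv ρ q * (r Y q * (conj (r Z q) * conj (r W q))))
      + ((- s Y Z) * ((inv ρ q * inv ρ q) * conj (r W q))
        + (- s Y W) * ((inv ρ q * inv ρ q) * conj (r Z q))) := by
    filter_upwards [h.eventually_pos hx] with q hq
    exact e2 q hq
  have hi := h.diff_inv hx
  have hY := h.diff_r Y x
  have hZ := h.diff_rb Z x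
  have hW := h.diff_rb W x
  unfold D22
  rw [dz_congr e3, dz_add ((((hi.fun_mul hi).fun_mul hi).fun_mul (hY.fun_mul (hZ.fun_mul hW))).const_mul _)
      ((((hi.fun_mul hi).fun_mul hW).const_mul _).fun_add (((hi.fun_mul hi).fun_mul hZ).const_mul _)),
    dz_add (((hi.fun_mul hi).fun_mul hW).const_mul _) (((hi.fun_mul hi).fun_mul hZ).const_mul _),
    dz_const_mul _ (((hi.fun_mul hi).fun_mul hi).fun_mul (hY.fun_mul (hZ.fun_mul hW))),
    dz_const_mul _ ((hi.fun_mul hi).fun_mul hW), dz_const_mul _ ((hi.fun_mul hi).fun_mul hZ),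
    dz_mul ((hi.fun_mul hi).fun_mul hi) (hY.fun_mul (hZ.fun_mul hW)), dz_mul (hi.fun_mul hi) hi,
    dz_mul hY (hZ.fun_mul hW), dz_mul hZ hW, dz_mul (hi.fun_mul hi) hW, dz_mul (hi.fun_mul hi) hZ,
    dz_mul hi hi, h.dz_inv hx, h.dz_rb, h.dz_rb, h.h2]
  ring

/-- the Christoffel vector `Γ(X,Y) = a_Y X + a_X Y`, `a_X = ∂_X(-log ρ) = - r_X/ρ` -/
noncomputable def Gam (ρ : V → ℝ) (r : V → V → ℂ) (x X Y : V) : V :=
  (-(inv ρ x * r Y x)) • X + (-(inv ρ x * r X x)) • Y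

theorem isGam {x : V} (hx : 0 < ρ x) (X Y : V) : IsGam (aL ρ) x X Y (Gam ρ r x X Y) := by
  intro Z
  have hP := h.contDiffAt_aL hx
  unfold Gam
  rw [D11_add_left hP, D11_smul_left hP, D11_smul_left hP, h.D11_eq hx, h.D11_eq hx, h.D21_eq hx]
  ring

/-- constant holomorphic curvature -/
theorem D22_sub {x : V} (hx : 0 < ρ x) (X Y Z W : V) :
    D22 (aL ρ) X Y Z W x - D11 (aL ρ) (Gam ρ r x X Y) (Gam ρ r x Z W) x =
      D11 (aL ρ) X Z x * D11 (aL ρ) Y W x + D11 (aL ρ) X W x * D11 (aL ρ) Y Z x := by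
  have hP := h.contDiffAt_aL hx
  have hi : conj (inv ρ x) = inv ρ x := by simp [inv]
  unfold Gam
  simp only [D11_add_left hP, D11_smul_left hP, D11_add_right hP, D11_smul_right hP, h.D11_eq hx,
    h.D22_eq hx, map_neg, map_mul, hi]
  ring



theorem pd {x : V} (hx : 0 < ρ x) (hs : ∀ X, 0 ≤ (s X X).re)
    (hs0 : ∀ X, (s X X).re = 0 → r X x = 0 → X = 0) : PD (aL ρ) x := by
  intro X hX
  rw [h.D11_eq hx]
  have e1 : ((inv ρ x) ^ 2 * r X x * conj (r X x) + inv ρ x * s X X).re =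
      ((ρ x)⁻¹) ^ 2 * ‖r X x‖ ^ 2 + (ρ x)⁻¹ * (s X X).re := by
    have : (inv ρ x) ^ 2 * r X x * conj (r X x) = ((((ρ x)⁻¹) ^ 2 * ‖r X x‖ ^ 2 : ℝ) : ℂ) := by
      rw [mul_assoc, mul_conj, normSq_eq_norm_sq]
      unfold inv
      push_cast
      ring
    rw [add_re, this, ofReal_re]
    unfold inv
    rw [re_ofReal_mul]
  rw [e1]
  have hi : 0 < (ρ x)⁻¹ := inv_pos.2 hx
  by_contra hcon
  have h1 : 0 ≤ ((ρ x)⁻¹) ^ 2 * ‖r X x‖ ^ 2 := by positivity
  have h2 : 0 ≤ (ρ x)⁻¹ * (s X X).re := mul_nonneg hi.le (hs X)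
  have h3 : ((ρ x)⁻¹) ^ 2 * ‖r X x‖ ^ 2 = 0 := by linarith
  have h4 : (ρ x)⁻¹ * (s X X).re = 0 := by linarith
  have h5 : r X x = 0 := by
    have := (mul_eq_zero.1 h3).resolve_left (by positivity)
    simpa using this
  have h6 : (s X X).re = 0 := (mul_eq_zero.1 h4).resolve_left hi.ne'
  exact hX (hs0 X h6 h5)

/-- gradient bound `|∂a|² ≤ a(X;X̄)` -/
theorem grad {x : V} (hx : 0 < ρ x) (hs : ∀ X, 0 ≤ (s X X).re) (X : V) :
    ‖dz X (fun q => (aL ρ q : ℂ)) x‖ ^ 2 ≤ (D11 (aL ρ) X X x).re := by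
  rw [h.dz_aL hx, h.D11_eq hx]
  have : (inv ρ x) ^ 2 * r X x * conj (r X x) = ((((ρ x)⁻¹) ^ 2 * ‖r X x‖ ^ 2 : ℝ) : ℂ) := by
    rw [mul_assoc, mul_conj, normSq_eq_norm_sq]
    unfold inv
    push_cast
    ring
  rw [add_re, this, ofReal_re, norm_neg, norm_mul]
  have e : ‖inv ρ x‖ = (ρ x)⁻¹ := by
    unfold inv
    rw [norm_real, Real.norm_of_nonneg (inv_pos.2 hx).le]
  rw [e, mul_pow]
  have h2 : 0 ≤ (inv ρ x * s X X).re := by
    unfold inv
    rw [re_ofReal_mul]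
    exact mul_nonneg (inv_pos.2 hx).le (hs X)
  linarith

end

end SiegelFn

/-! ### the two instances -/

/-- `∂_X rho3` -/
noncomputable def r3 (X q : V3) : ℂ := X 1 / (2 * I) - X 0 * conj (q 0) - X 2 * conj (q 2)
/-- `- ∂_X ∂̄_Y rho3` -/
noncomputable def s3 (X Y : V3) : ℂ := X 0 * conj (Y 0) + X 2 * conj (Y 2)
/-- `∂_X rho` -/
noncomputable def rB (X q : B2) : ℂ := X.2 / (2 * I) - X.1 * conj q.1
/-- `- ∂_X ∂̄_Y rho` -/
noncomputable def sB (X Y : B2) : ℂ := X.1 * conj Y.1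

theorem dz_coord (X p : V3) (i : Fin 3) : dz X (fun q : V3 => q i) p = X i := by
  rw [dz_hol (u := fun q : V3 => q i) (by fun_prop)]
  have : fderiv ℂ (fun q : V3 => q i) p = ContinuousLinearMap.proj i :=
    (ContinuousLinearMap.proj (R := ℂ) (φ := fun _ : Fin 3 => ℂ) i).fderiv
  rw [this]; rfl

theorem dzb_coord (X p : V3) (i : Fin 3) : dzb X (fun q : V3 => q i) p = 0 :=
  dzb_hol (u := fun q : V3 => q i) (by fun_prop)

theorem dz_fst (X p : B2) : dz X (fun q : B2 => q.1) p = X.1 := by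
  rw [dz_hol (u := fun q : B2 => q.1) (by fun_prop)]
  have : fderiv ℂ (fun q : B2 => q.1) p = ContinuousLinearMap.fst ℂ ℂ ℂ :=
    (ContinuousLinearMap.fst ℂ ℂ ℂ).fderiv
  rw [this]; rfl

theorem dz_snd (X p : B2) : dz X (fun q : B2 => q.2) p = X.2 := by
  rw [dz_hol (u := fun q : B2 => q.2) (by fun_prop)]
  have : fderiv ℂ (fun q : B2 => q.2) p = ContinuousLinearMap.snd ℂ ℂ ℂ :=
    (ContinuousLinearMap.snd ℂ ℂ ℂ).fderiv
  rw [this]; rfl

theorem dzb_fst (X p : B2) : dzb X (fun q : B2 => q.1) p = 0 :=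
  dzb_hol (u := fun q : B2 => q.1) (by fun_prop)

theorem dzb_snd (X p : B2) : dzb X (fun q : B2 => q.2) p = 0 :=
  dzb_hol (u := fun q : B2 => q.2) (by fun_prop)

private theorem diffConj {V : Type*} [NormedAddCommGroup V] [NormedSpace ℝ V] {f : V → ℂ} {x : V}
    (hf : DifferentiableAt ℝ f x) : DifferentiableAt ℝ (fun q => conj (f q)) x :=
  (Complex.conjCLE : ℂ ≃L[ℝ] ℂ).differentiableAt.comp x hf

private theorem contConj {V : Type*} [NormedAddCommGroup V] [NormedSpace ℝ V] {f : V → ℂ}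
    (hf : ContDiff ℝ ∞ f) : ContDiff ℝ ∞ (fun q => conj (f q)) :=
  (Complex.conjCLE : ℂ ≃L[ℝ] ℂ).contDiff.comp hf

theorem rho3_ofReal (q : V3) : ((rho3 q : ℝ) : ℂ) =
    (1 / (2 * I)) * (q 1 - conj (q 1)) - q 0 * conj (q 0) - q 2 * conj (q 2) := by
  unfold rho3
  rw [mul_conj, mul_conj, normSq_eq_norm_sq, normSq_eq_norm_sq]
  have : q 1 - conj (q 1) = (2 * (q 1).im : ℝ) * I := by
    rw [sub_conj]
  rw [this]
  have hI : I ≠ 0 := I_ne_zero
  push_cast
  field_simp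

theorem rho_ofReal (q : B2) : ((rho q : ℝ) : ℂ) =
    (1 / (2 * I)) * (q.2 - conj q.2) - q.1 * conj q.1 := by
  unfold rho
  rw [mul_conj, normSq_eq_norm_sq]
  have : q.2 - conj q.2 = (2 * q.2.im : ℝ) * I := by
    rw [sub_conj]
  rw [this]
  have hI : I ≠ 0 := I_ne_zero
  push_cast
  field_simp

theorem contDiff_rho3 : ContDiff ℝ ∞ rho3 := by
  unfold rho3
  have h1 : ∀ i : Fin 3, ContDiff ℝ ∞ (fun q : V3 => q i) := fun i => by fun_prop
  have h2 : ContDiff ℝ ∞ (fun q : V3 => (q 1).im) := Complex.imCLM.contDiff.comp (h1 1)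
  exact (h2.sub ((h1 0).norm_sq ℂ)).sub ((h1 2).norm_sq ℂ)

theorem contDiff_rho : ContDiff ℝ ∞ rho := by
  unfold rho
  have h1 : ContDiff ℝ ∞ (fun q : B2 => q.1) := by fun_prop
  have h2 : ContDiff ℝ ∞ (fun q : B2 => q.2) := by fun_prop
  exact (Complex.imCLM.contDiff.comp h2).sub (h1.norm_sq ℂ)

theorem siegel3 : SiegelFn rho3 r3 s3 where
  smooth := contDiff_rho3
  rsmooth Y := by
    unfold r3
    have h1 : ∀ i : Fin 3, ContDiff ℝ ∞ (fun q : V3 => q i) := fun i => by fun_prop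
    exact (contDiff_const.sub (contDiff_const.mul (contConj (h1 0)))).sub
      (contDiff_const.mul (contConj (h1 2)))
  h1 X q := by
    have hd : ∀ i : Fin 3, DifferentiableAt ℝ (fun q : V3 => q i) q := fun i => by fun_prop
    have hc : ∀ i : Fin 3, DifferentiableAt ℝ (fun q : V3 => conj (q i)) q := fun i =>
      diffConj (hd i)
    have hz : ∀ i : Fin 3, dz X (fun q : V3 => conj (q i)) q = 0 := fun i => by
      rw [dz_conj, dzb_coord, map_zero]
    have e : (fun q : V3 => ((rho3 q : ℝ) : ℂ)) = fun q =>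
      (1 / (2 * I)) * (q 1 - conj (q 1)) - q 0 * conj (q 0) - q 2 * conj (q 2) := by
      funext q; exact rho3_ofReal q
    rw [e, dz_sub ((((hd 1).fun_sub (hc 1)).const_mul _).fun_sub ((hd 0).fun_mul (hc 0)))
        ((hd 2).fun_mul (hc 2)),
      dz_sub (((hd 1).fun_sub (hc 1)).const_mul _) ((hd 0).fun_mul (hc 0)),
      dz_const_mul _ ((hd 1).fun_sub (hc 1)), dz_sub (hd 1) (hc 1), dz_mul (hd 0) (hc 0),
      dz_mul (hd 2) (hc 2), hz, hz, hz, dz_coord, dz_coord, dz_coord]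
    unfold r3
    ring
  h2 X Y q := by
    have hd : ∀ i : Fin 3, DifferentiableAt ℝ (fun q : V3 => q i) q := fun i => by fun_prop
    have hc : ∀ i : Fin 3, DifferentiableAt ℝ (fun q : V3 => conj (q i)) q := fun i =>
      diffConj (hd i)
    have hz : ∀ i : Fin 3, dz X (fun q : V3 => conj (q i)) q = 0 := fun i => by
      rw [dz_conj, dzb_coord, map_zero]
    have e : r3 Y = fun q => (Y 1 / (2 * I) - Y 0 * conj (q 0)) - Y 2 * conj (q 2) := rfl
    rw [e, dz_sub ((differentiableAt_const _).fun_sub ((hc 0).const_mul _)) ((hc 2).const_mul _),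
      dz_sub (differentiableAt_const _) ((hc 0).const_mul _), dz_const_mul _ (hc 0),
      dz_const_mul _ (hc 2), dz_const, hz, hz]
    ring
  h3 X Y q := by
    have hd : ∀ i : Fin 3, DifferentiableAt ℝ (fun q : V3 => q i) q := fun i => by fun_prop
    have hc : ∀ i : Fin 3, DifferentiableAt ℝ (fun q : V3 => conj (q i)) q := fun i =>
      diffConj (hd i)
    have hz : ∀ i : Fin 3, dzb X (fun q : V3 => conj (q i)) q = conj (X i) := fun i => by
      rw [dzb_conj, dz_coord]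
    have e : r3 Y = fun q => (Y 1 / (2 * I) - Y 0 * conj (q 0)) - Y 2 * conj (q 2) := rfl
    rw [e, dzb_sub ((differentiableAt_const _).fun_sub ((hc 0).const_mul _)) ((hc 2).const_mul _),
      dzb_sub (differentiableAt_const _) ((hc 0).const_mul _), dzb_const_mul _ (hc 0),
      dzb_const_mul _ (hc 2), dzb_const, hz, hz]
    unfold s3
    ring
  herm X Y := by
    unfold s3
    simp only [map_add, map_mul, conj_conj]
    ring

theorem siegelB : SiegelFn rho rB sB where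
  smooth := contDiff_rho
  rsmooth Y := by
    unfold rB
    have h1 : ContDiff ℝ ∞ (fun q : B2 => q.1) := by fun_prop
    exact contDiff_const.sub (contDiff_const.mul (contConj h1))
  h1 X q := by
    have hd1 : DifferentiableAt ℝ (fun q : B2 => q.1) q := by fun_prop
    have hd2 : DifferentiableAt ℝ (fun q : B2 => q.2) q := by fun_prop
    have hc1 := diffConj hd1
    have hc2 := diffConj hd2
    have hz1 : dz X (fun q : B2 => conj q.1) q = 0 := by
      rw [dz_conj, dzb_fst, map_zero]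
    have hz2 : dz X (fun q : B2 => conj q.2) q = 0 := by
      rw [dz_conj, dzb_snd, map_zero]
    have e : (fun q : B2 => ((rho q : ℝ) : ℂ)) = fun q =>
      (1 / (2 * I)) * (q.2 - conj q.2) - q.1 * conj q.1 := by
      funext q; exact rho_ofReal q
    rw [e, dz_sub ((hd2.fun_sub hc2).const_mul _) (hd1.fun_mul hc1),
      dz_const_mul _ (hd2.fun_sub hc2), dz_sub hd2 hc2, dz_mul hd1 hc1, hz1, hz2, dz_fst, dz_snd]
    unfold rB
    ring
  h2 X Y q := by
    have hd1 : DifferentiableAt ℝ (fun q : B2 => q.1) q := by fun_prop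
    have hc1 := diffConj hd1
    have hz1 : dz X (fun q : B2 => conj q.1) q = 0 := by
      rw [dz_conj, dzb_fst, map_zero]
    have e : rB Y = fun q => Y.2 / (2 * I) - Y.1 * conj q.1 := rfl
    rw [e, dz_sub (differentiableAt_const _) (hc1.const_mul _), dz_const_mul _ hc1, dz_const, hz1]
    ring
  h3 X Y q := by
    have hd1 : DifferentiableAt ℝ (fun q : B2 => q.1) q := by fun_prop
    have hc1 := diffConj hd1
    have hz1 : dzb X (fun q : B2 => conj q.1) q = conj X.1 := by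
      rw [dzb_conj, dz_fst]
    have e : rB Y = fun q => Y.2 / (2 * I) - Y.1 * conj q.1 := rfl
    rw [e, dzb_sub (differentiableAt_const _) (hc1.const_mul _), dzb_const_mul _ hc1, dzb_const,
      hz1]
    unfold sB
    ring
  herm X Y := by
    unfold sB
    simp only [map_mul, conj_conj]
    ring

theorem a3_eq_aL : a3 = aL rho3 := rfl





end Crest.Agent.R245.Sg
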