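import Crest.Agent.R245.WildP1
import Crest.Agent.R245.SiegelPot
import Crest.Agent.R245.BasePertA
import Crest.Agent.R245.Hol

-- ▼ part R245/WildP2
section

/-! TASK WildP2 -/

set_option autoImplicit false

namespace Crest.Agent.R245

open Complex Filter Topology
open scoped ContDiff ComplexConjugate

/-- `x/(1+x²)` summed along a geometric sequence of ratio `≥ 2`. -/
theorem wp2_geo_sum {b x : ℝ} (hb : 2 ≤ b) (hx : 0 ≤ x) (N : ℕ) :
    ∑ j ∈ Finset.range N, (x * b ^ j) / (1 + (x * b ^ j) ^ 2) ≤ 4 := by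
  have hstep : ∀ j : ℕ, (x * b ^ j) / (1 + (x * b ^ j) ^ 2) ≤
      4 * ((x * b ^ (j + 1)) / (1 + x * b ^ (j + 1)) - (x * b ^ j) / (1 + x * b ^ j)) := by
    intro j
    set y := x * b ^ j with hy
    have hy0 : 0 ≤ y := by positivity
    have hz : x * b ^ (j + 1) = y * b := by rw [hy, pow_succ]; ring
    rw [hz]
    have hyb : y * 2 ≤ y * b := mul_le_mul_of_nonneg_left hb hy0
    have h1 : (y * 2) / (1 + y * 2) ≤ (y * b) / (1 + y * b) := by
      rw [div_le_div_iff₀ (by positivity) (by positivity)]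
      nlinarith
    have h2 : y / (1 + y ^ 2) ≤ 4 * ((y * 2) / (1 + y * 2) - y / (1 + y)) := by
      have h3 : (y * 2) / (1 + y * 2) - y / (1 + y) = y / ((1 + y * 2) * (1 + y)) := by
        field_simp
        ring
      rw [h3, ← mul_div_assoc, div_le_div_iff₀ (by positivity) (by positivity)]
      nlinarith [mul_nonneg hy0 (sq_nonneg (y - 1)), mul_nonneg hy0 (sq_nonneg y),
        mul_nonneg hy0 hy0]
    linarith
  calc ∑ j ∈ Finset.range N, (x * b ^ j) / (1 + (x * b ^ j) ^ 2)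
      ≤ ∑ j ∈ Finset.range N,
        4 * ((x * b ^ (j + 1)) / (1 + x * b ^ (j + 1)) - (x * b ^ j) / (1 + x * b ^ j)) :=
        Finset.sum_le_sum fun j _ => hstep j
    _ = 4 * ((x * b ^ N) / (1 + x * b ^ N) - (x * b ^ 0) / (1 + x * b ^ 0)) := by
        rw [← Finset.mul_sum, Finset.sum_range_sub (fun j => (x * b ^ j) / (1 + x * b ^ j))]
    _ ≤ 4 := by
        have h1 : (x * b ^ N) / (1 + x * b ^ N) ≤ 1 := by
          rw [div_le_one (by positivity)]; linarith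
        have h2 : 0 ≤ (x * b ^ 0) / (1 + x * b ^ 0) := by positivity
        linarith

/-- elementary bound for one term -/
theorem wp2_term_bound {x y : ℝ} (hx : 0 ≤ x) (hy : 0 ≤ y) {k : ℕ} (hk1 : 1 ≤ k) (hk4 : k ≤ 4) :
    Real.exp (-(x ^ 2 + y ^ 2)) * (x ^ 2 + 2 * (x * y)) ^ k ≤
      (10 ^ 9) * (x / (1 + x ^ 2)) * Real.exp (-(y ^ 2) / 4) := by
  obtain ⟨u, hu⟩ : ∃ u, u = 1 + x ^ 2 + y ^ 2 := ⟨_, rfl⟩
  have hu1 : 1 ≤ u := by rw [hu]; nlinarith
  have hxu : x ≤ u := by rw [hu]; nlinarith [sq_nonneg (x - 1)]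
  have hyu : y ≤ u := by rw [hu]; nlinarith [sq_nonneg (y - 1)]
  have h1 : x ^ 2 + 2 * (x * y) ≤ x * (3 * u) := by nlinarith
  have h0 : 0 ≤ x ^ 2 + 2 * (x * y) := by positivity
  have h2 : (x ^ 2 + 2 * (x * y)) ^ k ≤ 81 * x * u ^ 7 := by
    obtain ⟨n, rfl⟩ : ∃ n, k = n + 1 := ⟨k - 1, by omega⟩
    calc (x ^ 2 + 2 * (x * y)) ^ (n + 1) ≤ (x * (3 * u)) ^ (n + 1) :=
          pow_le_pow_left₀ h0 h1 _
      _ = x * (x ^ n * (3 * u) ^ (n + 1)) := by rw [mul_pow]; ring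
      _ ≤ x * (u ^ 3 * (3 * u) ^ 4) := by
          refine mul_le_mul_of_nonneg_left ?_ hx
          refine mul_le_mul ?_ ?_ (by positivity) (by positivity)
          · exact (pow_le_pow_left₀ hx hxu n).trans (pow_le_pow_right₀ hu1 (by omega))
          · exact pow_le_pow_right₀ (by linarith) hk4
      _ = 81 * x * u ^ 7 := by ring
  have h3 : 81 * u ^ 8 ≤ 10 ^ 9 * Real.exp (x ^ 2 + 3 * y ^ 2 / 4) := by
    have h4 := Real.pow_div_factorial_le_exp (3 * u / 4) (by positivity) 8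
    have h5 : Real.exp (3 * u / 4) ≤ 2.7182818286 * Real.exp (x ^ 2 + 3 * y ^ 2 / 4) := by
      calc Real.exp (3 * u / 4) ≤ Real.exp (1 + (x ^ 2 + 3 * y ^ 2 / 4)) := by
            apply Real.exp_le_exp.mpr
            rw [hu]; nlinarith [sq_nonneg x]
        _ = Real.exp 1 * Real.exp (x ^ 2 + 3 * y ^ 2 / 4) := Real.exp_add _ _
        _ ≤ _ := mul_le_mul_of_nonneg_right Real.exp_one_lt_d9.le (Real.exp_pos _).le
    have h6 : (3 * u / 4) ^ 8 / (Nat.factorial 8 : ℝ) = u ^ 8 * (6561 / 65536 / 40320) := by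
      simp only [Nat.factorial]; push_cast; ring
    rw [h6] at h4
    have h7 := h4.trans h5
    have h8 : 0 < Real.exp (x ^ 2 + 3 * y ^ 2 / 4) := Real.exp_pos _
    nlinarith
  have h4 : x / u ≤ x / (1 + x ^ 2) := by
    apply div_le_div_of_nonneg_left hx (by positivity)
    rw [hu]; nlinarith
  calc Real.exp (-(x ^ 2 + y ^ 2)) * (x ^ 2 + 2 * (x * y)) ^ k
      ≤ Real.exp (-(x ^ 2 + y ^ 2)) * (81 * x * u ^ 7) :=
        mul_le_mul_of_nonneg_left h2 (Real.exp_pos _).le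
    _ = (x / u) * ((81 * u ^ 8) * Real.exp (-(x ^ 2 + y ^ 2))) := by
        field_simp
    _ ≤ (x / u) * ((10 ^ 9 * Real.exp (x ^ 2 + 3 * y ^ 2 / 4)) * Real.exp (-(x ^ 2 + y ^ 2))) := by
        have : 0 ≤ x / u := by positivity
        gcongr
    _ = 10 ^ 9 * (x / u) * Real.exp (-(y ^ 2) / 4) := by
        have : Real.exp (x ^ 2 + 3 * y ^ 2 / 4) * Real.exp (-(x ^ 2 + y ^ 2)) =
            Real.exp (-(y ^ 2) / 4) := by
          rw [← Real.exp_add]; congr 1; ring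
        rw [mul_assoc, this]; ring
    _ ≤ 10 ^ 9 * (x / (1 + x ^ 2)) * Real.exp (-(y ^ 2) / 4) := by
        gcongr

/-- the affine map `q ↦ M² π_{z0}(gp p q)` -/
theorem wp2_affine (M : ℝ) (z0 : ℂ) (p q : B2) :
    ((M ^ 2 : ℝ) : ℂ) * piz z0 (gp p q) =
      ((M ^ 2 : ℝ) : ℂ) * ((p.2.re : ℂ) + I * ((‖p.1‖ ^ 2 : ℝ) : ℂ) - 2 * I * conj z0 * p.1
        + I * ((‖z0‖ ^ 2 : ℝ) : ℂ)) +
      ((((M ^ 2 : ℝ) : ℂ) * (2 * I * conj (p.1 - z0) * (Real.sqrt (rho p) : ℂ))) * q.1 +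
        (((M ^ 2 * rho p : ℝ) : ℂ)) * q.2) := by
  unfold piz gp
  simp only [map_sub, ofReal_mul]
  ring

/-- the linear part -/
noncomputable def wp2L (α β : ℂ) : B2 →L[ℝ] ℂ :=
  ((ContinuousLinearMap.mul ℝ ℂ α).comp (ContinuousLinearMap.fst ℝ ℂ ℂ)) +
    ((ContinuousLinearMap.mul ℝ ℂ β).comp (ContinuousLinearMap.snd ℝ ℂ ℂ))

theorem wp2L_apply (α β : ℂ) (q : B2) : wp2L α β q = α * q.1 + β * q.2 := by
  simp [wp2L]

theorem wp2L_norm (α β : ℂ) : ‖wp2L α β‖ ≤ ‖α‖ + ‖β‖ := by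
  refine ContinuousLinearMap.opNorm_le_bound _ (by positivity) fun q => ?_
  rw [wp2L_apply]
  calc ‖α * q.1 + β * q.2‖ ≤ ‖α‖ * ‖q.1‖ + ‖β‖ * ‖q.2‖ := by
        refine (norm_add_le _ _).trans ?_
        rw [norm_mul, norm_mul]
    _ ≤ ‖α‖ * ‖q‖ + ‖β‖ * ‖q‖ := by
        gcongr
        · exact norm_fst_le q
        · exact norm_snd_le q
    _ = (‖α‖ + ‖β‖) * ‖q‖ := by ring

theorem wp2_gp_q0 (p : B2) : gp p q0 = p := by
  unfold gp q0 rho
  ext
  · simp
  · apply Complex.ext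
    · simp
    · simp

theorem wp2_contDiff_gp (p : B2) : ContDiff ℝ ∞ (gp p) := by
  unfold gp
  fun_prop

/-- one term of `PhiW ∘ gp p` -/
theorem wp2_term (ε T M : ℝ) (z0 : ℂ) {C : ℝ} (hε : 0 < ε) (hC0 : 0 ≤ C)
    (hC : ∀ w : ℂ, 0 ≤ w.im → ∀ k : ℕ, k ≤ 4 →
      ‖iteratedFDeriv ℝ k (vfun ε T) w‖ ≤ C * Real.exp (-w.im)) (hM : 0 < M) {p : B2}
    (hp : p ∈ Dom) {k : ℕ} (hk1 : 1 ≤ k) (hk4 : k ≤ 4) :
    ‖iteratedFDeriv ℝ k (fun q => vfun ε T (((M ^ 2 : ℝ) : ℂ) * piz z0 (gp p q))) q0‖ ≤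
      C * (10 ^ 9 * ((M * Real.sqrt (rho p)) / (1 + (M * Real.sqrt (rho p)) ^ 2))
        * Real.exp (-(M ^ 2 * ‖p.1 - z0‖ ^ 2) / 4)) := by
  have hρ : 0 < rho p := hp
  set c : ℂ := ((M ^ 2 : ℝ) : ℂ) * ((p.2.re : ℂ) + I * ((‖p.1‖ ^ 2 : ℝ) : ℂ)
    - 2 * I * conj z0 * p.1 + I * ((‖z0‖ ^ 2 : ℝ) : ℂ)) with hc
  set α : ℂ := ((M ^ 2 : ℝ) : ℂ) * (2 * I * conj (p.1 - z0) * (Real.sqrt (rho p) : ℂ)) with hα
  set β : ℂ := ((M ^ 2 * rho p : ℝ) : ℂ) with hβ
  have hfun : (fun q => vfun ε T (((M ^ 2 : ℝ) : ℂ) * piz z0 (gp p q))) =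
      (fun y => vfun ε T (c + y)) ∘ (wp2L α β) := by
    funext q
    simp only [Function.comp_apply, wp2L_apply]
    rw [wp2_affine]
  have hsm : ContDiff ℝ ∞ (fun y => vfun ε T (c + y)) :=
    (vfun_contDiff hε).comp (contDiff_const.add contDiff_id)
  rw [hfun, ContinuousLinearMap.iteratedFDeriv_comp_right (wp2L α β) hsm q0
    (i := k) (by exact_mod_cast le_top), iteratedFDeriv_comp_add_left]
  have hpt : c + wp2L α β q0 = ((M ^ 2 : ℝ) : ℂ) * piz z0 p := by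
    rw [wp2L_apply, ← wp2_affine, wp2_gp_q0]
  rw [hpt]
  have him : (((M ^ 2 : ℝ) : ℂ) * piz z0 p).im = M ^ 2 * (rho p + ‖p.1 - z0‖ ^ 2) := by
    rw [Complex.im_ofReal_mul, piz_im]
  set x : ℝ := M * Real.sqrt (rho p) with hx
  set y : ℝ := M * ‖p.1 - z0‖ with hy
  have hx0 : 0 ≤ x := by positivity
  have hy0 : 0 ≤ y := by positivity
  have hx2 : x ^ 2 = M ^ 2 * rho p := by rw [hx, mul_pow, Real.sq_sqrt hρ.le]
  have hy2 : y ^ 2 = M ^ 2 * ‖p.1 - z0‖ ^ 2 := by rw [hy, mul_pow]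
  have him2 : (((M ^ 2 : ℝ) : ℂ) * piz z0 p).im = x ^ 2 + y ^ 2 := by
    rw [him, hx2, hy2]; ring
  have hα' : ‖α‖ = 2 * (x * y) := by
    rw [hα, norm_mul, norm_mul, norm_mul, norm_mul, Complex.norm_conj, Complex.norm_I,
      Complex.norm_real, Complex.norm_real, Real.norm_of_nonneg (sq_nonneg M),
      Real.norm_of_nonneg (Real.sqrt_nonneg _), hx, hy]
    simp
    ring
  have hβ' : ‖β‖ = x ^ 2 := by
    rw [hβ, Complex.norm_real, Real.norm_of_nonneg (by positivity), hx2]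
  have hL : ‖wp2L α β‖ ≤ x ^ 2 + 2 * (x * y) := by
    refine (wp2L_norm α β).trans ?_
    rw [hα', hβ']; linarith
  calc ‖(iteratedFDeriv ℝ k (vfun ε T) (((M ^ 2 : ℝ) : ℂ) * piz z0 p)).compContinuousLinearMap
        fun _ => wp2L α β‖
      ≤ ‖iteratedFDeriv ℝ k (vfun ε T) (((M ^ 2 : ℝ) : ℂ) * piz z0 p)‖ *
        ∏ _i : Fin k, ‖wp2L α β‖ := ContinuousMultilinearMap.norm_compContinuousLinearMap_le _ _
    _ ≤ (C * Real.exp (-(x ^ 2 + y ^ 2))) * (x ^ 2 + 2 * (x * y)) ^ k := by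
        rw [Finset.prod_const, Finset.card_univ, Fintype.card_fin]
        have h1 := hC (((M ^ 2 : ℝ) : ℂ) * piz z0 p) (by rw [him2]; positivity) k hk4
        rw [him2] at h1
        exact mul_le_mul h1 (pow_le_pow_left₀ (norm_nonneg _) hL k) (by positivity)
          (mul_nonneg hC0 (Real.exp_pos _).le)
    _ = C * (Real.exp (-(x ^ 2 + y ^ 2)) * (x ^ 2 + 2 * (x * y)) ^ k) := by ring
    _ ≤ C * (10 ^ 9 * (x / (1 + x ^ 2)) * Real.exp (-(y ^ 2) / 4)) :=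
        mul_le_mul_of_nonneg_left (wp2_term_bound hx0 hy0 hk1 hk4) hC0
    _ = _ := by rw [hy2]

theorem PhiW_jet (ε : ℝ) (hε : 0 < ε) (hε1 : ε ≤ 1) : ∃ CW : ℝ, 0 < CW ∧
    ∀ T M b : ℝ, 3 ≤ T → 2 ≤ b → 256 * T ≤ M ^ 2 → 0 < M → ∀ p ∈ Dom,
      JetB (fun q => PhiW ε T M b (gp p q)) CW := by
  obtain ⟨C, hC0, hC⟩ := vfun_deriv_le ε hε hε1
  obtain ⟨C₁, hC₁0, hC₁⟩ := lat_sum
  refine ⟨C * (10 ^ 9 * (4 * C₁)), by positivity, ?_⟩
  intro T M b hT hb hM hM0 p hp k hk1 hk4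
  have hρ : 0 < rho p := hp
  obtain ⟨s, hs⟩ := PhiW_locfin hε hT hb hM hM0 hp
  have hcont : Tendsto (gp p) (𝓝 q0) (𝓝 p) := by
    have h := (wp2_contDiff_gp p).continuous.tendsto q0
    rwa [wp2_gp_q0] at h
  have hev : (fun q => PhiW ε T M b (gp p q)) =ᶠ[𝓝 q0]
      (fun q => ∑ i ∈ s, wterm ε T (M * b ^ i.1) i.2 (gp p q)) := hcont.eventually hs
  have hb0 : 0 < b := by linarith
  have hMj : ∀ j : ℕ, 0 < M * b ^ j := fun j => by positivity
  rw [(hev.iteratedFDeriv ℝ k).eq_of_nhds]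
  -- smoothness and bound of one term
  have hterm : ∀ i : ℕ × (ℤ × ℤ),
      ContDiff ℝ ∞ (fun q => wterm ε T (M * b ^ i.1) i.2 (gp p q)) ∧
      ‖iteratedFDeriv ℝ k (fun q => wterm ε T (M * b ^ i.1) i.2 (gp p q)) q0‖ ≤
        C * (10 ^ 9 * (((M * b ^ i.1) * Real.sqrt (rho p)) /
          (1 + ((M * b ^ i.1) * Real.sqrt (rho p)) ^ 2))
        * Real.exp (-((M * b ^ i.1) ^ 2 * ‖p.1 - zlat (M * b ^ i.1) i.2‖ ^ 2) / 4)) := by
    intro i
    by_cases h : ‖zlat (M * b ^ i.1) i.2‖ < 1/16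
    · have hfun : (fun q => wterm ε T (M * b ^ i.1) i.2 (gp p q)) =
          fun q => vfun ε T ((((M * b ^ i.1) ^ 2 : ℝ) : ℂ) * piz (zlat (M * b ^ i.1) i.2) (gp p q)) := by
        funext q; simp only [wterm, if_pos h]
      rw [hfun]
      refine ⟨?_, wp2_term ε T (M * b ^ i.1) _ hε hC0.le (fun w hw k' hk' => hC T w hT hw k' hk')
        (hMj i.1) hp hk1 hk4⟩
      refine (vfun_contDiff hε).comp (contDiff_const.mul ?_)
      have h2 : ContDiff ℝ ∞ (piz (zlat (M * b ^ i.1) i.2)) := by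
        unfold piz; fun_prop
      exact h2.comp (wp2_contDiff_gp p)
    · have hfun : (fun q => wterm ε T (M * b ^ i.1) i.2 (gp p q)) = fun _ => (0 : ℝ) := by
        funext q; simp only [wterm, if_neg h]
      rw [hfun]
      refine ⟨contDiff_const, ?_⟩
      have h3 : iteratedFDeriv ℝ k (fun _ : B2 => (0 : ℝ)) q0 = 0 := by
        rw [iteratedFDeriv_const_of_ne (by omega)]; rfl
      rw [h3, norm_zero]
      have := hMj i.1
      positivity
  rw [iteratedFDeriv_sum (fun i _ => (hterm i).1.of_le (by exact_mod_cast le_top)),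
    Finset.sum_apply]
  refine (norm_sum_le _ _).trans ?_
  refine (Finset.sum_le_sum fun i _ => (hterm i).2).trans ?_
  rw [← Finset.mul_sum]
  refine mul_le_mul_of_nonneg_left ?_ hC0.le
  -- the double sum
  set f : ℕ → ℝ := fun j => ((M * b ^ j) * Real.sqrt (rho p)) /
          (1 + ((M * b ^ j) * Real.sqrt (rho p)) ^ 2) with hf
  have hf0 : ∀ j, 0 ≤ f j := fun j => by have := hMj j; simp only [hf]; positivity
  set S2 : Finset (ℤ × ℤ) := s.image Prod.snd with hS2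
  obtain ⟨N, hN⟩ : ∃ N : ℕ, ∀ i ∈ s, i.1 < N := by
    refine ⟨(s.sup Prod.fst) + 1, fun i hi => Nat.lt_succ_of_le ?_⟩
    exact Finset.le_sup (f := Prod.fst) hi
  have hsub : s ⊆ (Finset.range N) ×ˢ S2 := by
    intro i hi
    rw [Finset.mem_product]
    exact ⟨Finset.mem_range.mpr (hN i hi), Finset.mem_image_of_mem _ hi⟩
  calc ∑ i ∈ s, 10 ^ 9 * (((M * b ^ i.1) * Real.sqrt (rho p)) /
          (1 + ((M * b ^ i.1) * Real.sqrt (rho p)) ^ 2))
        * Real.exp (-((M * b ^ i.1) ^ 2 * ‖p.1 - zlat (M * b ^ i.1) i.2‖ ^ 2) / 4)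
      ≤ ∑ i ∈ (Finset.range N) ×ˢ S2, 10 ^ 9 * f i.1
        * Real.exp (-((M * b ^ i.1) ^ 2 * ‖p.1 - zlat (M * b ^ i.1) i.2‖ ^ 2) / 4) := by
        refine Finset.sum_le_sum_of_subset_of_nonneg hsub fun i _ _ => ?_
        have := hf0 i.1
        positivity
    _ = ∑ j ∈ Finset.range N, 10 ^ 9 * (f j * ∑ m ∈ S2,
          Real.exp (-((M * b ^ j) ^ 2 * ‖p.1 - zlat (M * b ^ j) m‖ ^ 2) / 4)) := by
        rw [Finset.sum_product]
        refine Finset.sum_congr rfl fun j _ => ?_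
        rw [Finset.mul_sum, Finset.mul_sum]
        refine Finset.sum_congr rfl fun m _ => ?_
        ring
    _ ≤ ∑ j ∈ Finset.range N, 10 ^ 9 * (f j * C₁) := by
        refine Finset.sum_le_sum fun j _ => ?_
        have h1 := hC₁ (M * b ^ j) p.1 S2 (hMj j)
        have h2 := hf0 j
        gcongr
    _ = 10 ^ 9 * ((∑ j ∈ Finset.range N, f j) * C₁) := by
        rw [Finset.sum_mul, Finset.mul_sum]
    _ ≤ 10 ^ 9 * (4 * C₁) := by
        have h3 : ∑ j ∈ Finset.range N, f j ≤ 4 := by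
          have h4 := wp2_geo_sum (b := b) (x := M * Real.sqrt (rho p)) hb (by positivity) N
          refine le_trans (le_of_eq ?_) h4
          refine Finset.sum_congr rfl fun j _ => ?_
          simp only [hf]
          have : M * b ^ j * Real.sqrt (rho p) = M * Real.sqrt (rho p) * b ^ j := by ring
          rw [this]
        gcongr

end Crest.Agent.R245
end

-- ▼ part R245/WildP3
section

/-! TASK WildP3 -/

set_option autoImplicit false

namespace Crest.Agent.R245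

open Complex Filter Topology Sg
open scoped ContDiff ComplexConjugate

/-! ### counting lattice points and scales -/

namespace WP3

theorem card_int_le {x r : ℝ} (hr : 0 ≤ r) (t : Finset ℤ) (h : ∀ n ∈ t, |x - 4 * n| ≤ r) :
    (t.card : ℝ) ≤ r / 2 + 1 := by
  have hsub : t ⊆ Finset.Icc ⌈(x - r) / 4⌉ ⌊(x + r) / 4⌋ := by
    intro n hn
    have := abs_le.1 (h n hn)
    rw [Finset.mem_Icc, Int.ceil_le, Int.le_floor]
    constructor <;> linarith
  have h1 : (t.card : ℝ) ≤ ((Finset.Icc ⌈(x - r) / 4⌉ ⌊(x + r) / 4⌋).card : ℝ) := by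
    exact_mod_cast Finset.card_le_card hsub
  rw [Int.card_Icc] at h1
  rcases le_total (⌊(x + r) / 4⌋ + 1 - ⌈(x - r) / 4⌉) 0 with h2 | h2
  · rw [Int.toNat_of_nonpos h2] at h1
    simp only [Nat.cast_zero] at h1
    linarith
  · have h3 : (((⌊(x + r) / 4⌋ + 1 - ⌈(x - r) / 4⌉).toNat : ℕ) : ℝ) =
        ((⌊(x + r) / 4⌋ + 1 - ⌈(x - r) / 4⌉ : ℤ) : ℝ) := by
      exact_mod_cast Int.toNat_of_nonneg h2
    rw [h3] at h1
    push_cast at h1
    have h4 := Int.floor_le ((x + r) / 4)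
    have h5 := Int.le_ceil ((x - r) / 4)
    linarith

theorem card_lat_le {T M : ℝ} (hT : 3 ≤ T) (hM : 0 < M) (z : ℂ) (t : Finset (ℤ × ℤ))
    (h : ∀ m ∈ t, M ^ 2 * ‖z - zlat M m‖ ^ 2 ≤ T) : (t.card : ℝ) ≤ 4 * T := by
  classical
  set r := Real.sqrt T with hr
  have hr1 : 1 ≤ r := by
    rw [hr, Real.one_le_sqrt]; linarith
  have hr2 : r ^ 2 = T := Real.sq_sqrt (by linarith)
  have key : ∀ m ∈ t, |M * z.re - 4 * m.1| ≤ r ∧ |M * z.im - 4 * m.2| ≤ r := by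
    intro m hm
    have e : M ^ 2 * ‖z - zlat M m‖ ^ 2 = (M * z.re - 4 * m.1) ^ 2 + (M * z.im - 4 * m.2) ^ 2 := by
      rw [← Complex.normSq_eq_norm_sq, Complex.normSq_apply]
      have h1 : (z - zlat M m).re = z.re - 4 / M * m.1 := by
        simp only [zlat, Complex.sub_re, Complex.re_ofReal_mul]
        simp
      have h2 : (z - zlat M m).im = z.im - 4 / M * m.2 := by
        simp only [zlat, Complex.sub_im, Complex.im_ofReal_mul]
        simp
      rw [h1, h2]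
      field_simp
    have h3 := h m hm
    rw [e] at h3
    constructor
    · rw [hr]
      apply Real.abs_le_sqrt
      nlinarith [sq_nonneg (M * z.im - 4 * m.2)]
    · rw [hr]
      apply Real.abs_le_sqrt
      nlinarith [sq_nonneg (M * z.re - 4 * m.1)]
  have hsub : t ⊆ (t.image Prod.fst) ×ˢ (t.image Prod.snd) := by
    intro m hm
    exact Finset.mem_product.mpr ⟨Finset.mem_image_of_mem _ hm, Finset.mem_image_of_mem _ hm⟩
  have h1 : (t.card : ℝ) ≤ ((t.image Prod.fst).card : ℝ) * ((t.image Prod.snd).card : ℝ) := by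
    have := Finset.card_le_card hsub
    rw [Finset.card_product] at this
    exact_mod_cast this
  have h2 : ((t.image Prod.fst).card : ℝ) ≤ r / 2 + 1 := by
    apply card_int_le (x := M * z.re) (by linarith)
    intro n hn
    obtain ⟨m, hm, rfl⟩ := Finset.mem_image.1 hn
    exact (key m hm).1
  have h3 : ((t.image Prod.snd).card : ℝ) ≤ r / 2 + 1 := by
    apply card_int_le (x := M * z.im) (by linarith)
    intro n hn
    obtain ⟨m, hm, rfl⟩ := Finset.mem_image.1 hn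
    exact (key m hm).2
  have h4 : ((t.image Prod.fst).card : ℝ) * ((t.image Prod.snd).card : ℝ) ≤
      (r / 2 + 1) * (r / 2 + 1) :=
    mul_le_mul h2 h3 (by positivity) (by positivity)
  nlinarith

/-- geometric growth: partial sums are at most twice the last term -/
theorem sum_range_le {x : ℕ → ℝ} (hx : ∀ j, 2 * x j ≤ x (j + 1)) (h0 : 0 ≤ x 0) (n : ℕ) :
    ∑ j ∈ Finset.range (n + 1), x j ≤ 2 * x n := by
  induction n with
  | zero => simp; linarith
  | succ n ih =>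
    rw [Finset.sum_range_succ]
    have := hx n
    linarith

theorem sum_scales_le {x : ℕ → ℝ} {T : ℝ} (hT : 0 ≤ T) (hx : ∀ j, 2 * x j ≤ x (j + 1))
    (hx0 : ∀ j, 0 ≤ x j) (J : Finset ℕ) (hJ : ∀ j ∈ J, x j ≤ T) : ∑ j ∈ J, x j ≤ 2 * T := by
  classical
  rcases J.eq_empty_or_nonempty with rfl | hne
  · simp; linarith
  · set N := J.max' hne
    have hsub : J ⊆ Finset.range (N + 1) := by
      intro j hj
      rw [Finset.mem_range]
      exact Nat.lt_succ_of_le (J.le_max' j hj)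
    calc ∑ j ∈ J, x j ≤ ∑ j ∈ Finset.range (N + 1), x j :=
          Finset.sum_le_sum_of_subset_of_nonneg hsub (fun j _ _ => hx0 j)
      _ ≤ 2 * x N := sum_range_le hx (hx0 0) N
      _ ≤ 2 * T := by
          have := hJ N (J.max'_mem hne)
          linarith

/-- number of scales -/
theorem card_scales_le {M b T ρ : ℝ} (hb : 2 ≤ b) (hT : 3 ≤ T) (hM : 256 * T ≤ M ^ 2)
    (hρ : 0 < ρ) (hρ1 : ρ ≤ 1) (J : Finset ℕ) (hJ : ∀ j ∈ J, (M * b ^ j) ^ 2 * ρ < T) :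
    (J.card : ℝ) ≤ 1 - Real.log ρ := by
  classical
  have hL : 0 ≤ - Real.log ρ := by
    have := Real.log_nonpos hρ.le hρ1
    linarith
  have key : ∀ j ∈ J, (j : ℝ) ≤ - Real.log ρ := by
    intro j hj
    have h1 := hJ j hj
    have hb2 : (2 : ℝ) ^ j ≤ b ^ j := pow_le_pow_left₀ (by norm_num) hb j
    have h2 : (256 * T) * (((2 : ℝ) ^ j) ^ 2 * ρ) ≤ (M * b ^ j) ^ 2 * ρ := by
      rw [mul_pow, mul_assoc (M ^ 2)]
      apply mul_le_mul hM _ (by positivity) (by positivity)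
      apply mul_le_mul_of_nonneg_right _ hρ.le
      exact pow_le_pow_left₀ (by positivity) hb2 2
    have h3 : ((2 : ℝ) ^ j) ^ 2 * ρ < 1 := by
      by_contra hcon
      push Not at hcon
      nlinarith
    have h4 : (4 : ℝ) ^ j * ρ < 1 := by
      have : ((2 : ℝ) ^ j) ^ 2 = 4 ^ j := by
        rw [← pow_mul, mul_comm, pow_mul]; norm_num
      rwa [this] at h3
    have h5 : Real.log ((4 : ℝ) ^ j * ρ) < 0 := Real.log_neg (by positivity) h4
    rw [Real.log_mul (by positivity) hρ.ne', Real.log_pow] at h5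
    have h6 : (1 : ℝ) ≤ Real.log 4 := by
      rw [Real.le_log_iff_exp_le (by norm_num)]
      have := Real.exp_one_lt_d9
      linarith
    have h7 : (j : ℝ) * 1 ≤ j * Real.log 4 := mul_le_mul_of_nonneg_left h6 (by positivity)
    linarith
  have hsub : J ⊆ Finset.range (⌊- Real.log ρ⌋₊ + 1) := by
    intro j hj
    rw [Finset.mem_range]
    exact Nat.lt_succ_of_le (Nat.le_floor (key j hj))
  have h1 : (J.card : ℝ) ≤ ((⌊- Real.log ρ⌋₊ + 1 : ℕ) : ℝ) := by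
    have := Finset.card_le_card hsub
    rw [Finset.card_range] at this
    exact_mod_cast this
  push_cast at h1
  have h2 := Nat.floor_le hL
  linarith

/-! ### the value of PhiW as a finite sum -/

theorem wterm_le {ε T M : ℝ} (hε : 0 < ε) (hε1 : ε ≤ 1) (hT : 3 ≤ T) {p : B2} (hp : p ∈ Dom)
    (m : ℤ × ℤ) : wterm ε T M m p ≤ if M ^ 2 * rho p < T then
      13 * Real.exp (-(M ^ 2 * ‖p.1 - zlat M m‖ ^ 2) / 4) else 0 := by
  have hp' : 0 < rho p := hp
  have him : ((((M ^ 2 : ℝ) : ℂ) * piz (zlat M m) p)).im =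
      M ^ 2 * rho p + M ^ 2 * ‖p.1 - zlat M m‖ ^ 2 := by
    rw [Complex.im_ofReal_mul, piz_im]; ring
  have hY : 0 ≤ M ^ 2 * ‖p.1 - zlat M m‖ ^ 2 := by positivity
  have hX : 0 ≤ M ^ 2 * rho p := by positivity
  unfold wterm
  split_ifs with h1 h2 h2
  · refine (vfun_le hε hε1 hT (by rw [him]; positivity)).trans ?_
    rw [him]
    apply mul_le_mul_of_nonneg_left _ (by norm_num)
    apply Real.exp_le_exp.2
    linarith
  · push Not at h2
    rw [vfun_eq_zero (by rw [him]; linarith)]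
  · positivity
  · exact le_rfl

end WP3

namespace WP3

/-- linear part of `q ↦ M² π_{z₀}(q)` -/
noncomputable def Lz (M : ℝ) (z0 : ℂ) : B2 →L[ℂ] ℂ :=
  ((M ^ 2 : ℝ) : ℂ) • (ContinuousLinearMap.snd ℂ ℂ ℂ - (2 * I * conj z0) • ContinuousLinearMap.fst ℂ ℂ ℂ)

theorem Lz_apply (M : ℝ) (z0 : ℂ) (q : B2) :
    Lz M z0 q = ((M ^ 2 : ℝ) : ℂ) * (q.2 - 2 * I * conj z0 * q.1) := by
  simp [Lz]

theorem piz_eq (M : ℝ) (z0 : ℂ) (q : B2) : ((M ^ 2 : ℝ) : ℂ) * piz z0 q =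
    Lz M z0 q + ((M ^ 2 : ℝ) : ℂ) * (I * ((‖z0‖ ^ 2 : ℝ) : ℂ)) := by
  rw [Lz_apply]; unfold piz; ring

theorem wterm_eq_of_lt {ε T M : ℝ} {m : ℤ × ℤ} (h : ‖zlat M m‖ < 1/16) :
    wterm ε T M m = fun q => vfun ε T (Lz M (zlat M m) q +
      ((M ^ 2 : ℝ) : ℂ) * (I * ((‖zlat M m‖ ^ 2 : ℝ) : ℂ))) := by
  funext q
  unfold wterm
  rw [if_pos h, piz_eq]

theorem wterm_eq_of_not_lt {ε T M : ℝ} {m : ℤ × ℤ} (h : ¬ ‖zlat M m‖ < 1/16) :
    wterm ε T M m = fun _ => 0 := by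
  funext q
  unfold wterm
  rw [if_neg h]

theorem wterm_smooth {ε T : ℝ} (hε : 0 < ε) (M : ℝ) (m : ℤ × ℤ) :
    ContDiff ℝ ∞ (wterm ε T M m) := by
  by_cases h : ‖zlat M m‖ < 1/16
  · rw [wterm_eq_of_lt h]
    apply (vfun_contDiff hε).comp
    exact ((Lz M (zlat M m)).restrictScalars ℝ).contDiff.add contDiff_const
  · rw [wterm_eq_of_not_lt h]
    exact contDiff_const

/-- size of the linear part -/
theorem Lz_norm_le {M : ℝ} {p : B2} (hp : 0 < rho p) (z0 : ℂ) (ξ : B2) :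
    ‖Lz M z0 ξ‖ ^ 2 ≤ 4 * (M ^ 2 * rho p) * (M ^ 2 * rho p + M ^ 2 * ‖p.1 - z0‖ ^ 2) *
      (D11 aS ξ ξ p).re := by
  have e1 : (D11 aS ξ ξ p).re = ((rho p)⁻¹) ^ 2 * ‖rB ξ p‖ ^ 2 + (rho p)⁻¹ * ‖ξ.1‖ ^ 2 := by
    have h1 : D11 aS ξ ξ p = D11 (aL rho) ξ ξ p := rfl
    rw [h1, siegelB.D11_eq hp]
    have h2 : (SiegelFn.inv rho p) ^ 2 * rB ξ p * conj (rB ξ p) + SiegelFn.inv rho p * sB ξ ξ =
        ((((rho p)⁻¹) ^ 2 * ‖rB ξ p‖ ^ 2 + (rho p)⁻¹ * ‖ξ.1‖ ^ 2 : ℝ) : ℂ) := by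
      unfold sB
      rw [mul_assoc, mul_conj, mul_conj, normSq_eq_norm_sq, normSq_eq_norm_sq]
      unfold SiegelFn.inv
      push_cast
      ring
    rw [h2, ofReal_re]
  have e2 : Lz M z0 ξ = ((M ^ 2 : ℝ) : ℂ) * (2 * I) * (rB ξ p + conj (p.1 - z0) * ξ.1) := by
    rw [Lz_apply]
    unfold rB
    have hI : I ≠ 0 := I_ne_zero
    rw [map_sub]
    field_simp
    ring
  have e3 : ‖Lz M z0 ξ‖ ^ 2 = 4 * (M ^ 2) ^ 2 * ‖rB ξ p + conj (p.1 - z0) * ξ.1‖ ^ 2 := by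
    have h2 : ‖(2 : ℂ)‖ = 2 := by simp
    rw [e2, norm_mul, norm_mul, norm_mul, norm_real, norm_I, h2, mul_pow, mul_pow]
    rw [Real.norm_of_nonneg (by positivity)]
    ring
  have e4 : ‖rB ξ p + conj (p.1 - z0) * ξ.1‖ ≤ ‖rB ξ p‖ + ‖p.1 - z0‖ * ‖ξ.1‖ := by
    refine (norm_add_le _ _).trans ?_
    rw [norm_mul, RCLike.norm_conj]
  set a := ‖rB ξ p‖ with ha
  set d := ‖p.1 - z0‖ with hd
  set c := ‖ξ.1‖ with hc
  set r := rho p with hr
  have ha0 : 0 ≤ a := norm_nonneg _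
  have hd0 : 0 ≤ d := norm_nonneg _
  have hc0 : 0 ≤ c := norm_nonneg _
  have e5 : ‖rB ξ p + conj (p.1 - z0) * ξ.1‖ ^ 2 ≤ (a + d * c) ^ 2 :=
    pow_le_pow_left₀ (norm_nonneg _) e4 2
  have e6 : (a + d * c) ^ 2 ≤ r * (r + d ^ 2) * ((r⁻¹) ^ 2 * a ^ 2 + r⁻¹ * c ^ 2) := by
    have h1 : r * (r + d ^ 2) * ((r⁻¹) ^ 2 * a ^ 2 + r⁻¹ * c ^ 2) =
        a ^ 2 + (r * c ^ 2 + r⁻¹ * (d * a) ^ 2) + (d * c) ^ 2 := by
      field_simp
      ring
    have h2 : 2 * a * (d * c) ≤ r * c ^ 2 + r⁻¹ * (d * a) ^ 2 := by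
      have h3 : 0 ≤ r⁻¹ * (r * c - d * a) ^ 2 := by positivity
      have h4 : r⁻¹ * (r * c - d * a) ^ 2 = r * c ^ 2 + r⁻¹ * (d * a) ^ 2 - 2 * a * (d * c) := by
        field_simp
        ring
      linarith
    rw [h1]
    nlinarith
  rw [e3, e1]
  calc 4 * (M ^ 2) ^ 2 * ‖rB ξ p + conj (p.1 - z0) * ξ.1‖ ^ 2
      ≤ 4 * (M ^ 2) ^ 2 * (r * (r + d ^ 2) * ((r⁻¹) ^ 2 * a ^ 2 + r⁻¹ * c ^ 2)) :=
        mul_le_mul_of_nonneg_left (e5.trans e6) (by positivity)
    _ = _ := by ring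

theorem D11_sum {ι : Type*} (s : Finset ι) (f : ι → B2 → ℝ) (hf : ∀ i, ContDiff ℝ ∞ (f i))
    (X Y p : B2) : D11 (fun q => ∑ i ∈ s, f i q) X Y p = ∑ i ∈ s, D11 (f i) X Y p := by
  classical
  induction s using Finset.induction_on with
  | empty => simp [D11_const]
  | insert i s hi ih =>
    have h1 : (fun q => ∑ j ∈ insert i s, f j q) = fun q => f i q + ∑ j ∈ s, f j q := by
      funext q; rw [Finset.sum_insert hi]
    rw [h1, Finset.sum_insert hi, D11_add (hf i).contDiffAt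
      (ContDiff.sum fun j _ => hf j).contDiffAt, ih]

theorem aS_nonneg {p : B2} (hp : 0 < rho p) (ξ : B2) : 0 ≤ (D11 aS ξ ξ p).re := by
  have h1 : D11 aS ξ ξ p = D11 (aL rho) ξ ξ p := rfl
  rw [h1, siegelB.D11_eq hp]
  have h2 : (SiegelFn.inv rho p) ^ 2 * rB ξ p * conj (rB ξ p) + SiegelFn.inv rho p * sB ξ ξ =
      ((((rho p)⁻¹) ^ 2 * ‖rB ξ p‖ ^ 2 + (rho p)⁻¹ * ‖ξ.1‖ ^ 2 : ℝ) : ℂ) := by
    unfold sB
    rw [mul_assoc, mul_conj, mul_conj, normSq_eq_norm_sq, normSq_eq_norm_sq]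
    unfold SiegelFn.inv
    push_cast
    ring
  rw [h2, ofReal_re]
  positivity

/-- Levi form of one term -/
theorem levi_term {C ε T M : ℝ} (hC : 0 < C)
    (hv : ∀ (w X : ℂ), 0 ≤ w.im → -C * Real.exp (-T) * ‖X‖ ^ 2 ≤ (D11 (vfun ε T) X X w).re)
    (hε : 0 < ε) {p : B2} (hp : 0 < rho p) (m : ℤ × ℤ) (ξ : B2) :
    -(if M ^ 2 * rho p + M ^ 2 * ‖p.1 - zlat M m‖ ^ 2 ≤ T then
        C * Real.exp (-T) * (4 * (M ^ 2 * rho p) * T * (D11 aS ξ ξ p).re) else 0) ≤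
      (D11 (wterm ε T M m) ξ ξ p).re := by
  have hω := aS_nonneg hp ξ
  by_cases h : ‖zlat M m‖ < 1/16
  · rw [wterm_eq_of_lt h]
    rw [D11_comp_affine _ _ (vfun_contDiff hε).contDiffAt, ← piz_eq]
    have him : ((((M ^ 2 : ℝ) : ℂ) * piz (zlat M m) p)).im =
        M ^ 2 * rho p + M ^ 2 * ‖p.1 - zlat M m‖ ^ 2 := by
      rw [Complex.im_ofReal_mul, piz_im]; ring
    split_ifs with h1
    · have h2 := hv (((M ^ 2 : ℝ) : ℂ) * piz (zlat M m) p) (Lz M (zlat M m) ξ)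
        (by rw [him]; positivity)
      refine le_trans ?_ h2
      have h3 := Lz_norm_le (M := M) hp (zlat M m) ξ
      have h4 : ‖Lz M (zlat M m) ξ‖ ^ 2 ≤ 4 * (M ^ 2 * rho p) * T * (D11 aS ξ ξ p).re := by
        refine h3.trans ?_
        apply mul_le_mul_of_nonneg_right _ hω
        apply mul_le_mul_of_nonneg_left h1 (by positivity)
      have h5 : 0 < C * Real.exp (-T) := by positivity
      have h6 := mul_le_mul_of_nonneg_left h4 h5.le
      linarith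
    · have h2 : (vfun ε T) =ᶠ[𝓝 (((M ^ 2 : ℝ) : ℂ) * piz (zlat M m) p)] fun _ => 0 := by
        have h3 : ∀ᶠ w : ℂ in 𝓝 (((M ^ 2 : ℝ) : ℂ) * piz (zlat M m) p), T < w.im := by
          apply Complex.continuous_im.continuousAt.eventually
          apply lt_mem_nhds
          rw [him]
          exact not_le.1 h1
        filter_upwards [h3] with w hw
        exact vfun_eq_zero hw.le
      rw [D11_congr h2, D11_const]
      simp
  · rw [wterm_eq_of_not_lt h, D11_const]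
    simp only [zero_re, Left.neg_nonpos_iff]
    split_ifs with h1
    · have hT : 0 ≤ T := le_trans (by positivity) h1
      positivity
    · exact le_rfl

end WP3

theorem PhiW_levi : ∃ C : ℝ, 0 < C ∧ ∀ ε T M b : ℝ, 0 < ε → ε ≤ 1 → 3 ≤ T → 2 ≤ b →
    256 * T ≤ M ^ 2 → 0 < M → ∀ p ∈ Dom, ∀ ξ : B2,
      -(C * T ^ 3 * Real.exp (-T)) * (D11 aS ξ ξ p).re ≤ (D11 (PhiW ε T M b) ξ ξ p).re := by
  classical
  obtain ⟨C, hC, hlevi⟩ := vfun_levi
  refine ⟨32 * C, by positivity, ?_⟩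
  intro ε T M b hε hε1 hT hb hM hM0 p hp ξ
  have hp' : 0 < rho p := hp
  have hom := WP3.aS_nonneg hp' ξ
  set om := (D11 aS ξ ξ p).re with homdef
  obtain ⟨s, hs⟩ := PhiW_locfin hε hT hb hM hM0 hp
  rw [D11_congr hs, WP3.D11_sum s _ (fun i => WP3.wterm_smooth hε _ _), Complex.re_sum]
  set g : ℕ × (ℤ × ℤ) → ℝ := fun i =>
    if (M * b ^ i.1) ^ 2 * rho p + (M * b ^ i.1) ^ 2 * ‖p.1 - zlat (M * b ^ i.1) i.2‖ ^ 2 ≤ T then
        C * Real.exp (-T) * (4 * ((M * b ^ i.1) ^ 2 * rho p) * T * om) else 0 with hg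
  have hg0 : ∀ i, 0 ≤ g i := by
    intro i
    simp only [hg]
    split_ifs <;> positivity
  have hMj : ∀ j : ℕ, 0 < M * b ^ j := fun j => by positivity
  have h1 : -∑ i ∈ s, g i ≤ ∑ i ∈ s, (D11 (wterm ε T (M * b ^ i.1) i.2) ξ ξ p).re := by
    rw [← Finset.sum_neg_distrib]
    apply Finset.sum_le_sum
    intro i _
    exact WP3.levi_term hC (fun w X hw => (hlevi ε T w X hε hε1 hT hw).1) hε hp' i.2 ξ
  refine le_trans ?_ h1
  rw [neg_mul, neg_le_neg_iff]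
  set S := s.image Prod.snd with hS
  set J := (s.image Prod.fst).filter (fun j => (M * b ^ j) ^ 2 * rho p ≤ T) with hJ
  have hX : ∀ j : ℕ, 0 ≤ (M * b ^ j) ^ 2 * rho p := fun j => by positivity
  calc ∑ i ∈ s, g i ≤ ∑ i ∈ (s.image Prod.fst) ×ˢ S, g i := by
        apply Finset.sum_le_sum_of_subset_of_nonneg
        · intro m hm
          exact Finset.mem_product.mpr ⟨Finset.mem_image_of_mem _ hm, Finset.mem_image_of_mem _ hm⟩
        · intro i _ _
          exact hg0 i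
    _ = ∑ j ∈ s.image Prod.fst, ∑ m ∈ S, g (j, m) := Finset.sum_product _ _ _
    _ ≤ ∑ j ∈ s.image Prod.fst, (if (M * b ^ j) ^ 2 * rho p ≤ T then
          (4 * T) * (C * Real.exp (-T) * (4 * ((M * b ^ j) ^ 2 * rho p) * T * om)) else 0) := by
        apply Finset.sum_le_sum
        intro j _
        have hY : ∀ m, 0 ≤ (M * b ^ j) ^ 2 * ‖p.1 - zlat (M * b ^ j) m‖ ^ 2 :=
          fun m => by positivity
        split_ifs with h
        · have h2 : ∑ m ∈ S, g (j, m) ≤ ∑ m ∈ S.filter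
              (fun m => (M * b ^ j) ^ 2 * ‖p.1 - zlat (M * b ^ j) m‖ ^ 2 ≤ T),
              (C * Real.exp (-T) * (4 * ((M * b ^ j) ^ 2 * rho p) * T * om)) := by
            rw [Finset.sum_filter]
            apply Finset.sum_le_sum
            intro m _
            simp only [hg]
            by_cases h3 : (M * b ^ j) ^ 2 * rho p +
                (M * b ^ j) ^ 2 * ‖p.1 - zlat (M * b ^ j) m‖ ^ 2 ≤ T
            · rw [if_pos h3, if_pos (by linarith [hX j])]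
            · rw [if_neg h3]
              split_ifs <;> positivity
          refine h2.trans ?_
          rw [Finset.sum_const, nsmul_eq_mul]
          apply mul_le_mul_of_nonneg_right _ (by positivity)
          exact WP3.card_lat_le hT (hMj j) p.1 _ (fun m hm => (Finset.mem_filter.1 hm).2)
        · apply le_of_eq
          apply Finset.sum_eq_zero
          intro m _
          simp only [hg]
          rw [if_neg]
          intro h3
          exact h (by linarith [hY m])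
    _ = ∑ j ∈ J, (4 * T) * (C * Real.exp (-T) * (4 * ((M * b ^ j) ^ 2 * rho p) * T * om)) := by
        rw [hJ, Finset.sum_filter]
    _ = (16 * T ^ 2 * C * Real.exp (-T) * om) * ∑ j ∈ J, (M * b ^ j) ^ 2 * rho p := by
        rw [Finset.mul_sum]
        apply Finset.sum_congr rfl
        intro j _
        ring
    _ ≤ (16 * T ^ 2 * C * Real.exp (-T) * om) * (2 * T) := by
        apply mul_le_mul_of_nonneg_left _ (by positivity)
        apply WP3.sum_scales_le (by linarith) _ hX J (fun j hj => (Finset.mem_filter.1 hj).2)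
        intro j
        have h2 : (M * b ^ (j + 1)) ^ 2 * rho p = b ^ 2 * ((M * b ^ j) ^ 2 * rho p) := by ring
        rw [h2]
        have h3 : (2 : ℝ) ≤ b ^ 2 := by nlinarith
        exact mul_le_mul_of_nonneg_right h3 (hX j)
    _ = 32 * C * T ^ 3 * Real.exp (-T) * om := by ring

theorem PhiW_growth : ∃ C : ℝ, 0 < C ∧ ∀ ε T M b : ℝ, 0 < ε → ε ≤ 1 → 3 ≤ T → 2 ≤ b →
    256 * T ≤ M ^ 2 → 0 < M → ∀ p ∈ Dom, 0 ≤ aS p → PhiW ε T M b p ≤ C * (1 + aS p) := by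
  classical
  obtain ⟨C, hC, hlat⟩ := lat_sum
  refine ⟨13 * C, by positivity, ?_⟩
  intro ε T M b hε hε1 hT hb hM hM0 p hp ha
  have hp' : 0 < rho p := hp
  have hρ1 : rho p ≤ 1 := by
    unfold aS at ha
    by_contra hcon
    push Not at hcon
    have := Real.log_pos hcon
    linarith
  obtain ⟨s, hs⟩ := PhiW_locfin hε hT hb hM hM0 hp
  rw [hs.self_of_nhds]
  set g : ℕ × (ℤ × ℤ) → ℝ := fun i => if (M * b ^ i.1) ^ 2 * rho p < T then
      13 * Real.exp (-((M * b ^ i.1) ^ 2 * ‖p.1 - zlat (M * b ^ i.1) i.2‖ ^ 2) / 4) else 0 with hg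
  have hg0 : ∀ i, 0 ≤ g i := by
    intro i
    simp only [hg]
    split_ifs <;> positivity
  set J := (s.image Prod.fst).filter (fun j => (M * b ^ j) ^ 2 * rho p < T) with hJ
  set S := s.image Prod.snd with hS
  have hMj : ∀ j : ℕ, 0 < M * b ^ j := fun j => by positivity
  calc ∑ i ∈ s, wterm ε T (M * b ^ i.1) i.2 p ≤ ∑ i ∈ s, g i :=
        Finset.sum_le_sum fun i _ => WP3.wterm_le hε hε1 hT hp i.2
    _ ≤ ∑ i ∈ (s.image Prod.fst) ×ˢ S, g i := by
        apply Finset.sum_le_sum_of_subset_of_nonneg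
        · intro m hm
          exact Finset.mem_product.mpr ⟨Finset.mem_image_of_mem _ hm, Finset.mem_image_of_mem _ hm⟩
        · intro i _ _
          exact hg0 i
    _ = ∑ j ∈ s.image Prod.fst, ∑ m ∈ S, g (j, m) := Finset.sum_product _ _ _
    _ = ∑ j ∈ s.image Prod.fst, if (M * b ^ j) ^ 2 * rho p < T then
          ∑ m ∈ S, 13 * Real.exp (-((M * b ^ j) ^ 2 * ‖p.1 - zlat (M * b ^ j) m‖ ^ 2) / 4)
          else 0 := by
        apply Finset.sum_congr rfl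
        intro j _
        split_ifs with h
        · apply Finset.sum_congr rfl
          intro m _
          simp only [hg]
          rw [if_pos h]
        · apply Finset.sum_eq_zero
          intro m _
          simp only [hg]
          rw [if_neg h]
    _ = ∑ j ∈ J, ∑ m ∈ S,
          13 * Real.exp (-((M * b ^ j) ^ 2 * ‖p.1 - zlat (M * b ^ j) m‖ ^ 2) / 4) := by
        rw [hJ, Finset.sum_filter]
    _ ≤ ∑ j ∈ J, 13 * C := by
        apply Finset.sum_le_sum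
        intro j _
        rw [← Finset.mul_sum]
        exact mul_le_mul_of_nonneg_left (hlat _ _ _ (hMj j)) (by norm_num)
    _ = J.card * (13 * C) := by rw [Finset.sum_const, nsmul_eq_mul]
    _ ≤ (1 + aS p) * (13 * C) := by
        apply mul_le_mul_of_nonneg_right _ (by positivity)
        have := WP3.card_scales_le hb hT hM hp' hρ1 J (fun j hj => (Finset.mem_filter.1 hj).2)
        unfold aS
        linarith
    _ = 13 * C * (1 + aS p) := by ring

end Crest.Agent.R245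
end

-- ▼ part R245/WildP
section
end

-- ▼ part R245/NS1

/-! TASK NS1: the sup-point argument. -/

set_option autoImplicit false

namespace Crest.Agent.R245

open Complex Filter Topology
open scoped ContDiff ComplexConjugate

namespace NS1

theorem continuous_rho : Continuous rho := by
  unfold rho
  fun_prop

theorem isOpen_Dom : IsOpen Dom := isOpen_lt continuous_const continuous_rho

theorem convex_Dom : Convex ℝ Dom := by
  intro p hp q hq a b ha hb hab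
  simp only [Dom, rho, Set.mem_ofPred_eq] at hp hq ⊢
  have h1 : (a • p + b • q).2.im = a * p.2.im + b * q.2.im := by simp
  have h2 : ‖(a • p + b • q).1‖ ^ 2 ≤ a * ‖p.1‖ ^ 2 + b * ‖q.1‖ ^ 2 := by
    have h3 : ‖(a • p + b • q).1‖ ≤ a * ‖p.1‖ + b * ‖q.1‖ := by
      have := norm_add_le (a • p.1) (b • q.1)
      rw [norm_smul, norm_smul, Real.norm_of_nonneg ha, Real.norm_of_nonneg hb] at this
      simpa using this
    have h4 : ‖(a • p + b • q).1‖ ^ 2 ≤ (a * ‖p.1‖ + b * ‖q.1‖) ^ 2 :=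
      pow_le_pow_left₀ (norm_nonneg _) h3 2
    have h5 : (a * ‖p.1‖ + b * ‖q.1‖) ^ 2 + a * b * (‖p.1‖ - ‖q.1‖) ^ 2
        = (a + b) * (a * ‖p.1‖ ^ 2 + b * ‖q.1‖ ^ 2) := by ring
    rw [hab, one_mul] at h5
    have h6 : 0 ≤ a * b * (‖p.1‖ - ‖q.1‖) ^ 2 := by positivity
    linarith
  rw [h1]
  rcases eq_or_lt_of_le ha with h | h
  · subst h
    have hb1 : b = 1 := by linarith
    subst hb1
    nlinarith
  · nlinarith [mul_pos h hp, mul_nonneg hb hq.le]

theorem im_pos {p : B2} (hp : p ∈ Dom) : 0 < p.2.im := by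
  simp only [Dom, rho, Set.mem_ofPred_eq] at hp
  nlinarith [sq_nonneg ‖p.1‖]

/-- nonvanishing at arbitrarily low height -/
theorem exists_low {F : B2 → ℂ} (hF : DifferentiableOn ℂ F Dom) (hne : ∃ p ∈ Dom, F p ≠ 0)
    {m : ℝ} (hm : 0 < m) : ∃ p ∈ Dom, p.2.im < m ∧ F p ≠ 0 := by
  by_contra hcon
  push Not at hcon
  obtain ⟨x, hx, hFx⟩ := hne
  -- the point (0, i m/2)
  set p : B2 := (0, I * ((m / 2 : ℝ) : ℂ)) with hp
  have hpim : p.2.im = m / 2 := by
    simp only [hp, Complex.mul_im, Complex.I_re, Complex.I_im, Complex.ofReal_re,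
      Complex.ofReal_im]
    ring
  have hpD : p ∈ Dom := by
    simp only [Dom, rho, Set.mem_ofPred_eq]
    rw [hpim, hp]
    simp
    exact hm
  apply hFx
  refine Hol.eq_zero_of_convex isOpen_Dom convex_Dom hF hpD ?_ hx
  have h1 : {q : B2 | q.2.im < m} ∈ 𝓝 p := by
    apply IsOpen.mem_nhds
    · exact isOpen_lt (by fun_prop) continuous_const
    · change p.2.im < m
      rw [hpim]; linarith
  filter_upwards [isOpen_Dom.mem_nhds hpD, h1] with q hq1 hq2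
  exact hcon q hq1 hq2

theorem norm_exp_IM (M : ℝ) (a b : ℂ) :
    ‖Complex.exp (I * M * (a - b))‖ = Real.exp (-(M * (a.im - b.im))) := by
  rw [Complex.norm_exp]
  congr 1
  simp only [Complex.mul_re, Complex.I_re, Complex.I_im, Complex.ofReal_re, Complex.ofReal_im,
    Complex.mul_im, Complex.sub_re, Complex.sub_im]
  ring

end NS1

open NS1

/-- almost maximum point of `log |F| - τ/2 Ψ - M Im w`. -/
theorem sup_point (Ψ : B2 → ℝ) (F : B2 → ℂ) (hF : DifferentiableOn ℂ F Dom)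
    (τ C Vh v δ : ℝ) (hτ : 0 < τ) (hVh : 0 < Vh) (hv : 0 < v) (hδ : 0 < δ)
    (hC : ∀ p ∈ Dom, p.2.im < Vh → ‖F p‖ ≤ C * Real.exp (τ / 2 * Ψ p))
    (hne : ∃ p ∈ Dom, F p ≠ 0) :
    ∃ p ∈ Dom, p.2.im < v ∧ F p ≠ 0 ∧ ∃ M : ℝ, ∀ q ∈ Dom, q.2.im < Vh →
      ‖F q * Complex.exp (I * M * (q.2 - p.2)) / F p‖ ≤ Real.exp (τ / 2 * (Ψ q - Ψ p) + δ) := by
  set v' : ℝ := min v Vh / 2 with hv'
  have hmin : 0 < min v Vh := lt_min hv hVh
  obtain ⟨p0, hp0, hp0im, hFp0⟩ := exists_low hF hne (m := min v Vh / 4) (by positivity)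
  have hp0Vh : p0.2.im < Vh := by
    have : min v Vh ≤ Vh := min_le_right _ _
    linarith
  set A0 : ℝ := ‖F p0‖ * Real.exp (-(τ / 2 * Ψ p0)) with hA0
  have hA0pos : 0 < A0 := mul_pos (norm_pos_iff.mpr hFp0) (Real.exp_pos _)
  have hCpos : 0 < C := by
    have h1 := hC p0 hp0 hp0Vh
    have h2 : 0 < ‖F p0‖ := norm_pos_iff.mpr hFp0
    have h3 : 0 < C * Real.exp (τ / 2 * Ψ p0) := lt_of_lt_of_le h2 h1
    exact pos_of_mul_pos_left h3 (Real.exp_pos _).le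
  have hc : 0 < v' - p0.2.im := by
    have : v' = min v Vh / 2 := hv'
    linarith
  obtain ⟨M, hM0, hM⟩ : ∃ M : ℝ, 0 ≤ M ∧ C < A0 * Real.exp (M * (v' - p0.2.im)) := by
    refine ⟨C / A0 / (v' - p0.2.im), by positivity, ?_⟩
    rw [div_mul_cancel₀ _ hc.ne']
    have h1 : C / A0 + 1 ≤ Real.exp (C / A0) := Real.add_one_le_exp _
    have h2 : A0 * (C / A0 + 1) ≤ A0 * Real.exp (C / A0) := mul_le_mul_of_nonneg_left h1 hA0pos.le
    have h3 : A0 * (C / A0 + 1) = C + A0 := by field_simp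
    linarith
  -- the functional
  set g : B2 → ℝ := fun q => ‖F q‖ * Real.exp (-(τ / 2 * Ψ q)) * Real.exp (-(M * q.2.im)) with hg
  set Ω : Set B2 := {q | q ∈ Dom ∧ q.2.im < Vh} with hΩ
  have hgle : ∀ q ∈ Ω, g q ≤ C * Real.exp (-(M * q.2.im)) := by
    intro q hq
    have h1 := hC q hq.1 hq.2
    have h2 : ‖F q‖ * Real.exp (-(τ / 2 * Ψ q)) ≤ C := by
      calc ‖F q‖ * Real.exp (-(τ / 2 * Ψ q))
          ≤ C * Real.exp (τ / 2 * Ψ q) * Real.exp (-(τ / 2 * Ψ q)) :=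
            mul_le_mul_of_nonneg_right h1 (Real.exp_pos _).le
        _ = C := by rw [mul_assoc, ← Real.exp_add]; simp
    exact mul_le_mul_of_nonneg_right h2 (Real.exp_pos _).le
  have hgC : ∀ q ∈ Ω, g q ≤ C := by
    intro q hq
    refine (hgle q hq).trans ?_
    have : Real.exp (-(M * q.2.im)) ≤ 1 := by
      rw [Real.exp_le_one_iff]
      have := mul_nonneg hM0 (im_pos hq.1).le
      linarith
    nlinarith
  have hp0Ω : p0 ∈ Ω := ⟨hp0, hp0Vh⟩
  have hbdd : BddAbove (g '' Ω) := ⟨C, by rintro _ ⟨q, hq, rfl⟩; exact hgC q hq⟩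
  set S : ℝ := sSup (g '' Ω) with hS
  have hgS : ∀ q ∈ Ω, g q ≤ S := fun q hq => le_csSup hbdd ⟨q, hq, rfl⟩
  have hgp0 : g p0 = A0 * Real.exp (-(M * p0.2.im)) := rfl
  have hgp0pos : 0 < g p0 := by rw [hgp0]; positivity
  have hSpos : 0 < S := lt_of_lt_of_le hgp0pos (hgS p0 hp0Ω)
  have hlow : C * Real.exp (-(M * v')) < g p0 := by
    rw [hgp0]
    have h1 : Real.exp (-(M * p0.2.im)) = Real.exp (M * (v' - p0.2.im)) * Real.exp (-(M * v')) := by
      rw [← Real.exp_add]; congr 1; ring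
    rw [h1, ← mul_assoc]
    exact mul_lt_mul_of_pos_right hM (Real.exp_pos _)
  have hmax : max (S * Real.exp (-δ)) (C * Real.exp (-(M * v'))) < S := by
    refine max_lt ?_ (lt_of_lt_of_le hlow (hgS p0 hp0Ω))
    have : Real.exp (-δ) < 1 := by rw [Real.exp_lt_one_iff]; linarith
    nlinarith
  obtain ⟨_, ⟨p, hpΩ, rfl⟩, hp⟩ := exists_lt_of_lt_csSup
    (⟨g p0, p0, hp0Ω, rfl⟩ : (g '' Ω).Nonempty) hmax
  have hp1 : S * Real.exp (-δ) < g p := (le_max_left _ _).trans_lt hp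
  have hp2 : C * Real.exp (-(M * v')) < g p := (le_max_right _ _).trans_lt hp
  have hgp : 0 < g p := lt_of_le_of_lt (by positivity) hp2
  have hFp : F p ≠ 0 := by
    intro h0
    have : g p = 0 := by simp [hg, h0]
    linarith
  have himp : p.2.im < v' := by
    by_contra hcon
    push Not at hcon
    have h1 := hgle p hpΩ
    have h2 : Real.exp (-(M * p.2.im)) ≤ Real.exp (-(M * v')) := by
      apply Real.exp_le_exp.mpr
      have := mul_le_mul_of_nonneg_left hcon hM0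
      linarith
    have h3 := mul_le_mul_of_nonneg_left h2 hCpos.le
    linarith
  refine ⟨p, hpΩ.1, ?_, hFp, M, fun q hq hqV => ?_⟩
  · have : min v Vh ≤ v := min_le_left _ _
    linarith
  · have h1 : g q ≤ S := hgS q ⟨hq, hqV⟩
    have h2 : S < g p * Real.exp δ := by
      have h3 := mul_lt_mul_of_pos_right hp1 (Real.exp_pos δ)
      rw [mul_assoc, ← Real.exp_add] at h3
      simpa using h3
    have h3 : g q ≤ g p * Real.exp δ := (h1.trans_lt h2).le
    have hFppos : 0 < ‖F p‖ := norm_pos_iff.mpr hFp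
    rw [norm_div, norm_mul, norm_exp_IM, div_le_iff₀ hFppos]
    simp only [hg] at h3
    -- multiply by exponentials
    have h4 := mul_le_mul_of_nonneg_right h3
      (Real.exp_pos (τ / 2 * Ψ q + M * p.2.im)).le
    have e1 : ‖F q‖ * Real.exp (-(τ / 2 * Ψ q)) * Real.exp (-(M * q.2.im)) *
        Real.exp (τ / 2 * Ψ q + M * p.2.im) = ‖F q‖ * Real.exp (-(M * (q.2.im - p.2.im))) := by
      rw [mul_assoc, mul_assoc, ← Real.exp_add, ← Real.exp_add]
      congr 2; ring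
    have e2 : ‖F p‖ * Real.exp (-(τ / 2 * Ψ p)) * Real.exp (-(M * p.2.im)) * Real.exp δ *
        Real.exp (τ / 2 * Ψ q + M * p.2.im) = Real.exp (τ / 2 * (Ψ q - Ψ p) + δ) * ‖F p‖ := by
      rw [mul_assoc, mul_assoc, mul_assoc, ← Real.exp_add, ← Real.exp_add, ← Real.exp_add,
        mul_comm]
      congr 2; ring
    rw [e1, e2] at h4
    exact h4

end Crest.Agent.R245
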