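import Crest.Agent.R245.Defs2

/-! Row 245, Ops: basic calculus of `dz`, `dzb`. -/

set_option autoImplicit false
set_option linter.unusedSectionVars false

namespace Crest.Agent.R245

open Complex Filter Topology
open scoped ContDiff ComplexConjugate

section Ops

variable {V : Type*} [NormedAddCommGroup V] [NormedSpace ℝ V] [NormedSpace ℂ V] [IsScalarTower ℝ ℂ V]
variable {V' : Type*} [NormedAddCommGroup V'] [NormedSpace ℝ V'] [NormedSpace ℂ V']
  [IsScalarTower ℝ ℂ V']
variable {X Y Z W : V} {u v : V → ℂ} {p : V}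

theorem dz_congr (h : u =ᶠ[𝓝 p] v) : dz X u p = dz X v p := by
  unfold dz; rw [h.fderiv_eq]
theorem dzb_congr (h : u =ᶠ[𝓝 p] v) : dzb X u p = dzb X v p := by
  unfold dzb; rw [h.fderiv_eq]
theorem dz_eventuallyEq (h : u =ᶠ[𝓝 p] v) : dz X u =ᶠ[𝓝 p] dz X v := by
  filter_upwards [h.eventuallyEq_nhds] with q hq using dz_congr hq
theorem dzb_eventuallyEq (h : u =ᶠ[𝓝 p] v) : dzb X u =ᶠ[𝓝 p] dzb X v := by
  filter_upwards [h.eventuallyEq_nhds] with q hq using dzb_congr hq
theorem fderiv_eq_dz_add_dzb (X : V) (u : V → ℂ) (p : V) :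
    fderiv ℝ u p X = dz X u p + dzb X u p := by
  unfold dz dzb; ring
theorem dz_vec_add (X Y : V) (u : V → ℂ) (p : V) : dz (X + Y) u p = dz X u p + dz Y u p := by
  unfold dz; rw [smul_add, map_add, map_add]; ring

theorem smul_eq_re_im (c : ℂ) (X : V) : c • X = (c.re : ℝ) • X + (c.im : ℝ) • (I • X) := by
  conv_lhs => rw [← Complex.re_add_im c]
  rw [add_smul, mul_smul]
  have h1 : ∀ (r : ℝ) (v : V), ((r : ℂ)) • v = r • v := by
    intro r v
    have := smul_assoc r (1 : ℂ) v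
    rw [one_smul] at this
    rw [← this]; congr 1; simp
  rw [h1, h1]

theorem I_smul_smul (c : ℂ) (X : V) :
    I • (c • X) = (c.re : ℝ) • (I • X) - (c.im : ℝ) • X := by
  rw [smul_comm I c X, smul_eq_re_im c (I • X), smul_smul I I X, I_mul_I]
  rw [neg_one_smul, smul_neg, sub_eq_add_neg]

theorem dz_vec_smul (c : ℂ) (X : V) (u : V → ℂ) (p : V) : dz (c • X) u p = c * dz X u p := by
  unfold dz
  rw [I_smul_smul, smul_eq_re_im c X]
  simp only [map_add, map_sub, map_smul, Complex.real_smul]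
  conv_rhs => rw [← Complex.re_add_im c]
  linear_combination ((c.im : ℂ) * (fderiv ℝ u p) (I • X) / 2) * I_mul_I
theorem dzb_vec_add (X Y : V) (u : V → ℂ) (p : V) : dzb (X + Y) u p = dzb X u p + dzb Y u p := by
  unfold dzb; rw [smul_add, map_add, map_add]; ring
theorem dzb_vec_smul (c : ℂ) (X : V) (u : V → ℂ) (p : V) :
    dzb (c • X) u p = conj c * dzb X u p := by
  unfold dzb
  rw [I_smul_smul, smul_eq_re_im c X]
  simp only [map_add, map_sub, map_smul, Complex.real_smul]
  have hc : conj c = (c.re : ℂ) - c.im * I := by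
    apply Complex.ext <;> simp
  rw [hc]
  linear_combination ((c.im : ℂ) * (fderiv ℝ u p) (I • X) / 2) * I_mul_I

@[simp] theorem dz_vec_zero (u : V → ℂ) (p : V) : dz (0 : V) u p = 0 := by
  unfold dz; simp
@[simp] theorem dzb_vec_zero (u : V → ℂ) (p : V) : dzb (0 : V) u p = 0 := by
  unfold dzb; simp
theorem dz_vec_sum {ι : Type*} (s : Finset ι) (X : ι → V) (u : V → ℂ) (p : V) :
    dz (∑ i ∈ s, X i) u p = ∑ i ∈ s, dz (X i) u p := by
  classical
  induction s using Finset.induction_on with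
  | empty => simp
  | insert a s ha ih => rw [Finset.sum_insert ha, Finset.sum_insert ha, dz_vec_add, ih]

theorem dz_const (c : ℂ) : dz X (fun _ : V => c) p = 0 := by
  unfold dz; simp
theorem dzb_const (c : ℂ) : dzb X (fun _ : V => c) p = 0 := by
  unfold dzb; simp
theorem dz_add (hu : DifferentiableAt ℝ u p) (hv : DifferentiableAt ℝ v p) :
    dz X (fun q => u q + v q) p = dz X u p + dz X v p := by
  unfold dz; rw [fderiv_fun_add hu hv]; simp only [add_apply]; ring
theorem dzb_add (hu : DifferentiableAt ℝ u p) (hv : DifferentiableAt ℝ v p) :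
    dzb X (fun q => u q + v q) p = dzb X u p + dzb X v p := by
  unfold dzb; rw [fderiv_fun_add hu hv]; simp only [add_apply]; ring
theorem dz_sub (hu : DifferentiableAt ℝ u p) (hv : DifferentiableAt ℝ v p) :
    dz X (fun q => u q - v q) p = dz X u p - dz X v p := by
  unfold dz; rw [fderiv_fun_sub hu hv]; simp only [sub_apply]; ring
theorem dzb_sub (hu : DifferentiableAt ℝ u p) (hv : DifferentiableAt ℝ v p) :
    dzb X (fun q => u q - v q) p = dzb X u p - dzb X v p := by
  unfold dzb; rw [fderiv_fun_sub hu hv]; simp only [sub_apply]; ring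
theorem dz_mul (hu : DifferentiableAt ℝ u p) (hv : DifferentiableAt ℝ v p) :
    dz X (fun q => u q * v q) p = dz X u p * v p + u p * dz X v p := by
  unfold dz; rw [fderiv_fun_mul hu hv]
  simp only [add_apply, smul_apply, smul_eq_mul]; ring
theorem dzb_mul (hu : DifferentiableAt ℝ u p) (hv : DifferentiableAt ℝ v p) :
    dzb X (fun q => u q * v q) p = dzb X u p * v p + u p * dzb X v p := by
  unfold dzb; rw [fderiv_fun_mul hu hv]
  simp only [add_apply, smul_apply, smul_eq_mul]; ring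
theorem dz_const_mul (c : ℂ) (hu : DifferentiableAt ℝ u p) :
    dz X (fun q => c * u q) p = c * dz X u p := by
  rw [dz_mul (differentiableAt_const c) hu, dz_const]; ring
theorem dzb_const_mul (c : ℂ) (hu : DifferentiableAt ℝ u p) :
    dzb X (fun q => c * u q) p = c * dzb X u p := by
  rw [dzb_mul (differentiableAt_const c) hu, dzb_const]; ring


theorem conj_two : (starRingEnd ℂ) 2 = 2 := by
  apply Complex.ext <;> simp

theorem fderiv_conj_apply (u : V → ℂ) (p X : V) :
    fderiv ℝ (fun q => conj (u q)) p X = conj (fderiv ℝ u p X) := by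
  have h : (fun q => conj (u q)) = conjCLE ∘ u := by ext q; simp
  rw [h, ContinuousLinearEquiv.comp_fderiv]; simp

theorem dz_conj (X : V) (u : V → ℂ) (p : V) : dz X (fun q => conj (u q)) p = conj (dzb X u p) := by
  unfold dz dzb; rw [fderiv_conj_apply, fderiv_conj_apply]
  simp [sub_eq_add_neg, conj_two]
theorem dzb_conj (X : V) (u : V → ℂ) (p : V) : dzb X (fun q => conj (u q)) p = conj (dz X u p) := by
  unfold dz dzb; rw [fderiv_conj_apply, fderiv_conj_apply]
  simp [sub_eq_add_neg, conj_two]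
theorem dzb_ofReal (X : V) (s : V → ℝ) (p : V) :
    dzb X (fun q => (s q : ℂ)) p = conj (dz X (fun q => (s q : ℂ)) p) := by
  have h : (fun q => (s q : ℂ)) = (fun q => conj ((s q : ℂ))) := by
    ext q; rw [conj_ofReal]
  conv_lhs => rw [h]
  exact dzb_conj X _ p

theorem fderiv_ofReal_apply {s : V → ℝ} (hs : DifferentiableAt ℝ s p) (X : V) :
    fderiv ℝ (fun q => (s q : ℂ)) p X = ((fderiv ℝ s p X : ℝ) : ℂ) := by
  have h := (ofRealCLM.hasFDerivAt (x := s p)).comp p hs.hasFDerivAt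
  have h2 : (fun q => (s q : ℂ)) = (⇑ofRealCLM ∘ s) := by
    ext q; simp
  rw [h2, h.fderiv]; simp

theorem differentiableAt_ofReal {s : V → ℝ} (hs : DifferentiableAt ℝ s p) :
    DifferentiableAt ℝ (fun q => (s q : ℂ)) p :=
  (ofRealCLM.hasFDerivAt.comp p hs.hasFDerivAt).differentiableAt

theorem contDiffAt_ofReal {n : WithTop ℕ∞} {s : V → ℝ} (hs : ContDiffAt ℝ n s p) :
    ContDiffAt ℝ n (fun q => (s q : ℂ)) p :=
  ofRealCLM.contDiff.contDiffAt.comp p hs

theorem dz_comp_real (f : ℝ → ℝ) (s : V → ℝ) (hf : DifferentiableAt ℝ f (s p))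
    (hs : DifferentiableAt ℝ s p) :
    dz X (fun q => (f (s q) : ℂ)) p = ((deriv f (s p) : ℝ) : ℂ) * dz X (fun q => (s q : ℂ)) p := by
  have h1 : HasFDerivAt (fun q => f (s q)) (deriv f (s p) • fderiv ℝ s p) p :=
    hf.hasDerivAt.comp_hasFDerivAt p hs.hasFDerivAt
  unfold dz
  rw [fderiv_ofReal_apply h1.differentiableAt, fderiv_ofReal_apply h1.differentiableAt, h1.fderiv,
    fderiv_ofReal_apply hs, fderiv_ofReal_apply hs]
  simp only [smul_apply, smul_eq_mul, ofReal_mul]; ring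
theorem dzb_comp_real (f : ℝ → ℝ) (s : V → ℝ) (hf : DifferentiableAt ℝ f (s p))
    (hs : DifferentiableAt ℝ s p) :
    dzb X (fun q => (f (s q) : ℂ)) p = ((deriv f (s p) : ℝ) : ℂ) * dzb X (fun q => (s q : ℂ)) p := by
  have h1 : HasFDerivAt (fun q => f (s q)) (deriv f (s p) • fderiv ℝ s p) p :=
    hf.hasDerivAt.comp_hasFDerivAt p hs.hasFDerivAt
  unfold dzb
  rw [fderiv_ofReal_apply h1.differentiableAt, fderiv_ofReal_apply h1.differentiableAt, h1.fderiv,
    fderiv_ofReal_apply hs, fderiv_ofReal_apply hs]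
  simp only [smul_apply, smul_eq_mul, ofReal_mul]; ring


theorem fderiv_real_of_hol (hu : DifferentiableAt ℂ u p) (X : V) :
    fderiv ℝ u p X = fderiv ℂ u p X := by
  rw [(hu.hasFDerivAt.restrictScalars ℝ).fderiv]; rfl

theorem dzb_hol (hu : DifferentiableAt ℂ u p) : dzb X u p = 0 := by
  unfold dzb
  rw [fderiv_real_of_hol hu, fderiv_real_of_hol hu, map_smul, smul_eq_mul]
  linear_combination ((fderiv ℂ u p X) / 2) * I_mul_I
theorem dz_hol (hu : DifferentiableAt ℂ u p) : dz X u p = fderiv ℂ u p X := by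
  unfold dz
  rw [fderiv_real_of_hol hu, fderiv_real_of_hol hu, map_smul, smul_eq_mul]
  linear_combination (-(fderiv ℂ u p X) / 2) * I_mul_I

theorem contDiffAt_fderiv_apply {n m : WithTop ℕ∞} (X : V) (h : ContDiffAt ℝ m u p)
    (hn : n + 1 ≤ m) : ContDiffAt ℝ n (fun q => fderiv ℝ u q X) p :=
  (h.fderiv_right hn).clm_apply contDiffAt_const

theorem contDiffAt_dz_le {n m : WithTop ℕ∞} (X : V) (h : ContDiffAt ℝ m u p)
    (hn : n + 1 ≤ m) : ContDiffAt ℝ n (dz X u) p := by
  unfold dz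
  exact ((contDiffAt_fderiv_apply X h hn).sub
    (contDiffAt_const.mul (contDiffAt_fderiv_apply (I • X) h hn))).div_const 2
theorem contDiffAt_dzb_le {n m : WithTop ℕ∞} (X : V) (h : ContDiffAt ℝ m u p)
    (hn : n + 1 ≤ m) : ContDiffAt ℝ n (dzb X u) p := by
  unfold dzb
  exact ((contDiffAt_fderiv_apply X h hn).add
    (contDiffAt_const.mul (contDiffAt_fderiv_apply (I • X) h hn))).div_const 2
theorem contDiffAt_dz_inf (X : V) (h : ContDiffAt ℝ ∞ u p) : ContDiffAt ℝ ∞ (dz X u) p :=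
  contDiffAt_dz_le X h (by simp)
theorem contDiffAt_dzb_inf (X : V) (h : ContDiffAt ℝ ∞ u p) : ContDiffAt ℝ ∞ (dzb X u) p :=
  contDiffAt_dzb_le X h (by simp)

theorem differentiableAt_fderiv (h : ContDiffAt ℝ 2 u p) :
    DifferentiableAt ℝ (fun q => fderiv ℝ u q) p :=
  (h.fderiv_right (m := 1) (by norm_num)).differentiableAt (by simp)

theorem fderiv_fderiv_apply (h : ContDiffAt ℝ 2 u p) (X v : V) :
    fderiv ℝ (fun q => fderiv ℝ u q X) p v = fderiv ℝ (fderiv ℝ u) p v X := by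
  have h2 := differentiableAt_fderiv h
  rw [(h2.hasFDerivAt.clm_apply (hasFDerivAt_const X p)).fderiv]; simp

theorem differentiableAt_fderiv_apply (h : ContDiffAt ℝ 2 u p) (X : V) :
    DifferentiableAt ℝ (fun q => fderiv ℝ u q X) p :=
  (contDiffAt_fderiv_apply (n := 1) X h (by norm_num)).differentiableAt (by simp)

theorem fderiv_fderiv_symm (h : ContDiffAt ℝ 2 u p) (v w : V) :
    fderiv ℝ (fderiv ℝ u) p v w = fderiv ℝ (fderiv ℝ u) p w v :=
  h.isSymmSndFDerivAt (by rw [minSmoothness_of_isRCLikeNormedField]) v w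

theorem fderiv_dz (h : ContDiffAt ℝ 2 u p) (X v : V) :
    fderiv ℝ (dz X u) p v =
      (fderiv ℝ (fderiv ℝ u) p v X - I * fderiv ℝ (fderiv ℝ u) p v (I • X)) / 2 := by
  have h1 := differentiableAt_fderiv_apply h X
  have h2 := differentiableAt_fderiv_apply h (I • X)
  have h3 : HasFDerivAt (dz X u) ((2 : ℂ)⁻¹ • (fderiv ℝ (fun q => fderiv ℝ u q X) p
      - I • fderiv ℝ (fun q => fderiv ℝ u q (I • X)) p)) p := by
    have := ((h1.hasFDerivAt).sub (h2.hasFDerivAt.const_mul I)).const_mul ((2 : ℂ)⁻¹)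
    refine this.congr_of_eventuallyEq (Filter.Eventually.of_forall fun q => ?_)
    simp only [dz, Pi.sub_apply]; ring
  rw [h3.fderiv]
  simp only [smul_apply, sub_apply, smul_eq_mul]
  rw [fderiv_fderiv_apply h, fderiv_fderiv_apply h]; ring

theorem fderiv_dzb (h : ContDiffAt ℝ 2 u p) (X v : V) :
    fderiv ℝ (dzb X u) p v =
      (fderiv ℝ (fderiv ℝ u) p v X + I * fderiv ℝ (fderiv ℝ u) p v (I • X)) / 2 := by
  have h1 := differentiableAt_fderiv_apply h X
  have h2 := differentiableAt_fderiv_apply h (I • X)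
  have h3 : HasFDerivAt (dzb X u) ((2 : ℂ)⁻¹ • (fderiv ℝ (fun q => fderiv ℝ u q X) p
      + I • fderiv ℝ (fun q => fderiv ℝ u q (I • X)) p)) p := by
    have := ((h1.hasFDerivAt).add (h2.hasFDerivAt.const_mul I)).const_mul ((2 : ℂ)⁻¹)
    refine this.congr_of_eventuallyEq (Filter.Eventually.of_forall fun q => ?_)
    simp only [dzb, Pi.add_apply]; ring
  rw [h3.fderiv]
  simp only [smul_apply, add_apply, smul_eq_mul]
  rw [fderiv_fderiv_apply h, fderiv_fderiv_apply h]; ring

/-- explicit value of `∂_X ∂̄_Y u`. -/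
theorem dz_dzb_eq (h : ContDiffAt ℝ 2 u p) (X Y : V) : dz X (dzb Y u) p =
      (fderiv ℝ (fderiv ℝ u) p X Y + fderiv ℝ (fderiv ℝ u) p (I • X) (I • Y)
        + I * (fderiv ℝ (fderiv ℝ u) p X (I • Y) - fderiv ℝ (fderiv ℝ u) p (I • X) Y)) / 4 := by
  have e1 : dz X (dzb Y u) p
      = (fderiv ℝ (dzb Y u) p X - I * fderiv ℝ (dzb Y u) p (I • X)) / 2 := rfl
  rw [e1, fderiv_dzb h, fderiv_dzb h]
  linear_combination (-(fderiv ℝ (fderiv ℝ u) p (I • X) (I • Y)) / 4) * I_mul_I

theorem dz_comm (h : ContDiffAt ℝ 2 u p) : dz X (dz Y u) p = dz Y (dz X u) p := by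
  have e : ∀ A B : V, dz A (dz B u) p = (fderiv ℝ (dz B u) p A - I * fderiv ℝ (dz B u) p (I • A)) / 2 :=
    fun A B => rfl
  rw [e X Y, e Y X, fderiv_dz h, fderiv_dz h, fderiv_dz h, fderiv_dz h, fderiv_fderiv_symm h Y X,
    fderiv_fderiv_symm h (I • Y) X, fderiv_fderiv_symm h Y (I • X),
    fderiv_fderiv_symm h (I • Y) (I • X)]
  ring
theorem dzb_comm (h : ContDiffAt ℝ 2 u p) : dzb X (dzb Y u) p = dzb Y (dzb X u) p := by
  have e : ∀ A B : V, dzb A (dzb B u) p
      = (fderiv ℝ (dzb B u) p A + I * fderiv ℝ (dzb B u) p (I • A)) / 2 :=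
    fun A B => rfl
  rw [e X Y, e Y X, fderiv_dzb h, fderiv_dzb h, fderiv_dzb h, fderiv_dzb h, fderiv_fderiv_symm h Y X,
    fderiv_fderiv_symm h (I • Y) X, fderiv_fderiv_symm h Y (I • X),
    fderiv_fderiv_symm h (I • Y) (I • X)]
  ring
theorem dz_dzb_comm (h : ContDiffAt ℝ 2 u p) : dz X (dzb Y u) p = dzb Y (dz X u) p := by
  have e2 : dzb Y (dz X u) p
      = (fderiv ℝ (dz X u) p Y + I * fderiv ℝ (dz X u) p (I • Y)) / 2 := rfl
  rw [dz_dzb_eq h, e2, fderiv_dz h, fderiv_dz h, fderiv_fderiv_symm h Y X,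
    fderiv_fderiv_symm h (I • Y) X,
    fderiv_fderiv_symm h Y (I • X), fderiv_fderiv_symm h (I • Y) (I • X)]
  linear_combination ((fderiv ℝ (fderiv ℝ u) p (I • X) (I • Y)) / 4) * I_mul_I

/-- composition with a complex affine map -/
theorem dz_comp_affine (L : V →L[ℂ] V') (x₀ : V') {f : V' → ℂ}
    (hf : DifferentiableAt ℝ f (L p + x₀)) :
    dz X (fun q => f (L q + x₀)) p = dz (L X) f (L p + x₀) := by
  have hT : HasFDerivAt (fun q => L q + x₀) L p := L.hasFDerivAt.add_const x₀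
  have h := hf.hasFDerivAt.comp p (hT.restrictScalars ℝ)
  have h2 : fderiv ℝ (fun q => f (L q + x₀)) p
      = (fderiv ℝ f (L p + x₀)).comp (L.restrictScalars ℝ) := h.fderiv
  unfold dz; rw [h2]; simp
theorem dzb_comp_affine (L : V →L[ℂ] V') (x₀ : V') {f : V' → ℂ}
    (hf : DifferentiableAt ℝ f (L p + x₀)) :
    dzb X (fun q => f (L q + x₀)) p = dzb (L X) f (L p + x₀) := by
  have hT : HasFDerivAt (fun q => L q + x₀) L p := L.hasFDerivAt.add_const x₀
  have h := hf.hasFDerivAt.comp p (hT.restrictScalars ℝ)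
  have h2 : fderiv ℝ (fun q => f (L q + x₀)) p
      = (fderiv ℝ f (L p + x₀)).comp (L.restrictScalars ℝ) := h.fderiv
  unfold dzb; rw [h2]; simp

theorem differentiableAt_comp_affineEquiv (L : V ≃L[ℂ] V') (x₀ : V') (f : V' → ℂ) :
    DifferentiableAt ℝ (fun q => f (L q + x₀)) p ↔ DifferentiableAt ℝ f (L p + x₀) := by
  constructor
  · intro h
    have hT1 : DifferentiableAt ℂ (fun y : V' => L.symm (y - x₀)) (L p + x₀) :=
      (L.symm.differentiableAt).comp (L p + x₀) (differentiableAt_id.sub_const x₀)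
    have hT2 : DifferentiableAt ℝ (fun y : V' => L.symm (y - x₀)) (L p + x₀) :=
      (hT1.hasFDerivAt.restrictScalars ℝ).differentiableAt
    have h' : DifferentiableAt ℝ (fun q => f (L q + x₀)) ((fun y : V' => L.symm (y - x₀)) (L p + x₀)) := by
      simpa using h
    have h3 := h'.comp (L p + x₀) hT2
    refine h3.congr_of_eventuallyEq (Filter.Eventually.of_forall fun y => ?_)
    simp
  · intro hf
    have hT : HasFDerivAt (fun q => L q + x₀) (L : V →L[ℂ] V') p :=
      (L : V →L[ℂ] V').hasFDerivAt.add_const x₀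
    exact hf.comp p (hT.restrictScalars ℝ).differentiableAt

theorem dz_comp_affineEquiv (L : V ≃L[ℂ] V') (x₀ : V') (f : V' → ℂ) :
    dz X (fun q => f (L q + x₀)) p = dz (L X) f (L p + x₀) := by
  by_cases hf : DifferentiableAt ℝ f (L p + x₀)
  · exact dz_comp_affine (L : V →L[ℂ] V') x₀ hf
  · have hf' : ¬ DifferentiableAt ℝ (fun q => f (L q + x₀)) p := by
      rw [differentiableAt_comp_affineEquiv]; exact hf
    unfold dz
    rw [fderiv_zero_of_not_differentiableAt hf, fderiv_zero_of_not_differentiableAt hf']; simp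
theorem dzb_comp_affineEquiv (L : V ≃L[ℂ] V') (x₀ : V') (f : V' → ℂ) :
    dzb X (fun q => f (L q + x₀)) p = dzb (L X) f (L p + x₀) := by
  by_cases hf : DifferentiableAt ℝ f (L p + x₀)
  · exact dzb_comp_affine (L : V →L[ℂ] V') x₀ hf
  · have hf' : ¬ DifferentiableAt ℝ (fun q => f (L q + x₀)) p := by
      rw [differentiableAt_comp_affineEquiv]; exact hf
    unfold dzb
    rw [fderiv_zero_of_not_differentiableAt hf, fderiv_zero_of_not_differentiableAt hf']; simp

end Ops

end Crest.Agent.R245
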