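import Crest.Agent.R245.WildDefs
import Crest.Agent.R245.WildV3
import Crest.Agent.R245.BasePertA

-- ▼ part R245/WildV1
section

/-! TASK WildV1 (helper225) -/

set_option autoImplicit false

namespace Crest.Agent.R245

open Complex Filter Topology
open scoped ContDiff ComplexConjugate

theorem vfun_contDiff {ε T : ℝ} (hε : 0 < ε) : ContDiff ℝ ∞ (vfun ε T) := by
  unfold vfun
  have him : ContDiff ℝ ∞ (fun w : ℂ => w.im) := Complex.imCLM.contDiff
  have h1 : ContDiff ℝ ∞ (fun w : ℂ => Real.smoothTransition (T - w.im)) :=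
    Real.smoothTransition.contDiff.comp (contDiff_const.sub him)
  have hexp : ContDiff ℝ ∞ (fun w : ℂ => 1 + Complex.exp (1 + I * w)) := by
    have h : ContDiff ℂ ∞ (fun w : ℂ => 1 + Complex.exp (1 + I * w)) := by
      fun_prop
    exact h.restrict_scalars ℝ
  have h2 : ContDiff ℝ ∞ (fun w : ℂ => ‖1 + Complex.exp (1 + I * w)‖ ^ 2 + ε ^ 2) :=
    (hexp.norm_sq ℝ).add contDiff_const
  have h3 : ContDiff ℝ ∞
      (fun w : ℂ => Real.log (‖1 + Complex.exp (1 + I * w)‖ ^ 2 + ε ^ 2)) :=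
    h2.log (fun w => by positivity)
  exact h1.mul (h3.sub contDiff_const)

theorem vfun_eq_zero {ε T : ℝ} {w : ℂ} (h : T ≤ w.im) : vfun ε T w = 0 := by
  unfold vfun
  rw [Real.smoothTransition.zero_of_nonpos (by linarith), zero_mul]

theorem norm_exp_one_add (w : ℂ) : ‖Complex.exp (1 + I * w)‖ = Real.exp (1 - w.im) := by
  rw [Complex.norm_exp]
  congr 1
  simp
  ring

theorem vfun_le {ε T : ℝ} {w : ℂ} (hε : 0 < ε) (hε1 : ε ≤ 1) (hT : 3 ≤ T) (hw : 0 ≤ w.im) :
    vfun ε T w ≤ 13 * Real.exp (-w.im) := by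
  set r : ℝ := Real.exp (1 - w.im) with hr
  have hr0 : 0 < r := Real.exp_pos _
  have hre : r = Real.exp 1 * Real.exp (-w.im) := by
    rw [hr, ← Real.exp_add]; congr 1
  have he1 : Real.exp 1 < 2.7182818286 := Real.exp_one_lt_d9
  have he0 : 0 < Real.exp (-w.im) := Real.exp_pos _
  have he2 : Real.exp (-w.im) ≤ 1 := Real.exp_le_one_iff.2 (by linarith)
  have hX1 : ‖1 + Complex.exp (1 + I * w)‖ ≤ 1 + r := by
    refine (norm_add_le _ _).trans ?_
    rw [norm_one, norm_exp_one_add]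
  have hX : ‖1 + Complex.exp (1 + I * w)‖ ^ 2 ≤ (1 + r) ^ 2 :=
    pow_le_pow_left₀ (norm_nonneg _) hX1 2
  set X : ℝ := ‖1 + Complex.exp (1 + I * w)‖ ^ 2 with hXdef
  have hX0 : 0 ≤ X := by positivity
  have hε2 : 0 < 1 + ε ^ 2 := by positivity
  have hlog : Real.log (X + ε ^ 2) - Real.log (1 + ε ^ 2) ≤ 13 * Real.exp (-w.im) := by
    rw [← Real.log_div (by positivity) hε2.ne']
    refine (Real.log_le_sub_one_of_pos (by positivity)).trans ?_
    have h1 : (X + ε ^ 2) / (1 + ε ^ 2) - 1 = (X - 1) / (1 + ε ^ 2) := by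
      field_simp
      ring
    rw [h1]
    have h2 : X - 1 ≤ 2 * r + r ^ 2 := by nlinarith
    have h3 : (X - 1) / (1 + ε ^ 2) ≤ 2 * r + r ^ 2 := by
      rw [div_le_iff₀ hε2]
      have : 0 ≤ 2 * r + r ^ 2 := by positivity
      nlinarith [sq_nonneg ε]
    refine h3.trans ?_
    rw [hre]
    have h4 : (Real.exp 1) ^ 2 * Real.exp (-w.im) ^ 2 ≤ (Real.exp 1) ^ 2 * Real.exp (-w.im) := by
      have : Real.exp (-w.im) ^ 2 ≤ Real.exp (-w.im) := by nlinarith
      exact mul_le_mul_of_nonneg_left this (by positivity)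
    have h5 : 2 * Real.exp 1 + (Real.exp 1) ^ 2 ≤ 13 := by
      nlinarith [Real.exp_pos 1]
    nlinarith
  unfold vfun
  rw [← hXdef]
  have hs0 : 0 ≤ Real.smoothTransition (T - w.im) := Real.smoothTransition.nonneg _
  have hs1 : Real.smoothTransition (T - w.im) ≤ 1 := Real.smoothTransition.le_one _
  have hpos : 0 ≤ 13 * Real.exp (-w.im) := by positivity
  rcases le_total 0 (Real.log (X + ε ^ 2) - Real.log (1 + ε ^ 2)) with h | h
  · nlinarith
  · nlinarith

theorem vfun_ge : ∃ C : ℝ, 0 < C ∧ ∀ (ε T : ℝ) (w : ℂ), 0 < ε → ε ≤ 1 → 3 ≤ T → 2 ≤ w.im →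
    -C * Real.exp (-w.im) ≤ vfun ε T w := by
  refine ⟨20, by norm_num, fun ε T w hε hε1 hT hw => ?_⟩
  set r : ℝ := Real.exp (1 - w.im) with hr
  have hr0 : 0 < r := Real.exp_pos _
  have hre : r = Real.exp 1 * Real.exp (-w.im) := by
    rw [hr, ← Real.exp_add]; congr 1
  have he1 : Real.exp 1 < 2.7182818286 := Real.exp_one_lt_d9
  have he0 : 0 < Real.exp (-w.im) := Real.exp_pos _
  have hr1 : r ≤ 0.37 := by
    have h1 : r ≤ Real.exp (-1) := Real.exp_le_exp.2 (by linarith)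
    have h2 := Real.exp_neg_one_lt_d9
    linarith
  have hX1 : 1 - r ≤ ‖1 + Complex.exp (1 + I * w)‖ := by
    have h := norm_sub_norm_le (1 : ℂ) (-Complex.exp (1 + I * w))
    rw [norm_neg, norm_one, norm_exp_one_add, sub_neg_eq_add] at h
    exact h
  have hX : (1 - r) ^ 2 ≤ ‖1 + Complex.exp (1 + I * w)‖ ^ 2 :=
    pow_le_pow_left₀ (by linarith) hX1 2
  set X : ℝ := ‖1 + Complex.exp (1 + I * w)‖ ^ 2 with hXdef
  have hXpos : 0.39 ≤ X := by nlinarith
  have hε2 : 0 < 1 + ε ^ 2 := by positivity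
  have hlog : -(20 * Real.exp (-w.im)) ≤ Real.log (X + ε ^ 2) - Real.log (1 + ε ^ 2) := by
    rw [← Real.log_div (by positivity) hε2.ne']
    have hq : 0 < (X + ε ^ 2) / (1 + ε ^ 2) := by positivity
    refine le_trans ?_ (Real.one_sub_inv_le_log_of_pos hq)
    rw [inv_div]
    have hXe : 0 < X + ε ^ 2 := by positivity
    have h1 : 1 - (1 + ε ^ 2) / (X + ε ^ 2) = (X - 1) / (X + ε ^ 2) := by
      field_simp
      ring
    rw [h1, le_div_iff₀ hXe]
    have h2 : -(2 * r) ≤ X - 1 := by nlinarith [sq_nonneg r]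
    have h3 : r ≤ 2.72 * Real.exp (-w.im) := by rw [hre]; nlinarith
    have h4 : 0.39 ≤ X + ε ^ 2 := by nlinarith [sq_nonneg ε]
    nlinarith
  unfold vfun
  rw [← hXdef]
  have hs0 : 0 ≤ Real.smoothTransition (T - w.im) := Real.smoothTransition.nonneg _
  have hs1 : Real.smoothTransition (T - w.im) ≤ 1 := Real.smoothTransition.le_one _
  rcases le_total 0 (Real.log (X + ε ^ 2) - Real.log (1 + ε ^ 2)) with h | h
  · nlinarith
  · nlinarith

/-- the dips -/
theorem vfun_dip (ε T : ℝ) (hT : 3 ≤ T) (n : ℤ) :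
    vfun ε T (((Real.pi * (2 * n + 1) : ℝ) : ℂ) + I) = 2 * Real.log ε - Real.log (1 + ε ^ 2) := by
  have him : ((((Real.pi * (2 * n + 1) : ℝ) : ℂ) + I).im) = 1 := by simp
  have hexp : Complex.exp (1 + I * (((Real.pi * (2 * n + 1) : ℝ) : ℂ) + I)) = -1 := by
    have h : (1 : ℂ) + I * (((Real.pi * (2 * n + 1) : ℝ) : ℂ) + I)
        = (Real.pi : ℂ) * I + n * (2 * Real.pi * I) := by
      push_cast
      linear_combination I_mul_I
    rw [h, Complex.exp_add, Complex.exp_int_mul_two_pi_mul_I, mul_one, Complex.exp_pi_mul_I]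
  unfold vfun
  rw [him, Real.smoothTransition.one_of_one_le (by linarith), hexp]
  simp [Real.log_pow]

end Crest.Agent.R245
end

-- ▼ part R245/WildV2
section

/-! TASK WildV2 -/

set_option autoImplicit false

namespace Crest.Agent.R245

open Complex Filter Topology
open scoped ContDiff ComplexConjugate

namespace WV2

section affine

variable {E F : Type*} [NormedAddCommGroup E] [NormedSpace ℝ E] [NormedAddCommGroup F]
  [NormedSpace ℝ F]

/-- derivatives of an affine map with linear part of norm at most one -/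
theorem affine_deriv (A : E →L[ℝ] F) (hA : ‖A‖ ≤ 1) (c : F) (x : E) (i : ℕ) (hi : 1 ≤ i) :
    ‖iteratedFDeriv ℝ i (fun y => A y + c) x‖ ≤ 1 := by
  have hd : fderiv ℝ (fun y => A y + c) = fun _ => A := by
    ext1 y
    rw [fderiv_add_const]
    exact A.fderiv
  obtain ⟨j, rfl⟩ := Nat.exists_eq_add_of_le' hi
  rw [← norm_iteratedFDeriv_fderiv, hd]
  rcases j with _ | j
  · rw [norm_iteratedFDeriv_zero]
    exact hA
  · rw [iteratedFDeriv_const_of_ne (by omega)]
    simp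

end affine

/-- a common bound for finitely many continuous functions on a compact set -/
theorem common_bound {α : Type*} [TopologicalSpace α] {K : Set α} (hK : IsCompact K)
    (n : ℕ) (f : ℕ → α → ℝ) (hf : ∀ i ≤ n, ContinuousOn (f i) K) :
    ∃ C : ℝ, 1 ≤ C ∧ ∀ i ≤ n, ∀ x ∈ K, f i x ≤ C := by
  induction n with
  | zero =>
    obtain ⟨C, hC⟩ := hK.bddAbove_image (hf 0 le_rfl)
    refine ⟨max C 1, le_max_right _ _, fun i hi x hx => ?_⟩
    obtain rfl : i = 0 := by omega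
    exact (hC ⟨x, hx, rfl⟩).trans (le_max_left _ _)
  | succ n ih =>
    obtain ⟨C, hC1, hC⟩ := ih fun i hi => hf i (by omega)
    obtain ⟨C', hC'⟩ := hK.bddAbove_image (hf (n + 1) le_rfl)
    refine ⟨max C C', hC1.trans (le_max_left _ _), fun i hi x hx => ?_⟩
    rcases Nat.lt_or_ge i (n + 1) with h | h
    · exact (hC i (by omega) x hx).trans (le_max_left _ _)
    · obtain rfl : i = n + 1 := by omega
      exact (hC' ⟨x, hx, rfl⟩).trans (le_max_right _ _)

/-- `L` as a function of two variables -/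
noncomputable def Lt (p : ℂ × ℝ) : ℝ :=
  Real.log (‖1 + p.1‖ ^ 2 + p.2 ^ 2) - Real.log (1 + p.2 ^ 2)

/-- its domain -/
def Om : Set (ℂ × ℝ) := {p | 0 < ‖1 + p.1‖ ^ 2 + p.2 ^ 2}

theorem cd_normsq : ContDiff ℝ ∞ fun p : ℂ × ℝ => ‖1 + p.1‖ ^ 2 + p.2 ^ 2 := by
  have h1 : ContDiff ℝ ∞ fun p : ℂ × ℝ => 1 + p.1 := contDiff_const.add contDiff_fst
  exact (h1.norm_sq ℝ).add (contDiff_snd.pow 2)

theorem isOpen_Om : IsOpen Om := isOpen_lt continuous_const cd_normsq.continuous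

theorem Lt_contDiffOn : ContDiffOn ℝ ∞ Lt Om := by
  unfold Lt
  refine ContDiffOn.sub ?_ ?_
  · exact cd_normsq.contDiffOn.log fun p hp => (ne_of_gt hp)
  · refine ContDiffOn.log ?_ fun p _ => by positivity
    exact (contDiff_const.add (contDiff_snd.pow 2)).contDiffOn

theorem Lf_bound {K : Set (ℂ × ℝ)} (hK : IsCompact K) (hKO : K ⊆ Om) :
    ∃ C : ℝ, 1 ≤ C ∧ ∀ p ∈ K, 0 < p.2 → ∀ i ≤ 4,
      ‖iteratedFDeriv ℝ i (fun x => Lt (x, p.2)) p.1‖ ≤ C := by
  obtain ⟨C, hC1, hC⟩ := common_bound hK 4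
    (fun i p => ‖iteratedFDerivWithin ℝ i Lt Om p‖) (fun i hi => by
      refine ContinuousOn.norm ?_
      refine (Lt_contDiffOn.continuousOn_iteratedFDerivWithin ?_ isOpen_Om.uniqueDiffOn).mono hKO
      exact_mod_cast le_top)
  refine ⟨24 * C, by linarith, fun p hp hp2 i hi => ?_⟩
  have hA : ‖ContinuousLinearMap.inl ℝ ℂ ℝ‖ ≤ 1 := ContinuousLinearMap.norm_inl_le_one _ _ _
  have hfun : (fun x : ℂ => Lt (x, p.2))
      = Lt ∘ (fun x : ℂ => ContinuousLinearMap.inl ℝ ℂ ℝ x + ((0 : ℂ), p.2)) := by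
    ext x
    simp
  rw [hfun]
  have key := norm_iteratedFDeriv_comp_le' (𝕜 := ℝ) (n := i) (N := ∞) (t := Om)
    (g := Lt) (f := fun x : ℂ => ContinuousLinearMap.inl ℝ ℂ ℝ x + ((0 : ℂ), p.2))
    (by
      rintro _ ⟨x, rfl⟩
      have hx : (fun x : ℂ => ContinuousLinearMap.inl ℝ ℂ ℝ x + ((0 : ℂ), p.2)) x = (x, p.2) := by
        simp
      rw [hx]
      change 0 < ‖1 + x‖ ^ 2 + p.2 ^ 2
      positivity)
    isOpen_Om.uniqueDiffOn Lt_contDiffOn
    ((ContinuousLinearMap.inl ℝ ℂ ℝ).contDiff.add contDiff_const) (by exact_mod_cast le_top)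
    p.1 (C := C) (D := 1)
    (fun j hj => by
      have h1 : (ContinuousLinearMap.inl ℝ ℂ ℝ p.1 + ((0 : ℂ), p.2)) = p := by simp
      rw [h1]
      exact hC j (by omega) p hp)
    (fun j hj _ => by
      rw [one_pow]
      exact affine_deriv _ hA _ _ j hj)
  refine key.trans ?_
  rw [one_pow, mul_one]
  have h1 : (Nat.factorial i : ℝ) ≤ 24 := by
    have : Nat.factorial i ≤ Nat.factorial 4 := Nat.factorial_le hi
    have h2 : Nat.factorial 4 = 24 := rfl
    rw [h2] at this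
    exact_mod_cast this
  gcongr

/-- `E w = exp (1 + i w)` -/
noncomputable def Ef (w : ℂ) : ℂ := Complex.exp (1 + I * w)

theorem Ef_norm (w : ℂ) : ‖Ef w‖ = Real.exp (1 - w.im) := by
  unfold Ef
  rw [Complex.norm_exp]
  simp [sub_eq_add_neg]

theorem Ef_contDiff : ContDiff ℝ ∞ Ef := by
  unfold Ef
  have h1 : ContDiff ℝ ∞ fun w : ℂ => 1 + I * w := contDiff_const.add (contDiff_const.mul contDiff_id)
  exact h1.cexp

theorem Ef_deriv (i : ℕ) : ∀ w, ‖iteratedFDeriv ℝ i Ef w‖ ≤ ‖Ef w‖ := by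
  induction i with
  | zero => intro w; rw [norm_iteratedFDeriv_zero]
  | succ i ih =>
    intro w
    -- `fderiv ℝ Ef w v = Ef w * I * v`
    let A : ℂ →L[ℝ] (ℂ →L[ℝ] ℂ) := (ContinuousLinearMap.mul ℝ ℂ).comp
      ((ContinuousLinearMap.mul ℝ ℂ).flip I)
    have hAn : ‖A‖ ≤ 1 := by
      refine ContinuousLinearMap.opNorm_le_bound _ zero_le_one fun c => ?_
      refine ContinuousLinearMap.opNorm_le_bound _ (by positivity) fun v => ?_
      simp [A]
    have hd : fderiv ℝ Ef = A ∘ Ef := by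
      ext1 v
      have h1 : HasDerivAt Ef (Ef v * I) v := by
        unfold Ef
        have h2 : HasDerivAt (fun w : ℂ => 1 + I * w) I v := by
          simpa using ((hasDerivAt_id v).const_mul I).const_add 1
        exact h2.cexp
      have h3 := h1.hasFDerivAt.restrictScalars ℝ
      rw [h3.fderiv]
      ext1 u
      simp [A, mul_comm]
    rw [← norm_iteratedFDeriv_fderiv, hd]
    have h4 := A.iteratedFDeriv_comp_left (f := Ef) (n := ∞) (x := w) Ef_contDiff.contDiffAt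
      (i := i) (by exact_mod_cast le_top)
    rw [h4]
    calc _ ≤ ‖A‖ * ‖iteratedFDeriv ℝ i Ef w‖ :=
          ContinuousLinearMap.norm_compContinuousMultilinearMap_le _ _
      _ ≤ 1 * ‖Ef w‖ := by
          gcongr
          exact ih w
      _ = _ := one_mul _

theorem Lt_slice_contDiff {ε : ℝ} (hε : 0 < ε) : ContDiff ℝ ∞ fun x : ℂ => Lt (x, ε) := by
  change ContDiff ℝ ∞ fun x : ℂ => Real.log (‖1 + x‖ ^ 2 + ε ^ 2) - Real.log (1 + ε ^ 2)
  refine ContDiff.sub ?_ contDiff_const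
  refine ContDiff.log ?_ fun x => by positivity
  have h1 : ContDiff ℝ ∞ fun x : ℂ => 1 + x := contDiff_const.add contDiff_id
  exact (h1.norm_sq ℝ).add contDiff_const

/-- derivative bound for `L ∘ E`, from a bound for `L` on a ball -/
theorem LE_deriv {ε C r : ℝ} (hε : 0 < ε) (hC1 : 1 ≤ C)
    (hC : ∀ x : ℂ, ‖x‖ ≤ r → ∀ i ≤ 4, ‖iteratedFDeriv ℝ i (fun x => Lt (x, ε)) x‖ ≤ C)
    {w : ℂ} (hw : 0 ≤ w.im) (hr : ‖Ef w‖ ≤ r) (k : ℕ) (hk : k ≤ 4) :
    ‖iteratedFDeriv ℝ k (fun w => Lt (Ef w, ε)) w‖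
      ≤ 24 * C * Real.exp 4 * Real.exp (-w.im) := by
  have hE0 : 0 < ‖Ef w‖ := by rw [Ef_norm]; exact Real.exp_pos _
  have hEe : ‖Ef w‖ ≤ Real.exp 1 := by
    rw [Ef_norm]
    exact Real.exp_le_exp.mpr (by linarith)
  have hEw : ‖Ef w‖ = Real.exp 1 * Real.exp (-w.im) := by
    rw [Ef_norm, sub_eq_add_neg, Real.exp_add]
  have h1e : 1 ≤ Real.exp 1 := Real.one_le_exp zero_le_one
  rcases Nat.eq_zero_or_pos k with rfl | hk1
  · rw [norm_iteratedFDeriv_zero]
    have hconv : Convex ℝ (Metric.closedBall (0:ℂ) r) := convex_closedBall _ _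
    have hr0 : 0 ≤ r := hE0.le.trans hr
    have h1 := hconv.norm_image_sub_le_of_norm_fderiv_le (𝕜 := ℝ)
      (f := fun x : ℂ => Lt (x, ε)) (C := C) (x := 0) (y := Ef w)
      (fun x _ => ((Lt_slice_contDiff hε).differentiable (by simp)).differentiableAt)
      (fun x hx => by
        have h2 := hC x (by simpa using hx) 1 (by norm_num)
        rwa [norm_iteratedFDeriv_one] at h2)
      (by simpa using hr0) (by simpa using hr)
    have h0 : Lt ((0:ℂ), ε) = 0 := by simp [Lt]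
    simp only [h0, sub_zero] at h1
    refine h1.trans ?_
    rw [hEw]
    have h3 : Real.exp 1 ≤ Real.exp 4 := Real.exp_le_exp.mpr (by norm_num)
    calc C * (Real.exp 1 * Real.exp (-w.im)) ≤ (24 * C) * (Real.exp 4 * Real.exp (-w.im)) := by
          gcongr
          linarith
      _ = _ := by ring
  · -- choose `D`
    obtain ⟨D, hD0, hD1, hD2⟩ : ∃ D : ℝ, 0 ≤ D ∧ (∀ i, 1 ≤ i → i ≤ k → ‖Ef w‖ ≤ D ^ i) ∧
        D ^ k ≤ Real.exp 3 * ‖Ef w‖ := by
      by_cases hle : ‖Ef w‖ ≤ 1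
      · refine ⟨‖Ef w‖ ^ (1 / (k:ℝ)), by positivity, fun i hi hik => ?_, ?_⟩
        · rw [← Real.rpow_natCast, ← Real.rpow_mul hE0.le]
          have hk0 : (0:ℝ) < k := by exact_mod_cast hk1
          have h2 : 1 / (k:ℝ) * i ≤ 1 := by
            rw [div_mul_eq_mul_div, one_mul, div_le_one hk0]
            exact_mod_cast hik
          calc ‖Ef w‖ = ‖Ef w‖ ^ (1:ℝ) := (Real.rpow_one _).symm
            _ ≤ _ := Real.rpow_le_rpow_of_exponent_ge hE0 hle h2
        · rw [← Real.rpow_natCast, ← Real.rpow_mul hE0.le]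
          have hk0 : (k:ℝ) ≠ 0 := by positivity
          rw [one_div, inv_mul_cancel₀ hk0, Real.rpow_one]
          have : 1 ≤ Real.exp 3 := Real.one_le_exp (by norm_num)
          nlinarith
      · push Not at hle
        refine ⟨‖Ef w‖, hE0.le, fun i hi _ => ?_, ?_⟩
        · calc ‖Ef w‖ = ‖Ef w‖ ^ 1 := (pow_one _).symm
            _ ≤ _ := pow_le_pow_right₀ hle.le hi
        · obtain ⟨j, rfl⟩ := Nat.exists_eq_add_of_le' hk1
          rw [pow_succ]
          have h2 : ‖Ef w‖ ^ j ≤ Real.exp 3 := by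
            calc ‖Ef w‖ ^ j ≤ Real.exp 1 ^ j := by gcongr
              _ ≤ Real.exp 1 ^ 3 := pow_le_pow_right₀ h1e (by omega)
              _ = Real.exp 3 := by rw [← Real.exp_nat_mul]; norm_num
          gcongr
    have key := norm_iteratedFDeriv_comp_le (𝕜 := ℝ) (g := fun x : ℂ => Lt (x, ε)) (f := Ef)
      (n := k) (N := ∞) (Lt_slice_contDiff hε) Ef_contDiff (by exact_mod_cast le_top) w
      (C := C) (D := D) (fun i hi => hC _ hr i (by omega))
      (fun i hi hik => (Ef_deriv i w).trans (hD1 i hi hik))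
    have hcomp : (fun w => Lt (Ef w, ε)) = (fun x : ℂ => Lt (x, ε)) ∘ Ef := rfl
    rw [hcomp]
    refine key.trans ?_
    have h1 : (Nat.factorial k : ℝ) ≤ 24 := by
      have : Nat.factorial k ≤ Nat.factorial 4 := Nat.factorial_le hk
      have h2 : Nat.factorial 4 = 24 := rfl
      rw [h2] at this
      exact_mod_cast this
    calc (Nat.factorial k : ℝ) * C * D ^ k ≤ 24 * C * (Real.exp 3 * ‖Ef w‖) := by gcongr
      _ = _ := by
        rw [hEw, show (4:ℝ) = 3 + 1 by norm_num, Real.exp_add]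
        ring

/-- derivative bound of the cut-off -/
theorem chi_bound : ∃ A : ℝ, 1 ≤ A ∧ ∀ (T : ℝ) (w : ℂ), ∀ i ≤ 4,
    ‖iteratedFDeriv ℝ i (fun w : ℂ => Real.smoothTransition (T - w.im)) w‖ ≤ A := by
  -- one variable
  obtain ⟨A, hA1, hA⟩ := common_bound (isCompact_Icc (a := (-1:ℝ)) (b := 2)) 4
    (fun i x => ‖iteratedFDeriv ℝ i Real.smoothTransition x‖) (fun i hi => by
      refine ContinuousOn.norm (Continuous.continuousOn ?_)
      exact (Real.smoothTransition.contDiff (n := ⊤)).continuous_iteratedFDeriv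
        (by exact_mod_cast le_top))
  have hglob : ∀ i ≤ 4, ∀ x : ℝ, ‖iteratedFDeriv ℝ i Real.smoothTransition x‖ ≤ A := by
    intro i hi x
    by_cases hx : x ∈ Set.Icc (-1:ℝ) 2
    · exact hA i hi x hx
    · have hloc : ∃ c : ℝ, |c| ≤ 1 ∧ Real.smoothTransition =ᶠ[𝓝 x] fun _ => c := by
        rw [Set.mem_Icc, not_and_or] at hx
        rcases hx with hx | hx
        · push Not at hx
          refine ⟨0, by simp, ?_⟩
          filter_upwards [Iio_mem_nhds hx] with y hy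
          exact Real.smoothTransition.zero_of_nonpos (by
            have : y < -1 := hy
            linarith)
        · push Not at hx
          refine ⟨1, by simp, ?_⟩
          filter_upwards [Ioi_mem_nhds hx] with y hy
          exact Real.smoothTransition.one_of_one_le (by
            have : 2 < y := hy
            linarith)
      obtain ⟨c, hc, hcc⟩ := hloc
      have h1 := (hcc.iteratedFDeriv ℝ i).eq_of_nhds
      rw [h1]
      rcases Nat.eq_zero_or_pos i with rfl | hi0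
      · rw [norm_iteratedFDeriv_zero]
        exact (by simpa using hc : ‖c‖ ≤ 1).trans hA1
      · rw [iteratedFDeriv_const_of_ne (by omega)]
        simp
        linarith
  refine ⟨24 * A, by linarith, fun T w i hi => ?_⟩
  have hfun : (fun w : ℂ => Real.smoothTransition (T - w.im))
      = Real.smoothTransition ∘ fun w : ℂ => (-Complex.imCLM) w + T := by
    ext w
    simp only [Function.comp_apply]
    congr 1
    simp
    ring
  rw [hfun]
  have hn : ‖-Complex.imCLM‖ ≤ 1 := by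
    rw [norm_neg]
    refine ContinuousLinearMap.opNorm_le_bound _ zero_le_one fun v => ?_
    rw [one_mul]
    exact Complex.abs_im_le_norm v
  have key := norm_iteratedFDeriv_comp_le (𝕜 := ℝ) (g := Real.smoothTransition)
    (f := fun w : ℂ => (-Complex.imCLM) w + T) (n := i) (N := ∞)
    (Real.smoothTransition.contDiff (n := ⊤)) ((-Complex.imCLM).contDiff.add contDiff_const)
    (by exact_mod_cast le_top) w (C := A) (D := 1) (fun j hj => hglob j (by omega) _)
    (fun j hj _ => by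
      rw [one_pow]
      exact affine_deriv _ hn _ _ j hj)
  refine key.trans ?_
  rw [one_pow, mul_one]
  have h1 : (Nat.factorial i : ℝ) ≤ 24 := by
    have : Nat.factorial i ≤ Nat.factorial 4 := Nat.factorial_le hi
    have h2 : Nat.factorial 4 = 24 := rfl
    rw [h2] at this
    exact_mod_cast this
  gcongr

/-- `vfun` from `L ∘ E` -/
theorem vfun_bound_of {ε C r : ℝ} (hε : 0 < ε) (hC1 : 1 ≤ C) {A : ℝ} (hA1 : 1 ≤ A)
    (hA : ∀ (T : ℝ) (w : ℂ), ∀ i ≤ 4,
      ‖iteratedFDeriv ℝ i (fun w : ℂ => Real.smoothTransition (T - w.im)) w‖ ≤ A)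
    (hC : ∀ x : ℂ, ‖x‖ ≤ r → ∀ i ≤ 4, ‖iteratedFDeriv ℝ i (fun x => Lt (x, ε)) x‖ ≤ C)
    {T : ℝ} {w : ℂ} (hw : 0 ≤ w.im) (hr : ‖Ef w‖ ≤ r) (k : ℕ) (hk : k ≤ 4) :
    ‖iteratedFDeriv ℝ k (vfun ε T) w‖ ≤ 16 * A * (24 * C * Real.exp 4) * Real.exp (-w.im) := by
  have hfun : vfun ε T = fun w => Real.smoothTransition (T - w.im) * Lt (Ef w, ε) := rfl
  have h1 : ContDiff ℝ ∞ fun w : ℂ => Real.smoothTransition (T - w.im) :=
    (Real.smoothTransition.contDiff (n := ⊤)).comp (contDiff_const.sub Complex.imCLM.contDiff)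
  have h2 : ContDiff ℝ ∞ fun w : ℂ => Lt (Ef w, ε) := (Lt_slice_contDiff hε).comp Ef_contDiff
  rw [hfun]
  refine (norm_iteratedFDeriv_mul_le h1 h2 w (n := k) (by exact_mod_cast le_top)).trans ?_
  calc _ ≤ ∑ i ∈ Finset.range (k + 1), (k.choose i : ℝ) *
        (A * (24 * C * Real.exp 4 * Real.exp (-w.im))) := by
        refine Finset.sum_le_sum fun i hi => ?_
        rw [Finset.mem_range] at hi
        rw [mul_assoc]
        have e1 := hA T w i (by omega)
        have e2 := LE_deriv hε hC1 hC hw hr (k - i) (by omega)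
        gcongr
    _ = (2 ^ k : ℝ) * (A * (24 * C * Real.exp 4 * Real.exp (-w.im))) := by
        rw [← Finset.sum_mul]
        congr 1
        exact_mod_cast Nat.sum_range_choose k
    _ ≤ 16 * (A * (24 * C * Real.exp 4 * Real.exp (-w.im))) := by
        have h3 : (2:ℝ) ^ k ≤ 16 := by
          calc (2:ℝ) ^ k ≤ 2 ^ 4 := pow_le_pow_right₀ (by norm_num) hk
            _ = 16 := by norm_num
        gcongr
    _ = _ := by ring

end WV2

open WV2 in
theorem vfun_deriv_le (ε : ℝ) (hε : 0 < ε) (hε1 : ε ≤ 1) : ∃ C : ℝ, 0 < C ∧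
    ∀ (T : ℝ) (w : ℂ), 3 ≤ T → 0 ≤ w.im → ∀ k : ℕ, k ≤ 4 →
      ‖iteratedFDeriv ℝ k (vfun ε T) w‖ ≤ C * Real.exp (-w.im) := by
  obtain ⟨A, hA1, hA⟩ := chi_bound
  have hK : IsCompact (Metric.closedBall (0:ℂ) (Real.exp 1) ×ˢ ({ε} : Set ℝ)) :=
    (isCompact_closedBall _ _).prod isCompact_singleton
  obtain ⟨C, hC1, hC⟩ := Lf_bound hK (by
    rintro ⟨x, e⟩ ⟨_, he⟩
    have he' : e = ε := he
    subst he'
    show 0 < ‖1 + x‖ ^ 2 + e ^ 2
    positivity)
  refine ⟨16 * A * (24 * C * Real.exp 4), by positivity, fun T w hT hw k hk => ?_⟩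
  refine vfun_bound_of (r := Real.exp 1) hε hC1 hA1 hA (fun x hx i hi => ?_) hw ?_ k hk
  · exact hC (x, ε) ⟨by simpa using hx, rfl⟩ hε i hi
  · rw [Ef_norm]
    exact Real.exp_le_exp.mpr (by linarith)

namespace WV2

/-- Levi form of `log (|g|² + ε²)`, `g = 1 + exp (1 + i w)` -/
theorem levi_log {ε : ℝ} (hε : 0 < ε) (c : ℝ) (w X : ℂ) :
    0 ≤ (D11 (fun v : ℂ => Real.log (‖1 + Ef v‖ ^ 2 + ε ^ 2) - c) X X w).re := by
  set g : ℂ → ℂ := fun v => 1 + Ef v with hg
  set s : ℂ → ℝ := fun v => ‖g v‖ ^ 2 + ε ^ 2 with hs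
  have hs0 : ∀ v, 0 < s v := fun v => by rw [hs]; positivity
  set d : ℂ → ℂ := fun v => Ef v * I * X with hd
  have hEc : ∀ v, DifferentiableAt ℂ Ef v := by
    intro v
    unfold Ef
    exact ((differentiableAt_const _).add ((differentiableAt_const _).mul differentiableAt_id)).cexp
  have hgc : ∀ v, DifferentiableAt ℂ g v := fun v => (differentiableAt_const _).add (hEc v)
  have hgr : ∀ v, DifferentiableAt ℝ g v := fun v => (hgc v).restrictScalars ℝ
  have hdc : ∀ v, DifferentiableAt ℂ d v := fun v =>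
    ((hEc v).mul (differentiableAt_const _)).mul (differentiableAt_const _)
  have hdr : ∀ v, DifferentiableAt ℝ d v := fun v => (hdc v).restrictScalars ℝ
  have hdzg : ∀ v, dz X g v = d v := by
    intro v
    rw [dz_hol (hgc v)]
    have h1 : HasDerivAt g (Ef v * I) v := by
      have h2 : HasDerivAt (fun w : ℂ => 1 + I * w) I v := by
        simpa using ((hasDerivAt_id v).const_mul I).const_add 1
      exact (h2.cexp).const_add 1
    rw [h1.hasFDerivAt.fderiv]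
    simp [hd]
    ring
  have hdzbg : ∀ v, dzb X g v = 0 := fun v => dzb_hol (hgc v)
  -- the function `s`
  have hsc : ∀ v, ((s v : ℝ) : ℂ) = g v * conj (g v) + ((ε ^ 2 : ℝ) : ℂ) := by
    intro v
    rw [hs, Complex.mul_conj, Complex.normSq_eq_norm_sq]
    push_cast
    ring
  have hcg : ∀ v, DifferentiableAt ℝ (fun q => conj (g q)) v := fun v =>
    (Complex.conjCLE.differentiableAt).comp v (hgr v)
  have hcd : ∀ v, DifferentiableAt ℝ (fun q => conj (d q)) v := fun v =>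
    (Complex.conjCLE.differentiableAt).comp v (hdr v)
  have hgm : ∀ v, DifferentiableAt ℝ (fun q => g q * conj (g q)) v := fun v => (hgr v).mul (hcg v)
  have hgn : ∀ v, DifferentiableAt ℝ (fun q => g q * conj (d q)) v := fun v => (hgr v).mul (hcd v)
  have hsd : ∀ v, DifferentiableAt ℝ s v := by
    intro v
    rw [hs]
    exact ((hgr v).norm_sq ℝ).add (differentiableAt_const _)
  have hdzbs : ∀ v, dzb X (fun q => ((s q : ℝ) : ℂ)) v = g v * conj (d v) := by
    intro v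
    have e1 : (fun q => ((s q : ℝ) : ℂ)) = fun q => g q * conj (g q) + ((ε ^ 2 : ℝ) : ℂ) := by
      ext q; exact hsc q
    rw [e1, dzb_add (hgm v) (differentiableAt_const _), dzb_const, add_zero,
      dzb_mul (hgr v) (hcg v), hdzbg, dzb_conj, hdzg]
    ring
  have hdzs : ∀ v, dz X (fun q => ((s q : ℝ) : ℂ)) v = d v * conj (g v) := by
    intro v
    have e1 : (fun q => ((s q : ℝ) : ℂ)) = fun q => g q * conj (g q) + ((ε ^ 2 : ℝ) : ℂ) := by
      ext q; exact hsc q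
    rw [e1, dz_add (hgm v) (differentiableAt_const _), dz_const, add_zero,
      dz_mul (hgr v) (hcg v), hdzg, dz_conj, hdzbg, map_zero]
    ring
  -- first derivative
  have h1 : ∀ v, dzb X (fun q => ((Real.log (‖1 + Ef q‖ ^ 2 + ε ^ 2) - c : ℝ) : ℂ)) v
      = (((s v)⁻¹ : ℝ) : ℂ) * (g v * conj (d v)) := by
    intro v
    have e1 : (fun q => ((Real.log (‖1 + Ef q‖ ^ 2 + ε ^ 2) - c : ℝ) : ℂ))
        = fun q => ((fun t => Real.log t - c) (s q) : ℂ) := rfl
    have hf : HasDerivAt (fun t => Real.log t - c) (s v)⁻¹ (s v) :=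
      (Real.hasDerivAt_log (hs0 v).ne').sub_const c
    rw [e1, dzb_comp_real (fun t => Real.log t - c) s hf.differentiableAt (hsd v), hf.deriv, hdzbs]
  have h2 : D11 (fun v : ℂ => Real.log (‖1 + Ef v‖ ^ 2 + ε ^ 2) - c) X X w
      = dz X (fun v => (((s v)⁻¹ : ℝ) : ℂ) * (g v * conj (d v))) w := by
    unfold D11
    congr 1
    ext v
    exact h1 v
  have hinv : HasDerivAt (fun t : ℝ => t⁻¹) (-((s w) ^ 2)⁻¹) (s w) := hasDerivAt_inv (hs0 w).ne'
  have hsi : DifferentiableAt ℝ (fun v => (((s v)⁻¹ : ℝ) : ℂ)) w :=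
    differentiableAt_ofReal ((hsd w).inv (hs0 w).ne')
  have h3 : dz X (fun v => (((s v)⁻¹ : ℝ) : ℂ)) w = ((-((s w) ^ 2)⁻¹ : ℝ) : ℂ) * (d w * conj (g w)) := by
    have := dz_comp_real (X := X) (p := w) (fun t : ℝ => t⁻¹) s hinv.differentiableAt (hsd w)
    rw [hinv.deriv, hdzs] at this
    exact this
  have h4 : dz X (fun v => g v * conj (d v)) w = d w * conj (d w) := by
    rw [dz_mul (hgr w) (hcd w), hdzg, dz_conj, dzb_hol (hdc w), map_zero]
    ring
  rw [h2, dz_mul hsi (hgn w), h3, h4]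
  have hsw := (hs0 w).ne'
  have h5 : ((-((s w) ^ 2)⁻¹ : ℝ) : ℂ) * (d w * conj (g w)) * (g w * conj (d w))
      + (((s w)⁻¹ : ℝ) : ℂ) * (d w * conj (d w))
      = ((ε ^ 2 * ‖d w‖ ^ 2 / (s w) ^ 2 : ℝ) : ℂ) := by
    have e1 : d w * conj (d w) = ((‖d w‖ ^ 2 : ℝ) : ℂ) := by
      rw [Complex.mul_conj, Complex.normSq_eq_norm_sq]
    have e2 : g w * conj (g w) = ((‖g w‖ ^ 2 : ℝ) : ℂ) := by
      rw [Complex.mul_conj, Complex.normSq_eq_norm_sq]
    have e3 : (d w * conj (g w)) * (g w * conj (d w)) = ((‖d w‖ ^ 2 * ‖g w‖ ^ 2 : ℝ) : ℂ) := by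
      rw [Complex.ofReal_mul, ← e1, ← e2]
      ring
    rw [mul_assoc, e3, e1, ← Complex.ofReal_mul, ← Complex.ofReal_mul, ← Complex.ofReal_add]
    congr 1
    have e4 : ε ^ 2 = s w - ‖g w‖ ^ 2 := by rw [hs]; ring
    rw [e4]
    field_simp
    ring
  rw [h5, Complex.ofReal_re]
  positivity

end WV2

open WV2 in
theorem vfun_levi : ∃ C : ℝ, 0 < C ∧ ∀ (ε T : ℝ) (w X : ℂ), 0 < ε → ε ≤ 1 → 3 ≤ T → 0 ≤ w.im →
    -C * Real.exp (-T) * ‖X‖ ^ 2 ≤ (D11 (vfun ε T) X X w).re ∧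
    (w.im < T - 1 → 0 ≤ (D11 (vfun ε T) X X w).re) := by
  obtain ⟨A, hA1, hA⟩ := chi_bound
  have hK : IsCompact (Metric.closedBall (0:ℂ) (Real.exp (-1)) ×ˢ (Set.Icc (0:ℝ) 1)) :=
    (isCompact_closedBall _ _).prod isCompact_Icc
  have he1 : Real.exp (-1) < 1 := by
    rw [Real.exp_lt_one_iff]
    norm_num
  obtain ⟨C, hC1, hC⟩ := Lf_bound hK (by
    rintro ⟨x, e⟩ ⟨hx, _⟩
    have hx' : ‖x‖ ≤ Real.exp (-1) := by simpa using hx
    change 0 < ‖1 + x‖ ^ 2 + e ^ 2
    have h1 : 0 < ‖1 + x‖ := by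
      have h2 : ‖(1:ℂ)‖ ≤ ‖1 + x‖ + ‖x‖ := by
        calc ‖(1:ℂ)‖ = ‖(1 + x) - x‖ := by simp
          _ ≤ _ := norm_sub_le _ _
      rw [norm_one] at h2
      linarith
    positivity)
  set C0 : ℝ := 16 * A * (24 * C * Real.exp 4) with hC0
  have hC0p : 0 < C0 := by positivity
  refine ⟨C0 * Real.exp 1, by positivity, fun ε T w X hε hε1 hT hw => ?_⟩
  have hA2 : w.im < T - 1 → 0 ≤ (D11 (vfun ε T) X X w).re := by
    intro h
    have hloc : vfun ε T =ᶠ[𝓝 w]
        fun v => Real.log (‖1 + Ef v‖ ^ 2 + ε ^ 2) - Real.log (1 + ε ^ 2) := by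
      have h1 : ∀ᶠ v in 𝓝 w, v.im < T - 1 := Complex.continuous_im.continuousAt.eventually_lt
        continuousAt_const h
      filter_upwards [h1] with v hv
      unfold vfun
      rw [Real.smoothTransition.one_of_one_le (by linarith), one_mul]
      rfl
    rw [D11_congr hloc]
    exact levi_log hε _ w X
  refine ⟨?_, hA2⟩
  rcases lt_or_ge w.im (T - 1) with h | h
  · have h1 := hA2 h
    have h2 : 0 ≤ C0 * Real.exp 1 * Real.exp (-T) * ‖X‖ ^ 2 := by positivity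
    linarith
  · have hr : ‖Ef w‖ ≤ Real.exp (-1) := by
      rw [Ef_norm]
      exact Real.exp_le_exp.mpr (by linarith)
    have h1 := vfun_bound_of (r := Real.exp (-1)) hε hC1 hA1 hA (fun x hx i hi =>
      hC (x, ε) ⟨by simpa using hx, hε.le, hε1⟩ hε i hi) hw hr (T := T) 2 (by norm_num)
    rw [← hC0] at h1
    have h2 := D11_le (P := vfun ε T) (p := w) (vfun_contDiff hε).contDiffAt X X
    have h3 : Real.exp (-w.im) ≤ Real.exp 1 * Real.exp (-T) := by
      rw [← Real.exp_add]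
      exact Real.exp_le_exp.mpr (by linarith)
    have h4 : ‖D11 (vfun ε T) X X w‖ ≤ C0 * Real.exp 1 * Real.exp (-T) * ‖X‖ ^ 2 := by
      calc _ ≤ ‖iteratedFDeriv ℝ 2 (vfun ε T) w‖ * ‖X‖ * ‖X‖ := h2
        _ ≤ (C0 * Real.exp (-w.im)) * ‖X‖ * ‖X‖ := by gcongr
        _ ≤ (C0 * (Real.exp 1 * Real.exp (-T))) * ‖X‖ * ‖X‖ := by gcongr
        _ = _ := by ring
    have h5 := (abs_le.mp (Complex.abs_re_le_norm (D11 (vfun ε T) X X w))).1
    linarith

end Crest.Agent.R245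
end

-- ▼ part R245/WildV
section
end

-- ▼ part R245/WildP1

/-! TASK WildP1 (helper225) -/

set_option autoImplicit false
set_option linter.unusedVariables false

namespace Crest.Agent.R245

open Complex Filter Topology
open scoped ContDiff ComplexConjugate

namespace WP1

theorem wterm_im (N : ℝ) (z0 : ℂ) (q : B2) :
    ((((N ^ 2 : ℝ) : ℂ) * piz z0 q).im) = N ^ 2 * (rho q + ‖q.1 - z0‖ ^ 2) := by
  rw [Complex.im_ofReal_mul, piz_im]

theorem wterm_eq_zero_of_le {ε T N : ℝ} {m : ℤ × ℤ} {q : B2}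
    (h : T ≤ N ^ 2 * (rho q + ‖q.1 - zlat N m‖ ^ 2)) : wterm ε T N m q = 0 := by
  unfold wterm
  split_ifs
  · exact vfun_eq_zero (by rw [wterm_im]; exact h)
  · rfl

theorem piz_contDiff (z0 : ℂ) : ContDiff ℝ ∞ (piz z0) := by
  unfold piz
  have h1 : ContDiff ℝ ∞ (fun p : B2 => p.2) := contDiff_snd
  have h2 : ContDiff ℝ ∞ (fun p : B2 => p.1) := contDiff_fst
  exact (h1.sub (contDiff_const.mul h2)).add contDiff_const

theorem wterm_contDiff {ε T : ℝ} (hε : 0 < ε) (N : ℝ) (m : ℤ × ℤ) :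
    ContDiff ℝ ∞ (wterm ε T N m) := by
  unfold wterm
  split_ifs
  · exact (vfun_contDiff hε).comp (contDiff_const.mul (piz_contDiff _))
  · exact contDiff_const

theorem continuous_rho : Continuous rho := by
  unfold rho
  fun_prop

theorem abs_le_of_zlat {N : ℝ} (hN : 0 < N) {m : ℤ × ℤ} (h : ‖zlat N m‖ < 1 / 16) :
    |(m.1 : ℝ)| ≤ N ∧ |(m.2 : ℝ)| ≤ N := by
  have h0 : ‖zlat N m‖ = 4 / N * ‖(m.1 : ℂ) + (m.2 : ℂ) * I‖ := by
    unfold zlat
    rw [norm_mul, Complex.norm_real, Real.norm_of_nonneg (by positivity)]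
  rw [h0] at h
  have h1 : ‖(m.1 : ℂ) + (m.2 : ℂ) * I‖ ≤ N := by
    have : 4 / N * ‖(m.1 : ℂ) + (m.2 : ℂ) * I‖ * N < 1 / 16 * N := by
      exact mul_lt_mul_of_pos_right h hN
    have e : 4 / N * ‖(m.1 : ℂ) + (m.2 : ℂ) * I‖ * N = 4 * ‖(m.1 : ℂ) + (m.2 : ℂ) * I‖ := by
      field_simp
    rw [e] at this
    have := norm_nonneg ((m.1 : ℂ) + (m.2 : ℂ) * I)
    linarith
  constructor
  · have := Complex.abs_re_le_norm ((m.1 : ℂ) + (m.2 : ℂ) * I)
    simp at this
    exact this.trans h1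
  · have := Complex.abs_im_le_norm ((m.1 : ℂ) + (m.2 : ℂ) * I)
    simp at this
    exact this.trans h1

theorem scale_le {M b : ℝ} (hb : 2 ≤ b) (hM0 : 0 < M) (j : ℕ) : M ≤ M * b ^ j := by
  have : 1 ≤ b ^ j := one_le_pow₀ (by linarith)
  nlinarith

end WP1

open WP1

/-- only finitely many terms are nonzero near a point of `Dom` -/
theorem PhiW_locfin {ε T M b : ℝ} (hε : 0 < ε) (hT : 3 ≤ T) (hb : 2 ≤ b) (hM : 256 * T ≤ M ^ 2)
    (hM0 : 0 < M) {p : B2} (hp : p ∈ Dom) :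
    ∃ s : Finset (ℕ × (ℤ × ℤ)), ∀ᶠ q in 𝓝 p,
      PhiW ε T M b q = ∑ i ∈ s, wterm ε T (M * b ^ i.1) i.2 q := by
  have hp' : 0 < rho p := hp
  -- large scales
  obtain ⟨J, hJ⟩ : ∃ J : ℕ, 2 * T / (M ^ 2 * rho p) < 2 ^ J :=
    pow_unbounded_of_one_lt _ (by norm_num)
  have hlarge : ∀ j : ℕ, J ≤ j → T ≤ (M * b ^ j) ^ 2 * (rho p / 2) := by
    intro j hj
    have h1 : (2 : ℝ) ^ J ≤ b ^ j :=
      (pow_le_pow_right₀ (by norm_num) hj).trans (pow_le_pow_left₀ (by norm_num) hb j)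
    have h2 : (1 : ℝ) ≤ b ^ j := one_le_pow₀ (by linarith)
    have h3 : 2 * T / (M ^ 2 * rho p) < b ^ j := hJ.trans_le h1
    rw [div_lt_iff₀ (by positivity)] at h3
    have h4 : b ^ j ≤ (b ^ j) ^ 2 := by nlinarith
    have h5 : (b ^ j) * (M ^ 2 * rho p) ≤ (b ^ j) ^ 2 * (M ^ 2 * rho p) :=
      mul_le_mul_of_nonneg_right h4 (by positivity)
    have h6 : (M * b ^ j) ^ 2 * (rho p / 2) = (b ^ j) ^ 2 * (M ^ 2 * rho p) / 2 := by ring
    rw [h6]
    linarith
  -- bound for the lattice indices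
  obtain ⟨R, hR⟩ : ∃ R : ℕ, M * b ^ J ≤ R := exists_nat_ge _
  have hscale : ∀ j : ℕ, j < J → M * b ^ j ≤ R := by
    intro j hj
    refine le_trans ?_ hR
    exact mul_le_mul_of_nonneg_left (pow_le_pow_right₀ (by linarith) hj.le) hM0.le
  refine ⟨(Finset.range J) ×ˢ ((Finset.Icc (-(R : ℤ)) R) ×ˢ (Finset.Icc (-(R : ℤ)) R)), ?_⟩
  have hnb : ∀ᶠ q in 𝓝 p, rho p / 2 < rho q :=
    (continuous_rho.continuousAt (x := p)).eventually (lt_mem_nhds (by linarith))
  filter_upwards [hnb] with q hq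
  unfold PhiW
  refine finsum_eq_sum_of_support_subset _ ?_
  intro i hi
  rw [Function.mem_support] at hi
  have hj : i.1 < J := by
    by_contra hcon
    push Not at hcon
    apply hi
    apply wterm_eq_zero_of_le
    refine (hlarge i.1 hcon).trans ?_
    refine mul_le_mul_of_nonneg_left ?_ (by positivity)
    have := sq_nonneg ‖q.1 - zlat (M * b ^ i.1) i.2‖
    linarith
  have hz : ‖zlat (M * b ^ i.1) i.2‖ < 1 / 16 := by
    by_contra hcon
    apply hi
    unfold wterm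
    rw [if_neg hcon]
  have hN : 0 < M * b ^ i.1 := by positivity
  obtain ⟨h1, h2⟩ := abs_le_of_zlat hN hz
  have h3 := hscale i.1 hj
  have hm1 : |i.2.1| ≤ (R : ℤ) := by
    have : (|(i.2.1 : ℝ)|) ≤ R := h1.trans h3
    exact_mod_cast this
  have hm2 : |i.2.2| ≤ (R : ℤ) := by
    have : (|(i.2.2 : ℝ)|) ≤ R := h2.trans h3
    exact_mod_cast this
  rw [abs_le] at hm1 hm2
  simp only [Finset.coe_product, Set.mem_prod, Finset.coe_range, Set.mem_Iio, Finset.coe_Icc,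
    Set.mem_Icc]
  exact ⟨hj, hm1, hm2⟩

theorem PhiW_contDiffOn {ε T M b : ℝ} (hε : 0 < ε) (hT : 3 ≤ T) (hb : 2 ≤ b)
    (hM : 256 * T ≤ M ^ 2) (hM0 : 0 < M) : ContDiffOn ℝ ∞ (PhiW ε T M b) Dom := by
  intro p hp
  obtain ⟨s, hs⟩ := PhiW_locfin hε hT hb hM hM0 hp
  have h : ContDiffAt ℝ ∞ (fun q => ∑ i ∈ s, wterm ε T (M * b ^ i.1) i.2 q) p :=
    ContDiffAt.sum fun i _ => (wterm_contDiff hε _ _).contDiffAt
  exact (h.congr_of_eventuallyEq hs).contDiffWithinAt

theorem PhiW_eq_zero {ε T M b : ℝ} (hε : 0 < ε) (hT : 3 ≤ T) (hb : 2 ≤ b)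
    (hM : 256 * T ≤ M ^ 2) (hM0 : 0 < M) {p : B2} (hp : p ∈ Dom)
    (h : T / M ^ 2 ≤ rho p ∨ 1/8 ≤ ‖p.1‖) : PhiW ε T M b p = 0 := by
  have hp' : 0 < rho p := hp
  unfold PhiW
  rw [← finsum_zero]
  congr 1
  funext i
  have hsc := scale_le hb hM0 i.1
  have hsq : M ^ 2 ≤ (M * b ^ i.1) ^ 2 := pow_le_pow_left₀ hM0.le hsc 2
  by_cases hz : ‖zlat (M * b ^ i.1) i.2‖ < 1 / 16
  · apply wterm_eq_zero_of_le
    have hn := sq_nonneg ‖p.1 - zlat (M * b ^ i.1) i.2‖
    rcases h with h | h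
    · rw [div_le_iff₀ (by positivity)] at h
      calc T ≤ rho p * M ^ 2 := h
        _ ≤ rho p * (M * b ^ i.1) ^ 2 := mul_le_mul_of_nonneg_left hsq hp'.le
        _ ≤ _ := by
          rw [mul_comm]
          exact mul_le_mul_of_nonneg_left (by linarith) (by positivity)
    · have h1 : 1 / 16 ≤ ‖p.1 - zlat (M * b ^ i.1) i.2‖ := by
        have := norm_sub_norm_le p.1 (zlat (M * b ^ i.1) i.2)
        linarith
      have h2 : 1 / 256 ≤ ‖p.1 - zlat (M * b ^ i.1) i.2‖ ^ 2 := by nlinarith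
      calc T ≤ M ^ 2 * (1 / 256) := by linarith
        _ ≤ (M * b ^ i.1) ^ 2 * (1 / 256) := mul_le_mul_of_nonneg_right hsq (by norm_num)
        _ ≤ _ := mul_le_mul_of_nonneg_left (by linarith) (by positivity)
  · unfold wterm
    rw [if_neg hz]

end Crest.Agent.R245
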